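import Vale.Agent.P026.M.VIa

/-! P026: the Voronoi inequality. -/

noncomputable section
open Complex MeasureTheory Filter Topology
open scoped Classical ComplexConjugate

namespace Vale.Agent.P026

namespace VIM

lemma dl_sum (hB : Bas) (J : ℤ) (r : O) {h : O} {Ψ : O → ℂ} (hC : Cf h Ψ) {b : O → O}
    (hb : ∀ a, IsCoprime a h → h ∣ lam ^ 18 * a * b a - 1) (m : O) (s : ℂ) :
    DP J r h (dl h Ψ m) s = ∑ a ∈ Rs h, Ψ a * cub a h * Ds J r h (m * b a) s := by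
  have h0 := hB.b2.ne _ hC.1
  simp only [DP, dl, Finset.sum_mul]
  rw [Finset.sum_comm]
  refine Finset.sum_congr rfl fun a _ => ?_
  by_cases c : IsCoprime a h
  swap
  · simp [hC.2.2 a c]
  obtain ⟨b0, h1, h2⟩ := hB.b4.ex h (m * b a) h0
  have h3 : h ∣ lam ^ 18 * a * b0 - m := by
    have e : lam ^ 18 * a * b0 - m =
      m * (lam ^ 18 * a * b a - 1) - lam ^ 18 * a * (m * b a - b0) := by ring
    rw [e]
    exact dvd_sub ((hb a c).mul_left _) (h2.mul_left _)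
  rw [Finset.sum_eq_single_of_mem b0 h1, if_pos h3, Ds_per hB J r h2]
  intro b' h4 h5
  rw [if_neg, zero_mul]
  intro h6
  refine h5 (hB.b4.uniq h _ _ h0 h4 h1 ?_)
  have e : b' - b0 = b a * ((lam ^ 18 * a * b' - m) - (lam ^ 18 * a * b0 - m)) -
    (lam ^ 18 * a * b a - 1) * (b' - b0) := by ring
  rw [e]
  exact dvd_sub ((dvd_sub h6 h3).mul_left _) ((hb a c).mul_right _)

lemma dl_le (hB : Bas) (h : O) (Ψ : O → ℂ) (m b : O) : ‖dl h Ψ m b‖ ≤ ∑ a ∈ Rs h, ‖Ψ a‖ := by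
  refine norm_sum_le_of_le _ fun a _ => ?_
  split_ifs
  · rw [norm_mul]
    exact mul_le_of_le_one_right (norm_nonneg _) (hB.b6.norm_le _ _)
  · simp

lemma sum4 {α β γ δ : Type} (A : Finset α) (B : Finset β) (C : Finset γ) (D : Finset δ)
    (f : α → β → γ → δ → ℂ) : ∑ a ∈ A, ∑ v ∈ B, ∑ e ∈ C, ∑ r ∈ D, f a v e r =
      ∑ v ∈ B, ∑ e ∈ C, ∑ r ∈ D, ∑ a ∈ A, f a v e r := by
  rw [Finset.sum_comm]
  refine Finset.sum_congr rfl fun v _ => ?_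
  rw [Finset.sum_comm]
  exact Finset.sum_congr rfl fun e _ => Finset.sum_comm

lemma n3n (n : ℕ) {s : ℂ} (hs : s.re = -1 / 2) : ‖(3 : ℂ) ^ (n * (s - 1 / 2))‖ = (1 / 3) ^ n := by
  have e : ((n : ℂ) * (s - 1 / 2)).re = -(n : ℝ) := by simp [hs]; ring
  rw [n3, e, Real.rpow_neg (by norm_num), Real.rpow_natCast, one_div, inv_pow]

lemma n3v (v : ℕ) {s : ℂ} (hs : s.re = -1 / 2) : ‖(3 : ℂ) ^ (v * (2 * s - 1))‖ ≤ 1 := by
  have e : ((v : ℂ) * (2 * s - 1)).re = -(2 * v : ℝ) := by simp [hs]; ring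
  rw [n3, e]
  exact Real.rpow_le_one_of_one_le_of_nonpos (by norm_num) (by simp)

def QQ (J : ℤ) (h m : O) (B : ℕ → ℕ → O → O → ℂ) (s : ℂ) (n : ℕ) : ℂ :=
  ∑ v ∈ Finset.range 7, ∑ e ∈ U6, ∑ r' ∈ Rs 27,
    B n v e r' * 3 ^ (n * (s - 1 / 2)) * 3 ^ (v * (2 * s - 1)) *
      Ds J r' h (e * lam ^ (2 * v + n) * m) (1 - s)

lemma summ_QQ (hB : Bas) (hb : BB) (J : ℤ) (h m : O) {B : ℕ → ℕ → O → O → ℂ} {K : ℝ}
    (hK : ∀ n v e r', ‖B n v e r'‖ ≤ K) {s : ℂ} (hs : s.re = -1 / 2) : Summable (QQ J h m B s) := by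
  refine summable_sum fun v _ => summable_sum fun e _ => summable_sum fun r' _ => ?_
  refine .of_norm_bounded ((summable_geometric_of_lt_one (r := 1 / 3) (by norm_num)
    (by norm_num)).mul_left (K * DD (1 - s).re)) fun n => ?_
  have h1 := Ds_le hB hb J r' h (e * lam ^ (2 * v + n) * m) (s := 1 - s) (by simp [hs]; norm_num)
  have h2 := n3v v hs
  have h3 := hK n v e r'
  have h4 := (norm_nonneg _).trans h3
  rw [norm_mul, norm_mul, norm_mul, n3n n hs]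
  calc _ ≤ K * (1 / 3) ^ n * 1 * DD (1 - s).re := by gcongr
    _ = _ := by ring

lemma point (hB : Bas) (hb : BB) (J : ℤ) {h : O} {Ψ : O → ℂ} (hC : Cf h Ψ) {b : O → O}
    (hb' : ∀ a, IsCoprime a h → h ∣ lam ^ 18 * a * b a - 1) {B : ℕ → ℕ → O → O → ℂ} {K : ℝ}
    (hK : ∀ n v e r', ‖B n v e r'‖ ≤ K) (Y t0 : ℝ) (i : ℕ) (cl : ℂ) {s : ℂ} (hs : s.re = -1 / 2)
    {R : O → ℂ} (hR : ∀ a, IsCoprime a h → R a = gg s * (N h : ℂ) ^ (1 - 2 * s) * 3 ^ (-18 * s) *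
      (cub a h * cl) * ∑' n : ℕ, QQ J h (b a * lam ^ i) B s n) :
    EW Y t0 s * 3 ^ (i * (s - 3 / 2)) * ∑ a ∈ Rs h, Ψ a * R a =
      cl * ∑' n : ℕ, ∑ v ∈ Finset.range 7, ∑ e ∈ U6, ∑ r' ∈ Rs 27, B n v e r' *
        (WW h Y (1 / 2 + t0 * I) i n v s * DP J r' h (dl h Ψ (e * lam ^ (2 * v + n + i))) (1 - s)) := by
  set c0 := EW Y t0 s * 3 ^ (i * (s - 3 / 2)) * (gg s * (N h : ℂ) ^ (1 - 2 * s) * 3 ^ (-18 * s))
    with hc0
  have h1 : EW Y t0 s * 3 ^ (i * (s - 3 / 2)) * ∑ a ∈ Rs h, Ψ a * R a =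
      cl * ∑ a ∈ Rs h, ∑' n : ℕ, c0 * (Ψ a * cub a h) * QQ J h (b a * lam ^ i) B s n := by
    rw [Finset.mul_sum, Finset.mul_sum]
    refine Finset.sum_congr rfl fun a _ => ?_
    rw [tsum_mul_left]
    by_cases c : IsCoprime a h
    · rw [hR a c, hc0]; ring
    · simp [hC.2.2 a c]
  rw [h1, ← Summable.tsum_finsetSum fun a _ => (summ_QQ hB hb J h _ hK hs).mul_left _]
  congr 1
  refine tsum_congr fun n => ?_
  simp only [QQ, dl_sum hB J _ hC hb', Finset.mul_sum]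
  rw [sum4]
  refine Finset.sum_congr rfl fun v _ => Finset.sum_congr rfl fun e _ =>
    Finset.sum_congr rfl fun r' _ => Finset.sum_congr rfl fun a _ => ?_
  have e1 : e * lam ^ (2 * v + n) * (b a * lam ^ i) = e * lam ^ (2 * v + n + i) * b a := by ring
  rw [e1, hc0, WW, EW]
  ring

lemma hre (t : ℝ) : (-1 / 2 + (t : ℂ) * I).re = -1 / 2 := by simp

lemma WW_cont (hG : GAM) {h : O} (h0 : 0 < N h) {Y : ℝ} (hY : 0 < Y) (t0 : ℝ) (i n v : ℕ) :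
    Continuous fun t : ℝ => WW h Y (1 / 2 + t0 * I) i n v (-1 / 2 + t * I) := by
  have hg : Continuous fun t : ℝ => -1 / 2 + (t : ℂ) * I := by fun_prop
  have h1 : Continuous fun t : ℝ => gg (-1 / 2 + (t : ℂ) * I) :=
    hG.diff.continuousOn.comp_continuous hg fun t => by
      change (-1 / 2 + (t : ℂ) * I).re < 4 / 3
      rw [hre]; norm_num
  have h3 : ∀ g : ℝ → ℂ, Continuous g → Continuous fun t => (3 : ℂ) ^ g t :=
    fun g hg => hg.const_cpow (Or.inl (by norm_num))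
  exact ((((((((EW_diff hY t0).continuous.comp hg).mul h1).mul (Continuous.const_cpow (by fun_prop)
    (Or.inl (by exact_mod_cast h0.ne')))).mul (h3 _ (by fun_prop))).mul (h3 _ (by fun_prop))).mul
    (h3 _ (by fun_prop))).mul (h3 _ (by fun_prop)))

lemma WW_le (hG : GAM) {h : O} (h0 : 0 < N h) {Y : ℝ} (hY : 0 < Y) (t0 : ℝ) (i : ℕ) :
    ∃ C, 0 ≤ C ∧ ∀ (n v : ℕ) (t : ℝ), ‖WW h Y (1 / 2 + t0 * I) i n v (-1 / 2 + t * I)‖ ≤
      C * (1 / 3) ^ n * Real.exp (-|t|) := by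
  obtain ⟨C1, hC1, h1⟩ := EW_le hY t0
  obtain ⟨C2, h2⟩ := hG.lm
  have hC2 : 0 ≤ C2 := by simpa using (norm_nonneg _).trans (h2 0)
  refine ⟨C1 * C2 * N h ^ (2 : ℝ) * 3 ^ (9 : ℝ) * 3 ^ (-(2 * i : ℝ)), by positivity,
    fun n v t => ?_⟩
  have a1 := h1 _ (hre t).ge (by rw [hre]; norm_num)
  have a2 : (1 + |t|) ^ 4 ≤ Real.exp (4 * |t|) := by
    have := pow_le_pow_left₀ (by positivity) (add_comm |t| 1 ▸ Real.add_one_le_exp |t|) 4
    rwa [← Real.exp_nat_mul] at this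
  have a3 : Real.exp (-(8 * |(-1 / 2 + (t : ℂ) * I).im|)) * Real.exp (4 * |t|) ≤ Real.exp (-|t|) := by
    rw [← Real.exp_add]
    refine Real.exp_le_exp.2 ?_
    have : (-1 / 2 + (t : ℂ) * I).im = t := by simp
    rw [this]
    linarith [abs_nonneg t]
  have e1 : (1 - 2 * (-1 / 2 + (t : ℂ) * I)).re = 2 := by simp; norm_num
  have e2 : (-18 * (-1 / 2 + (t : ℂ) * I)).re = 9 := by simp; norm_num
  have e3 : ((i : ℂ) * (-1 / 2 + (t : ℂ) * I - 3 / 2)).re = -(2 * i : ℝ) := by simp; ring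
  have a4 := n3v v (hre t)
  have a5 := (h2 t).trans (mul_le_mul_of_nonneg_left a2 hC2)
  change ‖EW Y t0 _ * _ * _ * _ * _ * _ * _‖ ≤ _
  rw [norm_mul, norm_mul, norm_mul, norm_mul, norm_mul, norm_mul, n3n n (hre t),
    Complex.norm_cpow_eq_rpow_re_of_pos h0, n3 (-18 * _), n3 (i * _), e1, e2, e3]
  calc _ ≤ C1 * Real.exp (-(8 * |(-1 / 2 + (t : ℂ) * I).im|)) * (C2 * Real.exp (4 * |t|)) *
        N h ^ (2 : ℝ) * 3 ^ (9 : ℝ) * 3 ^ (-(2 * i : ℝ)) * (1 / 3) ^ n * 1 := by gcongr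
    _ = C1 * C2 * N h ^ (2 : ℝ) * 3 ^ (9 : ℝ) * 3 ^ (-(2 * i : ℝ)) * (1 / 3) ^ n *
        (Real.exp (-(8 * |(-1 / 2 + (t : ℂ) * I).im|)) * Real.exp (4 * |t|)) := by ring
    _ ≤ _ := by gcongr

lemma dual (hB : Bas) (hb : BB) (hG : GAM) (J : ℤ) {h : O} {Ψ : O → ℂ} (hC : Cf h Ψ)
    {B : ℕ → ℕ → O → O → ℂ} {K : ℝ} (hK : ∀ n v e r', ‖B n v e r'‖ ≤ K) {Y : ℝ} (hY : 0 < Y)
    (t0 : ℝ) (i : ℕ) :
    ‖∫ t : ℝ, ∑' n : ℕ, ∑ v ∈ Finset.range 7, ∑ e ∈ U6, ∑ r' ∈ Rs 27, B n v e r' *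
        (WW h Y (1 / 2 + t0 * I) i n v (-1 / 2 + t * I) *
          DP J r' h (dl h Ψ (e * lam ^ (2 * v + n + i))) (3 / 2 - t * I))‖ₑ ≤
      ENNReal.ofReal K * ∑' n : ℕ, ∑ v ∈ Finset.range 7, ∑ e ∈ U6, ∑ r' ∈ Rs 27,
        ‖∫ t : ℝ, WW h Y (1 / 2 + t0 * I) i n v (-1 / 2 + t * I) *
          DP J r' h (dl h Ψ (e * lam ^ (2 * v + n + i))) (3 / 2 - t * I)‖ₑ := by
  have h0 : 0 < N h := lt_of_lt_of_le one_pos (hB.b1.N_one_le h (hB.b2.ne _ hC.1))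
  have hK0 : 0 ≤ K := (norm_nonneg _).trans (hK 0 0 0 0)
  obtain ⟨C, hC0, hW⟩ := WW_le hG h0 hY t0 i
  have r2 : ∀ t : ℝ, (3 / 2 - (t : ℂ) * I).re = 3 / 2 := fun t => by simp
  set M := (∑ _b ∈ Rs h, ∑ a ∈ Rs h, ‖Ψ a‖) * DD (3 / 2) with hM
  set G : ℕ → ℕ → O → O → ℝ → ℂ := fun n v e r' t => B n v e r' *
    (WW h Y (1 / 2 + t0 * I) i n v (-1 / 2 + t * I) *
      DP J r' h (dl h Ψ (e * lam ^ (2 * v + n + i))) (3 / 2 - t * I)) with hGd
  have Gc : ∀ n v e r', Continuous (G n v e r') := fun n v e r' =>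
    continuous_const.mul ((WW_cont hG h0 hY t0 i n v).mul
      (DP_cont hB hb J r' h _ (by norm_num) (by fun_prop) r2))
  have Gb : ∀ n v e r' t, ‖G n v e r' t‖ ≤ K * C * M * (1 / 3) ^ n * Real.exp (-|t|) := by
    intro n v e r' t
    have a1 := DP_le hB hb J r' h (dl h Ψ (e * lam ^ (2 * v + n + i))) (s := 3 / 2 - t * I)
      (by rw [r2]; norm_num)
    rw [r2] at a1
    have a2 : ‖DP J r' h (dl h Ψ (e * lam ^ (2 * v + n + i))) (3 / 2 - t * I)‖ ≤ M :=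
      a1.trans (mul_le_mul_of_nonneg_right (Finset.sum_le_sum fun b _ => dl_le hB h Ψ _ b) (DD0 _))
    have a3 := hW n v t
    have a4 := hK n v e r'
    simp only [hGd, norm_mul]
    calc _ ≤ K * (C * (1 / 3) ^ n * Real.exp (-|t|) * M) := by gcongr
      _ = _ := by ring
  have Gi : ∀ n v e r', Integrable (G n v e r') := fun n v e r' => integ (Gc n v e r') (Gb n v e r')
  have := swap (F := fun n t => ∑ v ∈ Finset.range 7, ∑ e ∈ U6, ∑ r' ∈ Rs 27, G n v e r' t)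
    (fun n => continuous_finsetSum _ fun v _ => continuous_finsetSum _ fun e _ =>
      continuous_finsetSum _ fun r' _ => Gc n v e r')
    (u := fun n => ∑ _v ∈ Finset.range 7, ∑ _e ∈ U6, ∑ _r' ∈ Rs 27, K * C * M * (1 / 3) ^ n)
    (summable_sum fun v _ => summable_sum fun e _ => summable_sum fun r' _ =>
      (summable_geometric_of_lt_one (by norm_num) (by norm_num)).mul_left _)
    (fun n t => by
      simp only [Finset.sum_mul]
      exact norm_sum_le_of_le _ fun v _ => norm_sum_le_of_le _ fun e _ =>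
        norm_sum_le_of_le _ fun r' _ => Gb n v e r' t)
  rw [← this.tsum_eq, ← ENNReal.tsum_mul_left]
  refine enorm_tsum_le_tsum_enorm.trans (ENNReal.tsum_le_tsum fun n => ?_)
  rw [integral_finsetSum _ fun v _ => integrable_finsetSum _ fun e _ =>
    integrable_finsetSum _ fun r' _ => Gi n v e r', Finset.mul_sum]
  refine (enorm_sum_le _ _).trans (Finset.sum_le_sum fun v _ => ?_)
  rw [integral_finsetSum _ fun e _ => integrable_finsetSum _ fun r' _ => Gi n v e r', Finset.mul_sum]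
  refine (enorm_sum_le _ _).trans (Finset.sum_le_sum fun e _ => ?_)
  rw [integral_finsetSum _ fun r' _ => Gi n v e r', Finset.mul_sum]
  refine (enorm_sum_le _ _).trans (Finset.sum_le_sum fun r' _ => ?_)
  simp only [hGd]
  rw [integral_const_mul, enorm_mul, ← ofReal_norm (B n v e r')]
  gcongr
  exact hK n v e r'

lemma shift (hS : SHStmt) {Y : ℝ} (hY : 0 < Y) (t0 : ℝ) (i : ℕ) (h : O) (Ψ : O → ℂ)
    {R : O → ℂ → ℂ} (h1 : ∀ a, Differentiable ℂ (R a)) (h2 : ∀ a, Gr (R a)) :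
    ∫ t : ℝ, EW Y t0 (((-1 / 2 : ℝ) : ℂ) + t * I) * 3 ^ (i * (((-1 / 2 : ℝ) : ℂ) + t * I - 3 / 2)) *
      ∑ a ∈ Rs h, Ψ a * R a (((-1 / 2 : ℝ) : ℂ) + t * I) =
    ∫ t : ℝ, EW Y t0 (((5 / 4 : ℝ) : ℂ) + t * I) * 3 ^ (i * (((5 / 4 : ℝ) : ℂ) + t * I - 3 / 2)) *
      ∑ a ∈ Rs h, Ψ a * R a (((5 / 4 : ℝ) : ℂ) + t * I) := by
  obtain ⟨C1, hC1, hE⟩ := EW_le hY t0
  choose C2 hC2 using fun a => h2 a (-1 / 2) (5 / 4)
  refine hS (fun s => EW Y t0 s * 3 ^ (i * (s - 3 / 2)) * ∑ a ∈ Rs h, Ψ a * R a s) (-1 / 2) (5 / 4)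
    (C1 * ∑ a ∈ Rs h, ‖Ψ a‖ * C2 a) 1 (by norm_num) one_pos (Differentiable.differentiableOn ?_)
    fun s a1 a2 => ?_
  · exact ((EW_diff hY t0).mul (Differentiable.const_cpow (by fun_prop) (Or.inl (by norm_num)))).mul
      (Differentiable.fun_sum fun a _ => (h1 a).const_mul _)
  · have b1 := hE s a1 a2
    have b2 : ‖(3 : ℂ) ^ (i * (s - 3 / 2))‖ ≤ 1 := by
      have e : ((i : ℂ) * (s - 3 / 2)).re = i * (s.re - 3 / 2) := by simp
      rw [n3, e]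
      exact Real.rpow_le_one_of_one_le_of_nonpos (by norm_num)
        (mul_nonpos_of_nonneg_of_nonpos (Nat.cast_nonneg _) (by linarith))
    have b3 : ‖∑ a ∈ Rs h, Ψ a * R a s‖ ≤ (∑ a ∈ Rs h, ‖Ψ a‖ * C2 a) * Real.exp (7 * |s.im|) := by
      rw [Finset.sum_mul]
      refine norm_sum_le_of_le _ fun a _ => ?_
      rw [norm_mul, mul_assoc]
      exact mul_le_mul_of_nonneg_left (hC2 a s a1 a2) (norm_nonneg _)
    have e : Real.exp (-(1 * |s.im|)) = Real.exp (-(8 * |s.im|)) * Real.exp (7 * |s.im|) := by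
      rw [← Real.exp_add]; congr 1; ring
    rw [norm_mul, norm_mul, e]
    calc _ ≤ C1 * Real.exp (-(8 * |s.im|)) * 1 *
          ((∑ a ∈ Rs h, ‖Ψ a‖ * C2 a) * Real.exp (7 * |s.im|)) := by gcongr
      _ = _ := by ring

def AI (J : ℤ) (r h l : O) (Ψ : O → ℂ) (Y t0 : ℝ) (i : ℕ) (t : ℝ) : ℂ :=
  EW Y t0 (((5 / 4 : ℝ) : ℂ) + t * I) * 3 ^ (i * (((5 / 4 : ℝ) : ℂ) + t * I - 3 / 2)) *
    ∑ a ∈ Rs h, Ψ a * Ds J r h (a * l ^ i) (((5 / 4 : ℝ) : ℂ) + t * I)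

lemma AI_cont (hB : Bas) (hb : BB) (J : ℤ) (r h l : O) (Ψ : O → ℂ) {Y : ℝ} (hY : 0 < Y) (t0 : ℝ)
    (i : ℕ) : Continuous (AI J r h l Ψ Y t0 i) := by
  have hg : Continuous fun t : ℝ => ((5 / 4 : ℝ) : ℂ) + t * I := by fun_prop
  exact (((EW_diff hY t0).continuous.comp hg).mul (Continuous.const_cpow (by fun_prop)
    (Or.inl (by norm_num)))).mul (continuous_finsetSum _ fun a _ => continuous_const.mul
      (Ds_cont hB hb J r h _ (σ := 5 / 4) (by norm_num) hg fun t => by simp))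

lemma AI_le (hB : Bas) (hb : BB) (J : ℤ) (r h l : O) (Ψ : O → ℂ) {Y : ℝ} (hY : 0 < Y) (t0 : ℝ) :
    ∃ C, ∀ i t, ‖AI J r h l Ψ Y t0 i t‖ ≤ C * (3 ^ (-1 / 4 : ℝ)) ^ i * Real.exp (-|t|) := by
  obtain ⟨C1, hC1, hE⟩ := EW_le hY t0
  refine ⟨C1 * ((∑ a ∈ Rs h, ‖Ψ a‖) * DD (5 / 4)), fun i t => ?_⟩
  have r1 : (((5 / 4 : ℝ) : ℂ) + t * I).re = 5 / 4 := by simp
  have b1 := hE _ (by rw [r1]; norm_num) r1.le
  have b2 : Real.exp (-(8 * |(((5 / 4 : ℝ) : ℂ) + t * I).im|)) ≤ Real.exp (-|t|) := by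
    refine Real.exp_le_exp.2 ?_
    have : (((5 / 4 : ℝ) : ℂ) + t * I).im = t := by simp
    rw [this]
    linarith [abs_nonneg t]
  have b3 : ‖∑ a ∈ Rs h, Ψ a * Ds J r h (a * l ^ i) (((5 / 4 : ℝ) : ℂ) + t * I)‖ ≤
      (∑ a ∈ Rs h, ‖Ψ a‖) * DD (5 / 4) := by
    rw [Finset.sum_mul]
    refine norm_sum_le_of_le _ fun a _ => ?_
    have := Ds_le hB hb J r h (a * l ^ i) (s := ((5 / 4 : ℝ) : ℂ) + t * I) (by rw [r1]; norm_num)
    rw [r1] at this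
    rw [norm_mul]
    exact mul_le_mul_of_nonneg_left this (norm_nonneg _)
  have e : ((i : ℂ) * (((5 / 4 : ℝ) : ℂ) + t * I - 3 / 2)).re = (-1 / 4 : ℝ) * i := by simp; ring
  have b4 := b1.trans (mul_le_mul_of_nonneg_left b2 hC1)
  rw [AI, norm_mul, norm_mul, n3, e, Real.rpow_mul_natCast (by norm_num)]
  calc _ ≤ C1 * Real.exp (-|t|) * (3 ^ (-1 / 4 : ℝ)) ^ i * ((∑ a ∈ Rs h, ‖Ψ a‖) * DD (5 / 4)) := by
        gcongr
    _ = _ := by ring

lemma AI_lim (hB : Bas) (hb : BB) (J : ℤ) (r h l : O) (Ψ : O → ℂ) {Y : ℝ} (hY : 0 < Y) (t0 : ℝ) :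
    Tendsto (fun i => ∫ t, AI J r h l Ψ Y t0 i t) atTop (𝓝 0) := by
  obtain ⟨C, hC⟩ := AI_le hB hb J r h l Ψ hY t0
  refine squeeze_zero_norm (a := fun i => C * (3 ^ (-1 / 4 : ℝ)) ^ i * ∫ t : ℝ, Real.exp (-|t|))
    (fun i => ?_) ?_
  · rw [← integral_const_mul]
    exact norm_integral_le_of_norm_le (int_exp.const_mul _) (.of_forall (hC i))
  · have := ((tendsto_pow_atTop_nhds_zero_of_lt_one (r := 3 ^ (-1 / 4 : ℝ)) (by positivity)
      (Real.rpow_lt_one_of_one_lt_of_neg (by norm_num) (by norm_num))).const_mul C).mul_const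
      (∫ t : ℝ, Real.exp (-|t|))
    simpa using this

end VIM

open VIM

theorem viS (hB : Bas) (hb : BB) (hF : FEStmt) (hS : SHStmt) (hL : LN) (hG : GAM) : VIStmt := by
  obtain ⟨K, hF⟩ := hF
  refine ⟨(2 * Real.sqrt Real.pi)⁻¹ * max K 0, by positivity, fun J r h Ψ Y t0 hJ hC hY => ?_⟩
  by_cases hr : Prim r
  swap
  · have : TT J r (fs h Ψ) Y (1 / 2 + t0 * I) = 0 := by
      unfold TT
      refine (tsum_congr fun k => ?_).trans tsum_zero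
      split_ifs with c
      · rw [bb0 hB hb (k := k)]
        · simp
        · intro hk
          refine hr ?_
          have e : r - 1 = (k - 1) - (k - r) := by ring
          unfold Prim at hk ⊢
          rw [e]
          exact dvd_sub hk (dvd_trans ⟨9, by norm_num⟩ c)
      · rfl
    rw [this, enorm_zero]
    exact zero_le
  obtain ⟨θ, B, hθ, hK, hR⟩ := hF J r h hJ hr hC.1
  have hK' : ∀ n v e r', ‖B n v e r'‖ ≤ max K 0 := fun n v e r' => (hK n v e r').trans (le_max_left _ _)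
  have c3 := hB.b2.cop h hC.1
  have cl : IsCoprime lam h :=
    (hB.b1.prime_lam.irreducible.coprime_iff_not_dvd).2 ((hB.b2.cop_iff h).1 c3)
  obtain ⟨l, l', hl⟩ := cl
  have hl1 : h ∣ lam * l - 1 := ⟨-l', by linear_combination hl⟩
  have hli : ∀ i : ℕ, h ∣ (lam * l) ^ i - 1 := fun i => hl1.trans (by simpa using sub_dvd_pow_sub_pow (lam * l) 1 i)
  have hbe : ∀ a : O, ∃ b, IsCoprime a h → h ∣ lam ^ 18 * a * b - 1 := fun a => by
    by_cases c : IsCoprime a h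
    · obtain ⟨x, y, hxy⟩ := (IsCoprime.pow_left (m := 18) ⟨l, l', hl⟩).mul_left c
      exact ⟨x, fun _ => ⟨-y, by linear_combination hxy⟩⟩
    · exact ⟨0, fun d => absurd d c⟩
  choose b hb' using hbe
  have hRe : ∀ (i : ℕ) (a : O), ∃ R : ℂ → ℂ, Differentiable ℂ R ∧ Gr R ∧ (IsCoprime a h →
      (∀ s : ℂ, 1 < s.re → R s = Ds J r h (a * l ^ i) s -
        θ * 3 ^ (s - 3 / 2) * Ds J r h (a * l ^ (i + 1)) s) ∧
      ∀ s : ℂ, s.re < 0 → R s = gg s * (N h : ℂ) ^ (1 - 2 * s) * 3 ^ (-18 * s) *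
        (cub a h * cub l h ^ i) * ∑' n : ℕ, QQ (-J) h (b a * lam ^ i) B s n) := fun i a => by
    by_cases c : IsCoprime a h
    · obtain ⟨R, h1, h2, h3, h4⟩ := hR (a * l ^ i) (a * l ^ (i + 1)) (b a * lam ^ i)
        (by
          have e : lam * (a * l ^ (i + 1)) - a * l ^ i = a * l ^ i * (lam * l - 1) := by ring
          rw [e]; exact hl1.mul_left _)
        (by
          have e : lam ^ 18 * (a * l ^ i) * (b a * lam ^ i) - 1 =
            lam ^ 18 * a * b a * ((lam * l) ^ i - 1) + (lam ^ 18 * a * b a - 1) := by ring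
          rw [e]; exact dvd_add ((hli i).mul_left _) (hb' a c))
      refine ⟨R, h1, h2, fun _ => ⟨h3, fun s hs => ?_⟩⟩
      rw [h4 s hs, hB.b6.mul_l _ _ _ c3, hB.b6.pow_l _ _ _ c3]
      rfl
    · exact ⟨0, differentiable_const _, fun _ _ => ⟨0, fun _ _ _ => by simp⟩, fun d => absurd d c⟩
  choose R R1 R2 R3 using hRe
  obtain ⟨C, hA⟩ := AI_le hB hb J r h l Ψ hY t0
  have Ai : ∀ i, Integrable (AI J r h l Ψ Y t0 i) := fun i =>
    integ (AI_cont hB hb J r h l Ψ hY t0 i) (hA i)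
  have key := tele (fun i => ∫ t, AI J r h l Ψ Y t0 i t) (fun i => ∫ t : ℝ,
      EW Y t0 (((5 / 4 : ℝ) : ℂ) + t * I) * 3 ^ (i * (((5 / 4 : ℝ) : ℂ) + t * I - 3 / 2)) *
      ∑ a ∈ Rs h, Ψ a * R i a (((5 / 4 : ℝ) : ℂ) + t * I)) θ hθ (fun i => by
      rw [← sub_eq_iff_eq_add, ← integral_const_mul, ← integral_sub (Ai i) ((Ai _).const_mul θ)]
      refine integral_congr_ae (.of_forall fun t => ?_)
      simp only [AI]
      generalize hs : ((5 / 4 : ℝ) : ℂ) + t * I = s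
      have r1 : 1 < s.re := by rw [← hs]; simp; norm_num
      have e : (3 : ℂ) ^ (((i + 1 : ℕ) : ℂ) * (s - 3 / 2)) =
          3 ^ (i * (s - 3 / 2)) * 3 ^ (s - 3 / 2) := by
        rw [← Complex.cpow_add _ _ (by norm_num)]; congr 1; push_cast; ring
      rw [e]
      simp only [Finset.mul_sum, ← Finset.sum_sub_distrib]
      refine Finset.sum_congr rfl fun a _ => ?_
      by_cases c : IsCoprime a h
      · rw [(R3 i a c).1 s r1]; ring
      · simp [hC.2.2 a c]) (AI_lim hB hb J r h l Ψ hY t0)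
  have e0 : ∫ t, AI J r h l Ψ Y t0 0 t =
      ∫ t : ℝ, EW Y t0 ((5 / 4 : ℝ) + t * I) * DP J r h Ψ ((5 / 4 : ℝ) + t * I) := by
    simp [AI, DP]
  rw [mellin hB hb hL J r h Ψ hY t0, enorm_mul, ← e0, ← ofReal_norm, Complex.norm_real,
    Real.norm_of_nonneg (by positivity), ENNReal.ofReal_mul (by positivity), mul_assoc,
    ← ENNReal.tsum_mul_left]
  gcongr
  refine key.trans (ENNReal.tsum_le_tsum fun i => ?_)
  rw [← shift hS hY t0 i h Ψ (R1 i) (R2 i)]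
  have e1 : ∀ t : ℝ, ((-1 / 2 : ℝ) : ℂ) + t * I = -1 / 2 + t * I := fun t => by push_cast; ring
  have e2 : ∀ t : ℝ, 1 - (-1 / 2 + (t : ℂ) * I) = 3 / 2 - t * I := fun t => by ring
  have e3 := fun t : ℝ => point hB hb (-J) hC hb' hK' Y t0 i (cub l h ^ i) (hre t)
    (R := fun a => R i a (-1 / 2 + t * I)) fun a c => (R3 i a c).2 _ (by rw [hre]; norm_num)
  simp only [e1, e3, e2, integral_const_mul]
  rw [enorm_mul]
  refine le_trans (mul_le_of_le_one_left' ?_) (dual hB hb hG (-J) hC hK' hY t0 i)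
  rw [← ofReal_norm, norm_pow]
  exact ENNReal.ofReal_le_one.2 (pow_le_one₀ (norm_nonneg _) (hB.b6.norm_le _ _))

end Vale.Agent.P026
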