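import Vale.Agent.P026.Stm2

/-! P026: bounds for the Gamma function and the gamma factor. -/

noncomputable section
open Complex MeasureTheory Filter Topology
open scoped Classical ComplexConjugate

namespace Vale.Agent.P026
namespace GAMM

lemma norm_le (s : ℂ) (hs : 0 < s.re) : ‖Gamma s‖ ≤ Real.Gamma s.re := by
  rw [Complex.Gamma_eq_integral hs, Real.Gamma_eq_integral hs, GammaIntegral]
  refine (norm_integral_le_integral_norm _).trans_eq ?_
  refine setIntegral_congr_fun measurableSet_Ioi fun x hx => ?_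
  rw [norm_mul, norm_real, Real.norm_eq_abs, abs_of_pos (Real.exp_pos _),
    norm_cpow_eq_rpow_re_of_pos hx]
  simp

lemma strip_bd (a b : ℝ) (ha : 0 < a) : ∃ C : ℝ, 0 ≤ C ∧ ∀ s : ℂ, a ≤ s.re → s.re ≤ b → ‖Gamma s‖ ≤ C := by
  have hc : ContinuousOn Real.Gamma (Set.Icc a b) := fun x hx =>
    (Real.differentiableAt_Gamma fun m => by
      have : (0 : ℝ) ≤ m := m.cast_nonneg
      linarith [hx.1]).continuousAt.continuousWithinAt
  obtain ⟨C, hC⟩ := isCompact_Icc.exists_bound_of_continuousOn hc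
  refine ⟨max C 0, le_max_right _ _, fun s h1 h2 => ?_⟩
  exact (norm_le s (by linarith)).trans ((le_abs_self _).trans ((hC s.re ⟨h1, h2⟩).trans (le_max_left _ _)))

lemma norm_sin (z : ℂ) : ‖Complex.sin z‖ ≤ Real.exp |z.im| := by
  unfold Complex.sin
  rw [norm_div, norm_mul, norm_I, mul_one]
  have h1 : ‖cexp (-z * I)‖ ≤ Real.exp |z.im| := by
    rw [Complex.norm_exp]; apply Real.exp_le_exp.mpr; simpa using le_abs_self _
  have h2 : ‖cexp (z * I)‖ ≤ Real.exp |z.im| := by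
    rw [Complex.norm_exp]; apply Real.exp_le_exp.mpr; simpa using neg_le_abs _
  have h3 := norm_sub_le (cexp (-z * I)) (cexp (z * I))
  have h4 : ‖(2 : ℂ)‖ = 2 := by simp
  rw [h4]; linarith

lemma inv_eq (s : ℂ) (hs : s.re < 1) :
    (Gamma s)⁻¹ = Gamma (1 - s) * Complex.sin (Real.pi * s) / Real.pi := by
  have h1 : Gamma (1 - s) ≠ 0 := Gamma_ne_zero_of_re_pos (by simp; linarith)
  have h2 := Complex.Gamma_mul_Gamma_one_sub s
  have hp : (Real.pi : ℂ) ≠ 0 := by exact_mod_cast Real.pi_ne_zero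
  have h3 : Gamma s = Real.pi / Complex.sin (Real.pi * s) / Gamma (1 - s) := by
    rw [← h2]; field_simp
  rw [h3, inv_div, div_div_eq_mul_div]

lemma inv_left (a : ℝ) : ∃ C : ℝ, 0 ≤ C ∧ ∀ s : ℂ, a ≤ s.re → s.re ≤ 1 / 2 →
    ‖(Gamma s)⁻¹‖ ≤ C * Real.exp (7 / 2 * |s.im|) := by
  obtain ⟨C, h0, hC⟩ := strip_bd (1 / 2) (1 - a) (by norm_num)
  refine ⟨C, h0, fun s h1 h2 => ?_⟩
  rw [inv_eq s (by linarith), norm_div, norm_mul, norm_real, Real.norm_eq_abs, abs_of_pos Real.pi_pos]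
  have h3 := hC (1 - s) (by simp; linarith) (by simp; linarith)
  have h4 : ‖Complex.sin (Real.pi * s)‖ ≤ Real.exp (7 / 2 * |s.im|) := by
    refine (norm_sin _).trans (Real.exp_le_exp.mpr ?_)
    rw [im_ofReal_mul, abs_mul, abs_of_pos Real.pi_pos]
    exact mul_le_mul_of_nonneg_right (by linarith [Real.pi_lt_d2]) (abs_nonneg _)
  refine (div_le_self (by positivity) (by linarith [Real.pi_gt_three])).trans ?_
  exact mul_le_mul h3 h4 (norm_nonneg _) h0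

lemma inv_bd (a b : ℝ) : ∃ C : ℝ, 0 ≤ C ∧ ∀ s : ℂ, a ≤ s.re → s.re ≤ b →
    ‖(Gamma s)⁻¹‖ ≤ C * Real.exp (7 / 2 * |s.im|) := by
  obtain ⟨C, h0, hC⟩ := inv_left (min a (-1 / 2))
  have key : ∀ n : ℕ, ∀ s : ℂ, min a (-1 / 2) ≤ s.re → s.re ≤ 1 / 2 + n → 1 ≤ |s.im| →
      ‖(Gamma s)⁻¹‖ ≤ C * Real.exp (7 / 2 * |s.im|) := by
    intro n
    induction n with
    | zero => intro s h1 h2 _; exact hC s h1 (by simpa using h2)
    | succ n ih =>
      intro s h1 h2 h3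
      by_cases h4 : s.re ≤ 1 / 2 + n
      · exact ih s h1 h4 h3
      · have hn : (0 : ℝ) ≤ n := n.cast_nonneg
        have h5 := ih (s - 1) ((min_le_right _ _).trans (by simp; linarith))
          (by push_cast at h2; simp; linarith) (by simpa using h3)
        have h6 := one_div_Gamma_eq_self_mul_one_div_Gamma_add_one (s - 1)
        rw [sub_add_cancel] at h6
        have h7 : 1 ≤ ‖s - 1‖ := h3.trans (by simpa using abs_im_le_norm (s - 1))
        rw [h6, norm_mul] at h5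
        simp only [sub_im, one_im, sub_zero] at h5
        exact (le_mul_of_one_le_left (norm_nonneg _) h7).trans h5
  obtain ⟨D, hD⟩ := ((isCompact_Icc (a := a) (b := b)).reProdIm
    (isCompact_Icc (a := (-1 : ℝ)) (b := 1))).exists_bound_of_continuousOn
    differentiable_one_div_Gamma.continuous.continuousOn
  obtain ⟨n, hn⟩ := exists_nat_ge b
  refine ⟨max C D, le_max_of_le_left h0, fun s h1 h2 => ?_⟩
  by_cases h3 : 1 ≤ |s.im|
  · exact (key n s ((min_le_left _ _).trans h1) (by linarith) h3).trans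
      (mul_le_mul_of_nonneg_right (le_max_left _ _) (Real.exp_pos _).le)
  · have h4 := hD s ⟨⟨h1, h2⟩, abs_le.mp (not_le.mp h3).le⟩
    refine (h4.trans (le_max_right C D)).trans (le_mul_of_one_le_right (le_max_of_le_left h0) ?_)
    exact Real.one_le_exp (by positivity)

lemma sg_ge : 1 ≤ sg := by
  unfold sg; nlinarith [Real.pi_gt_three]

lemma norm_sg (w : ℂ) : ‖(sg : ℂ) ^ w‖ = sg ^ w.re :=
  norm_cpow_eq_rpow_re_of_pos (by linarith [sg_ge]) w

lemma norm_sg_le (w : ℂ) (hw : w.re ≤ 0) : ‖(sg : ℂ) ^ w‖ ≤ 1 := by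
  rw [norm_sg]; exact Real.rpow_le_one_of_one_le_of_nonpos sg_ge hw

lemma ratio (z w : ℂ) (h : w = conj z) : ‖Gamma w * (Gamma z)⁻¹‖ ≤ 1 := by
  rw [h, Complex.Gamma_conj, norm_mul, norm_conj, norm_inv]
  exact mul_inv_le_one

lemma nb (x t : ℝ) (c : ℝ) (hx : |x| ≤ c) (hc : 1 ≤ c) : ‖(x : ℂ) - t * I‖ ≤ c * (1 + |t|) := by
  refine (norm_sub_le _ _).trans ?_
  rw [norm_mul, norm_I, norm_real, norm_real, Real.norm_eq_abs, Real.norm_eq_abs]
  nlinarith [abs_nonneg t]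

lemma ne0 (x t : ℝ) (hx : x ≠ 0) : (x : ℂ) - t * I ≠ 0 := fun h => hx (by simpa using congrArg re h)

lemma step (x t : ℝ) (hx : x ≠ 0) :
    Gamma (((x + 1 : ℝ) : ℂ) - t * I) = ((x : ℂ) - t * I) * Gamma (x - t * I) := by
  rw [← Complex.Gamma_add_one _ (ne0 x t hx)]; congr 1; push_cast; ring

lemma rat (x t : ℝ) : ‖Gamma (x - t * I) * (Gamma (x + t * I))⁻¹‖ ≤ 1 :=
  ratio _ _ (by simp [sub_eq_add_neg])

lemma half (t : ℝ) : ‖gg (1 / 2 + t * I)‖ ≤ 1 := by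
  have e : gg (1 / 2 + t * I) = (sg : ℂ) ^ (2 * (1 / 2 + t * I) - 1) *
      ((Gamma ((5 / 6 : ℝ) - t * I) * (Gamma ((5 / 6 : ℝ) + t * I))⁻¹) *
        (Gamma ((7 / 6 : ℝ) - t * I) * (Gamma ((7 / 6 : ℝ) + t * I))⁻¹)) := by
    unfold gg
    rw [show (4 / 3 : ℂ) - (1 / 2 + t * I) = (5 / 6 : ℝ) - t * I by push_cast; ring,
      show (5 / 3 : ℂ) - (1 / 2 + t * I) = (7 / 6 : ℝ) - t * I by push_cast; ring,
      show (1 / 2 + t * I) + (1 / 3 : ℂ) = (5 / 6 : ℝ) + t * I by push_cast; ring,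
      show (1 / 2 + t * I) + (2 / 3 : ℂ) = (7 / 6 : ℝ) + t * I by push_cast; ring]
    ring
  rw [e, norm_mul, norm_mul]
  exact mul_le_one₀ (norm_sg_le _ (by simp)) (by positivity)
    (mul_le_one₀ (rat _ _) (norm_nonneg _) (rat _ _))

lemma l0 (t : ℝ) : ‖gg (t * I)‖ ≤ 1 * (1 + |t|) ^ 2 := by
  have e : gg (t * I) = (sg : ℂ) ^ (2 * (t * I) - 1) *
      ((Gamma ((1 / 3 : ℝ) - t * I) * (Gamma ((1 / 3 : ℝ) + t * I))⁻¹) *
        (Gamma ((2 / 3 : ℝ) - t * I) * (Gamma ((2 / 3 : ℝ) + t * I))⁻¹)) *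
        ((((1 / 3 : ℝ) : ℂ) - t * I) * (((2 / 3 : ℝ) : ℂ) - t * I)) := by
    unfold gg
    rw [show (4 / 3 : ℂ) - (t * I) = ((1 / 3 + 1 : ℝ) : ℂ) - t * I by push_cast; ring,
      show (5 / 3 : ℂ) - (t * I) = ((2 / 3 + 1 : ℝ) : ℂ) - t * I by push_cast; ring,
      show (t * I) + (1 / 3 : ℂ) = (1 / 3 : ℝ) + t * I by push_cast; ring,
      show (t * I) + (2 / 3 : ℂ) = (2 / 3 : ℝ) + t * I by push_cast; ring,
      step _ _ (by norm_num), step _ _ (by norm_num)]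
    ring
  rw [e, norm_mul, norm_mul, norm_mul, norm_mul (((1 / 3 : ℝ) : ℂ) - t * I)]
  refine mul_le_mul (mul_le_one₀ (norm_sg_le _ (by simp)) (by positivity)
    (mul_le_one₀ (rat _ _) (norm_nonneg _) (rat _ _))) ?_ (by positivity) zero_le_one
  have h1 := nb (1 / 3) t 1 (by rw [abs_of_pos] <;> norm_num) le_rfl
  have h2 := nb (2 / 3) t 1 (by rw [abs_of_pos] <;> norm_num) le_rfl
  calc _ ≤ (1 * (1 + |t|)) * (1 * (1 + |t|)) := mul_le_mul h1 h2 (norm_nonneg _) (by positivity)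
    _ = _ := by ring

lemma lm (t : ℝ) : ‖gg (-1 / 2 + t * I)‖ ≤ 2 * (1 + |t|) ^ 4 := by
  have e : gg (-1 / 2 + t * I) = (sg : ℂ) ^ (2 * (-1 / 2 + t * I) - 1) *
      ((Gamma ((-1 / 6 : ℝ) - t * I) * (Gamma ((-1 / 6 : ℝ) + t * I))⁻¹) *
        (Gamma ((1 / 6 : ℝ) - t * I) * (Gamma ((1 / 6 : ℝ) + t * I))⁻¹)) *
        (((((-1 / 6 + 1 : ℝ) : ℂ) - t * I) * (((-1 / 6 : ℝ) : ℂ) - t * I)) *
          ((((1 / 6 + 1 : ℝ) : ℂ) - t * I) * (((1 / 6 : ℝ) : ℂ) - t * I))) := by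
    unfold gg
    rw [show (4 / 3 : ℂ) - (-1 / 2 + t * I) = ((-1 / 6 + 1 + 1 : ℝ) : ℂ) - t * I by push_cast; ring,
      show (5 / 3 : ℂ) - (-1 / 2 + t * I) = ((1 / 6 + 1 + 1 : ℝ) : ℂ) - t * I by push_cast; ring,
      show (-1 / 2 + t * I) + (1 / 3 : ℂ) = (-1 / 6 : ℝ) + t * I by push_cast; ring,
      show (-1 / 2 + t * I) + (2 / 3 : ℂ) = (1 / 6 : ℝ) + t * I by push_cast; ring,
      step (-1 / 6 + 1) _ (by norm_num), step (-1 / 6) _ (by norm_num),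
      step (1 / 6 + 1) _ (by norm_num), step (1 / 6) _ (by norm_num)]
    ring
  rw [e, norm_mul, norm_mul, norm_mul, norm_mul ((((-1 / 6 + 1 : ℝ) : ℂ) - t * I) * _),
    norm_mul (((-1 / 6 + 1 : ℝ) : ℂ) - t * I), norm_mul (((1 / 6 + 1 : ℝ) : ℂ) - t * I)]
  rw [← one_mul (2 * (1 + |t|) ^ 4)]
  refine mul_le_mul (mul_le_one₀ (norm_sg_le _ (by simp; norm_num)) (by positivity)
    (mul_le_one₀ (rat _ _) (norm_nonneg _) (rat _ _))) ?_ (by positivity) zero_le_one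
  have h1 := nb (-1 / 6 + 1) t 1 (by rw [abs_of_pos] <;> norm_num) le_rfl
  have h2 := nb (-1 / 6) t 1 (by rw [abs_of_neg] <;> norm_num) le_rfl
  have h3 := nb (1 / 6 + 1) t 2 (by rw [abs_of_pos] <;> norm_num) (by norm_num)
  have h4 := nb (1 / 6) t 1 (by rw [abs_of_pos] <;> norm_num) le_rfl
  calc _ ≤ ((1 * (1 + |t|)) * (1 * (1 + |t|))) * ((2 * (1 + |t|)) * (1 * (1 + |t|))) :=
        mul_le_mul (mul_le_mul h1 h2 (norm_nonneg _) (by positivity))
          (mul_le_mul h3 h4 (norm_nonneg _) (by positivity)) (by positivity) (by positivity)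
    _ = _ := by ring

lemma dec (k : ℕ) : ∀ σ : ℝ, 0 < σ → ∃ C : ℝ, ∀ t : ℝ, ‖Gamma (σ + t * I)‖ * (1 + |t|) ^ k ≤ C := by
  induction k with
  | zero =>
    intro σ hσ
    exact ⟨Real.Gamma σ, fun t => by simpa using norm_le (σ + t * I) (by simpa using hσ)⟩
  | succ k ih =>
    intro σ hσ
    obtain ⟨C, hC⟩ := ih (σ + 1) (by linarith)
    refine ⟨(1 / σ + 1) * C, fun t => ?_⟩
    have h0 : (σ : ℂ) + t * I ≠ 0 := fun h => hσ.ne' (by simpa using congrArg re h)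
    have h1 := hC t
    rw [show ((σ + 1 : ℝ) : ℂ) + t * I = (σ + t * I) + 1 by push_cast; ring,
      Complex.Gamma_add_one _ h0, norm_mul] at h1
    have h2 : σ ≤ ‖(σ : ℂ) + t * I‖ := by simpa using re_le_norm ((σ : ℂ) + t * I)
    have h3 : |t| ≤ ‖(σ : ℂ) + t * I‖ := by simpa using abs_im_le_norm ((σ : ℂ) + t * I)
    have h4 : 1 + |t| ≤ (1 / σ + 1) * ‖(σ : ℂ) + t * I‖ := by
      have : 1 ≤ 1 / σ * ‖(σ : ℂ) + t * I‖ := by
        rw [one_div, ← div_eq_inv_mul, one_le_div hσ]; exact h2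
      linarith
    calc _ = (1 + |t|) * (‖Gamma (σ + t * I)‖ * (1 + |t|) ^ k) := by ring
      _ ≤ ((1 / σ + 1) * ‖(σ : ℂ) + t * I‖) * (‖Gamma (σ + t * I)‖ * (1 + |t|) ^ k) :=
          mul_le_mul_of_nonneg_right h4 (by positivity)
      _ = (1 / σ + 1) * (‖(σ : ℂ) + t * I‖ * ‖Gamma (σ + t * I)‖ * (1 + |t|) ^ k) := by ring
      _ ≤ _ := mul_le_mul_of_nonneg_left h1 (by positivity)

lemma dG (s : ℂ) (hs : 0 < s.re) : DifferentiableAt ℂ Gamma s :=
  Complex.differentiableAt_Gamma s fun m h => by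
    have : (0 : ℝ) ≤ m := m.cast_nonneg
    rw [h] at hs; simp at hs; linarith

lemma diff : DifferentiableOn ℂ gg {s | s.re < 4 / 3} := by
  intro s hs
  have hs : s.re < 4 / 3 := hs
  have h0 : (sg : ℂ) ≠ 0 := by exact_mod_cast (show sg ≠ 0 by linarith [sg_ge])
  have h1 : DifferentiableAt ℂ (fun s : ℂ => (sg : ℂ) ^ (2 * s - 1)) s :=
    DifferentiableAt.const_cpow (by fun_prop) (Or.inl h0)
  have h2 : DifferentiableAt ℂ (fun s : ℂ => Gamma (4 / 3 - s)) s :=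
    (dG _ (by simp; linarith)).comp s (by fun_prop)
  have h3 : DifferentiableAt ℂ (fun s : ℂ => Gamma (5 / 3 - s)) s :=
    (dG _ (by simp; linarith)).comp s (by fun_prop)
  have h4 : DifferentiableAt ℂ (fun s : ℂ => (Gamma (s + 1 / 3))⁻¹) s :=
    (differentiable_one_div_Gamma (s + 1 / 3)).comp s (f := fun s : ℂ => s + 1 / 3) (by fun_prop)
  have h5 : DifferentiableAt ℂ (fun s : ℂ => (Gamma (s + 2 / 3))⁻¹) s :=
    (differentiable_one_div_Gamma (s + 2 / 3)).comp s (f := fun s : ℂ => s + 2 / 3) (by fun_prop)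
  exact ((h1.mul (h2.mul h3)).mul (h4.mul h5)).differentiableWithinAt

lemma strip : ∃ C : ℝ, ∀ s : ℂ, -1 ≤ s.re → s.re ≤ 1 → ‖gg s‖ ≤ C * Real.exp (7 * |s.im|) := by
  obtain ⟨C, h0, hC⟩ := strip_bd (1 / 3) 3 (by norm_num)
  obtain ⟨D, h1, hD⟩ := inv_bd (-1) 2
  refine ⟨sg * (C * C) * (D * D), fun s ha hb => ?_⟩
  unfold gg
  rw [norm_mul, norm_mul, norm_mul, norm_mul]
  have e1 : ‖(sg : ℂ) ^ (2 * s - 1)‖ ≤ sg := by
    rw [norm_sg]
    refine (Real.rpow_le_rpow_of_exponent_le sg_ge (?_ : _ ≤ (1 : ℝ))).trans_eq (Real.rpow_one _)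
    simp; linarith
  have e2 := hC (4 / 3 - s) (by simp; linarith) (by simp; linarith)
  have e3 := hC (5 / 3 - s) (by simp; linarith) (by simp; linarith)
  have e4 := hD (s + 1 / 3) (by simp; linarith) (by simp; linarith)
  have e5 := hD (s + 2 / 3) (by simp; linarith) (by simp; linarith)
  rw [show (s + 1 / 3).im = s.im by simp] at e4
  rw [show (s + 2 / 3).im = s.im by simp] at e5
  have hs : 0 ≤ sg := by linarith [sg_ge]
  calc _ ≤ sg * (C * C) * ((D * Real.exp (7 / 2 * |s.im|)) * (D * Real.exp (7 / 2 * |s.im|))) :=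
        mul_le_mul (mul_le_mul e1 (mul_le_mul e2 e3 (norm_nonneg _) h0) (by positivity) hs)
          (mul_le_mul e4 e5 (norm_nonneg _) (by positivity)) (by positivity) (by positivity)
    _ = sg * (C * C) * (D * D) * (Real.exp (7 / 2 * |s.im|) * Real.exp (7 / 2 * |s.im|)) := by ring
    _ = _ := by rw [← Real.exp_add]; congr 2; ring

end GAMM

open GAMM in
theorem gamS : GAM where
  inv a b := let ⟨C, _, h⟩ := inv_bd a b; ⟨C, h⟩
  diff := diff
  strip := strip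
  half := half
  l0 := ⟨1, l0⟩
  lm := ⟨2, lm⟩
  dec σ k h := dec k σ h

end Vale.Agent.P026
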