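import Vale.Agent.P026.Stm1

/-! P026: Poisson summation on the Eisenstein lattice. -/

noncomputable section
open Complex MeasureTheory Set
open scoped Classical ComplexConjugate

namespace Vale.Agent.P026

namespace PoiM

abbrev R2 := Fin 2 → ℝ
abbrev Z2 := Fin 2 → ℤ

def cs (n : Z2) : R2 := fun i => (n i : ℝ)
def ch (m : Z2) (x : R2) : ℂ := UnitAddTorus.mFourier m (fun i => (x i : UnitAddCircle))
def box (n : Z2) : Set R2 := {x | ∀ i, x i ∈ Ioc ((n i : ℝ)) (n i + 1)}

lemma ch_eq (m : Z2) (x : R2) :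
    ch m x = cexp (2 * Real.pi * I * ((m 0 * x 0 + m 1 * x 1 : ℝ) : ℂ)) := by
  simp only [ch, UnitAddTorus.mFourier, ContinuousMap.coe_mk, Fin.prod_univ_two, fourier_coe_apply]
  rw [← Complex.exp_add]; congr 1; push_cast; ring

lemma coe_add_cs (x : R2) (n : Z2) (i : Fin 2) :
    (((x + cs n) i : ℝ) : UnitAddCircle) = (x i : UnitAddCircle) := by
  simp only [Pi.add_apply, cs]
  rw [AddCircle.coe_add]
  have : (((n i : ℤ) : ℝ) : UnitAddCircle) = 0 :=
    (AddCircle.coe_eq_zero_iff 1).2 ⟨n i, by simp⟩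
  rw [this, add_zero]

lemma ch_add (m n : Z2) (x : R2) : ch m (x + cs n) = ch m x := by
  unfold ch; simp only [coe_add_cs]

lemma norm_ch (m : Z2) (x : R2) : ‖ch m x‖ = 1 := by
  rw [ch_eq, mul_comm _ I, mul_assoc, mul_comm I]
  exact_mod_cast Complex.norm_exp_ofReal_mul_I (2 * Real.pi * (m 0 * x 0 + m 1 * x 1))

lemma cont_ch (m : Z2) : Continuous (ch m) := by
  have : ch m = fun x => cexp (2 * Real.pi * I * ((m 0 * x 0 + m 1 * x 1 : ℝ) : ℂ)) :=
    funext (ch_eq m)
  rw [this]; fun_prop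

lemma box_meas (n : Z2) : MeasurableSet (box n) :=
  MeasurableSet.univ_pi' (fun _ => measurableSet_Ioc)

lemma mem_box {n : Z2} {x : R2} : x ∈ box n ↔ ∀ i, n i = ⌈x i⌉ - 1 := by
  refine forall_congr' fun i => ?_
  rw [eq_sub_iff_add_eq, eq_comm, Int.ceil_eq_iff]
  push_cast
  simp [mem_Ioc]

lemma box_disj : Pairwise (Function.onFun Disjoint box) := fun n m h =>
  disjoint_left.2 fun _ a b => h (funext fun i => by rw [mem_box.1 a i, mem_box.1 b i])

lemma box_union : ⋃ n, box n = univ :=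
  eq_univ_of_forall fun x => mem_iUnion.2 ⟨fun i => ⌈x i⌉ - 1, mem_box.2 fun _ => rfl⟩

lemma unfold_int {h : R2 → ℂ} (hi : Integrable h) :
    HasSum (fun n : Z2 => ∫ x in box 0, h (x + cs n)) (∫ x, h x) := by
  have := hasSum_integral_iUnion (μ := volume) (f := h) box_meas box_disj hi.integrableOn
  rw [box_union, Measure.restrict_univ] at this
  refine HasSum.congr_fun this fun n => ?_
  rw [← (measurePreserving_add_right volume (cs n)).setIntegral_preimage_emb
    (measurableEmbedding_addRight _) h (box n)]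
  congr 2
  ext x
  simp only [box, cs, mem_preimage, mem_ofPred_eq, Pi.add_apply, mem_Ioc, Pi.zero_apply]
  refine forall_congr' fun i => ?_
  push_cast
  constructor <;> rintro ⟨a, b⟩ <;> constructor <;> linarith

lemma vol_box : volume (box 0) ≠ ⊤ := by
  have : box 0 = Set.univ.pi fun _ : Fin 2 => Ioc (0 : ℝ) 1 := by
    ext x; simp [box]
  rw [this, Real.volume_pi_Ioc]
  simp

theorem core (g : R2 → ℂ) (hc : Continuous g)
    (hb : ∀ R : ℝ, ∃ u : Z2 → ℝ, Summable u ∧ ∀ n x, ‖x‖ ≤ R → ‖g (x + cs n)‖ ≤ u n)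
    (hi : Integrable g) (hs : Summable fun m : Z2 => ∫ x, ch (-m) x * g x) (x0 : R2) :
    HasSum (fun m : Z2 => (∫ x, ch (-m) x * g x) * ch m x0) (∑' n, g (x0 + cs n)) := by
  set P : R2 → ℂ := fun x => ∑' n, g (x + cs n) with hP
  have Pc : Continuous P := by
    refine continuous_of_cover_nhds (s := fun R : ℝ => Metric.closedBall 0 R) (fun x =>
      ⟨‖x‖ + 1, Metric.closedBall_mem_nhds_of_mem (by simp)⟩) fun R => ?_
    obtain ⟨u, h1, h2⟩ := hb R
    exact continuousOn_tsum (fun n => (hc.comp (continuous_add_const _)).continuousOn) h1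
      fun n x hx => h2 n x (by simpa using hx)
  have Pp : ∀ x n, P (x + cs n) = P x := fun x n => by
    simp only [hP]
    rw [← (Equiv.addLeft n).tsum_eq (fun k => g (x + cs k))]
    refine tsum_congr fun k => ?_
    congr 1
    ext i; simp [cs]; ring
  let L : UnitAddTorus (Fin 2) → R2 := fun t i => (AddCircle.equivIoc 1 0 (t i)).1
  have hL : ∀ x : R2, P (L fun i => (x i : UnitAddCircle)) = P x := fun x => by
    have : ∀ i, ∃ k : ℤ, L (fun i => (x i : UnitAddCircle)) i = x i + k := fun i => by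
      have h1 : ((L (fun i => (x i : UnitAddCircle)) i : ℝ) : UnitAddCircle) = (x i : ℝ) :=
        (AddCircle.equivIoc 1 0).symm_apply_apply _
      rw [← sub_eq_zero, ← AddCircle.coe_sub, AddCircle.coe_eq_zero_iff] at h1
      obtain ⟨k, hk⟩ := h1
      exact ⟨k, by simp at hk; linarith⟩
    choose k hk using this
    rw [← Pp x k]
    congr 1
    exact funext hk
  have hq : IsOpenQuotientMap (Pi.map fun (_ : Fin 2) (y : ℝ) => (y : UnitAddCircle)) :=
    IsOpenQuotientMap.piMap fun _ => QuotientAddGroup.isOpenQuotientMap_mk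
  let F : C(UnitAddTorus (Fin 2), ℂ) := ⟨fun t => P (L t), by
    rw [← hq.continuous_comp_iff]
    convert Pc using 1
    exact funext hL⟩
  have hF : ∀ m, UnitAddTorus.mFourierCoeff F m = ∫ x, ch (-m) x * g x := fun m => by
    rw [UnitAddTorus.mFourierCoeff_eq_integral F m (cs 0)]
    have h1 := unfold_int (h := fun x => ch (-m) x * g x)
      (hi.bdd_mul (c := 1) (cont_ch _).aestronglyMeasurable (.of_forall fun x => (norm_ch _ _).le))
    obtain ⟨u, h2, h3⟩ := hb 1
    have h4 := hasSum_integral_of_dominated_convergence (μ := volume.restrict (box 0))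
      (F := fun n x => ch (-m) (x + cs n) * g (x + cs n)) (f := fun x => ch (-m) x * P x)
      (fun n _ => u n)
      (fun n => (((cont_ch _).mul hc).comp (continuous_add_const _)).aestronglyMeasurable)
      (fun n => (ae_restrict_iff' (box_meas 0)).2 (.of_forall fun x hx => by
        rw [norm_mul, norm_ch, one_mul]
        refine h3 n x ((pi_norm_le_iff_of_nonneg zero_le_one).2 fun i => ?_)
        have := hx i
        simp only [Pi.zero_apply, Int.cast_zero, zero_add, mem_Ioc] at this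
        rw [Real.norm_eq_abs, abs_le]; constructor <;> linarith [this.1, this.2]))
      (.of_forall fun _ => h2)
      (integrableOn_const vol_box)
      (.of_forall fun x => by
        simp only [ch_add]
        obtain ⟨u, h5, h6⟩ := hb ‖x‖
        exact (Summable.of_norm_bounded h5 fun n => h6 n x le_rfl).hasSum.mul_left _)
    rw [h1.unique h4]
    refine setIntegral_congr_fun (box_meas 0) fun x _ => ?_
    simp only [F, ContinuousMap.coe_mk, smul_eq_mul, hL, ch]
  have := UnitAddTorus.hasSum_mFourier_series_apply_of_summable (f := F)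
    (by convert hs using 1; exact funext hF) (fun i => (x0 i : UnitAddCircle))
  simp only [hF, smul_eq_mul] at this
  have e : F (fun i => (x0 i : UnitAddCircle)) = P x0 := hL x0
  rw [e] at this
  exact this

def T (x : R2) : ℂ := (x 0 : ℂ) + (x 1 : ℂ) * om

lemma cont_T : Continuous T := by unfold T; fun_prop

lemma T_add (x y : R2) : T (x + y) = T x + T y := by simp [T]; ring

lemma s3 : 0 < Real.sqrt 3 := Real.sqrt_pos.2 (by norm_num)

lemma map_T : Measure.map T volume = ENNReal.ofReal (2 / Real.sqrt 3) • (volume : Measure ℂ) := by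
  let A : R2 →ₗ[ℝ] R2 := Matrix.toLin' !![1, -1 / 2; 0, Real.sqrt 3 / 2]
  have hd : LinearMap.det A = Real.sqrt 3 / 2 := by
    simp [A, LinearMap.det_toLin', Matrix.det_fin_two]
  have h1 := Measure.map_linearMap_addHaar_eq_smul_addHaar (volume : Measure R2) (f := A)
    (by rw [hd]; have := s3; positivity)
  have h2 : T = Complex.measurableEquivPi.symm ∘ A := by
    ext x
    simp only [Function.comp, Complex.measurableEquivPi_symm_apply, T, A, Matrix.toLin'_apply,
      Matrix.mulVec, dotProduct, Fin.sum_univ_two]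
    apply Complex.ext <;> simp [om] <;> ring
  rw [h2, ← Measure.map_map Complex.measurableEquivPi.symm.measurable
    A.continuous_of_finiteDimensional.measurable, h1, Measure.map_smul,
    Complex.volume_preserving_equiv_pi.symm.map_eq, hd, inv_div, abs_of_pos (by have := s3; positivity)]

lemma int_T {h : ℂ → ℂ} (hc : Continuous h) :
    ∫ x, h (T x) = ((2 / Real.sqrt 3 : ℝ) : ℂ) * ∫ z, h z := by
  rw [← integral_map cont_T.aemeasurable hc.aestronglyMeasurable, map_T, integral_smul_measure,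
    ENNReal.toReal_ofReal (by have := s3; positivity), Complex.real_smul]

lemma integ_T {h : ℂ → ℂ} (hc : Continuous h) (hi : Integrable h) : Integrable fun x => h (T x) := by
  have := (integrable_map_measure (f := T) (g := h) (μ := volume) hc.aestronglyMeasurable
    cont_T.aemeasurable).1 (by rw [map_T]; exact hi.smul_measure ENNReal.ofReal_ne_top)
  exact this

def eA : O ≃ Z2 where
  toFun a := ![a.re, a.im]
  invFun n := ⟨n 0, n 1⟩
  left_inv _ := rfl
  right_inv n := by ext i; fin_cases i <;> rfl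

def eB : O ≃ Z2 where
  toFun a := ![a.im, a.re - a.im]
  invFun n := ⟨n 0 + n 1, n 0⟩
  left_inv a := by ext <;> simp
  right_inv n := by ext i; fin_cases i <;> simp

lemma T_cs (a : O) : T (cs (eA a)) = toC a := by
  change (((a.re : ℤ) : ℝ) : ℂ) + (((a.im : ℤ) : ℝ) : ℂ) * om = (a.re : ℂ) + (a.im : ℂ) * om
  push_cast; rfl

lemma surj_T (z : ℂ) : ∃ x, T x = z := by
  have := s3
  refine ⟨![z.re + z.im / Real.sqrt 3, 2 * z.im / Real.sqrt 3], ?_⟩
  apply Complex.ext <;> simp [T, om] <;> field_simp <;> ring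

lemma ch_eB (k : O) (x : R2) : ch (eB k) x = psi (T x * toC k) := by
  have := s3
  rw [ch_eq, psi]
  congr 3
  simp [T, om, toC, eB]
  field_simp
  ring

lemma ch_neg (m : Z2) (x : R2) : ch (-m) x = conj (ch m x) := UnitAddTorus.mFourier_neg

lemma peetre {s R : ℝ} (hs : 0 ≤ s) {z w : ℂ} (hz : ‖z‖ ≤ R) :
    (1 + ‖z + w‖) ^ (-s) ≤ (1 + R) ^ s * (1 + ‖w‖) ^ (-s) := by
  have hR : 0 ≤ R := (norm_nonneg z).trans hz
  have h1 : 1 + ‖w‖ ≤ (1 + R) * (1 + ‖z + w‖) := by
    have : ‖w‖ ≤ ‖z + w‖ + ‖z‖ := by simpa using norm_sub_le (z + w) z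
    nlinarith [norm_nonneg (z + w)]
  have h2 := Real.rpow_le_rpow (by positivity) h1 hs
  rw [Real.mul_rpow (by positivity) (by positivity)] at h2
  rw [Real.rpow_neg (by positivity), Real.rpow_neg (by positivity), ← div_eq_mul_inv,
    le_div_iff₀ (by positivity), inv_mul_le_iff₀ (by positivity)]
  linarith

end PoiM

open PoiM

/-- Fourier transform adapted to `psi` -/
def FTc (f : ℂ → ℂ) (w : ℂ) : ℂ := ∫ z, f z * psi (-(z * w))

/-- Poisson summation on `O` -/
theorem poisson (h1 : B1) (h3 : B3) (f : ℂ → ℂ) (hc : Continuous f) {s C : ℝ} (hs : 2 < s)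
    (hf : ∀ z, ‖f z‖ ≤ C * (1 + ‖z‖) ^ (-s)) (hF : Summable fun k : O => FTc f (toC k)) (z0 : ℂ) :
    HasSum (fun k : O => ((2 / Real.sqrt 3 : ℝ) : ℂ) * (FTc f (toC k) * psi (z0 * toC k)))
      (∑' a : O, f (z0 + toC a)) := by
  obtain ⟨x0, rfl⟩ := surj_T z0
  have hC : 0 ≤ C := by
    have := (norm_nonneg _).trans (hf 0)
    simpa using this
  have hi : Integrable f := by
    refine ((integrable_one_add_norm (E := ℂ) (μ := volume) (r := s) (by simpa using hs)).const_mul
      C).mono' hc.aestronglyMeasurable (.of_forall hf)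
  have e : ∀ k : O, ∫ x, ch (-(eB k)) x * f (T x) = ((2 / Real.sqrt 3 : ℝ) : ℂ) * FTc f (toC k) :=
    fun k => by
      rw [FTc, ← int_T (h := fun z => f z * psi (-(z * toC k)))
        (hc.mul (h1.cont_psi.comp (by fun_prop)))]
      refine integral_congr_ae (.of_forall fun x => ?_)
      simp only [ch_neg, ch_eB, h1.psi_neg, mul_comm]
  have := core (fun x => f (T x)) (hc.comp cont_T) (fun R => by
      obtain ⟨K, hK⟩ := (isCompact_closedBall (0 : R2) R).exists_bound_of_continuousOn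
        cont_T.continuousOn
      refine ⟨fun n => C * ((1 + K) ^ s * (1 + ‖toC (eA.symm n)‖) ^ (-s)), ?_, fun n x hx => ?_⟩
      · exact ((eA.symm.summable_iff.2 (h3.summ' s hs)).mul_left _).mul_left _
      · obtain ⟨a, rfl⟩ := eA.surjective n
        simp only [T_add, T_cs, Equiv.symm_apply_apply]
        exact (hf _).trans (mul_le_mul_of_nonneg_left
          (peetre (by linarith) (hK x (by simpa using hx))) hC))
    (integ_T hc hi) (eB.summable_iff.1 (by
      simp only [Function.comp_def, e]; exact hF.mul_left _)) x0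
  rw [← eB.hasSum_iff, ← eA.tsum_eq] at this
  simp only [Function.comp_def, e, T_add, T_cs, ch_eB, mul_assoc] at this
  exact this


/-- complex dilation of the area measure -/
theorem int_mul (h : ℂ → ℂ) {c : ℂ} (hc : c ≠ 0) :
    ∫ z, h (c * z) = ((‖c‖ ^ 2)⁻¹ : ℝ) * ∫ z, h z := by
  let A : ℂ →ₗ[ℝ] ℂ := Algebra.lmul ℝ ℂ c
  have hd : LinearMap.det A = ‖c‖ ^ 2 := by
    rw [← Algebra.norm_apply, Algebra.norm_complex_eq, ← Complex.normSq_eq_norm_sq]; rfl
  have h1 := Measure.map_linearMap_addHaar_eq_smul_addHaar (volume : Measure ℂ) (f := A)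
    (by rw [hd]; positivity)
  have h2 := (Homeomorph.mulLeft₀ c hc).measurableEmbedding.integral_map (μ := volume) h
  have h3 : (Homeomorph.mulLeft₀ c hc : ℂ → ℂ) = A := rfl
  rw [h3, h1, integral_smul_measure, hd, abs_of_nonneg (by positivity),
    ENNReal.toReal_ofReal (by positivity), Complex.real_smul] at h2
  exact h2.symm

theorem FTc_mul (f : ℂ → ℂ) {c : ℂ} (hc : c ≠ 0) (w : ℂ) :
    FTc (fun z => f (c * z)) w = ((‖c‖ ^ 2)⁻¹ : ℝ) * FTc f (w / c) := by
  rw [FTc, FTc, ← int_mul _ hc]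
  refine integral_congr_ae (.of_forall fun z => ?_)
  have : c * z * (w / c) = z * w := by field_simp
  simp only [this]

theorem FTc_eq (f : ℂ → ℂ) (w : ℂ) :
    FTc f w = FourierTransform.fourier f ((2 / Real.sqrt 3 : ℝ) * (I * conj w)) := by
  rw [Real.fourier_eq', FTc]
  refine integral_congr_ae (.of_forall fun z => ?_)
  simp only [psi, smul_eq_mul]
  rw [mul_comm]
  congr 2
  have : (inner ℝ z (((2 / Real.sqrt 3 : ℝ) : ℂ) * (I * conj w)) : ℝ) =
      2 * (z * w).im / Real.sqrt 3 := by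
    rw [Complex.inner]
    simp
    ring
  rw [this]
  simp
  ring

theorem decay_mul {f : ℂ → ℂ} {s C : ℝ} (hs : 0 ≤ s) (hf : ∀ z, ‖f z‖ ≤ C * (1 + ‖z‖) ^ (-s))
    {c : ℂ} (hc : c ≠ 0) : ∃ C', ∀ z, ‖f (c * z)‖ ≤ C' * (1 + ‖z‖) ^ (-s) := by
  have hC : 0 ≤ C := by
    have := (norm_nonneg _).trans (hf 0)
    simpa using this
  have hc' : 0 < ‖c‖ := norm_pos_iff.2 hc
  refine ⟨C * (1 + ‖c‖⁻¹) ^ s, fun z => (hf _).trans ?_⟩
  rw [mul_assoc]
  refine mul_le_mul_of_nonneg_left ?_ hC
  have h1 : 1 + ‖z‖ ≤ (1 + ‖c‖⁻¹) * (1 + ‖c * z‖) := by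
    rw [norm_mul]
    have : ‖c‖⁻¹ * (‖c‖ * ‖z‖) = ‖z‖ := by field_simp
    nlinarith [inv_pos.2 hc', mul_nonneg hc'.le (norm_nonneg z)]
  have h2 := Real.rpow_le_rpow (by positivity) h1 hs
  rw [Real.mul_rpow (by positivity) (by positivity)] at h2
  rw [Real.rpow_neg (by positivity), Real.rpow_neg (by positivity), ← div_eq_mul_inv,
    le_div_iff₀ (by positivity), inv_mul_le_iff₀ (by positivity)]
  linarith

theorem summ_of_decay (h3 : B3) {f : ℂ → ℂ} {s C : ℝ} (hs : 2 < s)
    (hf : ∀ z, ‖f z‖ ≤ C * (1 + ‖z‖) ^ (-s)) {c : ℂ} (hc : c ≠ 0) :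
    Summable fun k : O => ‖f (c * toC k)‖ := by
  obtain ⟨C', h⟩ := decay_mul (by linarith) hf hc
  exact Summable.of_nonneg_of_le (fun _ => norm_nonneg _) (fun k => h _)
    ((h3.summ' s hs).mul_left C')

/-- Poisson summation over a residue class -/
theorem poisson_cls (h1 : B1) (h3 : B3) (f : ℂ → ℂ) (hc : Continuous f) {s C C' : ℝ} (hs : 2 < s)
    (hf : ∀ z, ‖f z‖ ≤ C * (1 + ‖z‖) ^ (-s)) (hF : ∀ w, ‖FTc f w‖ ≤ C' * (1 + ‖w‖) ^ (-s))
    {c : O} (h0 : c ≠ 0) (r : O) :
    HasSum (fun k : O => ((2 / Real.sqrt 3 / N c : ℝ) : ℂ) * (FTc f (toC k / toC c) * eQ (r * k) c))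
      (∑' m : O, f (toC (r + c * m))) := by
  have hc0 : toC c ≠ 0 := fun h => h0 (h1.inj (by rw [h, map_zero]))
  obtain ⟨C2, h2⟩ := decay_mul (by linarith) hf hc0
  have := poisson h1 h3 (fun z => f (toC c * z)) (by fun_prop) hs h2 (by
    simp only [FTc_mul f hc0]
    refine Summable.mul_left _ (Summable.of_norm ?_)
    simpa only [div_eq_inv_mul] using summ_of_decay h3 hs hF (inv_ne_zero hc0)) (toC r / toC c)
  have e1 : ∀ m : O, toC c * (toC r / toC c + toC m) = toC (r + c * m) := fun m => by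
    rw [map_add, map_mul]; field_simp
  simp only [e1, FTc_mul f hc0] at this
  refine HasSum.congr_fun this fun k => ?_
  have e2 : toC r / toC c * toC k = toC (r * k) / toC c := by rw [map_mul]; ring
  rw [e2, eQ, h1.N_eq]
  push_cast
  ring

/-- Poisson summation with a periodic coefficient -/
theorem poisson_per (h1 : B1) (h3 : B3) (h4 : B4) (f : ℂ → ℂ) (hc : Continuous f) {s C C' : ℝ}
    (hs : 2 < s) (hf : ∀ z, ‖f z‖ ≤ C * (1 + ‖z‖) ^ (-s))
    (hF : ∀ w, ‖FTc f w‖ ≤ C' * (1 + ‖w‖) ^ (-s)) {c : O} (h0 : c ≠ 0) {F : O → ℂ} (hP : Pe c F) :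
    HasSum (fun k : O => ((2 / Real.sqrt 3 / N c : ℝ) : ℂ) *
      (FTc f (toC k / toC c) * ∑ r ∈ Rs c, F r * eQ (r * k) c)) (∑' a : O, F a * f (toC a)) := by
  have hb : ∀ a, ‖F a‖ ≤ ∑ r ∈ Rs c, ‖F r‖ := fun a => by
    obtain ⟨r, hr, hd⟩ := h4.ex c a h0
    rw [h4.pe_congr c F a r hP hd]
    exact Finset.single_le_sum (f := fun r => ‖F r‖) (fun _ _ => norm_nonneg _) hr
  have hS : Summable fun a : O => F a * f (toC a) := by
    have := summ_of_decay h3 hs hf one_ne_zero
    simp only [one_mul] at this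
    refine Summable.of_norm_bounded (this.mul_left (∑ r ∈ Rs c, ‖F r‖)) fun a => ?_
    rw [norm_mul]
    exact mul_le_mul_of_nonneg_right (hb a) (norm_nonneg _)
  rw [h4.tsum_cls c _ h0 hS]
  have := hasSum_sum (s := Rs c) fun r _ => (poisson_cls h1 h3 f hc hs hf hF h0 r).mul_left (F r)
  simp only [hP _ _, tsum_mul_left]
  refine HasSum.congr_fun this fun k => ?_
  rw [Finset.mul_sum, Finset.mul_sum]
  exact Finset.sum_congr rfl fun r _ => by ring

theorem schwartz_decay (f : SchwartzMap ℂ ℂ) (n : ℕ) :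
    ∃ C, ∀ z, ‖f z‖ ≤ C * (1 + ‖z‖) ^ (-(n : ℝ)) := by
  refine ⟨?_, fun z => ?_⟩
  swap
  · have := SchwartzMap.one_add_le_sup_seminorm_apply (𝕜 := ℝ) (m := (n, 0)) le_rfl le_rfl f z
    rw [norm_iteratedFDeriv_zero] at this
    rw [Real.rpow_neg (by positivity), Real.rpow_natCast, ← div_eq_mul_inv,
      le_div_iff₀ (by positivity), mul_comm]
    exact this

theorem schwartz_FTc_decay (f : SchwartzMap ℂ ℂ) (n : ℕ) :
    ∃ C, ∀ w, ‖FTc f w‖ ≤ C * (1 + ‖w‖) ^ (-(n : ℝ)) := by
  obtain ⟨C, hC⟩ := schwartz_decay (FourierTransform.fourier f) n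
  obtain ⟨C', h⟩ := decay_mul (c := ((2 / Real.sqrt 3 : ℝ) : ℂ) * I) (by positivity) hC
    (mul_ne_zero (by have := s3; exact_mod_cast (by positivity)) I_ne_zero)
  refine ⟨C', fun w => ?_⟩
  have := h (conj w)
  rw [Complex.norm_conj, SchwartzMap.fourier_coe, mul_assoc] at this
  rwa [FTc_eq]

end Vale.Agent.P026
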