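import Vale.Agent.P026.Stm2
import Vale.Agent.P026.M.Poi

/-! P026 module KG: the kernel for Gaussian test functions. -/

noncomputable section
open Complex MeasureTheory Filter Topology
open scoped Classical ComplexConjugate

namespace Vale.Agent.P026

namespace KGM

def aa : ℝ := 2 * Real.pi / Real.sqrt 3

theorem aa_pos : 0 < aa := by unfold aa; positivity

theorem aa_sq : aa ^ 2 = sg := by
  rw [aa, div_pow, Real.sq_sqrt (by norm_num), sg]; ring

theorem psi_eq (w : ℂ) : psi w = cexp (aa * (w - conj w)) := by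
  rw [psi, sub_conj, aa]
  congr 1
  push_cast
  ring

theorem integ : Integrable fun z : ℂ => Real.exp (-(‖z‖ ^ 2 / 2)) := by
  have := (GaussianFourier.integrable_cexp_neg_mul_sq_norm_add (V := ℂ) (b := 1 / 2) (by norm_num)
    0 0).norm
  refine this.congr (.of_forall fun z => ?_)
  simp only [zero_mul, add_zero, norm_exp]
  congr 1
  rw [← ofReal_pow]
  simp only [neg_mul, neg_re, re_mul_ofReal]
  norm_num
  ring

theorem dir (hB : Bas) (hG : GFStmt) (ξ η : ℂ) :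
    Integrable (fun z : ℂ => cexp (-(‖z‖ ^ 2 : ℝ)) * (aa * (conj (z * η) - z * η) * psi (-(z * ξ)))) ∧
    ∫ z : ℂ, cexp (-(‖z‖ ^ 2 : ℝ)) * (aa * (conj (z * η) - z * η) * psi (-(z * ξ))) =
      -(Real.pi * sg * (ξ * conj η + conj ξ * η) * cexp (-(sg * ‖ξ‖ ^ 2 : ℝ))) := by
  have cp := hB.b1.cont_psi
  have n1 : ∀ z : ℂ, ‖cexp (-(‖z‖ ^ 2 : ℝ))‖ = Real.exp (-‖z‖ ^ 2) := fun z => by
    rw [norm_exp, neg_re, ofReal_re]
  have := hasDerivAt_integral_of_dominated_loc_of_deriv_le (𝕜 := ℝ) (μ := volume) (x₀ := 0)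
    (s := Set.univ) (F := fun (s : ℝ) z => cexp (-(‖z‖ ^ 2 : ℝ)) * psi (-(z * (ξ + s * η))))
    (F' := fun (s : ℝ) z => cexp (-(‖z‖ ^ 2 : ℝ)) *
      (aa * (conj (z * η) - z * η) * psi (-(z * (ξ + s * η)))))
    (bound := fun z => aa * (2 * ‖η‖) * Real.exp (-(‖z‖ ^ 2 / 2))) univ_mem
    (.of_forall fun s => Continuous.aestronglyMeasurable (by fun_prop))
    (integ.mono' (Continuous.aestronglyMeasurable (by fun_prop)) (.of_forall fun z => by
      rw [norm_mul, hB.b1.norm_psi, mul_one, n1]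
      exact Real.exp_le_exp.2 (by nlinarith [sq_nonneg ‖z‖])))
    (Continuous.aestronglyMeasurable (by fun_prop)) (.of_forall fun z s _ => by
      have h1 := norm_sub_le (conj (z * η)) (z * η)
      have h2 := Real.add_one_le_exp (‖z‖ ^ 2 / 2)
      have h3 : Real.exp (-‖z‖ ^ 2) * Real.exp (‖z‖ ^ 2 / 2) = Real.exp (-(‖z‖ ^ 2 / 2)) := by
        rw [← Real.exp_add]; congr 1; ring
      have := aa_pos
      rw [norm_conj, norm_mul] at h1
      rw [norm_mul, norm_mul, hB.b1.norm_psi, mul_one, n1, norm_mul, norm_real,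
        Real.norm_of_nonneg aa_pos.le, ← h3]
      calc _ ≤ Real.exp (-‖z‖ ^ 2) * (aa * (Real.exp (‖z‖ ^ 2 / 2) * ‖η‖ * 2)) := by
            gcongr
            nlinarith [sq_nonneg (‖z‖ - 1), norm_nonneg η]
        _ = _ := by ring) (integ.const_mul _) (.of_forall fun z (s : ℝ) _ => by
      refine HasDerivAt.const_mul _ ?_
      have h := ((((hasDerivAt_id s).ofReal_comp).mul_const
        (aa * (conj (z * η) - z * η))).const_add (aa * (conj (z * ξ) - z * ξ))).cexp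
      have e : ∀ s : ℝ, psi (-(z * (ξ + s * η))) =
          cexp (aa * (conj (z * ξ) - z * ξ) + s * (aa * (conj (z * η) - z * η))) := fun s => by
        rw [psi_eq]
        congr 1
        simp only [map_neg, map_mul, map_add, conj_ofReal]
        ring
      simp only [e]
      exact h.congr_deriv (by simp [mul_comm]))
  simp only [ofReal_zero, zero_mul, add_zero] at this
  refine ⟨this.1, this.2.unique ?_⟩
  have e : ∀ s : ℝ, ∫ z : ℂ, cexp (-(‖z‖ ^ 2 : ℝ)) * psi (-(z * (ξ + s * η))) =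
      Real.pi * cexp (-(sg * ((ξ + s * η) * (conj ξ + s * conj η)))) := fun s => by
    have := hG 1 (ξ + s * η) one_pos
    simp only [div_one, mul_one, F1] at this
    rw [this, ofReal_mul, ofReal_pow, ← mul_conj']
    simp only [map_mul, map_add, conj_ofReal]
  refine HasDerivAt.congr_of_eventuallyEq ?_ (.of_forall e)
  have h0 := (hasDerivAt_id (0 : ℝ)).ofReal_comp
  have h := (((((h0.mul_const η).const_add ξ).mul ((h0.mul_const (conj η)).const_add
    (conj ξ))).const_mul (sg : ℂ)).neg.cexp).const_mul (Real.pi : ℂ)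
  refine h.congr_deriv ?_
  simp only [id, ofReal_zero, zero_mul, add_zero, ofReal_one, one_mul, Pi.neg_apply, Pi.mul_apply,
    ofReal_mul, ofReal_pow, mul_conj']
  ring

theorem ang1 (z : ℂ) : ang 1 z * ‖z‖ = z ∧ ang (-1) z * ‖z‖ = conj z := by
  rcases eq_or_ne z 0 with rfl | h
  · simp
  have : (‖z‖ : ℂ) ≠ 0 := by simpa using h
  refine ⟨by simp [ang, this], ?_⟩
  rw [ang, zpow_neg_one, inv_div, div_mul_eq_mul_div, div_eq_iff h, ← sq, conj_mul']

theorem ftG (hB : Bas) (hG : GFStmt) {j : ℤ} (hj : j = 1 ∨ j = -1) (ξ : ℂ) :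
    F1 (Gj j) ξ = j * (Real.pi * aa) * (ang (-j) ξ * ‖ξ‖) * cexp (-(sg * ‖ξ‖ ^ 2 : ℝ)) := by
  obtain ⟨i1, e1⟩ := dir hB hG ξ 1
  obtain ⟨i2, e2⟩ := dir hB hG ξ I
  have a0 : (aa : ℂ) ≠ 0 := ofReal_ne_zero.2 aa_pos.ne'
  have a2 : (sg : ℂ) = aa ^ 2 := by rw [← aa_sq, ofReal_pow]
  have key : ∀ a b : ℂ, ∫ z : ℂ, (a * (cexp (-(‖z‖ ^ 2 : ℝ)) * (aa * (conj (z * 1) - z * 1) *
      psi (-(z * ξ)))) + b * (cexp (-(‖z‖ ^ 2 : ℝ)) * (aa * (conj (z * I) - z * I) *
      psi (-(z * ξ))))) = _ := fun a b => by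
    rw [integral_add (i1.const_mul a) (i2.const_mul b), integral_const_mul, integral_const_mul,
      e1, e2]
  refine mul_left_cancel₀ (mul_ne_zero two_ne_zero a0) ?_
  rw [F1, ← integral_const_mul]
  rcases hj with rfl | rfl
  · rw [(ang1 ξ).2]
    convert key (-1) I using 1
    · refine integral_congr_ae (.of_forall fun z => ?_)
      simp only [Gj, (ang1 z).1, map_mul, conj_I, map_one]
      linear_combination (aa * cexp (-(‖z‖ ^ 2 : ℝ)) * psi (-(z * ξ)) * (conj z + z)) * I_sq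
    · rw [a2]
      simp only [conj_I, map_one]
      push_cast
      linear_combination (Real.pi * aa ^ 2 * cexp (-(sg * ‖ξ‖ ^ 2)) * (conj ξ - ξ)) * I_sq
  · rw [neg_neg, (ang1 ξ).1]
    convert key 1 I using 1
    · refine integral_congr_ae (.of_forall fun z => ?_)
      simp only [Gj, (ang1 z).2, map_mul, conj_I, map_one]
      linear_combination (aa * cexp (-(‖z‖ ^ 2 : ℝ)) * psi (-(z * ξ)) * (conj z + z)) * I_sq
    · rw [a2]
      simp only [conj_I, map_one]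
      push_cast
      linear_combination (Real.pi * aa ^ 2 * cexp (-(sg * ‖ξ‖ ^ 2)) * (conj ξ - ξ)) * I_sq

theorem F1_div (g : ℂ → ℂ) {m : ℂ} (hm : m ≠ 0) (ξ : ℂ) :
    F1 (fun E => g (E / m)) ξ = (‖m‖ ^ 2 : ℝ) * F1 g (m * ξ) := by
  have := int_mul (fun z => g (z / m) * psi (-(z * ξ))) hm
  simp only [mul_div_cancel_left₀ _ hm] at this
  have n : ((‖m‖ ^ 2 : ℝ) : ℂ) ≠ 0 := by simpa using hm
  rw [F1, F1]
  simp only [← mul_assoc, mul_comm _ m]
  rw [this, ofReal_inv, mul_inv_cancel_left₀ n]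

theorem radial (x : ℝ) : ∫ w : ℂ, ‖w‖ ^ (-4 / 3 : ℝ) * Real.exp (-‖w‖ ^ 2 - sg * x ^ 2 / ‖w‖ ^ 2) =
    Real.pi * ∫ ρ in Set.Ioi (0 : ℝ), ρ ^ (-2 / 3 : ℝ) * Real.exp (-ρ - sg * x ^ 2 / ρ) := by
  rw [integral_fun_norm_addHaar volume
    (fun r => r ^ (-4 / 3 : ℝ) * Real.exp (-r ^ 2 - sg * x ^ 2 / r ^ 2)),
    ← integral_comp_rpow_Ioi_of_pos (p := 2) (g := fun ρ => ρ ^ (-2 / 3 : ℝ) *
      Real.exp (-ρ - sg * x ^ 2 / ρ)) two_pos, Measure.real, Complex.volume_ball,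
    finrank_real_complex]
  simp only [ENNReal.ofReal_one, one_pow, one_mul, ENNReal.coe_toReal, NNReal.coe_real_pi,
    smul_eq_mul, nsmul_eq_mul]
  rw [mul_left_comm, ← integral_const_mul]
  congr 1
  refine setIntegral_congr_fun measurableSet_Ioi fun r hr => ?_
  have : (0 : ℝ) < r := hr
  simp only [← Real.rpow_mul this.le]
  norm_num
  ring

end KGM

open KGM in
theorem kgS (hB : Bas) (hG : GFStmt) : KGStmt := by
  refine ⟨Real.pi * aa, by simp [aa_pos.ne'], fun j m1 m2 d hj h1 h2 hd => ?_⟩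
  have n1 : 0 < ‖m1‖ := norm_pos_iff.2 h1
  set x := ‖d‖ * ‖m2‖ / (729 * ‖m1‖) with hx
  have := int_mul (fun C => Gj (-j) (C / m1) * ((‖C‖ ^ (-4 / 3 : ℝ) : ℝ) : ℂ) *
    F1 (fun E => Gj j (E / m2)) (d / (729 * C))) h1
  have e : ∀ w, Gj (-j) (m1 * w / m1) * ((‖m1 * w‖ ^ (-4 / 3 : ℝ) : ℝ) : ℂ) *
      F1 (fun E => Gj j (E / m2)) (d / (729 * (m1 * w))) =
      j * (Real.pi * aa) * ang (-j) (d * m2 / m1) * ((‖m1‖ ^ (-4 / 3 : ℝ) * ‖m2‖ ^ 2 * x : ℝ) : ℂ) *
      ((‖w‖ ^ (-4 / 3 : ℝ) * Real.exp (-‖w‖ ^ 2 - sg * x ^ 2 / ‖w‖ ^ 2) : ℝ) : ℂ) := fun w => by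
    rcases eq_or_ne w 0 with rfl | hw
    · simp [Gj]
    have n2 : 0 < ‖w‖ := norm_pos_iff.2 hw
    have c2 : (‖w‖ : ℂ) ≠ 0 := ofReal_ne_zero.2 n2.ne'
    have e1 : ‖m2 * (d / (729 * (m1 * w)))‖ = x / ‖w‖ := by
      simp only [norm_mul, norm_div, norm_ofNat, hx]
      field_simp
    have e2 : ang (-j) w * ang (-j) (m2 * (d / (729 * (m1 * w)))) = ang (-j) (d * m2 / m1) := by
      simp only [ang, ← mul_zpow, norm_mul, norm_div, norm_ofNat]
      congr 1
      push_cast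
      field_simp
    rw [mul_div_cancel_left₀ _ h1, F1_div _ h2, ftG hB hG hj, Gj, e1, norm_mul,
      Real.mul_rpow n1.le n2.le, ← e2, sub_eq_add_neg, Real.exp_add]
    push_cast
    field_simp
  simp only [e, integral_const_mul, integral_complex_ofReal, radial] at this
  have n3 : (((‖m1‖ ^ 2)⁻¹ : ℝ) : ℂ) ≠ 0 := by simpa using h1
  have e3 : ‖m1‖ ^ (-4 / 3 : ℝ) = (‖m1‖ ^ 2)⁻¹ * ‖m1‖ ^ (2 / 3 : ℝ) := by
    rw [← Real.rpow_natCast, ← Real.rpow_neg n1.le, ← Real.rpow_add n1]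
    norm_num
  refine mul_left_cancel₀ n3 ?_
  rw [K0, mul_left_comm, ← this, kk, e3]
  push_cast
  ring

end Vale.Agent.P026
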