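import Vale.Agent.P026.Stm2

/-! P026: Mellin transform of the theta identity. -/

noncomputable section
open Complex MeasureTheory Filter Topology Asymptotics
open scoped Classical ComplexConjugate

namespace Vale.Agent.P026
namespace MELM

variable {ι : Type} {A : ι → ℂ} {x : ι → ℝ}

lemma term_le {C σ y δ : ℝ} (hK : KK) (hx : ∀ i, 0 < x i) (hσ : 1 < σ)
    (hC : ∀ u, 0 < u → kk u ≤ C * u ^ (-(2 * σ - 1 / 3))) (hδ : 0 < δ) (hy : δ ≤ y) (i : ι) :
    ‖A i * ((x i ^ (-1 / 3 : ℝ) * kk (y * x i) : ℝ) : ℂ)‖ ≤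
      |C| * δ ^ (-(2 * σ - 1 / 3)) * (‖A i‖ * x i ^ (-2 * σ)) := by
  have hy0 : 0 < y := lt_of_lt_of_le hδ hy
  have hxi := hx i
  have h0 := hK.nonneg _ (mul_pos hy0 hxi)
  rw [norm_mul, norm_real, Real.norm_eq_abs, abs_of_nonneg (by positivity)]
  have h1 : kk (y * x i) ≤ |C| * (δ ^ (-(2 * σ - 1 / 3)) * x i ^ (-(2 * σ - 1 / 3))) := by
    refine (hC _ (mul_pos hy0 hxi)).trans ?_
    rw [Real.mul_rpow hy0.le hxi.le]
    refine mul_le_mul (le_abs_self _) (mul_le_mul_of_nonneg_right ?_ (by positivity)) (by positivity)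
      (abs_nonneg _)
    exact Real.rpow_le_rpow_of_nonpos hδ hy (by linarith)
  have h2 : x i ^ (-2 * σ) = x i ^ (-1 / 3 : ℝ) * x i ^ (-(2 * σ - 1 / 3)) := by
    rw [← Real.rpow_add hxi]; congr 1; ring
  calc _ ≤ ‖A i‖ * (x i ^ (-1 / 3 : ℝ) * (|C| * (δ ^ (-(2 * σ - 1 / 3)) * x i ^ (-(2 * σ - 1 / 3))))) := by
        gcongr
    _ = _ := by rw [h2]; ring

lemma Th_cont (hK : KK) (hx : ∀ i, 0 < x i)
    (hs : ∀ σ : ℝ, 1 < σ → Summable fun i => ‖A i‖ * x i ^ (-2 * σ)) :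
    ContinuousOn (Th A x) (Set.Ioi 0) := by
  intro y hy
  have hy : 0 < y := hy
  obtain ⟨C, hC⟩ := hK.dec (2 * 2 - 1 / 3) (by norm_num)
  have h : ContinuousOn (Th A x) (Set.Ioi (y / 2)) := by
    refine continuousOn_tsum (fun i => ?_) ((hs 2 one_lt_two).mul_left _)
      (fun i u hu => term_le hK hx one_lt_two hC (half_pos hy) (le_of_lt hu) i)
    refine continuousOn_const.mul (continuous_ofReal.comp_continuousOn (continuousOn_const.mul ?_))
    refine hK.cont.comp (by fun_prop) fun u hu => ?_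
    exact mul_pos (lt_trans (half_pos hy) hu) (hx i)
  exact (h.continuousAt (Ioi_mem_nhds (by linarith))).continuousWithinAt

lemma Th_top (hK : KK) (hx : ∀ i, 0 < x i)
    (hs : ∀ σ : ℝ, 1 < σ → Summable fun i => ‖A i‖ * x i ^ (-2 * σ)) (r : ℝ) :
    (fun y => Th A x y - 0) =O[atTop] (fun y : ℝ => y ^ r) := by
  have hσ : 1 < 2 + |r| := by linarith [abs_nonneg r]
  obtain ⟨C, hC⟩ := hK.dec (2 * (2 + |r|) - 1 / 3) (by linarith)
  refine IsBigO.of_bound (|C| * ∑' i, ‖A i‖ * x i ^ (-2 * (2 + |r|))) ?_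
  filter_upwards [eventually_ge_atTop 1] with y hy
  have hy0 : 0 < y := by linarith
  rw [sub_zero]
  have h1 : ‖Th A x y‖ ≤ _ := tsum_of_norm_bounded ((hs _ hσ).mul_left _).hasSum
    (fun i => term_le hK hx hσ hC hy0 le_rfl i)
  rw [tsum_mul_left] at h1
  have h2 : y ^ (-(2 * (2 + |r|) - 1 / 3)) ≤ ‖y ^ r‖ := by
    rw [Real.norm_eq_abs, abs_of_pos (Real.rpow_pos_of_pos hy0 _)]
    exact Real.rpow_le_rpow_of_exponent_le hy (by linarith [neg_abs_le r, abs_nonneg r])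
  have h3 : 0 ≤ ∑' i, ‖A i‖ * x i ^ (-2 * (2 + |r|)) :=
    tsum_nonneg fun i => mul_nonneg (norm_nonneg _) (Real.rpow_nonneg (hx i).le _)
  calc _ ≤ _ := h1
    _ = |C| * (∑' i, ‖A i‖ * x i ^ (-2 * (2 + |r|))) * y ^ (-(2 * (2 + |r|) - 1 / 3)) := by ring
    _ ≤ _ := mul_le_mul_of_nonneg_left h2 (by positivity)

/-- the gamma factor of the kernel -/
def GG (s : ℂ) : ℂ :=
  Real.pi / 2 * (sg : ℂ) ^ (-s - 1 / 3) * (Gamma (s + 1 / 3) * Gamma (s + 2 / 3))

lemma kk_mel (hK : KK) (s : ℂ) (hs : 0 < s.re) :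
    HasMellin (fun u => (kk u : ℂ)) (2 * s - 1 / 3) (GG s) := by
  have e : (fun t : ℝ => (t : ℂ) ^ (2 * s - 1 / 3 - 1) • (kk t : ℂ)) =
      fun t : ℝ => (kk t : ℂ) * (t : ℂ) ^ (2 * s - 4 / 3) := by
    funext t
    rw [smul_eq_mul, mul_comm]; congr 2; ring
  constructor
  · unfold MellinConvergent; rw [e]; exact (hK.mel s hs).1
  · unfold mellin; rw [e]; exact (hK.mel s hs).2

lemma mel_Th [Countable ι] (hK : KK) (hx : ∀ i, 0 < x i)
    (hs : ∀ σ : ℝ, 1 < σ → Summable fun i => ‖A i‖ * x i ^ (-2 * σ)) (s : ℂ) (h1 : 1 < s.re) :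
    mellin (Th A x) (2 * s - 1 / 3) = GG s * Dir A x s := by
  have hk := kk_mel hK s (by linarith)
  set F : ι → ℝ → ℂ := fun i y => (y : ℂ) ^ (2 * s - 1 / 3 - 1) •
    ((A i * ((x i ^ (-1 / 3 : ℝ) : ℝ) : ℂ)) • (kk (x i * y) : ℂ)) with hF
  have hint : ∀ i, Integrable (F i) (volume.restrict (Set.Ioi 0)) := fun i =>
    ((MellinConvergent.comp_mul_left (hx i)).mpr hk.1).const_smul _
  have hre : (2 * s - 1 / 3 - 1).re = 2 * s.re - 4 / 3 := by simp; ring
  have hn : ∀ i, ∫ y in Set.Ioi (0 : ℝ), ‖F i y‖ = (‖A i‖ * x i ^ (-2 * s.re)) *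
      ∫ u in Set.Ioi (0 : ℝ), u ^ (2 * s.re - 4 / 3) * kk u := by
    intro i
    have hxi := hx i
    have h2 := integral_comp_mul_left_Ioi (fun u : ℝ => u ^ (2 * s.re - 4 / 3) * kk u) 0 hxi
    rw [mul_zero, smul_eq_mul] at h2
    have h3 : ∫ y in Set.Ioi (0 : ℝ), ‖F i y‖ = ∫ y in Set.Ioi (0 : ℝ),
        (‖A i‖ * x i ^ (-2 * s.re) * x i) * ((x i * y) ^ (2 * s.re - 4 / 3) * kk (x i * y)) := by
      refine setIntegral_congr_fun measurableSet_Ioi fun y hy => ?_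
      have hy : 0 < y := hy
      simp only [hF, smul_eq_mul, norm_mul, norm_real, Real.norm_eq_abs]
      rw [norm_cpow_eq_rpow_re_of_pos hy, hre, abs_of_pos (Real.rpow_pos_of_pos hxi _),
        abs_of_nonneg (hK.nonneg _ (mul_pos hxi hy)), Real.mul_rpow hxi.le hy.le]
      have : x i ^ (-1 / 3 : ℝ) = x i ^ (-2 * s.re) * x i * x i ^ (2 * s.re - 4 / 3) := by
        rw [← Real.rpow_add_one hxi.ne', ← Real.rpow_add hxi]; congr 1; ring
      rw [this]; ring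
    rw [h3, integral_const_mul, h2]
    field_simp
  have hsum := hasSum_integral_of_summable_integral_norm hint
    (by simp_rw [hn]; exact (hs _ h1).mul_right _)
  have e1 : ∀ i, ∫ y in Set.Ioi (0 : ℝ), F i y = GG s * (A i * (x i : ℂ) ^ (-2 * s)) := by
    intro i
    have hxi := hx i
    have h0 : (x i : ℂ) ≠ 0 := by exact_mod_cast hxi.ne'
    show mellin (fun y => (A i * ((x i ^ (-1 / 3 : ℝ) : ℝ) : ℂ)) • (kk (x i * y) : ℂ)) (2 * s - 1 / 3) = _
    rw [mellin_const_smul, mellin_comp_mul_left (fun u => (kk u : ℂ)) _ hxi, hk.2, ofReal_cpow hxi.le,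
      show -2 * s = ((-1 / 3 : ℝ) : ℂ) + -(2 * s - 1 / 3) by push_cast; ring, cpow_add _ _ h0]
    simp only [smul_eq_mul]; ring
  simp_rw [e1] at hsum
  unfold Dir
  rw [← tsum_mul_left, hsum.tsum_eq]
  unfold mellin Th
  congr 1
  funext y
  rw [smul_eq_mul, ← tsum_mul_left]
  refine tsum_congr fun i => ?_
  simp only [hF, smul_eq_mul]
  rw [mul_comm y]
  push_cast; ring

lemma mel_bd (f : ℝ → ℂ) (hf : ∀ w, MellinConvergent f w) (a b : ℝ) :
    ∃ C : ℝ, ∀ w : ℂ, a ≤ w.re → w.re ≤ b → ‖mellin f w‖ ≤ C := by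
  have h := (hf a).norm.add (hf b).norm
  refine ⟨_, fun w h1 h2 => norm_integral_le_of_norm_le h ?_⟩
  refine (ae_restrict_iff' measurableSet_Ioi).mpr (ae_of_all _ fun t ht => ?_)
  have ht : 0 < t := ht
  simp only [Pi.add_apply, norm_smul, norm_cpow_eq_rpow_re_of_pos ht, sub_re, ofReal_re, one_re]
  rw [← add_mul]
  refine mul_le_mul_of_nonneg_right ?_ (norm_nonneg _)
  rcases le_total t 1 with h3 | h3
  · exact (Real.rpow_le_rpow_of_exponent_ge ht h3 (by linarith)).trans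
      (le_add_of_nonneg_right (by positivity))
  · exact (Real.rpow_le_rpow_of_exponent_le h3 (by linarith)).trans
      (le_add_of_nonneg_left (by positivity))

lemma sg_ge : 1 ≤ sg := by
  unfold sg; nlinarith [Real.pi_gt_three]

/-- inverse gamma factor -/
def GI (s : ℂ) : ℂ :=
  2 / Real.pi * (sg : ℂ) ^ (s + 1 / 3) * ((Gamma (s + 1 / 3))⁻¹ * (Gamma (s + 2 / 3))⁻¹)

lemma sg0 : (sg : ℂ) ≠ 0 := by exact_mod_cast (show sg ≠ 0 by linarith [sg_ge])

lemma GI_diff : Differentiable ℂ GI := by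
  have h1 : Differentiable ℂ (fun s : ℂ => (sg : ℂ) ^ (s + 1 / 3)) := fun s =>
    DifferentiableAt.const_cpow (by fun_prop) (Or.inl sg0)
  have h4 : Differentiable ℂ (fun s : ℂ => (Gamma (s + 1 / 3))⁻¹) :=
    differentiable_one_div_Gamma.comp (f := fun s : ℂ => s + 1 / 3) (by fun_prop)
  have h5 : Differentiable ℂ (fun s : ℂ => (Gamma (s + 2 / 3))⁻¹) :=
    differentiable_one_div_Gamma.comp (f := fun s : ℂ => s + 2 / 3) (by fun_prop)
  exact (h1.const_mul _).mul (h4.mul h5)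

lemma GG_GI (s : ℂ) (hs : 0 < s.re) : GG s * GI s = 1 := by
  have h1 : Gamma (s + 1 / 3) ≠ 0 := Gamma_ne_zero_of_re_pos (by simp; linarith)
  have h2 : Gamma (s + 2 / 3) ≠ 0 := Gamma_ne_zero_of_re_pos (by simp; linarith)
  have hp : (Real.pi : ℂ) ≠ 0 := by exact_mod_cast Real.pi_ne_zero
  have h3 : (sg : ℂ) ^ (s + 1 / 3) ≠ 0 := by
    rw [Ne, cpow_eq_zero_iff, not_and_or]; exact Or.inl sg0
  unfold GG GI
  rw [show -s - 1 / 3 = -(s + 1 / 3) by ring, cpow_neg]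
  generalize Gamma (s + 1 / 3) = a at *
  generalize Gamma (s + 2 / 3) = b at *
  generalize (sg : ℂ) ^ (s + 1 / 3) = c at *
  field_simp

lemma GG_GI' (s : ℂ) : GG (1 - s) * GI s = gg s := by
  have hp : (Real.pi : ℂ) ≠ 0 := by exact_mod_cast Real.pi_ne_zero
  unfold GG GI gg
  rw [show 2 * s - 1 = (-(1 - s) - 1 / 3) + (s + 1 / 3) by ring,
    cpow_add (-(1 - s) - 1 / 3) (s + 1 / 3) sg0,
    show 1 - s + 1 / 3 = 4 / 3 - s by ring, show 1 - s + 2 / 3 = 5 / 3 - s by ring]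
  generalize (Gamma (s + 1 / 3))⁻¹ = a
  generalize (Gamma (s + 2 / 3))⁻¹ = b
  generalize (sg : ℂ) ^ (s + 1 / 3) = c
  generalize (sg : ℂ) ^ (-(1 - s) - 1 / 3) = d
  generalize Gamma (4 / 3 - s) = e
  generalize Gamma (5 / 3 - s) = f
  field_simp

lemma GI_bd (hG : GAM) (a b : ℝ) :
    ∃ C : ℝ, ∀ s : ℂ, a ≤ s.re → s.re ≤ b → ‖GI s‖ ≤ C * Real.exp (7 * |s.im|) := by
  obtain ⟨D, hD⟩ := hG.inv a (b + 1)
  refine ⟨‖(2 / Real.pi : ℂ)‖ * sg ^ (b + 1) * (D * D), fun s ha hb => ?_⟩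
  unfold GI
  rw [norm_mul, norm_mul, norm_mul]
  have hs : 0 < sg := by linarith [sg_ge]
  have e1 : ‖(sg : ℂ) ^ (s + 1 / 3)‖ ≤ sg ^ (b + 1) := by
    rw [norm_cpow_eq_rpow_re_of_pos hs]
    refine Real.rpow_le_rpow_of_exponent_le sg_ge ?_
    simp; linarith
  have e4 := hD (s + 1 / 3) (by simp; linarith) (by simp; linarith)
  have e5 := hD (s + 2 / 3) (by simp; linarith) (by simp; linarith)
  rw [show (s + 1 / 3).im = s.im by simp] at e4
  rw [show (s + 2 / 3).im = s.im by simp] at e5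
  calc _ ≤ ‖(2 / Real.pi : ℂ)‖ * sg ^ (b + 1) *
        ((D * Real.exp (7 / 2 * |s.im|)) * (D * Real.exp (7 / 2 * |s.im|))) :=
        mul_le_mul (mul_le_mul_of_nonneg_left e1 (norm_nonneg _))
          (mul_le_mul e4 e5 (norm_nonneg _) ((norm_nonneg _).trans e4)) (by positivity) (by positivity)
    _ = ‖(2 / Real.pi : ℂ)‖ * sg ^ (b + 1) * (D * D) *
        (Real.exp (7 / 2 * |s.im|) * Real.exp (7 / 2 * |s.im|)) := by ring
    _ = _ := by rw [← Real.exp_add]; congr 2; ring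

end MELM

open MELM in
theorem melS (hK : KK) (hG : GAM) : MELStmt := by
  intro ι ι' _ _ A x A' x' hx hx' hs hs' hfe
  let P : WeakFEPair ℂ :=
    { f := Th A x
      g := Th A' x'
      k := 4 / 3
      ε := 1
      f₀ := 0
      g₀ := 0
      hf_int := (Th_cont hK hx hs).locallyIntegrableOn measurableSet_Ioi
      hg_int := (Th_cont hK hx' hs').locallyIntegrableOn measurableSet_Ioi
      hk := by norm_num
      hε := one_ne_zero
      h_feq := fun y hy => by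
        have hy : 0 < y := hy
        rw [hfe _ (one_div_pos.mpr hy), one_div, inv_inv, Real.inv_rpow hy.le, ← Real.rpow_neg hy.le,
          one_mul, smul_eq_mul]
        norm_num
      hf_top := Th_top hK hx hs
      hg_top := Th_top hK hx' hs' }
  have hP : IsStrongFEPair P := ⟨rfl, rfl⟩
  have hL : P.Λ = mellin (Th A x) := hP.Λ_eq
  have hL' : P.symm.Λ = mellin (Th A' x') := hP.symm_Λ_eq
  refine ⟨fun s => mellin (Th A x) (2 * s - 1 / 3) * GI s, ?_, ?_, ?_, ?_⟩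
  · refine Differentiable.mul ?_ GI_diff
    rw [← hL]
    exact hP.differentiable_Λ.comp (by fun_prop)
  · intro a b
    obtain ⟨C, hC⟩ := mel_bd (Th A x) (fun w => (hP.hasMellin w).1) (2 * a - 1) (2 * b)
    obtain ⟨D, hD⟩ := GI_bd hG a b
    refine ⟨C * D, fun s h1 h2 => ?_⟩
    have h3 := hC (2 * s - 1 / 3) (by simp; linarith) (by simp; linarith)
    rw [norm_mul, mul_assoc]
    exact mul_le_mul h3 (hD s h1 h2) (norm_nonneg _) ((norm_nonneg _).trans h3)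
  · intro s h1
    simp only
    rw [mel_Th hK hx hs s h1, mul_right_comm, GG_GI s (by linarith), one_mul]
  · intro s h1
    have h2 := P.functional_equation (2 * (1 - s) - 1 / 3)
    rw [hL, hL', show ((P.k : ℝ) : ℂ) - (2 * (1 - s) - 1 / 3) = 2 * s - 1 / 3 by
      simp only [P]; push_cast; ring] at h2
    simp only
    rw [h2, mel_Th hK hx' hs' (1 - s) (by simp; linarith), ← GG_GI']
    simp only [P, one_smul]
    ring

end Vale.Agent.P026
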