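import Vale.Agent.P026.Stm2

/-! The Airy-type integral: bound and limit. -/

noncomputable section
open Complex MeasureTheory Filter Topology Set
open scoped Classical ComplexConjugate

namespace Vale.Agent.P026

namespace AIM

theorem sg_pos : 0 < sg := by unfold sg; positivity

theorem int1 {c : ℝ} (hc : 0 < c) :
    IntegrableOn (fun s : ℝ => s ^ (-1 / 3 : ℝ) / (s + c)) (Ioi 0) := by
  rw [← Ioc_union_Ioi_eq_Ioi zero_le_one, integrableOn_union]
  have m : Measurable fun s : ℝ => s ^ (-1 / 3 : ℝ) / (s + c) := by fun_prop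
  constructor
  · refine (((intervalIntegrable_iff_integrableOn_Ioc_of_le zero_le_one).1
      (intervalIntegral.intervalIntegrable_rpow' (r := -1 / 3) (by norm_num))).div_const c).mono'
      m.aestronglyMeasurable ((ae_restrict_mem measurableSet_Ioc).mono fun s hs => ?_)
    have := hs.1
    rw [Real.norm_of_nonneg (by positivity)]
    gcongr
    linarith
  · refine (integrableOn_Ioi_rpow_of_lt (a := -1 / 3 - 1) (by norm_num) one_pos).mono'
      m.aestronglyMeasurable ((ae_restrict_mem measurableSet_Ioi).mono fun s (hs : 1 < s) => ?_)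
    have : 0 < s := by linarith
    rw [Real.norm_of_nonneg (by positivity), Real.rpow_sub_one this.ne']
    gcongr
    linarith

theorem scale1 {c : ℝ} (hc : 0 < c) : ∫ s in Ioi (0 : ℝ), s ^ (-1 / 3 : ℝ) / (s + c) =
    c ^ (-1 / 3 : ℝ) * ∫ s in Ioi (0 : ℝ), s ^ (-1 / 3 : ℝ) / (s + 1) := by
  have := integral_comp_mul_left_Ioi' (fun s : ℝ => s ^ (-1 / 3 : ℝ) / (s + c)) 0 hc
  rw [mul_zero] at this
  rw [← this, smul_eq_mul, ← integral_const_mul, ← integral_const_mul]
  refine setIntegral_congr_fun measurableSet_Ioi fun s (hs : 0 < s) => ?_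
  rw [Real.mul_rpow hc.le hs.le]
  field_simp

/-- the integrand after the Gaussian integration -/
def W (b ε s : ℝ) : ℝ := s ^ (-1 / 3 : ℝ) * (Real.pi / (s + ε) * Real.exp (-(b / (s + ε))))

theorem W_le {b ε s : ℝ} (hb : 0 < b) (hε : 0 ≤ ε) (hs : 0 < s) :
    ‖W b ε s‖ ≤ 2 * Real.pi * (s ^ (-1 / 3 : ℝ) / (s + b)) := by
  have t : 0 < s + ε := by linarith
  have a1 : Real.exp (-(b / (s + ε))) ≤ (s + ε) / (s + ε + b) := by
    rw [Real.exp_neg, inv_le_comm₀ (Real.exp_pos _) (by positivity), inv_div, add_div,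
      div_self t.ne', add_comm]
    exact Real.add_one_le_exp _
  rw [W, Real.norm_of_nonneg (by positivity)]
  calc _ ≤ s ^ (-1 / 3 : ℝ) * (Real.pi / (s + ε) * ((s + ε) / (s + ε + b))) := by gcongr
    _ = Real.pi * (s ^ (-1 / 3 : ℝ) / (s + ε + b)) := by field_simp
    _ ≤ _ := by
      gcongr
      · linarith [Real.pi_pos]
      · linarith

theorem W_zero {b : ℝ} (hb : 0 < b) : ∫ s in Ioi (0 : ℝ), W b 0 s =
    Real.pi * (b ^ (-1 / 3 : ℝ) * Real.Gamma (1 / 3)) := by
  have := Real.integral_rpow_mul_exp_neg_mul_Ioi (a := 1 / 3) (by norm_num) hb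
  rw [one_div b, Real.inv_rpow hb.le, ← Real.rpow_neg hb.le, ← neg_div] at this
  rw [← this, ← integral_comp_rpow_Ioi
    (fun t : ℝ => t ^ (1 / 3 - 1 : ℝ) * Real.exp (-(b * t))) (p := -1) (by norm_num),
    ← integral_const_mul]
  refine setIntegral_congr_fun measurableSet_Ioi fun s (hs : 0 < s) => ?_
  simp only [W, smul_eq_mul, add_zero]
  rw [← Real.rpow_mul hs.le, Real.rpow_neg_one, abs_neg, abs_one, one_mul, ← mul_assoc (s ^ _) (s ^ _),
    ← Real.rpow_add hs, show (-1 - 1 + -1 * (1 / 3 - 1) : ℝ) = -1 / 3 - 1 by norm_num,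
    Real.rpow_sub_one hs.ne', div_eq_mul_inv b]
  ring

theorem gauss (hG : GFStmt) {t : ℝ} (ht : 0 < t) (a : ℂ) :
    ∫ u : ℂ, cexp (-(t * ‖u‖ ^ 2 : ℝ)) * psi (a * u) =
      (Real.pi / t * Real.exp (-(sg * ‖a‖ ^ 2 / t)) : ℝ) := by
  have := hG t⁻¹ (-a) (inv_pos.2 ht)
  simp only [F1, mul_neg, neg_neg, div_inv_eq_mul, norm_neg] at this
  simp only [mul_comm t, mul_comm a, this]
  push_cast
  ring_nf

theorem eq (hB : Bas) (hG : GFStmt) (h1 : AI1Stmt) {X : ℝ} (hX : 0 < X) (a : ℂ) :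
    Ai X a = ((3 * Real.Gamma (2 / 3))⁻¹ * ∫ s in Ioi (0 : ℝ), W (sg * ‖a‖ ^ 2) (X ^ 6) s : ℝ) := by
  have he : 0 < X ^ 6 := by positivity
  have hg : 0 < Real.Gamma (2 / 3) := Real.Gamma_pos_of_pos (by norm_num)
  have c := hB.b1.cont_psi
  set f : ℂ → ℝ → ℂ := fun u s => ((s ^ (-1 / 3 : ℝ) : ℝ) : ℂ) *
    (cexp (-((s + X ^ 6) * ‖u‖ ^ 2 : ℝ)) * psi (a * u)) with hf
  have nf : ∀ s, 0 < s → ∀ u, ‖f u s‖ =
      s ^ (-1 / 3 : ℝ) * Real.exp (-((s + X ^ 6) * ‖u‖ ^ 2)) := fun s hs u => by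
    simp only [hf]
    rw [norm_mul, norm_mul, hB.b1.norm_psi, mul_one, Complex.norm_real,
      Real.norm_of_nonneg (by positivity), ← ofReal_neg, Complex.norm_exp, ofReal_re]
  have g0 : ∀ t, 0 < t → ∫ u : ℂ, Real.exp (-(t * ‖u‖ ^ 2)) = Real.pi / t := fun t ht => by
    have := gauss hG ht 0
    simp only [zero_mul, hB.b1.psi_zero, mul_one, norm_zero, ← ofReal_neg, ← ofReal_exp,
      integral_complex_ofReal, ofReal_inj] at this
    simpa using this
  have i1 : Integrable (Function.uncurry f) (volume.prod (volume.restrict (Ioi 0))) := by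
    refine (integrable_prod_iff' (Measurable.aestronglyMeasurable ?_)).2
      ⟨(ae_restrict_mem measurableSet_Ioi).mono fun s (h : 0 < s) => ?_, ?_⟩
    · show Measurable fun p : ℂ × ℝ => f p.1 p.2
      simp only [hf]
      fun_prop
    · refine ((Integrable.of_integral_ne_zero (f := fun u : ℂ =>
        Real.exp (-((s + X ^ 6) * ‖u‖ ^ 2))) (by rw [g0 _ (by positivity)]; positivity)).const_mul
        (s ^ (-1 / 3 : ℝ))).mono' (Continuous.aestronglyMeasurable ?_)
        (Eventually.of_forall fun u => (nf s h u).le)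
      show Continuous fun u : ℂ => f u s
      simp only [hf]
      fun_prop
    · refine IntegrableOn.congr_fun ((int1 he).const_mul Real.pi) (fun s (h : 0 < s) => ?_)
        measurableSet_Ioi
      simp only [Function.uncurry, nf s h, integral_const_mul]
      rw [g0 _ (by positivity)]
      ring
  have e1 : ∀ᵐ u : ℂ, cexp (-(X ^ 6 * ‖u‖ ^ 2 : ℝ)) * ((‖u‖ ^ (-4 / 3 : ℝ) : ℝ) : ℂ) * psi (a * u) =
      ((Real.Gamma (2 / 3))⁻¹ : ℝ) * ∫ s in Ioi (0 : ℝ), f u s := by
    filter_upwards [Measure.ae_ne volume 0] with u hu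
    have n : 0 < ‖u‖ := norm_pos_iff.2 hu
    have := Real.integral_rpow_mul_exp_neg_mul_Ioi (a := 2 / 3) (r := ‖u‖ ^ 2) (by norm_num)
      (by positivity)
    rw [one_div, Real.inv_rpow (by positivity), ← Real.rpow_natCast_mul n.le,
      ← Real.rpow_neg n.le, show -(((2 : ℕ) : ℝ) * (2 / 3)) = -4 / 3 by norm_num,
      show (2 / 3 - 1 : ℝ) = -1 / 3 by norm_num] at this
    have e : ∫ s in Ioi (0 : ℝ), f u s = (∫ s in Ioi (0 : ℝ),
        s ^ (-1 / 3 : ℝ) * Real.exp (-(‖u‖ ^ 2 * s)) : ℝ) *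
        (cexp (-(X ^ 6 * ‖u‖ ^ 2 : ℝ)) * psi (a * u)) := by
      rw [← integral_complex_ofReal, ← integral_mul_const]
      refine setIntegral_congr_fun measurableSet_Ioi fun s _ => ?_
      simp only [hf]
      push_cast
      rw [show -(((s : ℂ) + X ^ 6) * ‖u‖ ^ 2) = -(‖u‖ ^ 2 * s) + -(X ^ 6 * ‖u‖ ^ 2) by ring,
        Complex.exp_add]
      ring
    rw [e, this]
    have : ((Real.Gamma (2 / 3) : ℝ) : ℂ) ≠ 0 := ofReal_ne_zero.2 hg.ne'
    push_cast
    field_simp
  rw [h1 X a hX, integral_congr_ae e1, integral_const_mul, integral_integral_swap i1, ofReal_mul,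
    ← integral_complex_ofReal, ← mul_assoc]
  congr 1
  · push_cast; rw [mul_inv]
  · refine setIntegral_congr_fun measurableSet_Ioi fun s (h : 0 < s) => ?_
    simp only [hf, integral_const_mul]
    rw [gauss hG (by positivity), W, ofReal_mul (s ^ _)]

end AIM

open AIM in
theorem aiS (hB : Bas) (hG : GFStmt) (h1 : AI1Stmt) : AIStmt := by
  have hg : 0 < Real.Gamma (2 / 3) := Real.Gamma_pos_of_pos (by norm_num)
  have hg' : 0 < Real.Gamma (1 / 3) := Real.Gamma_pos_of_pos (by norm_num)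
  have hs := sg_pos
  refine ⟨(3 * Real.Gamma (2 / 3))⁻¹ * (Real.pi * (sg ^ (-1 / 3 : ℝ) * Real.Gamma (1 / 3))),
    (3 * Real.Gamma (2 / 3))⁻¹ * (2 * Real.pi * (sg ^ (-1 / 3 : ℝ) *
      ∫ s in Ioi (0 : ℝ), s ^ (-1 / 3 : ℝ) / (s + 1))), by positivity, fun a ha => ?_⟩
  have n : 0 < ‖a‖ := norm_pos_iff.2 ha
  have b : 0 < sg * ‖a‖ ^ 2 := by positivity
  have e : (sg * ‖a‖ ^ 2) ^ (-1 / 3 : ℝ) = sg ^ (-1 / 3 : ℝ) * ‖a‖ ^ (-2 / 3 : ℝ) := by
    rw [Real.mul_rpow hs.le (by positivity), ← Real.rpow_natCast_mul n.le]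
    norm_num
  have bd := (int1 b).const_mul (2 * Real.pi)
  refine ⟨fun X hX => ?_, ?_⟩
  · rw [AIM.eq hB hG h1 hX, Complex.norm_real, norm_mul, Real.norm_of_nonneg (by positivity),
      mul_assoc]
    refine mul_le_mul_of_nonneg_left ((norm_integral_le_of_norm_le bd
      ((ae_restrict_mem measurableSet_Ioi).mono fun s hs => W_le b (by positivity) hs)).trans_eq ?_)
      (by positivity)
    rw [integral_const_mul, scale1 b, e]
    ring
  · refine Tendsto.congr' (eventually_mem_nhdsWithin.mono fun X hX => (AIM.eq hB hG h1 hX a).symm)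
      ((continuous_ofReal.tendsto _).comp ?_)
    have t := tendsto_integral_filter_of_dominated_convergence (μ := volume.restrict (Ioi 0))
      (l := 𝓝[>] (0 : ℝ)) (F := fun X s => W (sg * ‖a‖ ^ 2) (X ^ 6) s)
      (f := fun s => W (sg * ‖a‖ ^ 2) 0 s) _
      (Eventually.of_forall fun X => Measurable.aestronglyMeasurable (by unfold W; fun_prop))
      (Eventually.of_forall fun X => (ae_restrict_mem measurableSet_Ioi).mono fun s hs =>
        W_le b (by positivity) hs) bd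
      ((ae_restrict_mem measurableSet_Ioi).mono fun s (h : 0 < s) => by
        refine tendsto_nhdsWithin_of_tendsto_nhds ?_
        have : ContinuousAt (fun X : ℝ => W (sg * ‖a‖ ^ 2) (X ^ 6) s) 0 := by
          have : s + (0 : ℝ) ^ 6 ≠ 0 := by positivity
          unfold W
          fun_prop (disch := assumption)
        simpa [ContinuousAt] using this)
    rw [W_zero b, e] at t
    exact (t.const_mul _).congr' (Eventually.of_forall fun _ => rfl) |>.trans (by
      rw [show (3 * Real.Gamma (2 / 3))⁻¹ * (Real.pi * (sg ^ (-1 / 3 : ℝ) * ‖a‖ ^ (-2 / 3 : ℝ) *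
        Real.Gamma (1 / 3))) = (3 * Real.Gamma (2 / 3))⁻¹ * (Real.pi * (sg ^ (-1 / 3 : ℝ) *
        Real.Gamma (1 / 3))) * ‖a‖ ^ (-2 / 3 : ℝ) by ring])

end Vale.Agent.P026
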