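import Vale.Agent.P026.Stm2

/-! The cube substitution in the Airy-type integral. -/

noncomputable section
open Complex MeasureTheory Filter Topology Set
open scoped Classical ComplexConjugate

namespace Vale.Agent.P026

namespace AI1M

/-- circular integral -/
def G (a : ℂ) (ρ : ℝ) : ℂ := ∫ θ in Ioo (-Real.pi) Real.pi, psi (a * (ρ * cexp (θ * I)))

theorem symm_eq (p : ℝ × ℝ) : Complex.polarCoord.symm p = p.1 * cexp (p.2 * I) := by
  rw [Complex.polarCoord_symm_apply, exp_mul_I]; push_cast; ring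

/-- polar coordinates for a radial weight -/
theorem polar (hB : Bas) (φ : ℝ → ℝ) (g : ℂ → ℂ) (hg : Continuous g)
    (hφ : IntegrableOn (fun r => r * φ r) (Ioi 0)) :
    ∫ z : ℂ, (φ ‖z‖ : ℂ) * psi (g z) = ∫ r in Ioi (0 : ℝ), ((r * φ r : ℝ) : ℂ) *
      ∫ θ in Ioo (-Real.pi) Real.pi, psi (g (r * cexp (θ * I))) := by
  have e : ∀ p ∈ Ioi (0 : ℝ) ×ˢ Ioo (-Real.pi) Real.pi,
      p.1 • ((φ ‖Complex.polarCoord.symm p‖ : ℂ) * psi (g (Complex.polarCoord.symm p))) =
        ((p.1 * φ p.1 : ℝ) : ℂ) * psi (g (p.1 * cexp (p.2 * I))) := fun p hp => by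
    rw [Complex.norm_polarCoord_symm, abs_of_pos hp.1, symm_eq, real_smul]
    push_cast; ring
  have m : MeasurableSet (Ioi (0 : ℝ) ×ˢ Ioo (-Real.pi) Real.pi) :=
    measurableSet_Ioi.prod measurableSet_Ioo
  rw [← Complex.integral_comp_polarCoord_symm, polarCoord_target, setIntegral_congr_fun m e,
    Measure.volume_eq_prod, setIntegral_prod]
  · refine setIntegral_congr_fun measurableSet_Ioi fun r _ => ?_
    simp only [integral_const_mul]
  · rw [IntegrableOn, ← Measure.prod_restrict]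
    have i := (hφ.ofReal (𝕜 := ℂ)).mul_prod (integrableOn_const (C := (1 : ℂ))
      (s := Ioo (-Real.pi) Real.pi) (μ := volume) (by simp))
    simp only [mul_one] at i
    have c := hB.b1.cont_psi
    exact i.mul_bdd (c := 1) (Continuous.aestronglyMeasurable (by fun_prop))
      (Eventually.of_forall fun p => (hB.b1.norm_psi _).le)

theorem cube (hB : Bas) (a : ℂ) (r : ℝ) :
    ∫ θ in Ioo (-Real.pi) Real.pi, psi (a * (r * cexp (θ * I)) ^ 3) = G a (r ^ (3 : ℝ)) := by
  have pi := Real.pi_pos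
  set h : ℝ → ℂ := fun θ => psi (a * ((r ^ (3 : ℝ) : ℝ) * cexp (θ * I))) with hh
  have c := hB.b1.cont_psi
  have hc : Continuous h := by simp only [hh]; fun_prop
  have per : Function.Periodic h (2 * Real.pi) := fun θ => by
    simp only [hh]
    push_cast
    rw [add_mul, Complex.exp_add, exp_two_pi_mul_I, mul_one]
  have e : ∀ θ : ℝ, psi (a * (r * cexp (θ * I)) ^ 3) = h (3 * θ) := fun θ => by
    simp only [hh]
    rw [mul_pow, ← Complex.exp_nat_mul, show (3 : ℝ) = (3 : ℕ) by norm_num, Real.rpow_natCast]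
    push_cast
    ring_nf
  simp only [e]
  rw [G, ← integral_Ioc_eq_integral_Ioo, ← integral_Ioc_eq_integral_Ioo,
    ← intervalIntegral.integral_of_le (by linarith), ← intervalIntegral.integral_of_le (by linarith),
    intervalIntegral.integral_comp_mul_left h three_ne_zero]
  have a1 := per.intervalIntegral_add_zsmul_eq 3 (3 * -Real.pi) fun _ _ => hc.intervalIntegrable _ _
  have a2 := per.intervalIntegral_add_eq (3 * -Real.pi) (-Real.pi)
  rw [show 3 * -Real.pi + (3 : ℤ) • (2 * Real.pi) = 3 * Real.pi by simp; ring, a2,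
    show -Real.pi + 2 * Real.pi = Real.pi by ring] at a1
  rw [a1]
  simp [hh]

end AI1M

open AI1M in
theorem ai1S (hB : Bas) : AI1Stmt := by
  intro X a hX
  have b : 0 < X ^ 6 := by positivity
  have l := polar hB (fun r => Real.exp (-((X * r) ^ 6))) (fun Y => a * Y ^ 3) (by fun_prop)
    ((integrableOn_rpow_mul_exp_neg_mul_rpow (s := 1) (p := 6) (by norm_num) (by norm_num) b).congr_fun
      (fun r (h : 0 < r) => by
        simp only [Real.rpow_one]
        rw [show (6 : ℝ) = (6 : ℕ) by norm_num, Real.rpow_natCast, mul_pow, neg_mul])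
      measurableSet_Ioi)
  have r := polar hB (fun r => Real.exp (-(X ^ 6 * r ^ 2)) * r ^ (-4 / 3 : ℝ)) (fun u => a * u)
    (by fun_prop)
    ((integrableOn_rpow_mul_exp_neg_mul_rpow (s := -1 / 3) (p := 2) (by norm_num) (by norm_num)
      b).congr_fun (fun r (h : 0 < r) => by
        simp only
        rw [show (-1 / 3 : ℝ) = 1 + -4 / 3 by norm_num, Real.rpow_add h, Real.rpow_one,
          Real.rpow_two, neg_mul]
        ring) measurableSet_Ioi)
  simp only [ofReal_mul, ofReal_exp, ofReal_neg] at l r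
  rw [Ai, l]
  simp only [ofReal_mul, r, cube hB]
  rw [← integral_const_mul]
  refine Eq.trans ?_ (integral_comp_rpow_Ioi (p := 3) _ three_ne_zero)
  refine setIntegral_congr_fun measurableSet_Ioi fun x (h : 0 < x) => ?_
  have e1 : (x ^ (3 : ℝ)) ^ (-4 / 3 : ℝ) = (x ^ 4)⁻¹ := by
    rw [← Real.rpow_mul h.le, show (3 : ℝ) * (-4 / 3) = -(4 : ℕ) by norm_num, Real.rpow_neg h.le,
      Real.rpow_natCast]
  have e2 : x ^ (3 : ℝ) = x ^ 3 := by
    rw [show (3 : ℝ) = (3 : ℕ) by norm_num, Real.rpow_natCast]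
  have h' : (x : ℂ) ≠ 0 := ofReal_ne_zero.2 h.ne'
  simp only [real_smul, e1]
  rw [show (3 : ℝ) - 1 = 2 by norm_num, Real.rpow_two]
  simp only [G, e2]
  push_cast
  rw [show ((X : ℂ) * x) ^ 6 = X ^ 6 * (x ^ 3) ^ 2 by ring, abs_of_pos three_pos]
  push_cast
  generalize (∫ θ in Ioo (-Real.pi) Real.pi, psi (a * (x ^ 3 * cexp (θ * I)))) = J
  field_simp

end Vale.Agent.P026
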