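import Vale.Agent.P026.Stm1

/-! P026, module P9: supplements to cubic reciprocity. -/

noncomputable section
open Complex
open scoped Classical ComplexConjugate

namespace Vale.Agent.P026

namespace P9M

theorem om3 : om ^ 3 = 1 := by linear_combination (om - 1) * om_sq

variable (hB : Bas)
include hB

theorem cub_w (c : O) (hc : Prim c) : cub wO c = om ^ ((Nn c - 1) / 3) := by
  refine hB.b2.ind1 (fun c => cub wO c = om ^ ((Nn c - 1) / 3)) ?_ ?_ c hc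
  · rw [hB.b6.unit_r _ _ isUnit_one, (hB.b1.unit_iff 1).1 isUnit_one]
    rfl
  · intro p a hp pp ha ih
    rw [hB.b6.mul_r _ _ _ hp.ne_zero (hB.b2.ne a ha), ih,
      hB.b6.spec' wO p _ hp (hB.b2.cop p pp) (by rw [sub_self]; exact dvd_zero _), hB.b1.Nn_mul]
    obtain ⟨s, hs⟩ : ∃ s, Nn p = 3 * s + 1 := ⟨Nn p / 3, by have := hB.b2.N_mod p pp; omega⟩
    obtain ⟨t, ht⟩ : ∃ t, Nn a = 3 * t + 1 := ⟨Nn a / 3, by have := hB.b2.N_mod a ha; omega⟩
    rw [hs, ht, show (3 * s + 1) * (3 * t + 1) = 3 * (3 * (s * t) + (s + t)) + 1 by ring]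
    simp only [Nat.add_sub_cancel, Nat.mul_div_cancel_left _ (by norm_num : 0 < 3)]
    rw [pow_add om (3 * _), pow_mul, om3, one_pow, one_mul, pow_add]

theorem w_congr {c c' : O} (hc : Prim c) (hc' : Prim c') (h : 9 ∣ c - c') :
    cub wO c = cub wO c' := by
  rw [cub_w hB c hc, cub_w hB c' hc']
  obtain ⟨m, hm⟩ := h
  have e : nz c = nz c' + 9 * (2 * c'.re * m.re - c'.re * m.im - c'.im * m.re + 2 * c'.im * m.im +
      9 * nz m) := by
    have e1 : c = c' + ((9 : ℤ) : O) * m := by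
      push_cast
      rw [← hm]
      ring
    rw [e1]
    simp only [nz, QuadraticAlgebra.re_add, QuadraticAlgebra.im_add, QuadraticAlgebra.re_mul,
      QuadraticAlgebra.im_mul, QuadraticAlgebra.re_intCast, QuadraticAlgebra.im_intCast,
      Int.cast_id]
    ring
  have a1 := hB.b2.N_mod c hc
  have a2 := hB.b2.N_mod c' hc'
  have a3 := nz_nonneg c
  have a4 := nz_nonneg c'
  rw [pow_eq_pow_mod _ om3, pow_eq_pow_mod ((Nn c' - 1) / 3) om3]
  congr 1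
  unfold Nn at *
  omega

theorem unit_congr {c c' e : O} (hc : Prim c) (hc' : Prim c') (h : 9 ∣ c - c') (he : IsUnit e) :
    cub e c = cub e c' := by
  have k := hB.b2.cop c hc
  have k' := hB.b2.cop c' hc'
  have h6 := hB.b6
  have hw := w_congr hB hc hc' h
  have h1 := (hB.b1.units e).1 he
  simp only [Finset.mem_insert, Finset.mem_singleton] at h1
  rcases h1 with rfl | rfl | rfl | rfl | rfl | rfl <;>
    simp only [h6.neg_l _ _ k, h6.neg_l _ _ k', h6.pow_l _ _ _ k, h6.pow_l _ _ _ k', h6.one_l, hw]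

theorem lam_cube {c : O} (hc : Prim c) : cub lam c ^ 3 = 1 :=
  hB.b6.cube _ _ ((hB.b2.cop c hc).symm.of_isCoprime_of_dvd_left
    ⟨-lam, by linear_combination hB.b1.lam_sq⟩)

theorem lam_a (hC : CRStmt) (m : O) (hm : ¬ lam ∣ m) : cub lam (1 + 9 * m) = 1 := by
  have h6 := hB.b6
  have hc : Prim (1 + 9 * m) := ⟨3 * m, by ring⟩
  have k := hB.b2.cop _ hc
  obtain ⟨u, hu, hs⟩ := hB.b2.ex m ((hB.b2.cop_iff m).2 hm)
  have e1 : cub u (1 + 9 * m) = 1 := by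
    rw [unit_congr hB hc hB.b2.one ⟨m, by ring⟩ hu, h6.unit_r _ _ isUnit_one]
  have e2 : cub (u * m) (1 + 9 * m) = 1 := by
    obtain ⟨v, hv⟩ := hu.exists_left_inv
    rw [hC _ _ hs hc, hB.b4.pe_congr _ _ (1 + 9 * m) 1 (h6.pe (u * m))
      ⟨9 * v, by linear_combination (-9 * m) * hv⟩, h6.one_l]
  rw [h6.mul_l _ _ _ k, e1, one_mul] at e2
  have e3 : cub (lam ^ 4 * m) (1 + 9 * m) = 1 := by
    rw [hB.b4.pe_congr _ _ (lam ^ 4 * m) (-1) (h6.pe (1 + 9 * m))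
      ⟨1, by linear_combination (lam ^ 2 - 3) * m * hB.b1.lam_sq⟩, h6.neg_l _ _ k, h6.one_l]
  rwa [h6.mul_l _ _ _ k, e2, mul_one, h6.pow_l _ _ _ k, pow_succ, lam_cube hB hc, one_mul] at e3

theorem lam_b (hC : CRStmt) (m : O) : cub lam (1 + 9 * m) = 1 := by
  by_cases hm : lam ∣ m
  · have hc : Prim (1 + 9 * m) := ⟨3 * m, by ring⟩
    have ht : Prim (1 + 9 * 1) := ⟨3, by ring⟩
    have h1 := lam_a hB hC 1 hB.b1.prime_lam.not_dvd_one
    have h2 := lam_a hB hC (1 + 10 * m) fun h =>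
      hB.b1.prime_lam.not_dvd_one ((dvd_add_left (hm.mul_left 10)).1 h)
    rwa [show 1 + 9 * (1 + 10 * m) = (1 + 9 * 1) * (1 + 9 * m) by ring,
      hB.b6.mul_r _ _ _ (hB.b2.ne _ ht) (hB.b2.ne _ hc), h1, one_mul] at h2
  · exact lam_a hB hC m hm

theorem lam_congr (hC : CRStmt) {c c' : O} (hc : Prim c) (hc' : Prim c') (h : 9 ∣ c - c') :
    cub lam c = cub lam c' := by
  obtain ⟨m, hm⟩ := h
  obtain ⟨t, ht⟩ := id hc'
  have h3 : Prim (1 - 3 * t) := ⟨-t, by ring⟩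
  have e1 := lam_b hB hC (-t ^ 2)
  have e2 := lam_b hB hC (m * (1 - 3 * t) - t ^ 2)
  rw [show 1 + 9 * (-t ^ 2) = c' * (1 - 3 * t) by linear_combination (3 * t - 1) * ht,
    hB.b6.mul_r _ _ _ (hB.b2.ne _ hc') (hB.b2.ne _ h3)] at e1
  rw [show 1 + 9 * (m * (1 - 3 * t) - t ^ 2) = c * (1 - 3 * t) by
      linear_combination (3 * t - 1) * ht + (3 * t - 1) * hm,
    hB.b6.mul_r _ _ _ (hB.b2.ne _ hc) (hB.b2.ne _ h3)] at e2
  exact mul_right_cancel₀ (right_ne_zero_of_mul_eq_one e1) (e2.trans e1.symm)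

end P9M

open P9M in
theorem p9S (hB : Bas) (hC : CRStmt) : P9Stmt := by
  intro D c c' hD hc hc' h
  obtain ⟨e, v, D0, he, h0, rfl⟩ := hB.b2.dec D hD
  have h9 : 9 ∣ c - c' := (dvd_mul_right _ _).trans h
  have k := hB.b2.cop c hc
  have k' := hB.b2.cop c' hc'
  have h6 := hB.b6
  rw [h6.mul_l _ _ _ k, h6.mul_l _ _ _ k, h6.mul_l _ _ _ k', h6.mul_l _ _ _ k', h6.pow_l _ _ _ k,
    h6.pow_l _ _ _ k', unit_congr hB hc hc' h9 he, lam_congr hB hC hc hc' h9, hC _ _ h0 hc,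
    hC _ _ h0 hc', hB.b4.pe_congr _ _ c c' (h6.pe D0)
      (((dvd_mul_left _ _).trans (dvd_mul_left _ _)).trans h)]

end Vale.Agent.P026
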