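import Vale.Agent.P026.Stm1

/-! P026 module SE2: stationary phase. -/

noncomputable section
open Complex
open scoped Classical ComplexConjugate

namespace Vale.Agent.P026

namespace SE2M

theorem eQ_congr (hB : Bas) {a b c : O} (h : c ∣ a - b) : eQ a c = eQ b c := by
  have := hB.b1.eQ_add b (a - b) c
  rwa [add_sub_cancel, hB.b1.eQ_dvd _ _ h, mul_one] at this

theorem N_ne (hB : Bas) {c : O} (hc : c ≠ 0) : (N c : ℂ) ≠ 0 := by
  have := hB.b1.N_one_le c hc
  exact_mod_cast (by linarith : N c ≠ 0)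

theorem card (hB : Bas) {c : O} (hc : c ≠ 0) (z : ℂ) : ∑ _r ∈ Rs c, z = N c * z := by
  rw [Finset.sum_const, hB.b4.card c hc, nsmul_eq_mul, N, ofReal_natCast]

theorem shift (hB : Bas) {c : O} (hc : c ≠ 0) {F : O → ℂ} (hF : Pe c F) (a : O) :
    ∑ r ∈ Rs c, F (r + a) = ∑ r ∈ Rs c, F r := by
  simpa using hB.b4.affine c F 1 a hc hF isCoprime_one_left

/-- sum over the multiples of `c1` -/
theorem sum_dvd (hB : Bas) {c1 c2 : O} (h1 : c1 ≠ 0) (h2 : c2 ≠ 0) {F : O → ℂ}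
    (hF : Pe (c1 * c2) F) :
    ∑ r ∈ Rs (c1 * c2), (if c1 ∣ r then F r else 0) = ∑ a ∈ Rs c2, F (c1 * a) := by
  rw [hB.b4.lift c1 c2 _ h1 h2 fun a m => by
    rw [hF, mul_assoc]; simp only [dvd_add_left (dvd_mul_right c1 _)]]
  obtain ⟨r0, hr0, k, hk⟩ := hB.b4.ex c1 0 h1
  simp only [dvd_add_left (dvd_mul_right c1 _)]
  rw [Finset.sum_eq_single_of_mem r0 hr0 fun r hr hne => ?_]
  · have e : r0 = c1 * (-k) := by linear_combination -hk
    simp only [e, dvd_mul_right, if_true, ← mul_add]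
    rw [← shift hB h2 (F := fun a => F (c1 * a)) (fun a m => by
      simp only [mul_add, ← mul_assoc]; exact hF _ _) (-k)]
    simp only [add_comm]
  · rw [Finset.sum_eq_zero fun _ _ => if_neg fun h => hne ?_]
    exact hB.b4.uniq c1 r r0 h1 hr hr0 (by
      have : r - r0 = r + c1 * k := by linear_combination hk
      rw [this]; exact dvd_add h (dvd_mul_right _ _))

theorem cdvd {c a b : O} (h : IsCoprime c a) : c ∣ a * b ↔ c ∣ b :=
  ⟨h.dvd_of_dvd_mul_left, fun e => e.mul_left a⟩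

theorem main (hB : Bas) {p A c0 c1 : O} (i : ℕ) (hp : Prime p) (h3 : Prim p) (hA : ¬ p ∣ A)
    (h0 : c0 ≠ 0) (h1 : c1 ≠ 0) (h01 : c0 ∣ c1) (hp1 : p ∣ c1)
    (cp : ∀ a, ¬ p ∣ a → IsCoprime c1 a) :
    ∑ r ∈ Rs (c1 * (c1 * c0)), ∑ w ∈ Rs (c1 * (c1 * c0)), (if p ∣ r * w then 0 else
      cub (r ^ 2 * w) p ^ i * eQ (-(A * (r * w * (r + w - 3)))) (c1 * (c1 * c0))) =
      (N (c1 * (c1 * c0)) : ℂ) * eQ A (c1 * (c1 * c0)) := by
  have h2 := mul_ne_zero h1 h0
  have hM := mul_ne_zero h1 h2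
  set M := c1 * (c1 * c0) with hMe
  set G : O → O → ℂ := fun r w => if p ∣ r * w then 0 else
      cub (r ^ 2 * w) p ^ i * eQ (-(A * (r * w * (r + w - 3)))) M with hG
  have p3 : ¬ p ∣ 3 := fun h => hp.not_isUnit ((hB.b2.cop p h3).isUnit_of_dvd' dvd_rfl h)
  have key : ∀ r w a b, G (r + c1 * c0 * a) (w + c1 * c0 * b) = G r w *
      (eQ (-(A * (w * (2 * r + w - 3))) * a) c1 * eQ (-(A * (r * (r + 2 * w - 3))) * b) c1) := by
    intro r w a b
    obtain ⟨k, hk⟩ := hp1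
    have e1 : p ∣ (r + c1 * c0 * a) * (w + c1 * c0 * b) ↔ p ∣ r * w := by
      rw [show (r + c1 * c0 * a) * (w + c1 * c0 * b) =
        r * w + p * (k * c0 * (a * w + b * r + c1 * c0 * a * b)) by rw [hk]; ring]
      exact dvd_add_left (dvd_mul_right _ _)
    simp only [hG, e1]
    split_ifs
    · simp
    · rw [hB.b4.pe_congr p _ ((r + c1 * c0 * a) ^ 2 * (w + c1 * c0 * b)) (r ^ 2 * w) (hB.b6.pe p)
        ⟨k * c0 * (r ^ 2 * b + (2 * r * a + c1 * c0 * a ^ 2) * (w + c1 * c0 * b)), by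
          rw [hk]; ring⟩, mul_assoc (_ ^ i), ← hB.b1.eQ_add, ← hB.b1.eQ_mul (c1 * c0) _ c1 h2,
        mul_comm (c1 * c0) c1, ← hB.b1.eQ_add]
      congr 1
      refine eQ_congr hB ⟨-(A * c0 * (a ^ 2 * w + b ^ 2 * r + a * b * (2 * r + 2 * w - 3) +
        c1 * c0 * a * b * (a + b))), ?_⟩
      rw [hMe]; ring
  have pe : ∀ r w a b, G (r + M * a) (w + M * b) = G r w := fun r w a b => by
    rw [hMe, mul_comm c1, mul_assoc _ c1, mul_assoc _ c1, key,
      hB.b1.eQ_dvd _ c1 ((dvd_mul_right c1 a).mul_left _),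
      hB.b1.eQ_dvd _ c1 ((dvd_mul_right c1 b).mul_left _)]
    simp
  have pe1 : ∀ w r a, G (r + M * a) w = G r w := fun w r a => by simpa using pe r w a 0
  have pe2 : ∀ r w a, G r (w + M * a) = G r w := fun r w a => by simpa using pe r w 0 a
  have sh : ∀ x y, ∑ r ∈ Rs M, ∑ w ∈ Rs M, G r w = ∑ r ∈ Rs M, ∑ w ∈ Rs M, G (r + x) (w + y) :=
    fun x y => by
      rw [← shift hB hM (F := fun r => ∑ w ∈ Rs M, G r w) (fun r a => by simp only [pe1]) x]
      exact Finset.sum_congr rfl fun r _ => (shift hB hM (pe2 _) y).symm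
  have A1 : (N c1 : ℂ) * (N c1 * ∑ r ∈ Rs M, ∑ w ∈ Rs M, G r w) = N c1 * (N c1 *
      ∑ r ∈ Rs M, if c1 ∣ r then ∑ w ∈ Rs M, if c1 ∣ w then G (r + 1) (w + 1) else 0 else 0) := by
    rw [← card hB h1, ← card hB h1]
    calc _ = ∑ a ∈ Rs c1, ∑ b ∈ Rs c1, ∑ r ∈ Rs M, ∑ w ∈ Rs M,
          G (r + 1 + c1 * c0 * a) (w + 1 + c1 * c0 * b) := by
          simp only [add_assoc, ← sh]
      _ = ∑ r ∈ Rs M, ∑ w ∈ Rs M, ∑ a ∈ Rs c1, ∑ b ∈ Rs c1,
          G (r + 1 + c1 * c0 * a) (w + 1 + c1 * c0 * b) := by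
          simp only [Finset.sum_comm (s := Rs c1) (t := Rs M)]
      _ = _ := by
          simp only [Finset.ite_sum_zero, Finset.mul_sum]
          refine Finset.sum_congr rfl fun r _ => ?_
          refine Finset.sum_congr rfl fun w _ => ?_
          simp only [key, ← Finset.mul_sum, ← Finset.sum_mul, hB.b4.orth c1 _ h1]
          by_cases h : p ∣ (r + 1) * (w + 1)
          · simp [hG, h]
          have a1 := cp _ fun e => h (e.mul_right (w + 1))
          have a2 := cp _ fun e => h (e.mul_left (r + 1))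
          simp only [dvd_neg, cdvd (cp A hA), cdvd a1, cdvd a2]
          have e : (c1 ∣ 2 * (r + 1) + (w + 1) - 3 ∧ c1 ∣ r + 1 + 2 * (w + 1) - 3) ↔
              c1 ∣ r ∧ c1 ∣ w := by
            refine ⟨fun ⟨⟨x, hx⟩, y, hy⟩ => ⟨(cp 3 p3).dvd_of_dvd_mul_left ⟨2 * x - y, ?_⟩,
              (cp 3 p3).dvd_of_dvd_mul_left ⟨2 * y - x, ?_⟩⟩,
              fun ⟨⟨x, hx⟩, y, hy⟩ => ⟨⟨2 * x + y, ?_⟩, x + 2 * y, ?_⟩⟩
            · linear_combination 2 * hx - hy
            · linear_combination 2 * hy - hx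
            · linear_combination 2 * hx + hy
            · linear_combination 2 * hy + hx
          simp only [ite_zero_mul_ite_zero, e]
          rw [ite_and]
          split_ifs <;> ring
  rw [mul_left_cancel₀ (N_ne hB h1) (mul_left_cancel₀ (N_ne hB h1) A1), sum_dvd hB h1 h2
    fun r a => by simp only [add_right_comm r _ 1, ← hMe, pe1]]
  have B1 : ∀ a b, G (c1 * a + 1) (c1 * b + 1) =
      eQ A M * eQ (-(A * c1 * (a ^ 2 + a * b + b ^ 2))) (c1 * c0) := fun a b => by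
    obtain ⟨k, hk⟩ := hp1
    obtain ⟨j, hj⟩ := h01
    have e1 : ¬ p ∣ (c1 * a + 1) * (c1 * b + 1) := by
      rw [show (c1 * a + 1) * (c1 * b + 1) = 1 + p * (k * (a + b + c1 * a * b)) by rw [hk]; ring,
        dvd_add_left (dvd_mul_right _ _)]
      exact hp.not_dvd_one
    simp only [hG, e1, if_false]
    rw [hB.b4.pe_congr p _ ((c1 * a + 1) ^ 2 * (c1 * b + 1)) 1 (hB.b6.pe p)
      ⟨k * (b + (2 * a + c1 * a ^ 2) * (c1 * b + 1)), by rw [hk]; ring⟩, hB.b6.one_l, one_pow,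
      one_mul, ← hB.b1.eQ_mul c1 _ (c1 * c0) h1, ← hB.b1.eQ_add]
    refine eQ_congr hB ⟨-(A * j * a * b * (a + b)), ?_⟩
    rw [hMe]
    linear_combination (-(A * c1 ^ 2 * a * b * (a + b))) * hj
  have w3 := hB.b1.w3
  have cl : IsCoprime c1 (1 + 2 * wO) := cp _ fun h => p3 (by
    have := h.mul_left (-(1 + 2 * wO))
    rwa [show -(1 + 2 * wO) * (1 + 2 * wO) = 3 by linear_combination (-4) * w3] at this)
  calc _ = ∑ a ∈ Rs (c1 * c0), ∑ b ∈ Rs (c1 * c0),
        eQ A M * eQ (-(A * c1 * (a ^ 2 + a * b + b ^ 2))) (c1 * c0) :=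
        Finset.sum_congr rfl fun a _ => by
          rw [sum_dvd hB h1 h2 fun r a => by simp only [add_right_comm r _ 1, ← hMe, pe2]]
          simp only [B1]
    _ = eQ A M * ∑ b ∈ Rs (c1 * c0), ∑ a ∈ Rs (c1 * c0), eQ (-(A * c1 * a ^ 2)) (c1 * c0) *
        eQ (-(c1 * (A * ((1 + 2 * wO) * a))) * b) (c1 * c0) := by
        rw [Finset.sum_comm]
        simp only [← Finset.mul_sum]
        refine congrArg _ (Finset.sum_congr rfl fun b _ => ?_)
        rw [← shift hB h2 (F := fun a => eQ (-(A * c1 * (a ^ 2 + a * b + b ^ 2))) (c1 * c0))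
          (fun a m => eQ_congr hB ⟨-(A * c1 * m * (2 * a + b + c1 * c0 * m)), by ring⟩) (wO * b)]
        refine Finset.sum_congr rfl fun a _ => ?_
        rw [← hB.b1.eQ_add]
        congr 1
        linear_combination (-(A * c1 * b ^ 2)) * w3
    _ = eQ A M * ∑ a ∈ Rs (c0 * c1), if c0 ∣ a then (N (c1 * c0) : ℂ) else 0 := by
        rw [Finset.sum_comm, mul_comm c0]
        refine congrArg _ (Finset.sum_congr rfl fun a _ => ?_)
        rw [← Finset.mul_sum, hB.b4.orth _ _ h2]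
        simp only [dvd_neg, mul_dvd_mul_iff_left h1,
          cdvd ((cp A hA).of_isCoprime_of_dvd_left h01), cdvd (cl.of_isCoprime_of_dvd_left h01)]
        split_ifs with h
        · rw [hB.b1.eQ_dvd, one_mul]
          obtain ⟨x, rfl⟩ := h
          exact ⟨-(A * c0 * x ^ 2), by ring⟩
        · simp
    _ = _ := by
        rw [sum_dvd hB h0 h1 (F := fun _ => (N (c1 * c0) : ℂ)) fun _ _ => rfl, card hB h1, hMe,
          hB.b1.N_mul c1 (c1 * c0), ofReal_mul, mul_comm]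

end SE2M

theorem se2S (hB : Bas) : SE2Stmt := by
  intro p A i m hp h3 hm hA
  have := SE2M.main hB (c0 := p ^ (m % 2)) (c1 := p ^ (m / 2)) i hp h3 hA
    (pow_ne_zero _ hp.ne_zero) (pow_ne_zero _ hp.ne_zero) (pow_dvd_pow _ (by omega))
    (dvd_pow_self _ (by omega)) fun a h => (hp.irreducible.coprime_iff_not_dvd.2 h).pow_left
  rwa [← pow_add, ← pow_add, show m / 2 + (m / 2 + m % 2) = m by omega, hB.b1.N_pow,
    ofReal_pow] at this

end Vale.Agent.P026
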