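import Vale.Agent.P026.Stm2
import Vale.Agent.P026.M.SE2
import Vale.Agent.P026.M.P9

/-! P026: the averages attached to the weight `nu0`. -/

noncomputable section
open Complex
open scoped Classical ComplexConjugate

namespace Vale.Agent.P026

namespace AV0M

open SE2M

def TT0 (r d : O) : ℂ :=
  (if lam ^ 12 ∣ d - lam ^ 6 * r then 3 ^ 12 else 0) - if lam ^ 11 ∣ d - lam ^ 5 * r then 3 ^ 11 else 0

variable (hB : Bas)
include hB

theorem l6 : lam ^ 6 = -27 := by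
  rw [show 6 = 2 * 3 from rfl, pow_mul, hB.b1.lam_sq]; norm_num
theorem l8 : lam ^ 8 = 81 := by
  rw [show 8 = 2 * 4 from rfl, pow_mul, hB.b1.lam_sq]; norm_num
theorem l12 : lam ^ 12 = 729 := by
  rw [show 12 = 2 * 6 from rfl, pow_mul, hB.b1.lam_sq]; norm_num
theorem lne (k : ℕ) : lam ^ k ≠ 0 := pow_ne_zero _ hB.b1.prime_lam.ne_zero
theorem Nl (k : ℕ) : (N (lam ^ k) : ℂ) = 3 ^ k := by
  rw [hB.b1.N_pow, N, hB.b1.N_lam]; simp
theorem N9 : (N 9 : ℂ) = 81 := by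
  have := hB.b1.N_int 9
  simp only [Int.cast_ofNat] at this
  rw [this]; norm_num
theorem ne9 : (9 : O) ≠ 0 := fun h => by
  have := N9 hB
  rw [h, hB.b1.N_zero] at this
  norm_num at this
theorem nl {r : O} (hr : Prim r) : ¬ lam ∣ r := (hB.b2.cop_iff r).1 (hB.b2.cop r hr)

theorem phi_congr (r : O) {a b : O} (h6 : lam ^ 6 ∣ a - b) (h7 : lam ∣ a → lam ^ 7 ∣ a - b) :
    phi0 r a = phi0 r b := by
  have k : lam ∣ a ↔ lam ∣ b :=
    dvd_iff_dvd_of_dvd_sub ((dvd_pow_self lam (by norm_num)).trans h6)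
  have e : ∀ c : O, c ∣ a - b → eQ (-(a * r)) c = eQ (-(b * r)) c := fun c h =>
    eQ_congr hB (by rw [show -(a * r) - -(b * r) = (a - b) * -r by ring]; exact h.mul_right _)
  unfold phi0
  rw [e _ h6]
  by_cases c : lam ∣ a
  · rw [if_pos c, if_pos (k.1 c), e _ (h7 c)]
  · rw [if_neg c, if_neg (mt k.2 c)]

theorem phi_congr' (r : O) {a b : O} (h : (81 : O) ∣ a - b) : phi0 r a = phi0 r b := by
  rw [← l8 hB] at h
  exact phi_congr hB r ((pow_dvd_pow _ (by norm_num)).trans h)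
    fun _ => (pow_dvd_pow _ (by norm_num)).trans h

theorem nu (r : O) : Nu (nu0 r) where
  p1 d x c m := by
    have k : (9 : O) ∣ c + 729 * m - 1 ↔ (9 : O) ∣ c - 1 :=
      dvd_iff_dvd_of_dvd_sub ⟨81 * m, by ring⟩
    simp only [nu0, k]
    rw [phi_congr' hB r (b := (2 - c) * d) ⟨-(9 * m * d), by ring⟩]
  p2 c x d m := by
    simp only [nu0]
    rw [phi_congr' hB r (b := (2 - c) * d) ⟨9 * m * (2 - c), by ring⟩]
  p3 c d x m := rfl
  bd c d x := by
    unfold nu0 phi0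
    have n1 : ∀ a b, ‖eQ a b‖ = 1 := fun a b => hB.b1.norm_psi _
    split_ifs
    · exact (norm_sub_le _ _).trans (by rw [n1, n1]; norm_num)
    · rw [sub_zero, n1]; norm_num
    · simp
  hom u c d x := by
    rintro ⟨k, hk⟩
    obtain rfl : u = 1 + 27 * k := by linear_combination hk
    have k1 : (9 : O) ∣ (1 + 27 * k) * c - 1 ↔ (9 : O) ∣ c - 1 :=
      dvd_iff_dvd_of_dvd_sub ⟨3 * k * c, by ring⟩
    simp only [nu0, k1]
    split_ifs with h
    · obtain ⟨m, hm⟩ := h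
      obtain rfl : c = 1 + 9 * m := by linear_combination hm
      have e : (2 - (1 + 9 * m)) * d - (2 - (1 + 27 * k) * (1 + 9 * m)) * ((1 + 27 * k) ^ 2 * d) =
          lam ^ 6 * (d * (k - 27 * k * m - 27 * k ^ 2 - 729 * k ^ 2 * m - 729 * k ^ 3 -
            6561 * k ^ 3 * m)) := by rw [l6 hB]; ring
      refine (phi_congr hB r ⟨_, e⟩ fun h => ?_).symm
      have hd : lam ∣ d := (hB.b1.prime_lam.dvd_or_dvd h).resolve_left
        (nl hB ⟨-(3 * m), by ring⟩)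
      rw [e, pow_succ]
      exact mul_dvd_mul_left _ (hd.mul_right _)
    · rfl

theorem supp (r c d x : O) (h : nu0 r c d x ≠ 0) : Prim c ∧ ¬ lam ^ 7 ∣ d := by
  unfold nu0 at h
  split_ifs at h with h9
  · refine ⟨(show (3 : O) ∣ 9 from ⟨3, by norm_num⟩).trans h9, fun h7 => h ?_⟩
    have h7' : lam ^ 7 ∣ -((2 - c) * d * r) := ((h7.mul_left _).mul_right _).neg_right
    rw [phi0, if_pos (((dvd_pow_self lam (by norm_num)).trans h7).mul_left _),
      hB.b1.eQ_dvd _ _ h7', hB.b1.eQ_dvd _ _ ((pow_dvd_pow _ (by norm_num)).trans h7'), sub_self]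
  · exact absurd rfl h

theorem ft (r d : O) : ∑ ρ ∈ Rs 729, phi0 r ρ * eQ (ρ * d) 729 = TT0 r d := by
  have e : ∀ (i j : ℕ) (ρ : O), i + j = 12 → eQ (-(ρ * r)) (lam ^ j) * eQ (ρ * d) (lam ^ 12) =
      eQ ((d - lam ^ i * r) * ρ) (lam ^ 12) := fun i j ρ h => by
    rw [← hB.b1.eQ_mul _ _ (lam ^ j) (lne hB i), ← pow_add, h, ← hB.b1.eQ_add]
    congr 1; ring
  simp only [← l12 hB, phi0, sub_mul, ite_mul, zero_mul, Finset.sum_sub_distrib, e 6 6 _ rfl,
    e 5 7 _ rfl]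
  simp only [← sub_mul]
  rw [hB.b4.orth _ _ (lne hB 12), Nl hB, TT0]
  congr 1
  rw [show lam ^ 12 = lam * lam ^ 11 by ring, sum_dvd hB hB.b1.prime_lam.ne_zero (lne hB 11)
    (F := fun ρ => eQ ((d - lam ^ 5 * r) * ρ) (lam * lam ^ 11))
    fun a m => eQ_congr hB ⟨(d - lam ^ 5 * r) * m, by ring⟩, ← Nl hB, ← hB.b4.orth _ _ (lne hB 11)]
  refine Finset.sum_congr rfl fun a _ => ?_
  rw [mul_left_comm, hB.b1.eQ_mul _ _ _ hB.b1.prime_lam.ne_zero]

theorem nuh_eq (r c d x : O) : nuh (nu0 r) c d x =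
    if (9 : O) ∣ c - 1 then if (9 : O) ∣ x then 81 * TT0 r d else 0 else 0 := by
  unfold nuh nu0
  by_cases h : (9 : O) ∣ c - 1
  · obtain ⟨m, hm⟩ := id h
    have e : ∀ ρ, phi0 r ((2 - c) * (c * ρ)) = phi0 r ρ := fun ρ => phi_congr' hB r
      ⟨-(m ^ 2 * ρ), by linear_combination (-(c - 1 + 9 * m) * ρ) * hm⟩
    simp only [if_pos h, e]
    rw [← Finset.sum_mul_sum, ft hB]
    simp only [mul_comm _ x]
    rw [hB.b4.orth _ _ (ne9 hB), N9 hB]
    split_ifs <;> ring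
  · simp [h]

theorem sum1 {D K : O} (a : O) (hD : Prim D) (hK : K ≠ 0) {F : O → ℂ} (hF : Pe D F) :
    ∑ c ∈ Rs (9 * D * K), (if (9 : O) ∣ c - a then F c else 0) = N K * ∑ c ∈ Rs D, F c := by
  have D0 := hB.b2.ne D hD
  have c9 : IsCoprime 9 D := by
    have := (hB.b2.cop D hD).symm.pow_left (m := 2)
    rwa [show (3 : O) ^ 2 = 9 by norm_num] at this
  have pe : Pe (9 * D) fun c => if (9 : O) ∣ c - a then F c else 0 := fun c m => by
    have k : (9 : O) ∣ c + 9 * D * m - a ↔ (9 : O) ∣ c - a :=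
      dvd_iff_dvd_of_dvd_sub ⟨D * m, by ring⟩
    simp only [k]
    rw [show 9 * D * m = D * (9 * m) by ring, hF]
  rw [hB.b4.lift' _ _ _ (mul_ne_zero (ne9 hB) D0) hK pe,
    ← shift hB (mul_ne_zero (ne9 hB) D0) pe a]
  simp only [add_sub_cancel_right]
  rw [sum_dvd hB (ne9 hB) D0 (F := fun c => F (c + a)) fun c m => by
    simp only; rw [show c + 9 * D * m + a = c + a + D * (9 * m) by ring, hF],
    hB.b4.affine D F 9 a D0 hF c9]

theorem per (hC : CRStmt) (hE : PERStmt) {v : ℕ} (hv : v ≤ 12) {D c x : O} (hD : Prim D)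
    (hc : (9 : O) ∣ c - 1) (hx : (9 : O) ∣ x) : Per (-1 * lam ^ v * D) c x =
      conj (cub (-1 * lam ^ v) D) * Phi D (-1 * lam ^ v * c) (-x) := by
  have hc' : Prim c := (show (3 : O) ∣ 9 from ⟨3, by norm_num⟩).trans hc
  obtain ⟨a, f, hf⟩ : IsCoprime (lam ^ v) (c * D * -1) :=
    ((hB.b1.prime_lam.irreducible.coprime_iff_not_dvd).2 (by
      rw [mul_neg_one, dvd_neg]; exact nl hB (hB.b2.mul _ _ hc' hD))).pow_left
  obtain ⟨m, hm⟩ := hc
  obtain ⟨y, rfl⟩ := hx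
  rw [hE.2 (-1) v D c _ f isUnit_one.neg hD hc' ⟨-a, by linear_combination hf⟩,
    hB.b1.eQ_dvd _ _ ((pow_dvd_pow _ hv).trans ⟨-(y ^ 3 * f), by rw [l12 hB]; ring⟩),
    neg_one_mul, hB.b6.neg_l _ _ (hB.b2.cop c hc'), hB.b6.pow_l _ _ _ (hB.b2.cop c hc'),
    show c = 1 + 9 * m by linear_combination hm, P9M.lam_b hB hC]
  ring

theorem tot (_hb : BB) (hP : PH) (hS : SDStmt) {D : O} (hD : Prim D) (v : ℕ) :
    ∑ c ∈ Rs D, ∑ x ∈ Rs D, Phi D (-1 * lam ^ v * c) (-x) = N D * bb D := by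
  have D0 := hB.b2.ne D hD
  have cu : IsCoprime (-1 * lam ^ v) D := by
    rw [neg_one_mul]
    exact ((hB.b1.prime_lam.irreducible.coprime_iff_not_dvd).2 (nl hB hD)).pow_left.neg_left
  have e1 : ∀ c, ∑ x ∈ Rs D, Phi D c (-x) = ∑ x ∈ Rs D, Phi D c x := fun c => by
    simpa using hB.b4.affine D _ (-1) 0 D0 (hP.pe_x D c hD) isCoprime_one_left.neg_left
  have e2 := hB.b4.affine D (fun c => ∑ x ∈ Rs D, Phi D c x) _ 0 D0
    (fun c m => Finset.sum_congr rfl fun x _ => hP.pe_d D x hD c m) cu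
  have e3 := hS D hD 0 0
  simp only [FT2, mul_zero, add_zero, hB.b1.eQ_dvd 0 D (dvd_zero _), mul_one] at e2 e3
  simp only [e1]
  rw [e2, e3, hP.eq D 0 0 D 1 0 0 0 hD ⟨hD, by ring, by ring, one_dvd _, by ring⟩,
    hB.b6.unit_r _ _ isUnit_one, hB.b1.eQ_dvd _ _ (one_dvd _), mul_one, mul_one]

theorem av (hC : CRStmt) (hb : BB) (hP : PH) (hS : SDStmt) (hE : PERStmt) (r : O) {v : ℕ}
    (hv : v ≤ 12) {d D K : O} (hD : Prim D) (hK : K ≠ 0) (h1 : 27 * d = -1 * lam ^ v * D)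
    (h2 : 729 * d = 9 * D * K) :
    Av (nu0 r) d = TT0 r d / 81 * conj (cub (-1 * lam ^ v) D) * (bb D / N D) := by
  set z := 81 * TT0 r d * conj (cub (-1 * lam ^ v) D) with hz
  have e : ∀ c, ∑ x ∈ Rs (9 * D * K),
      (if Prim c then nuh (nu0 r) c d x * Per (-1 * lam ^ v * D) c x else 0) =
      if (9 : O) ∣ c - 1 then N K * ∑ x ∈ Rs D, z * Phi D (-1 * lam ^ v * c) (-x) else 0 := by
    intro c
    by_cases hc : (9 : O) ∣ c - 1
    · have hc' : Prim c := (show (3 : O) ∣ 9 from ⟨3, by norm_num⟩).trans hc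
      rw [if_pos hc, ← sum1 hB 0 hD hK (F := fun x => z * Phi D (-1 * lam ^ v * c) (-x))
        fun x m => by
          simp only
          rw [show -(x + D * m) = -x + D * -m by ring]
          exact congrArg _ (hP.pe_x D _ hD _ _)]
      refine Finset.sum_congr rfl fun x _ => ?_
      rw [if_pos hc', nuh_eq hB, if_pos hc, sub_zero]
      split_ifs with hx
      · rw [per hB hC hE hv hD hc hx, hz]; ring
      · rw [zero_mul]
    · simp [nuh_eq hB, hc]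
  rw [Av, h1, h2]
  simp only [e]
  rw [sum1 hB 1 hD hK (F := fun c => N K * ∑ x ∈ Rs D, z * Phi D (-1 * lam ^ v * c) (-x))
    fun c m => by
      simp only
      congr 1
      refine Finset.sum_congr rfl fun x _ => ?_
      rw [show -1 * lam ^ v * (c + D * m) = -1 * lam ^ v * c + D * (-1 * lam ^ v * m) by ring]
      exact congrArg _ (hP.pe_d D _ hD _ _)]
  simp only [← Finset.mul_sum]
  rw [tot hB hb hP hS hD, hB.b1.N_mul, hB.b1.N_mul, hz]
  push_cast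
  rw [N9 hB]
  have := N_ne hB hK
  have := N_ne hB (hB.b2.ne D hD)
  field_simp

end AV0M

open AV0M in
theorem av0S (hB : Bas) (hC : CRStmt) (_h9 : P9Stmt) (hb : BB) (hP : PH) (hS : SDStmt)
    (hE : PERStmt) : AV0Stmt := by
  intro r hr
  have pr : ∀ D, (27 : O) ∣ D - r → Prim D := fun D ⟨m, hm⟩ => by
    obtain ⟨k, hk⟩ := hr
    exact ⟨k + 9 * m, by linear_combination hk + hm⟩
  have cl : ∀ {D : O}, Prim D → IsCoprime lam D := fun hD =>
    (hB.b1.prime_lam.irreducible.coprime_iff_not_dvd).2 (nl hB hD)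
  have cb : ∀ (v : ℕ) {D : O}, Prim D → cub (-1 * lam ^ v) D = cub lam D ^ v := fun v D hD => by
    rw [neg_one_mul, hB.b6.neg_l _ _ (hB.b2.cop D hD), hB.b6.pow_l _ _ _ (hB.b2.cop D hD)]
  have n81 : (81 : O) ≠ 0 := l8 hB ▸ lne hB 8
  refine ⟨nu hB r, supp hB r, conj (cub lam r ^ 11), ?_, fun D hD => ?_, fun D hD => ?_,
    fun d _ h => ?_⟩
  · rw [RCLike.norm_conj, norm_pow, hB.b6.norm _ _ (cl hr), one_pow]
  · have t : TT0 r (lam ^ 6 * D) = 3 ^ 12 := by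
      obtain ⟨m, hm⟩ := hD
      rw [TT0, if_pos ⟨-m, by rw [l12 hB, l6 hB]; linear_combination (-27) * hm⟩, if_neg, sub_zero]
      rintro ⟨k, hk⟩
      refine nl hB hr ⟨D - lam ^ 5 * k, mul_left_cancel₀ (lne hB 5) ?_⟩
      linear_combination -hk
    rw [av hB hC hb hP hS hE r le_rfl (pr D hD) (K := 81 * lam ^ 6)
      (mul_ne_zero n81 (lne hB 6)) (by rw [l12 hB, l6 hB]; ring) (by ring), t, cb _ (pr D hD),
      show 12 = 3 * 4 from rfl, pow_mul (cub lam D), hB.b6.cube _ _ (cl (pr D hD))]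
    norm_num
  · have t : TT0 r (lam ^ 5 * D) = -3 ^ 11 := by
      obtain ⟨m, hm⟩ := hD
      rw [TT0, if_neg, if_pos ⟨-m, by
        rw [show lam ^ 11 = lam ^ 5 * lam ^ 6 by ring, l6 hB]; linear_combination lam ^ 5 * hm⟩,
        zero_sub]
      rintro ⟨k, hk⟩
      refine nl hB (pr D ⟨m, hm⟩) ⟨r + lam ^ 6 * k, mul_left_cancel₀ (lne hB 5) ?_⟩
      linear_combination hk
    rw [av hB hC hb hP hS hE r (v := 11) (by norm_num) (pr D hD) (K := 81 * lam ^ 5)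
      (mul_ne_zero n81 (lne hB 5))
      (by rw [show lam ^ 11 = lam ^ 5 * lam ^ 6 by ring, l6 hB]; ring) (by ring), t,
      cb _ (pr D hD), P9M.lam_congr hB hC (pr D hD) hr
        ((show (9 : O) ∣ 27 from ⟨3, by norm_num⟩).trans hD)]
    ring
  · have t : TT0 r d = 0 := by
      rw [TT0, if_neg, if_neg, sub_zero]
      · rintro ⟨k, hk⟩
        refine (h (r + lam ^ 6 * k) ⟨-k, by rw [l6 hB]; ring⟩).2 ?_
        linear_combination hk
      · rintro ⟨k, hk⟩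
        refine (h (r + lam ^ 6 * k) ⟨-k, by rw [l6 hB]; ring⟩).1 ?_
        linear_combination hk
    simp [Av, nuh_eq hB, t]

end Vale.Agent.P026
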