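import Vale.Agent.P026.Stm2

/-! P026, module AV1: the averages `Av` factor through `bb D / N D`. -/

noncomputable section
open Complex
open scoped Classical ComplexConjugate

namespace Vale.Agent.P026

namespace AV1M

theorem eQ_congr (h1 : B1) {a b c : O} (h : c ∣ a - b) : eQ a c = eQ b c := by
  rw [← sub_add_cancel a b, h1.eQ_add, h1.eQ_dvd _ _ h, one_mul]

theorem prim_congr {c c' : O} (h : (3 : O) ∣ c - c') : Prim c ↔ Prim c' := by
  unfold Prim
  rw [show c - 1 = (c - c') + (c' - 1) by ring, dvd_add_right h]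

def iv (q m : O) : O := Classical.epsilon fun f => q ∣ m * f - 1

theorem iv_congr {q m m' : O} (h : q ∣ m - m') : iv q m = iv q m' := by
  refine congrArg Classical.epsilon (funext fun f => propext ?_)
  rw [show m * f - 1 = (m - m') * f + (m' * f - 1) by ring, dvd_add_right (h.mul_right f)]

theorem iv_spec {q m : O} (h : IsCoprime m q) : q ∣ m * iv q m - 1 := by
  obtain ⟨a, b, e⟩ := h
  exact Classical.epsilon_spec (p := fun f => q ∣ m * f - 1) ⟨a, -b, by linear_combination e⟩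

variable (hB : Bas) {ν : O → O → O → ℂ} (hν : Nu ν)
include hB

theorem aff2 {c u1 u2 : O} (hc : c ≠ 0) (H : O → O → ℂ) (p1 : ∀ x, Pe c fun a => H a x)
    (p2 : ∀ a, Pe c (H a)) (k1 : IsCoprime u1 c) (k2 : IsCoprime u2 c) :
    ∑ a ∈ Rs c, ∑ x ∈ Rs c, H (u1 * a) (u2 * x) = ∑ a ∈ Rs c, ∑ x ∈ Rs c, H a x := by
  have h := hB.b4.affine c (fun a => ∑ x ∈ Rs c, H a x) u1 0 hc
    (fun a m => Finset.sum_congr rfl fun x _ => p1 x a m) k1
  rw [← h]
  refine Finset.sum_congr rfl fun a _ => ?_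
  rw [← hB.b4.affine c _ u2 0 hc (p2 _) k2]
  simp only [add_zero]

theorem cop {c e : O} (hc : Prim c) (he : IsUnit e) (k : ℕ) : IsCoprime c (e * lam ^ k) := by
  have h : IsCoprime c lam := (hB.b2.cop c hc).of_isCoprime_of_dvd_right
    ⟨-lam, by linear_combination hB.b1.lam_sq⟩
  exact (isCoprime_mul_unit_left_right he _ _).2 h.pow_right

theorem l12 : lam ^ 12 = 729 := by
  rw [show lam ^ 12 = (lam ^ 2) ^ 6 by ring, hB.b1.lam_sq]
  norm_num

theorem l6 : lam ^ 6 = -27 := by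
  rw [show lam ^ 6 = (lam ^ 2) ^ 3 by ring, hB.b1.lam_sq]
  norm_num

theorem l4 : lam ^ 4 = 9 := by
  rw [show lam ^ 4 = (lam ^ 2) ^ 2 by ring, hB.b1.lam_sq]
  norm_num

theorem cub_one (h9 : P9Stmt) {e u : O} (he : IsUnit e) (k : ℕ) (hu : (27 : O) ∣ u - 1) :
    cub (e * lam ^ k) u = 1 := by
  have pu : Prim u := Dvd.dvd.trans ⟨9, by norm_num⟩ hu
  have a1 : cub e u = 1 := by
    rw [h9 e u 1 he.ne_zero pu hB.b2.one
      (((he.mul_right_dvd).2 ⟨3, by norm_num⟩).trans hu), hB.b6.unit_r _ _ isUnit_one]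
  have a2 : cub lam u = 1 := by
    rw [h9 lam u 1 hB.b1.prime_lam.ne_zero pu hB.b2.one
      (Dvd.dvd.trans ⟨-lam, by linear_combination 9 * hB.b1.lam_sq⟩ hu),
      hB.b6.unit_r _ _ isUnit_one]
  rw [hB.b6.mul_l _ _ _ (hB.b2.cop u pu), hB.b6.pow_l _ _ _ (hB.b2.cop u pu), a1, a2, one_pow,
    one_mul]

include hν

theorem nu_congr {c c' d d' x x' : O} (h1 : (729 : O) ∣ c - c') (h2 : (729 : O) ∣ d - d')
    (h3 : (9 : O) ∣ x - x') : ν c d x = ν c' d' x' :=
  (hB.b4.pe_congr _ _ c c' (hν.p1 d x) h1).trans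
    ((hB.b4.pe_congr _ _ d d' (hν.p2 c' x) h2).trans (hB.b4.pe_congr _ _ x x' (hν.p3 c' d') h3))

theorem nuh_congr {c c' d d' x x' : O} (h1 : (729 : O) ∣ c - c') (h2 : (729 : O) ∣ d - d')
    (h3 : (9 : O) ∣ x - x') : nuh ν c d x = nuh ν c' d' x' := by
  refine Finset.sum_congr rfl fun ρ _ => Finset.sum_congr rfl fun ξ _ => ?_
  rw [nu_congr hB hν h1 (d' := c' * ρ) (x' := c' * ξ) (by rw [← sub_mul]; exact h1.mul_right _)
      (by rw [← sub_mul]; exact (Dvd.dvd.trans ⟨81, by norm_num⟩ h1).mul_right _),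
    eQ_congr hB.b1 (a := ρ * d) (b := ρ * d') (by rw [← mul_sub]; exact h2.mul_left _),
    eQ_congr hB.b1 (a := ξ * x) (b := ξ * x') (by rw [← mul_sub]; exact h3.mul_left _)]

theorem nuh_hom {u : O} (hu : (27 : O) ∣ u - 1) (c d x : O) :
    nuh ν (u * c) d x = nuh ν c (u * d) x := by
  have pu : Prim u := Dvd.dvd.trans ⟨9, by norm_num⟩ hu
  have k : IsCoprime u 729 := by
    simpa [show (3 : O) ^ 6 = 729 by norm_num] using (hB.b2.cop u pu).pow_right (n := 6)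
  rw [nuh, ← hB.b4.affine 729 _ u 0 (by rw [← l12 hB]; exact pow_ne_zero _ hB.b1.prime_lam.ne_zero)
    (fun a m => Finset.sum_congr rfl fun ξ _ => by
      rw [nu_congr hB hν (c' := u * c) (d' := u * c * a) (x' := u * c * ξ) (by simp)
        ⟨u * c * m, by ring⟩ (by simp),
        eQ_congr hB.b1 (a := (a + 729 * m) * d) (b := a * d) ⟨m * d, by ring⟩]) k]
  refine Finset.sum_congr rfl fun ρ _ => Finset.sum_congr rfl fun ξ _ => ?_
  rw [show u * c * (u * ρ + 0) = u ^ 2 * (c * ρ) by ring, mul_assoc u c, hν.hom u _ _ _ hu,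
    show (u * ρ + 0) * d = ρ * (u * d) by ring]

theorem nuh_le (c d x : O) : ‖nuh ν c d x‖ ≤ 2 * 3 ^ 16 := by
  have nn : ∀ k : ℕ, Nn (lam ^ k) = 3 ^ k := fun k => by
    have h := hB.b1.N_pow lam k
    rw [N, N, hB.b1.N_lam] at h
    exact_mod_cast h
  have n1 : (Rs 729).card = 3 ^ 12 := by
    rw [← l12 hB, hB.b4.card _ (pow_ne_zero _ hB.b1.prime_lam.ne_zero)]
    exact nn 12
  have n2 : (Rs 9).card = 3 ^ 4 := by
    rw [← l4 hB, hB.b4.card _ (pow_ne_zero _ hB.b1.prime_lam.ne_zero)]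
    exact nn 4
  refine (norm_sum_le _ _).trans ((Finset.sum_le_card_nsmul _ _ (3 ^ 4 * 2) fun ρ _ =>
    (norm_sum_le _ _).trans ((Finset.sum_le_card_nsmul _ _ 2 fun ξ _ => ?_).trans ?_)).trans ?_)
  · rw [norm_mul, norm_mul, eQ, eQ, hB.b1.norm_psi, hB.b1.norm_psi, mul_one, mul_one]
    exact hν.bd _ _ _
  · rw [n2]
    norm_num
  · rw [n1]
    norm_num

end AV1M

namespace AV1M

/-- the `lam`-part of the summand -/
def G (ν : O → O → O → ℂ) (e : O) (v : ℕ) (D c x : O) : ℂ :=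
  if Prim c then nuh ν c (e * lam ^ v * D) x * cub (-e * lam ^ (v + 6)) c *
    eQ (-(x ^ 3 * iv (lam ^ (v + 6)) (c * D * -e))) (lam ^ (v + 6)) else 0

def A0 (ν : O → O → O → ℂ) (e : O) (v : ℕ) (D : O) : ℂ :=
  ((N (e * lam ^ (v + 12)) : ℂ) ^ 2)⁻¹ * (conj (cub (-e * lam ^ (v + 6)) D) *
    ∑ c ∈ Rs (e * lam ^ (v + 12)), ∑ x ∈ Rs (e * lam ^ (v + 12)), G ν e v D c x)

variable (hB : Bas) (h9 : P9Stmt) {ν : O → O → O → ℂ} (hν : Nu ν) {e : O} (he : IsUnit e) (v : ℕ)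
include hB he

theorem ne (k : ℕ) : e * lam ^ k ≠ 0 := mul_ne_zero he.ne_zero (pow_ne_zero _ hB.b1.prime_lam.ne_zero)

omit he in
theorem d729 : (729 : O) ∣ e * lam ^ (v + 12) := ⟨e * lam ^ v, by rw [← l12 hB]; ring⟩

omit he in
theorem d9w : 9 * (-e * lam ^ (v + 6)) ∣ e * lam ^ (v + 12) :=
  ⟨-lam ^ 2, by rw [← l4 hB]; ring⟩

include h9 hν

theorem G_congr {D D' c c' x x' : O} (h1 : e * lam ^ (v + 12) ∣ D - D')
    (h2 : e * lam ^ (v + 12) ∣ c - c') (h3 : e * lam ^ (v + 12) ∣ x - x') :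
    G ν e v D c x = G ν e v D' c' x' := by
  have a := d729 hB (e := e) v
  have b : lam ^ (v + 6) ∣ e * lam ^ (v + 12) := ⟨e * lam ^ 6, by ring⟩
  have p := prim_congr (Dvd.dvd.trans ⟨243, by norm_num⟩ (a.trans h2))
  unfold G
  by_cases hc : Prim c
  · rw [if_pos hc, if_pos (p.1 hc), nuh_congr hB hν (a.trans h2) (d' := e * lam ^ v * D')
      (by rw [← mul_sub]; exact (a.trans h1).mul_left _)
      (Dvd.dvd.trans ⟨81, by norm_num⟩ (a.trans h3)),
      h9 _ c c' (ne hB he.neg _) hc (p.1 hc) ((d9w hB v).trans h2),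
      iv_congr (m := c * D * -e) (m' := c' * D' * -e) (by
        rw [show c * D * -e - c' * D' * -e = (c - c') * (D * -e) + (D - D') * (c' * -e) by ring]
        exact dvd_add ((b.trans h2).mul_right _) ((b.trans h1).mul_right _)),
      eQ_congr hB.b1 (b := -(x' ^ 3 * iv (lam ^ (v + 6)) (c' * D' * -e))) (by
        rw [neg_sub_neg, ← sub_mul]
        exact (((b.trans h3).trans (sub_dvd_pow_sub_pow x x' 3)).neg_right.trans
          (dvd_of_eq (neg_sub _ _))).mul_right _)]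
  · rw [if_neg hc, if_neg (mt p.2 hc)]

theorem A0_hom {D u : O} (hD : Prim D) (hu : (27 : O) ∣ u - 1) :
    A0 ν e v (D * u) = A0 ν e v D := by
  have pu : Prim u := Dvd.dvd.trans ⟨9, by norm_num⟩ hu
  have c1 := cub_one hB h9 he.neg (v + 6) hu
  unfold A0
  rw [hB.b6.mul_r _ _ _ (hB.b2.ne D hD) (hB.b2.ne u pu), c1, mul_one,
    ← aff2 hB (ne hB he _) (G ν e v D)
      (fun x a m => G_congr hB h9 hν he v (by simp) (by simp) (by simp))
      (fun a x m => G_congr hB h9 hν he v (by simp) (by simp) (by simp))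
      (cop hB pu he _) isCoprime_one_left]
  congr 2
  refine Finset.sum_congr rfl fun c _ => Finset.sum_congr rfl fun x _ => ?_
  unfold G
  by_cases hc : Prim c
  · rw [if_pos hc, if_pos (hB.b2.mul u c pu hc), one_mul, nuh_hom hB hν hu,
      hB.b6.mul_r _ _ _ (hB.b2.ne u pu) (hB.b2.ne c hc), c1, one_mul,
      show e * lam ^ v * (D * u) = u * (e * lam ^ v * D) by ring,
      show c * (D * u) * -e = u * c * D * -e by ring]
  · rw [if_neg hc, if_neg fun h => hc (hB.b2.cancel u c pu h)]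

theorem A0_per {D D' : O} (hD : Prim D) (hD' : Prim D') (h : (27 : O) ∣ D' - D) :
    A0 ν e v D' = A0 ν e v D := by
  obtain ⟨a, b, k⟩ := cop hB hD he (v + 12)
  have hu : (27 : O) ∣ a * D' - 1 := by
    rw [show a * D' - 1 = a * (D' - D) - b * (e * lam ^ (v + 12)) by linear_combination k]
    exact dvd_sub (h.mul_left _) ((Dvd.dvd.trans ⟨27, by norm_num⟩ (d729 hB v)).mul_left _)
  have h2 : e * lam ^ (v + 12) ∣ D' - D * (a * D') := ⟨b * D', by linear_combination (-D') * k⟩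
  rw [← A0_hom hB h9 hν he v hD hu]
  unfold A0
  rw [h9 _ D' (D * (a * D')) (ne hB he.neg _) hD'
    (hB.b2.mul _ _ hD (Dvd.dvd.trans ⟨9, by norm_num⟩ hu)) ((d9w hB v).trans h2)]
  rw [Finset.sum_congr rfl fun c _ => Finset.sum_congr rfl fun x _ =>
    G_congr hB h9 hν he v (c := c) (c' := c) (x := x) (x' := x) h2 (by simp) (by simp)]

omit h9 in
theorem A0_le (D : O) : ‖A0 ν e v D‖ ≤ 2 * 3 ^ 16 := by
  have n := ne hB he (v + 12)
  have p : 0 < N (e * lam ^ (v + 12)) := lt_of_lt_of_le one_pos (hB.b1.N_one_le _ n)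
  have g : ∀ c x, ‖G ν e v D c x‖ ≤ 2 * 3 ^ 16 := fun c x => by
    unfold G
    split_ifs
    · rw [norm_mul, norm_mul, eQ, hB.b1.norm_psi, mul_one]
      exact (mul_le_of_le_one_right (norm_nonneg _) (hB.b6.norm_le _ _)).trans (nuh_le hB hν _ _ _)
    · rw [norm_zero]
      positivity
  have s : ‖∑ c ∈ Rs (e * lam ^ (v + 12)), ∑ x ∈ Rs (e * lam ^ (v + 12)), G ν e v D c x‖ ≤
      N (e * lam ^ (v + 12)) ^ 2 * (2 * 3 ^ 16) := by
    refine (norm_sum_le _ _).trans ((Finset.sum_le_card_nsmul _ _ _ fun c _ =>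
      (norm_sum_le _ _).trans (Finset.sum_le_card_nsmul _ _ _ fun x _ => g c x)).trans ?_)
    rw [hB.b4.card _ n, nsmul_eq_mul, nsmul_eq_mul, N]
    exact le_of_eq (by ring)
  rw [A0, norm_mul, norm_mul, norm_inv, norm_pow, Complex.norm_real, Real.norm_of_nonneg p.le,
    Complex.norm_conj, inv_mul_le_iff₀ (pow_pos p 2)]
  exact (mul_le_of_le_one_left (norm_nonneg _) (hB.b6.norm_le _ _)).trans s

theorem main (hP : PH) (hS : SDStmt) (hE : PERStmt) {D : O} (hD : Prim D) :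
    Av ν (e * lam ^ v * D) = A0 ν e v D * (bb D / N D) := by
  have n := ne hB he (v + 12)
  have nD := hB.b2.ne D hD
  have k := cop hB hD he (v + 12)
  have a := d729 hB (e := e) v
  have e1 : 729 * (e * lam ^ v * D) = e * lam ^ (v + 12) * D := by rw [← l12 hB]; ring
  have e2 : 27 * (e * lam ^ v * D) = -e * lam ^ (v + 6) * D := by
    linear_combination (e * lam ^ v * D) * l6 hB
  have pe : ∀ c c' x x', e * lam ^ (v + 12) * D ∣ c - c' → e * lam ^ (v + 12) * D ∣ x - x' →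
      (if Prim c then nuh ν c (e * lam ^ v * D) x * Per (-e * lam ^ (v + 6) * D) c x else 0) =
      (if Prim c' then nuh ν c' (e * lam ^ v * D) x' * Per (-e * lam ^ (v + 6) * D) c' x'
        else 0) := by
    intro c c' x x' h1 h2
    have a1 := (a.mul_right D).trans h1
    have p := prim_congr (Dvd.dvd.trans ⟨243, by norm_num⟩ a1)
    by_cases hc : Prim c
    · rw [if_pos hc, if_pos (p.1 hc), nuh_congr hB hν a1 (d' := e * lam ^ v * D) (by simp)
        (Dvd.dvd.trans ⟨81, by norm_num⟩ ((a.mul_right D).trans h2)),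
        hE.1 _ c c' x x' (mul_ne_zero (ne hB he.neg _) nD) hc (p.1 hc)
          (Dvd.dvd.trans ⟨-lam ^ 2, by rw [← l4 hB]; ring⟩ h1)
          (Dvd.dvd.trans ⟨-lam ^ 6, by ring⟩ h2)]
    · rw [if_neg hc, if_neg (mt p.2 hc)]
  have pt : ∀ r1 r2 y1 y2, (if Prim (r1 * D + r2 * (e * lam ^ (v + 12))) then
      nuh ν (r1 * D + r2 * (e * lam ^ (v + 12))) (e * lam ^ v * D)
        (y1 * D + y2 * (e * lam ^ (v + 12))) *
      Per (-e * lam ^ (v + 6) * D) (r1 * D + r2 * (e * lam ^ (v + 12)))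
        (y1 * D + y2 * (e * lam ^ (v + 12))) else 0) =
      conj (cub (-e * lam ^ (v + 6)) D) * (G ν e v D (D * r1) (D * y1) *
        Phi D (-e * lam ^ (v + 6) * (e * lam ^ (v + 12)) * r2) (-(e * lam ^ (v + 12)) * y2)) := by
    intro r1 r2 y1 y2
    rw [← G_congr hB h9 hν he v (D := D) (c := r1 * D + r2 * (e * lam ^ (v + 12)))
      (x := y1 * D + y2 * (e * lam ^ (v + 12))) (by simp) ⟨r2, by ring⟩ ⟨y2, by ring⟩, G]
    split_ifs with hc
    · rw [hE.2 (-e) (v + 6) D _ _ _ he.neg hD hc (iv_spec ((isCoprime_mul_unit_right_left he.neg _ _).2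
        (by simpa using cop hB (hB.b2.mul _ _ hc hD) isUnit_one (v + 6)))),
        hB.b4.pe_congr D _ _ (-e * lam ^ (v + 6) * (e * lam ^ (v + 12)) * r2) (hP.pe_d D _ hD)
          ⟨-e * lam ^ (v + 6) * r1, by ring⟩,
        hB.b4.pe_congr D _ (-(y1 * D + y2 * (e * lam ^ (v + 12)))) (-(e * lam ^ (v + 12)) * y2)
          (hP.pe_x D _ hD) ⟨-y1, by ring⟩]
      ring
    · simp
  have s1 : ∑ r ∈ Rs D, ∑ y ∈ Rs D, Phi D r y = N D * bb D := by
    have h := hS D hD 0 0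
    rw [hP.eq D _ 0 D 1 0 0 0 hD ⟨hD, by ring, by ring, one_dvd _, by ring⟩,
      hB.b6.unit_r _ _ isUnit_one, hB.b1.eQ_dvd _ _ (one_dvd _), FT2] at h
    simpa [hB.b1.eQ_dvd 0 D (dvd_zero _)] using h
  have s2 := aff2 hB nD (Phi D) (fun x => hP.pe_d D x hD) (fun d => hP.pe_x D d hD)
    ((cop hB hD he.neg (v + 6)).symm.mul_left k.symm) k.symm.neg_left
  have s3 := aff2 hB n (G ν e v D)
    (fun x a m => G_congr hB h9 hν he v (by simp) (by simp) (by simp))
    (fun a x m => G_congr hB h9 hν he v (by simp) (by simp) (by simp)) k k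
  rw [Av, e1, e2, hB.b4.crt _ D _ n nD k.symm
    (fun c m => Finset.sum_congr rfl fun x _ => pe _ _ _ _ (by simp) (by simp))]
  have in1 : ∀ c, ∑ x ∈ Rs (e * lam ^ (v + 12) * D),
      (if Prim c then nuh ν c (e * lam ^ v * D) x * Per (-e * lam ^ (v + 6) * D) c x else 0) = _ :=
    fun c => hB.b4.crt _ D _ n nD k.symm (fun x m => pe _ _ _ _ (by simp) (by simp))
  simp only [in1, pt]
  have nz1 : (N D : ℂ) ≠ 0 := by
    exact_mod_cast (lt_of_lt_of_le one_pos (hB.b1.N_one_le _ nD)).ne'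
  calc _ = ((N (e * lam ^ (v + 12) * D) : ℂ) ^ 2)⁻¹ * (conj (cub (-e * lam ^ (v + 6)) D) *
        ((∑ c ∈ Rs (e * lam ^ (v + 12)), ∑ x ∈ Rs (e * lam ^ (v + 12)), G ν e v D (D * c) (D * x)) *
        ∑ r ∈ Rs D, ∑ y ∈ Rs D, Phi D (-e * lam ^ (v + 6) * (e * lam ^ (v + 12)) * r)
          (-(e * lam ^ (v + 12)) * y))) := by
        congr 1
        simp only [Finset.sum_mul_sum]
        simp only [Finset.mul_sum]
    _ = _ := by
        rw [s2, s3, s1, A0, hB.b1.N_mul _ D]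
        push_cast
        rw [mul_pow, mul_inv]
        field_simp

end AV1M

open AV1M in
theorem av1S (hB : Bas) (_hC : CRStmt) (h9 : P9Stmt) (_hb : BB) (hP : PH) (hS : SDStmt)
    (hE : PERStmt) : AV1Stmt := by
  intro ν hν
  refine ⟨fun e v D => if IsUnit e ∧ Prim D then A0 ν e v D else 0, fun e v D => ?_,
    fun e v D m => ?_, fun e v D he hD => ?_⟩
  · beta_reduce
    split_ifs with h
    · exact A0_le hB hν h.1 v D
    · rw [norm_zero]
      positivity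
  · have p : Prim (D + 27 * m) ↔ Prim D := prim_congr ⟨9 * m, by ring⟩
    beta_reduce
    by_cases h : IsUnit e ∧ Prim D
    · rw [if_pos h, if_pos ⟨h.1, p.2 h.2⟩, A0_per hB h9 hν h.1 v h.2 (p.2 h.2) ⟨m, by ring⟩]
    · rw [if_neg h, if_neg fun h' => h ⟨h'.1, p.1 h'.2⟩]
  · beta_reduce
    rw [if_pos ⟨he, hD⟩, main hB h9 hν he v hP hS hE hD]

end Vale.Agent.P026
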