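import Vale.Agent.P026.M.OM

/-! P026: annular cut-offs of the Gaussian modes. -/

noncomputable section
open Complex MeasureTheory Filter Topology
open scoped Classical ComplexConjugate FourierTransform ContDiff Nat

namespace Vale.Agent.P026

namespace CUTM

def ph (z : ℂ) : ℝ := -‖z‖ ^ 2

theorem ph_temp : Function.HasTemperateGrowth ph :=
  (Function.hasTemperateGrowth_norm_sq (H := ℂ)).neg

theorem poly_exp (m : ℕ) (r : ℝ) (hr : 0 ≤ r) :
    (1 + r) ^ m * Real.exp (-r ^ 2) ≤ m ! * Real.exp 2 := by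
  have h1 := Real.pow_div_factorial_le_exp (1 + r) (by positivity) m
  rw [div_le_iff₀ (by positivity)] at h1
  have h2 : (1 + r) + -r ^ 2 ≤ 2 := by nlinarith [sq_nonneg (r - 1 / 2)]
  calc _ ≤ Real.exp (1 + r) * m ! * Real.exp (-r ^ 2) := by gcongr
    _ = m ! * Real.exp ((1 + r) + -r ^ 2) := by rw [Real.exp_add (1 + r)]; ring
    _ ≤ _ := by gcongr

/-- the Gaussian as a Schwartz map -/
def E : SchwartzMap ℂ ℂ where
  toFun := OMM.ex ∘ ph
  smooth' := OMM.ex_smooth.comp ph_temp.1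
  decay' k n := by
    obtain ⟨l, C, hC, h⟩ := ph_temp.norm_iteratedFDeriv_le_uniform n
    refine ⟨n ! * (C + 1) ^ n * ((k + l * n)! * Real.exp 2), fun x => ?_⟩
    have h1 : (1 : ℝ) ≤ (1 + ‖x‖) ^ l := one_le_pow₀ (by simp)
    have h2 := norm_iteratedFDeriv_comp_le OMM.ex_smooth ph_temp.1 (n := n) (by exact_mod_cast le_top) x
      (C := Real.exp (ph x)) (D := (C + 1) * (1 + ‖x‖) ^ l)
      (fun i _ => by
        rw [norm_iteratedFDeriv_eq_norm_iteratedDeriv, OMM.ex_iter, OMM.ex, norm_exp_ofReal])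
      (fun i hi hi' => (h i hi' x).trans (le_trans (by nlinarith)
        (le_self_pow₀ (by nlinarith) (by omega))))
    calc _ ≤ (1 + ‖x‖) ^ k * (n ! * Real.exp (ph x) * ((C + 1) * (1 + ‖x‖) ^ l) ^ n) := by
          gcongr
          simp
      _ = n ! * (C + 1) ^ n * ((1 + ‖x‖) ^ (k + l * n) * Real.exp (ph x)) := by
          rw [mul_pow]
          ring
      _ ≤ _ := mul_le_mul_of_nonneg_left (poly_exp _ _ (norm_nonneg x)) (by positivity)

theorem E_apply (z : ℂ) : E z = cexp (-(‖z‖ ^ 2 : ℝ)) := by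
  show cexp ((-‖z‖ ^ 2 : ℝ) : ℂ) = _
  rw [ofReal_neg]

theorem Gj_sch (j : ℤ) (hj : j = 1 ∨ j = -1) : ∃ G : SchwartzMap ℂ ℂ, ∀ z, G z = Gj j z := by
  rcases hj with rfl | rfl
  · refine ⟨SchwartzMap.smulLeftCLM ℂ (fun z : ℂ => z) E, fun z => ?_⟩
    rw [SchwartzMap.smulLeftCLM_apply_apply Function.HasTemperateGrowth.id', E_apply, Gj, ang,
      zpow_one, smul_eq_mul]
    rcases eq_or_ne z 0 with rfl | h
    · simp
    · have : (‖z‖ : ℂ) ≠ 0 := by simpa using h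
      field_simp
  · refine ⟨SchwartzMap.smulLeftCLM ℂ (Complex.conjCLE : ℂ → ℂ) E, fun z => ?_⟩
    rw [SchwartzMap.smulLeftCLM_apply_apply Complex.conjCLE.hasTemperateGrowth, E_apply, Gj, ang,
      zpow_neg_one, smul_eq_mul, Complex.conjCLE_apply]
    rcases eq_or_ne z 0 with rfl | h
    · simp
    · have h1 : (‖z‖ : ℂ) ≠ 0 := by simpa using h
      have h2 := Complex.mul_conj' z
      congr 1
      field_simp
      linear_combination h2

theorem fam (a b : SchwartzMap ℂ ℂ) : ∃ K : ℝ, ∀ s : ℝ, 0 ≤ s → s ≤ 1 → ∀ ξ,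
    ‖ξ‖ ^ 2 * ‖FTc (fun z => a z * b (s • z)) ξ‖ ≤ K := by
  set M : ℝ := ∑ i ∈ Finset.range 3, SchwartzMap.seminorm ℝ 0 i b with hM
  have bM : ∀ i ≤ 2, ∀ x, ‖iteratedFDeriv ℝ i b x‖ ≤ M := fun i hi x =>
    (b.norm_iteratedFDeriv_le_seminorm ℝ i x).trans (Finset.single_le_sum
      (f := fun i => SchwartzMap.seminorm ℝ 0 i b) (fun _ _ => apply_nonneg _ _)
      (Finset.mem_range.2 (by omega)))
  set g : ℕ → ℂ → ℝ := fun p v => ∑ i ∈ Finset.range (p + 1),
    (p.choose i : ℝ) * ‖iteratedFDeriv ℝ i a v‖ * M with hg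
  have gi : ∀ p, Integrable (g p) := fun p => integrable_finsetSum _ fun i _ => by
    have := a.integrable_pow_mul_iteratedFDeriv volume 0 i
    simp only [pow_zero, one_mul] at this
    exact (this.const_mul _).mul_const _
  refine ⟨4 * ∑ p ∈ Finset.range 3, ∫ v, g p v, fun s s0 s1 ξ => ?_⟩
  have sb : ContDiff ℝ ∞ fun z : ℂ => b (s • z) := (b.smooth ⊤).comp (contDiff_const_smul s)
  have hsf : ContDiff ℝ ∞ fun z : ℂ => a z * b (s • z) := (a.smooth ⊤).mul sb
  have bd : ∀ p ≤ 2, ∀ v, ‖iteratedFDeriv ℝ p (fun z : ℂ => a z * b (s • z)) v‖ ≤ g p v := by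
    intro p hp v
    refine (norm_iteratedFDeriv_mul_le (a.smooth ⊤) sb v (by exact_mod_cast le_top)).trans
      (Finset.sum_le_sum fun i _ => mul_le_mul_of_nonneg_left ?_ (by positivity))
    rw [iteratedFDeriv_comp_const_smul s (b.smooth _), norm_smul, norm_pow, Real.norm_of_nonneg s0]
    exact (mul_le_of_le_one_left (norm_nonneg _) (pow_le_one₀ s0 s1)).trans (bM _ (by omega) _)
  have it : ∀ p ≤ 2, Integrable fun v => ‖iteratedFDeriv ℝ p (fun z : ℂ => a z * b (s • z)) v‖ :=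
    fun p hp => (gi p).mono' (hsf.continuous_iteratedFDeriv
      (by exact_mod_cast le_top)).norm.aestronglyMeasurable
      (.of_forall fun v => by rw [norm_norm]; exact bd p hp v)
  have h := Real.pow_mul_norm_iteratedFDeriv_fourier_le (K := 0) (N := 2) (k := 0) (n := 2)
    (f := fun z : ℂ => a z * b (s • z)) (hsf.of_le (by exact_mod_cast le_top))
    (fun k n hk hn => by
      obtain rfl : k = 0 := by exact_mod_cast le_antisymm hk bot_le
      simpa using it n (by exact_mod_cast hn)) le_rfl le_rfl ((2 / Real.sqrt 3 : ℝ) * (I * conj ξ))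
  rw [norm_iteratedFDeriv_zero, ← FTc_eq] at h
  simp only [zero_add, Finset.range_one, Finset.sum_product, Finset.sum_singleton, pow_zero,
    one_mul, Nat.cast_zero, mul_zero] at h
  have h1 : ‖ξ‖ ^ 2 ≤ ‖((2 / Real.sqrt 3 : ℝ) : ℂ) * (I * conj ξ)‖ ^ 2 := by
    have h3 : Real.sqrt 3 ^ 2 = 3 := Real.sq_sqrt (by norm_num)
    simp only [norm_mul, norm_conj, norm_I, norm_real, Real.norm_eq_abs, mul_pow, sq_abs,
      div_pow, h3]
    nlinarith [sq_nonneg ‖ξ‖]
  refine (mul_le_mul_of_nonneg_right h1 (norm_nonneg _)).trans (h.trans ?_)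
  rw [show (2 : ℝ) ^ 2 = 4 by norm_num]
  refine mul_le_mul_of_nonneg_left (Finset.sum_le_sum fun p hp => ?_) (by norm_num)
  have := Finset.mem_range.1 hp
  exact integral_mono (it p (by omega)) (gi p) (bd p (by omega))

def rh (z : ℂ) : ℝ := Real.smoothTransition (2 - ‖z‖ ^ 2)

theorem rh_smooth : ContDiff ℝ ∞ fun z => (rh z : ℂ) :=
  ofRealCLM.contDiff.comp (Real.smoothTransition.contDiff.comp
    (contDiff_const.sub (contDiff_norm_sq ℝ)))

theorem rh_one {z : ℂ} (h : ‖z‖ ≤ 1) : rh z = 1 :=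
  Real.smoothTransition.one_of_one_le (by nlinarith [norm_nonneg z])

theorem rh_zero {z : ℂ} (h : 2 ≤ ‖z‖) : rh z = 0 :=
  Real.smoothTransition.zero_of_nonpos (by nlinarith)

theorem rh_sch : ∃ R : SchwartzMap ℂ ℂ, ∀ z, R z = rh z := by
  refine ⟨HasCompactSupport.toSchwartzMap (f := fun z => (rh z : ℂ)) ?_ rh_smooth, fun _ => rfl⟩
  refine HasCompactSupport.intro (isCompact_closedBall (0 : ℂ) 2) fun z hz => ?_
  rw [rh_zero (by simpa using (not_le.1 (by simpa using hz)).le), ofReal_zero]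

end CUTM

open CUTM

theorem cutS (hB : Bas) : CUTStmt := by
  intro j hj
  obtain ⟨G, hG⟩ := Gj_sch j hj
  obtain ⟨R, hR⟩ := rh_sch
  obtain ⟨K1, h1⟩ := fam G R
  obtain ⟨K2, h2⟩ := fam R G
  have m1 : ∀ n : ℕ, (1 : ℝ) ≤ n + 1 := fun n => by simp
  have m0 : ∀ n : ℕ, (0 : ℝ) < n + 1 := fun n => by positivity
  have ns : ∀ (c : ℝ) (z : ℂ), 0 < c → ‖c • z‖ = c * ‖z‖ := fun c z hc => by
    rw [norm_smul, Real.norm_of_nonneg hc.le]
  refine ⟨fun n z => G z * R (((n + 1 : ℝ))⁻¹ • z) - G z * R ((n + 1 : ℝ) • z), K1 + K2,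
    fun n => ⟨?_, ⟨((n + 1 : ℝ))⁻¹, 2 * (n + 1), by positivity, fun z hz => ⟨?_, ?_⟩⟩, ?_⟩, ?_, ?_, ?_⟩
  · exact ((G.smooth ⊤).mul ((R.smooth ⊤).comp (contDiff_const_smul _))).sub
      ((G.smooth ⊤).mul ((R.smooth ⊤).comp (contDiff_const_smul _)))
  · by_contra h
    apply hz
    have h3 := (not_le.1 h).le
    have h4 : ((n + 1 : ℝ))⁻¹ ≤ 1 := inv_le_one_of_one_le₀ (m1 n)
    have h5 := inv_pos.2 (m0 n)
    simp only [hR]
    rw [rh_one, rh_one, sub_self]
    · rw [ns _ _ (m0 n)]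
      exact (mul_le_mul_of_nonneg_left h3 (m0 n).le).trans (mul_inv_cancel₀ (m0 n).ne').le
    · rw [ns _ _ h5]
      nlinarith [norm_nonneg z]
  · by_contra h
    apply hz
    have h3 := (not_le.1 h).le
    simp only [hR]
    rw [rh_zero, rh_zero, sub_self]
    · rw [ns _ _ (m0 n)]
      nlinarith [m1 n]
    · rw [ns _ _ (inv_pos.2 (m0 n)), le_inv_mul_iff₀ (m0 n)]
      linarith
  · intro ζ z hζ
    have e1 : ∀ c : ℝ, R (c • (ζ * z)) = R (c • z) := fun c => by
      simp only [hR, rh, norm_smul, norm_mul, hζ, one_mul]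
    have e2 : G (ζ * z) = ζ ^ j * G z := by
      simp only [hG, Gj, ang, norm_mul, hζ, one_mul, mul_div_assoc, mul_zpow, mul_assoc]
    simp only [e1, e2]
    ring
  · intro n z
    simp only [hR]
    rw [← mul_sub, norm_mul, hG, ← ofReal_sub, norm_real, Real.norm_eq_abs]
    refine mul_le_of_le_one_right (norm_nonneg _) (abs_le.2 ⟨?_, ?_⟩) <;> unfold rh <;>
      linarith [Real.smoothTransition.le_one (2 - ‖((n + 1 : ℝ))⁻¹ • z‖ ^ 2),
        Real.smoothTransition.nonneg (2 - ‖((n + 1 : ℝ))⁻¹ • z‖ ^ 2),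
        Real.smoothTransition.le_one (2 - ‖((n + 1 : ℝ)) • z‖ ^ 2),
        Real.smoothTransition.nonneg (2 - ‖((n + 1 : ℝ)) • z‖ ^ 2)]
  · intro z
    rcases eq_or_ne z 0 with rfl | hz
    · have : Gj j 0 = 0 := by simp [Gj]
      simp [hG, this]
    have hz' : 0 < ‖z‖ := norm_pos_iff.2 hz
    refine tendsto_const_nhds.congr' ?_
    filter_upwards [(tendsto_natCast_atTop_atTop (R := ℝ)).eventually_ge_atTop ‖z‖,
      (tendsto_natCast_atTop_atTop (R := ℝ)).eventually_ge_atTop (2 / ‖z‖)] with n a1 a2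
    simp only [hR]
    rw [rh_one, rh_zero, hG]
    · simp
    · rw [div_le_iff₀ hz'] at a2
      rw [ns _ _ (m0 n)]
      nlinarith
    · rw [ns _ _ (inv_pos.2 (m0 n)), inv_mul_le_iff₀ (m0 n)]
      linarith
  · intro n ξ
    have i1 : ∀ c : ℝ, Integrable fun z => G z * R (c • z) * psi (-(z * ξ)) := fun c => by
      simp only [mul_assoc]
      refine G.integrable.mul_bdd (c := SchwartzMap.seminorm ℝ 0 0 R)
        ((R.continuous.comp (by fun_prop)).mul
          (hB.b1.cont_psi.comp (by fun_prop))).aestronglyMeasurable (.of_forall fun z => ?_)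
      rw [norm_mul, hB.b1.norm_psi, mul_one]
      exact R.norm_le_seminorm ℝ _
    have mc : ((n + 1 : ℝ) : ℂ) ≠ 0 := by exact_mod_cast (m0 n).ne'
    have e1 : F1 (fun z => G z * R (((n + 1 : ℝ))⁻¹ • z) - G z * R ((n + 1 : ℝ) • z)) ξ =
        FTc (fun z => G z * R (((n + 1 : ℝ))⁻¹ • z)) ξ - FTc (fun z => G z * R ((n + 1 : ℝ) • z)) ξ := by
      rw [FTc, FTc, ← integral_sub (i1 _) (i1 _), F1]
      simp only [sub_mul]
    have e2 := FTc_mul (fun w => R w * G (((n + 1 : ℝ))⁻¹ • w)) mc ξ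
    have e3 : (fun z : ℂ => R (((n + 1 : ℝ) : ℂ) * z) * G (((n + 1 : ℝ))⁻¹ • (((n + 1 : ℝ) : ℂ) * z))) =
        fun z => G z * R ((n + 1 : ℝ) • z) := by
      ext z
      rw [mul_comm, ← Complex.real_smul, smul_smul, inv_mul_cancel₀ (m0 n).ne', one_smul]
    have s1 : ((n + 1 : ℝ))⁻¹ ≤ 1 := inv_le_one_of_one_le₀ (m1 n)
    have a1 := h1 _ (inv_pos.2 (m0 n)).le s1 ξ
    have a2 := h2 _ (inv_pos.2 (m0 n)).le s1 (ξ / (n + 1 : ℝ))
    rw [e3] at e2
    rw [norm_div, div_pow, div_eq_mul_inv, mul_assoc] at a2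
    simp only
    rw [e1]
    refine (mul_le_mul_of_nonneg_left (norm_sub_le _ _) (by positivity)).trans ?_
    rw [mul_add, e2, norm_mul, norm_real, Real.norm_of_nonneg (by positivity)]
    exact add_le_add a1 a2

end Vale.Agent.P026
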