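import Vale.Agent.P026.Stm2

/-! P026: one term of the Voronoi inequality. -/

noncomputable section
open Complex MeasureTheory Filter Topology
open scoped Classical ComplexConjugate

namespace Vale.Agent.P026

namespace FAM1M

theorem cntO : Countable O :=
  Function.Injective.countable (f := fun a : O => (a.re, a.im)) fun a b h => by
    ext
    · exact (Prod.ext_iff.1 h).1
    · exact (Prod.ext_iff.1 h).2

theorem n3 (z : ℂ) : ‖(3 : ℂ) ^ z‖ = (3 : ℝ) ^ z.re := by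
  simpa using Complex.norm_cpow_eq_rpow_re_of_pos (show (0 : ℝ) < 3 by norm_num) z

theorem norm_ang (J : ℤ) (z : ℂ) : ‖ang J z‖ ≤ 1 := by
  rw [ang, norm_zpow, norm_div, norm_real, norm_norm]
  by_cases c : z = 0
  · rcases eq_or_ne J 0 with rfl | hJ
    · simp
    · simp [c, zero_zpow J hJ]
  · rw [div_self (norm_ne_zero_iff.2 c), one_zpow]

def ph (x Y : ℝ) (i n v : ℕ) (σ : ℝ) : ℝ :=
  Real.exp ((σ - 1 / 2) ^ 2 / 4) * Y ^ (σ - 1 / 2) * x ^ (1 - 2 * σ) * 3 ^ (-18 * σ) *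
    3 ^ (i * (σ - 3 / 2)) * 3 ^ (n * (σ - 1 / 2)) * 3 ^ (v * (2 * σ - 1))

theorem norm_WW {h : O} {Y : ℝ} (hh : 0 < N h) (hY : 0 < Y) (t0 : ℝ) (i n v : ℕ) (s : ℂ) :
    ‖WW h Y (1 / 2 + t0 * I) i n v s‖ =
      ph (N h) Y i n v s.re * Real.exp (-(s.im - t0) ^ 2 / 4) * ‖gg s‖ := by
  have e1 : ((s - (1 / 2 + t0 * I)) ^ 2 / 4).re = (s.re - 1 / 2) ^ 2 / 4 + -(s.im - t0) ^ 2 / 4 := by
    simp [sq]; ring
  simp only [WW, ph, norm_mul, n3, norm_exp, Complex.norm_cpow_eq_rpow_re_of_pos hh,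
    Complex.norm_cpow_eq_rpow_re_of_pos hY, e1, Real.exp_add]
  simp
  ring

theorem WW_bd (hG : GAM) {h : O} {Y : ℝ} (hh : 0 < N h) (hY : 0 < Y) (t0 : ℝ) (i n v : ℕ) :
    ∃ C : ℝ, 0 ≤ C ∧ ∀ s : ℂ, -1 / 2 ≤ s.re → s.re ≤ 1 / 2 →
      ‖WW h Y (1 / 2 + t0 * I) i n v s‖ ≤ C * Real.exp (-(1 / 8) * s.im ^ 2) := by
  have hc : Continuous (ph (N h) Y i n v) := by
    have h3 : (3 : ℝ) ≠ 0 := by norm_num
    have := hh.ne'
    have := hY.ne'
    unfold ph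
    fun_prop (disch := assumption)
  obtain ⟨C1, h1⟩ := (isCompact_Icc (a := (-1 / 2 : ℝ)) (b := 1 / 2)).exists_bound_of_continuousOn
    hc.continuousOn
  obtain ⟨C2, h2⟩ := hG.strip
  have p1 : 0 ≤ C1 := (norm_nonneg _).trans (h1 0 ⟨by norm_num, by norm_num⟩)
  have p2 : 0 ≤ C2 := by simpa using (norm_nonneg _).trans (h2 0 (by simp) (by simp))
  refine ⟨C1 * C2 * Real.exp (3 * t0 ^ 2 / 4 + 196), by positivity, fun s a b => ?_⟩
  rw [norm_WW hh hY]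
  have a1 : ph (N h) Y i n v s.re ≤ C1 := (le_abs_self _).trans (h1 _ ⟨a, b⟩)
  have a2 := h2 s (by linarith) (by linarith)
  calc _ ≤ C1 * Real.exp (-(s.im - t0) ^ 2 / 4) * (C2 * Real.exp (7 * |s.im|)) := by gcongr
    _ = C1 * C2 * Real.exp (-(s.im - t0) ^ 2 / 4 + 7 * |s.im|) := by rw [Real.exp_add]; ring
    _ ≤ C1 * C2 * Real.exp (3 * t0 ^ 2 / 4 + 196 + -(1 / 8) * s.im ^ 2) := by
      refine mul_le_mul_of_nonneg_left (Real.exp_le_exp.2 ?_) (by positivity)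
      nlinarith [sq_nonneg (s.im - 4 * t0), sq_nonneg (|s.im| - 56), sq_abs s.im]
    _ = _ := by rw [Real.exp_add]; ring

theorem WW_diff (hG : GAM) {h : O} {Y : ℝ} (hh : 0 < N h) (hY : 0 < Y) (w : ℂ) (i n v : ℕ) :
    DifferentiableOn ℂ (WW h Y w i n v) {s | s.re < 4 / 3} := by
  have k : ∀ (c : ℂ) (f : ℂ → ℂ), c ≠ 0 → Differentiable ℂ f →
      DifferentiableOn ℂ (fun s => c ^ f s) {s | s.re < 4 / 3} := fun c f h1 h2 =>
    (h2.const_cpow (Or.inl h1)).differentiableOn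
  have h3 : (3 : ℂ) ≠ 0 := by norm_num
  unfold WW
  refine ((((((DifferentiableOn.mul (by fun_prop) (k _ _ (ofReal_ne_zero.2 hY.ne')
    (by fun_prop))).mul hG.diff).mul (k _ _ (ofReal_ne_zero.2 hh.ne') (by fun_prop))).mul
    (k _ _ h3 (by fun_prop))).mul (k _ _ h3 (by fun_prop))).mul (k _ _ h3 (by fun_prop))).mul
    (k _ _ h3 (by fun_prop))

section
variable {W : ℂ → ℂ} {C : ℝ}

theorem intW (hD : DifferentiableOn ℂ W {s | s.re < 4 / 3})
    (hW : ∀ s : ℂ, -1 / 2 ≤ s.re → s.re ≤ 1 / 2 → ‖W s‖ ≤ C * Real.exp (-(1 / 8) * s.im ^ 2))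
    {σ : ℝ} (h1 : -1 / 2 ≤ σ) (h2 : σ ≤ 1 / 2) : Continuous (fun t : ℝ => W (σ + t * I)) ∧
      Integrable fun t : ℝ => W (σ + t * I) := by
  have hc : Continuous (fun t : ℝ => W (σ + t * I)) :=
    hD.continuousOn.comp_continuous (by fun_prop) fun t => by
      show (σ + t * I : ℂ).re < 4 / 3
      simp; linarith
  refine ⟨hc, ((integrable_exp_neg_mul_sq (show (0 : ℝ) < 1 / 8 by norm_num)).const_mul C).mono'
    hc.aestronglyMeasurable (ae_of_all _ fun t => ?_)⟩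
  simpa using hW (σ + t * I) (by simpa using h1) (by simpa using h2)

def EE (W : ℂ → ℂ) (σ : ℝ) (k : O) : ℂ :=
  ∫ t : ℝ, W (σ + t * I) * (N k : ℂ) ^ (-(3 / 2 - (σ + t * I)))

theorem EE_shift (hS : SHStmt) (hC : 0 ≤ C) (hD : DifferentiableOn ℂ W {s | s.re < 4 / 3})
    (hW : ∀ s : ℂ, -1 / 2 ≤ s.re → s.re ≤ 1 / 2 → ‖W s‖ ≤ C * Real.exp (-(1 / 8) * s.im ^ 2))
    {σ : ℝ} (h1 : -1 / 2 ≤ σ) (h2 : σ ≤ 1 / 2) {k : O} (hk : 1 ≤ N k) :
    EE W (-1 / 2 : ℝ) k = EE W σ k := by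
  have p : 0 < N k := by linarith
  refine hS (fun s => W s * (N k : ℂ) ^ (-(3 / 2 - s))) _ σ (C * Real.exp 2) 1 h1 one_pos ?_ ?_
  · refine (hD.mono fun s hs => ?_).mul (Differentiable.const_cpow (by fun_prop)
      (Or.inl (ofReal_ne_zero.2 p.ne'))).differentiableOn
    show s.re < 4 / 3
    linarith [hs.2]
  · intro s a b
    rw [norm_mul, Complex.norm_cpow_eq_rpow_re_of_pos p]
    have a1 : N k ^ (-(3 / 2 - s)).re ≤ 1 :=
      Real.rpow_le_one_of_one_le_of_nonpos hk (by simp; linarith)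
    calc _ ≤ C * Real.exp (-(1 / 8) * s.im ^ 2) * 1 := by
          gcongr
          exact hW s a (b.trans h2)
      _ ≤ C * Real.exp (2 + -(1 * |s.im|)) * 1 := by
          gcongr
          nlinarith [sq_nonneg (|s.im| - 4), sq_abs s.im]
      _ = _ := by rw [Real.exp_add]; ring

theorem swap (hB : Bas) (hD : DifferentiableOn ℂ W {s | s.re < 4 / 3})
    (hW : ∀ s : ℂ, -1 / 2 ≤ s.re → s.re ≤ 1 / 2 → ‖W s‖ ≤ C * Real.exp (-(1 / 8) * s.im ^ 2))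
    {σ : ℝ} (h1 : -1 / 2 ≤ σ) (h2 : σ ≤ 1 / 2) (b : O → ℂ) (b0 : b 0 = 0)
    (hb : Summable fun k => ‖b k‖ * N k ^ (σ - 3 / 2)) :
    HasSum (fun k => b k * EE W σ k)
      (∫ t : ℝ, W (σ + t * I) * ∑' k, b k * (N k : ℂ) ^ (-(3 / 2 - (σ + t * I)))) := by
  have := cntO
  obtain ⟨hc, hi⟩ := intW hD hW h1 h2
  have nm : ∀ k (t : ℝ), ‖W (σ + t * I) * (b k * (N k : ℂ) ^ (-(3 / 2 - (σ + t * I))))‖ =
      ‖b k‖ * N k ^ (σ - 3 / 2) * ‖W (σ + t * I)‖ := by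
    intro k t
    by_cases c : k = 0
    · simp [c, b0]
    have p : 0 < N k := by linarith [hB.b1.N_one_le k c]
    rw [norm_mul, norm_mul, Complex.norm_cpow_eq_rpow_re_of_pos p, mul_comm]
    simp
  have := hasSum_integral_of_summable_integral_norm (μ := (volume : Measure ℝ))
    (F := fun k (t : ℝ) => W (σ + t * I) * (b k * (N k : ℂ) ^ (-(3 / 2 - (σ + t * I)))))
    (fun k => by
      by_cases c : k = 0
      · simp [c, b0]
      have p : 0 < N k := by linarith [hB.b1.N_one_le k c]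
      refine (hi.norm.const_mul (‖b k‖ * N k ^ (σ - 3 / 2))).mono'
        (Continuous.aestronglyMeasurable (hc.mul (continuous_const.mul (Continuous.const_cpow
          (by fun_prop) (Or.inl (ofReal_ne_zero.2 p.ne')))))) (ae_of_all _ fun t => (nm k t).le))
    (by simp only [nm, integral_const_mul]; exact hb.mul_right _)
  simp only [tsum_mul_left] at this
  refine (this.congr_fun ?_ :)
  intro k
  rw [EE, ← integral_const_mul]
  exact integral_congr_ae (ae_of_all _ fun t => by ring)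

end

def cc (J : ℤ) (r h : O) (Ψ : O → ℂ) (k : O) : ℂ :=
  if (27 : O) ∣ k - r then bb k * ang J (toC k) * fs h Ψ k else 0

theorem bb0 (hB : Bas) (hb : BB) : bb 0 = 0 := by
  rcases hb.cases 0 with h | ⟨n, u, h1, h2, -, h3⟩
  · exact h
  · exact absurd h3.symm (mul_ne_zero (hB.b2.ne n h1) (pow_ne_zero _ (hB.b2.ne u h2)))

theorem cc0 (hB : Bas) (hb : BB) (J : ℤ) (r h : O) (Ψ : O → ℂ) : cc J r h Ψ 0 = 0 := by
  simp [cc, bb0 hB hb]

theorem norm_cc (hB : Bas) (J : ℤ) (r h : O) (Ψ : O → ℂ) (k : O) :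
    ‖cc J r h Ψ k‖ ≤ (∑ a ∈ Rs h, ‖Ψ a‖) * ‖bb k‖ := by
  have a1 : ‖fs h Ψ k‖ ≤ ∑ a ∈ Rs h, ‖Ψ a‖ :=
    norm_sum_le_of_le _ fun a _ => by rw [norm_mul, eQ, hB.b1.norm_psi, mul_one]
  have a2 := norm_ang J (toC k)
  unfold cc
  split_ifs
  · rw [norm_mul, norm_mul]
    calc _ ≤ ‖bb k‖ * 1 * ∑ a ∈ Rs h, ‖Ψ a‖ := by gcongr
      _ = _ := by ring
  · rw [norm_zero]; positivity

theorem N_nonneg (k : O) : 0 ≤ N k := Nat.cast_nonneg _

theorem summ_cc (hB : Bas) (hb : BB) (J : ℤ) (r h : O) (Ψ : O → ℂ) :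
    Summable fun k => ‖cc J r h Ψ k‖ * N k ^ (-2 : ℝ) :=
  Summable.of_nonneg_of_le (fun k => mul_nonneg (norm_nonneg _) (Real.rpow_nonneg (N_nonneg k) _))
    (fun k => by
      rw [← mul_assoc]
      exact mul_le_mul_of_nonneg_right (norm_cc hB J r h Ψ k) (Real.rpow_nonneg (N_nonneg k) _))
    ((hb.summ 2 (by norm_num)).mul_left (∑ a ∈ Rs h, ‖Ψ a‖))

theorem DP_eq (hB : Bas) (hb : BB) (J : ℤ) (r h : O) (Ψ : O → ℂ) (t : ℝ) :
    DP J r h Ψ (3 / 2 - t * I) =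
      ∑' k, cc J r h Ψ k * (N k : ℂ) ^ (-(3 / 2 - (((-1 / 2 : ℝ) : ℂ) + t * I))) := by
  simp only [DP, Ds, ← tsum_mul_left]
  rw [← Summable.tsum_finsetSum fun a _ => Summable.mul_left _ ?_]
  · refine tsum_congr fun k => ?_
    have e : -(3 / 2 - (((-1 / 2 : ℝ) : ℂ) + t * I)) = -(1 / 2 + (3 / 2 - t * I)) := by
      push_cast; ring
    rw [e, cc]
    split_ifs
    · rw [fs, Finset.mul_sum, Finset.sum_mul]
      exact Finset.sum_congr rfl fun a _ => by ring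
    · simp
  · refine Summable.of_norm_bounded (hb.summ 2 (by norm_num)) fun k => ?_
    have q := mul_nonneg (norm_nonneg (bb k)) (Real.rpow_nonneg (N_nonneg k) (-2))
    split_ifs
    · by_cases c : k = 0
      · simp [c, bb0 hB hb]
      have p : 0 < N k := by linarith [hB.b1.N_one_le k c]
      rw [norm_mul, norm_mul, norm_mul, eQ, hB.b1.norm_psi, mul_one,
        Complex.norm_cpow_eq_rpow_re_of_pos p,
        show (-(1 / 2 + (3 / 2 - t * I)) : ℂ).re = -2 by simp; norm_num]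
      have := norm_ang J (toC k)
      calc _ ≤ ‖bb k‖ * 1 * N k ^ (-2 : ℝ) := by gcongr
        _ = _ := by ring
    · simpa using q

theorem VV_nonneg (Z x : ℝ) : 0 ≤ VV Z x := (Real.exp_pos _).le

theorem summ_VV (hB : Bas) (hb : BB) (hL : LN) (J : ℤ) (r h : O) (Ψ : O → ℂ) {Z σ : ℝ}
    (hZ : 0 < Z) (hσ : σ ≤ 1 / 2) :
    Summable fun k => ‖cc J r h Ψ k * (VV Z (N k) : ℂ)‖ * N k ^ (σ - 3 / 2) := by
  refine Summable.of_nonneg_of_le
    (fun k => mul_nonneg (norm_nonneg _) (Real.rpow_nonneg (N_nonneg k) _)) (fun k => ?_)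
    ((summ_cc hB hb J r h Ψ).mul_left (Real.exp (1 ^ 2 / 4) * Z))
  by_cases c : k = 0
  · simp [c, cc0 hB hb]
  have p1 := hB.b1.N_one_le k c
  have p : 0 < N k := by linarith
  have a1 := hL.le 1 Z (N k) hZ p
  have a2 : N k ^ (σ - 3 / 2) ≤ N k ^ (-1 : ℝ) := Real.rpow_le_rpow_of_exponent_le p1 (by linarith)
  rw [norm_mul, norm_real, Real.norm_of_nonneg (VV_nonneg _ _)]
  calc _ ≤ ‖cc J r h Ψ k‖ * (Real.exp (1 ^ 2 / 4) * (Z / N k) ^ (1 : ℝ)) * N k ^ (-1 : ℝ) := by gcongr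
    _ = _ := by
      rw [Real.rpow_one, Real.rpow_neg_one, Real.rpow_neg p.le, Real.rpow_two]
      field_simp

theorem tt_half (J : ℤ) (r h : O) (Ψ : O → ℂ) (Z t : ℝ) :
    ∑' k, cc J r h Ψ k * (VV Z (N k) : ℂ) * (N k : ℂ) ^ (-(3 / 2 - (((1 / 2 : ℝ) : ℂ) + t * I))) =
      TT J r (fs h Ψ) Z (1 / 2 - t * I) := by
  refine tsum_congr fun k => ?_
  have e : -(3 / 2 - (((1 / 2 : ℝ) : ℂ) + t * I)) = -(1 / 2 + (1 / 2 - t * I)) := by
    push_cast; ring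
  rw [e, cc]
  split_ifs
  · ring
  · simp

theorem tt_zero (hB : Bas) (hb : BB) (hL : LN) (J : ℤ) (r h : O) (Ψ : O → ℂ) {Z : ℝ} (hZ : 0 < Z)
    (t : ℝ) :
    ∑' k, cc J r h Ψ k * (VV Z (N k) : ℂ) * (N k : ℂ) ^ (-(3 / 2 - (((0 : ℝ) : ℂ) + t * I))) =
      ((Z ^ (-(1 / 2) : ℝ) * Real.exp ((1 / 2) ^ 2 / 4) : ℝ) : ℂ) *
        TT J r (fs h Ψ) (Z * Real.exp (-(1 / 2) / 2)) (1 / 2 - t * I) := by
  rw [TT, ← tsum_mul_left]
  refine tsum_congr fun k => ?_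
  by_cases c : k = 0
  · simp [c, cc, bb0 hB hb]
  have p : 0 < N k := by linarith [hB.b1.N_one_le k c]
  have e : -(3 / 2 - (((0 : ℝ) : ℂ) + t * I)) = -(1 / 2 + (1 / 2 - t * I)) + ((-(1 / 2) : ℝ) : ℂ) := by
    push_cast; ring
  have a1 := congrArg ofReal (hL.shift Z (N k) (1 / 2) hZ p)
  rw [e, cc, cpow_add _ _ (ofReal_ne_zero.2 p.ne'), ← ofReal_cpow p.le]
  rw [ofReal_mul, ofReal_mul] at a1
  split_ifs
  · linear_combination (bb k * ang J (toC k) * fs h Ψ k *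
      (N k : ℂ) ^ (-(1 / 2 + (1 / 2 - t * I)) : ℂ)) * a1
  · simp

theorem part (hB : Bas) (hL : LN) (a : O → ℂ) (a0 : a 0 = 0) (ha : Summable fun k => ‖a k‖) :
    ‖∑' k, a k‖ₑ ≤ ∫⁻ Z in Set.Ioi (0 : ℝ),
      ENNReal.ofReal (1 / Z) * ‖∑' k, a k * (VV Z (N k) : ℂ)‖ₑ := by
  have := cntO
  have sp : 1 ≤ Real.sqrt Real.pi := Real.one_le_sqrt.2 (by linarith [Real.two_le_pi])
  have pos : ∀ k, k ≠ 0 → 0 < N k := fun k c => by linarith [hB.b1.N_one_le k c]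
  have hi : ∀ k, k ≠ 0 → Integrable (fun Z : ℝ => VV Z (N k) / Z) (volume.restrict (Set.Ioi 0)) :=
    fun k c => Integrable.of_integral_ne_zero (by rw [hL.part _ (pos k c)]; linarith)
  have := hasSum_integral_of_summable_integral_norm (μ := volume.restrict (Set.Ioi (0 : ℝ)))
    (F := fun k (Z : ℝ) => a k * ((VV Z (N k) / Z : ℝ) : ℂ))
    (fun k => by
      by_cases c : k = 0
      · simp [c, a0]
      exact (hi k c).ofReal.const_mul _)
    (by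
      refine (ha.mul_right (Real.sqrt Real.pi)).congr fun k => ?_
      by_cases c : k = 0
      · simp [c, a0]
      simp only [norm_mul, integral_const_mul]
      rw [← hL.part _ (pos k c)]
      congr 1
      refine setIntegral_congr_fun measurableSet_Ioi fun Z hZ => ?_
      exact (by rw [norm_real, Real.norm_of_nonneg (div_nonneg (VV_nonneg _ _) (le_of_lt hZ))] :
        ‖((VV Z (N k) / Z : ℝ) : ℂ)‖ = _).symm)
  have e : ∀ k, ∫ Z in Set.Ioi (0 : ℝ), a k * ((VV Z (N k) / Z : ℝ) : ℂ) =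
      a k * (Real.sqrt Real.pi : ℝ) := by
    intro k
    by_cases c : k = 0
    · simp [c, a0]
    rw [integral_const_mul, integral_complex_ofReal, hL.part _ (pos k c)]
  simp only [e] at this
  have e2 := this.tsum_eq
  rw [tsum_mul_right] at e2
  calc ‖∑' k, a k‖ₑ ≤ ‖(∑' k, a k) * ((Real.sqrt Real.pi : ℝ) : ℂ)‖ₑ := by
        rw [← ofReal_norm, ← ofReal_norm, norm_mul, norm_real,
          Real.norm_of_nonneg (by linarith)]
        exact ENNReal.ofReal_le_ofReal (le_mul_of_one_le_right (norm_nonneg _) sp)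
    _ ≤ _ := by
        rw [e2]
        refine (enorm_integral_le_lintegral_enorm _).trans
          (setLIntegral_mono' measurableSet_Ioi fun Z hZ => le_of_eq ?_)
        have : ∑' k, a k * ((VV Z (N k) / Z : ℝ) : ℂ) =
            ((1 / Z : ℝ) : ℂ) * ∑' k, a k * (VV Z (N k) : ℂ) := by
          rw [← tsum_mul_left]
          exact tsum_congr fun k => by push_cast; ring
        rw [this, enorm_mul, ← ofReal_norm, norm_real,
          Real.norm_of_nonneg (one_div_nonneg.2 (le_of_lt hZ))]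

theorem split (F H : ℝ → ENNReal) (K : ENNReal) (hK : K ≠ ⊤) {a c : ℝ} (ha : 0 < a) (hc : 0 < c)
    (h1 : ∀ Z, 0 < Z → Z ≤ a → F Z ≤ K * H Z)
    (h2 : ∀ Z, a < Z → F Z ≤ K * (ENNReal.ofReal |c| * H (Z * c))) :
    ∫⁻ Z in Set.Ioi (0 : ℝ), F Z ≤ 2 * K * ∫⁻ Z in Set.Ioi (0 : ℝ), H Z := by
  rw [← Set.Ioc_union_Ioi_eq_Ioi ha.le, lintegral_union measurableSet_Ioi Set.Ioc_disjoint_Ioi_same,
    Set.Ioc_union_Ioi_eq_Ioi ha.le, two_mul, add_mul]
  refine add_le_add ?_ ?_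
  · refine (setLIntegral_mono' measurableSet_Ioc fun Z hZ => h1 Z hZ.1 hZ.2).trans ?_
    rw [lintegral_const_mul' _ _ hK]
    exact mul_le_mul_right (lintegral_mono_set Set.Ioc_subset_Ioi_self) _
  · refine (setLIntegral_mono' measurableSet_Ioi fun Z hZ => h2 Z hZ).trans ?_
    rw [lintegral_const_mul' _ _ hK, ← lintegral_image_eq_lintegral_abs_deriv_mul
      (f := fun Z => Z * c) (f' := fun _ => c) measurableSet_Ioi
      (fun x _ => (hasDerivAt_mul_const c).hasDerivWithinAt) (mul_left_injective₀ hc.ne').injOn H]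
    refine mul_le_mul_right (lintegral_mono_set ?_) _
    rintro _ ⟨Z, hZ, rfl⟩
    exact mul_pos (ha.trans hZ) hc

theorem line (W T : ℝ → ℂ) (g : ℝ → ℝ) {x K : ℝ} (hx : 0 ≤ x) (hK : 0 ≤ K) (z : ℂ)
    (h : ∀ t, x * (‖W t‖ * ‖z‖) ≤ K * g t) :
    ENNReal.ofReal x * ‖∫ t, W t * (z * T t)‖ₑ ≤
      ENNReal.ofReal K * ∫⁻ t, ENNReal.ofReal (g t) * ‖T t‖ₑ := by
  refine (mul_le_mul_right (enorm_integral_le_lintegral_enorm _) _).trans ?_
  rw [← lintegral_const_mul' _ _ ENNReal.ofReal_ne_top, ← lintegral_const_mul' _ _ ENNReal.ofReal_ne_top]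
  refine lintegral_mono fun t => ?_
  rw [← mul_assoc (W t), enorm_mul, ← mul_assoc, ← mul_assoc, ← ENNReal.ofReal_mul hK,
    ← ofReal_norm (W t * z), ← ENNReal.ofReal_mul hx, norm_mul]
  exact mul_le_mul_left (ENNReal.ofReal_le_ofReal (h t)) _

theorem ph_half (x Y : ℝ) (i n v : ℕ) : ph x Y i n v (1 / 2) ≤ (3 ^ i)⁻¹ := by
  have : (3 : ℝ) ^ (-18 * (1 / 2 : ℝ)) ≤ 1 :=
    Real.rpow_le_one_of_one_le_of_nonpos (by norm_num) (by norm_num)
  have e : (3 : ℝ) ^ ((i : ℝ) * (1 / 2 - 3 / 2)) = (3 ^ i)⁻¹ := by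
    rw [← Real.rpow_natCast, ← Real.rpow_neg (by norm_num)]; congr 1; ring
  rw [ph, e, sub_self, show (1 : ℝ) - 2 * (1 / 2) = 0 by ring, show 2 * (1 / 2 : ℝ) - 1 = 0 by ring]
  simp only [mul_zero, Real.rpow_zero, mul_one, ne_eq, OfNat.ofNat_ne_zero, not_false_eq_true,
    zero_pow, zero_div, Real.exp_zero, one_mul]
  exact mul_le_of_le_one_left (by positivity) this

theorem ph_zero {x Y U Z : ℝ} (hx : 0 < x) (hY : 0 < Y) (hZ : 0 < Z) (hU : x ^ 2 ≤ U * Y)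
    (i n v : ℕ) : ph x Y i n v 0 * Z ^ (-(1 / 2) : ℝ) ≤
      3 * (3 ^ i)⁻¹ * Real.sqrt (U / (3 ^ n * Z)) := by
  have a1 : Real.exp ((0 - 1 / 2) ^ 2 / 4) ≤ 3 :=
    (Real.exp_le_exp.2 (by norm_num)).trans (Real.exp_one_lt_d9.le.trans (by norm_num))
  have a2 : (3 : ℝ) ^ ((i : ℝ) * (0 - 3 / 2)) ≤ (3 ^ i)⁻¹ := by
    rw [← Real.rpow_natCast, ← Real.rpow_neg (by norm_num)]
    exact Real.rpow_le_rpow_of_exponent_le (by norm_num) (by nlinarith [Nat.cast_nonneg (α := ℝ) i])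
  have a3 : (3 : ℝ) ^ ((v : ℝ) * (2 * 0 - 1)) ≤ 1 :=
    Real.rpow_le_one_of_one_le_of_nonpos (by norm_num) (by nlinarith [Nat.cast_nonneg (α := ℝ) v])
  have a4 : Y ^ (0 - 1 / 2 : ℝ) * x * 3 ^ ((n : ℝ) * (0 - 1 / 2)) * Z ^ (-(1 / 2) : ℝ) ≤
      Real.sqrt (U / (3 ^ n * Z)) := by
    refine Real.le_sqrt_of_sq_le ?_
    have b : ∀ y : ℝ, 0 < y → (y ^ (-(1 / 2) : ℝ)) ^ 2 = y⁻¹ := fun y hy => by
      rw [← Real.rpow_natCast, ← Real.rpow_mul hy.le, ← Real.rpow_neg_one]; norm_num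
    rw [Real.rpow_natCast_mul (by norm_num), zero_sub, mul_pow, mul_pow, mul_pow, b _ hY, b _ hZ,
      b _ (by positivity), le_div_iff₀ (by positivity)]
    calc _ = x ^ 2 / Y := by field_simp
      _ ≤ U := (div_le_iff₀ hY).2 hU
  rw [ph, show (1 : ℝ) - 2 * 0 = 1 by ring, Real.rpow_one, mul_zero, Real.rpow_zero, mul_one]
  calc _ = Real.exp ((0 - 1 / 2) ^ 2 / 4) * 3 ^ ((i : ℝ) * (0 - 3 / 2)) * 3 ^ ((v : ℝ) * (2 * 0 - 1)) *
        (Y ^ (0 - 1 / 2 : ℝ) * x * 3 ^ ((n : ℝ) * (0 - 1 / 2)) * Z ^ (-(1 / 2) : ℝ)) := by ring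
    _ ≤ 3 * (3 ^ i)⁻¹ * 1 * Real.sqrt (U / (3 ^ n * Z)) := by gcongr
    _ = _ := by ring

end FAM1M

open FAM1M in
theorem fam1S (hB : Bas) (hb : BB) (hS : SHStmt) (hL : LN) (hG : GAM) : FAM1Stmt := by
  obtain ⟨C0, hC0⟩ := hG.l0
  have p0 : 0 ≤ C0 := by simpa using (norm_nonneg _).trans (hC0 0)
  refine ⟨2 * (1 + 9 * C0), by positivity, fun J r h Ψ Y U t0 i n v hh hY hU hN _ => ?_⟩
  have ph0 : 0 < N h := by linarith [hB.b1.N_one_le h hh]
  obtain ⟨C, hC, hW⟩ := WW_bd hG ph0 hY t0 i n v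
  have hD := WW_diff hG ph0 hY (1 / 2 + t0 * I) i n v
  have nW := norm_WW ph0 hY t0 i n v
  generalize WW h Y (1 / 2 + t0 * I) i n v = W at *
  have s1 := FAM1M.swap hB hD hW (σ := -1 / 2) le_rfl (by norm_num) (cc J r h Ψ) (cc0 hB hb J r h Ψ)
    (by rw [show (-1 / 2 - 3 / 2 : ℝ) = -2 by norm_num]; exact summ_cc hB hb J r h Ψ)
  have e1 : ∫ t : ℝ, W (-1 / 2 + t * I) * DP J r h Ψ (3 / 2 - t * I) =
      ∑' k, cc J r h Ψ k * FAM1M.EE W (-1 / 2 : ℝ) k := by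
    rw [s1.tsum_eq]
    simp only [DP_eq hB hb]
    push_cast
    rfl
  have e2 : ∀ Z σ : ℝ, 0 < Z → -1 / 2 ≤ σ → σ ≤ 1 / 2 →
      ∑' k, cc J r h Ψ k * FAM1M.EE W (-1 / 2 : ℝ) k * (VV Z (N k) : ℂ) =
      ∫ t : ℝ, W (σ + t * I) * ∑' k, cc J r h Ψ k * (VV Z (N k) : ℂ) *
        (N k : ℂ) ^ (-(3 / 2 - (σ + t * I))) := by
    intro Z σ hZ h1 h2
    rw [← (FAM1M.swap hB hD hW h1 h2 (fun k => cc J r h Ψ k * (VV Z (N k) : ℂ))
      (by simp [cc0 hB hb]) (summ_VV hB hb hL J r h Ψ hZ h2)).tsum_eq]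
    refine tsum_congr fun k => ?_
    by_cases c : k = 0
    · simp [c, cc0 hB hb]
    rw [EE_shift hS hC hD hW h1 h2 (hB.b1.N_one_le k c)]
    ring
  rw [e1]
  refine (part hB hL _ (by simp [cc0 hB hb]) s1.summable.norm).trans ?_
  have hK : (0 : ℝ) ≤ (1 + 9 * C0) * (3 ^ i)⁻¹ := by positivity
  have cpos := Real.exp_pos (-(1 / 2) / 2 : ℝ)
  have c1 : Real.exp (-(1 / 2) / 2 : ℝ) ≤ 1 := Real.exp_le_one_iff.2 (by norm_num)
  rw [mul_assoc (2 : ℝ), ENNReal.ofReal_mul (by norm_num), ENNReal.ofReal_ofNat]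
  refine split _ _ (ENNReal.ofReal ((1 + 9 * C0) * (3 ^ i)⁻¹)) ENNReal.ofReal_ne_top
    (a := U / 3 ^ n) (by positivity) cpos (fun Z hZ hZ' => ?_) fun Z hZ' => ?_
  · rw [e2 Z (1 / 2) hZ (by norm_num) le_rfl]
    simp only [tt_half]
    have := line (fun t => W ((1 / 2 : ℝ) + t * I)) (fun t => TT J r (fs h Ψ) Z (1 / 2 - t * I))
      (fun t => min 1 (Real.sqrt (U / (3 ^ n * Z))) / Z * Real.exp (-(t - t0) ^ 2 / 4) * (1 + |t|) ^ 2)
      (x := 1 / Z) (by positivity) hK 1 fun t => by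
        have a1 : 1 ≤ Real.sqrt (U / (3 ^ n * Z)) := Real.one_le_sqrt.2 (by
          rw [le_div_iff₀ (by positivity)] at hZ' ⊢; linarith)
        have a2 : ‖gg ((1 / 2 : ℝ) + t * I)‖ ≤ 1 := by simpa using hG.half t
        have a3 : (1 : ℝ) ≤ (1 + |t|) ^ 2 := one_le_pow₀ (by linarith [abs_nonneg t])
        have a4 := ph_half (N h) Y i n v
        rw [nW, min_eq_left a1, norm_one, mul_one]
        simp only [add_re, ofReal_re, mul_re, I_re, mul_zero, ofReal_im, I_im, mul_one, sub_self,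
          add_zero, add_im, mul_im, zero_add]
        calc _ ≤ 1 / Z * ((3 ^ i)⁻¹ * Real.exp (-(t - t0) ^ 2 / 4) * 1) := by gcongr
          _ = 1 * (3 ^ i)⁻¹ * (1 / Z * Real.exp (-(t - t0) ^ 2 / 4) * 1) := by ring
          _ ≤ _ := by gcongr; linarith
    simpa only [one_mul] using this
  · have hZ : 0 < Z := lt_trans (by positivity) hZ'
    rw [e2 Z 0 hZ (by norm_num) (by norm_num)]
    simp only [tt_zero hB hb hL J r h Ψ hZ]
    rw [← mul_assoc, abs_of_pos cpos, ← ENNReal.ofReal_mul hK]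
    refine line (fun t => W ((0 : ℝ) + t * I)) _ _ (by positivity) (by positivity) _ fun t => ?_
    generalize Real.exp (-(1 / 2) / 2 : ℝ) = c at *
    have a1 : Real.sqrt (U / (3 ^ n * Z)) ≤ min 1 (Real.sqrt (U / (3 ^ n * (Z * c)))) := by
      refine le_min (Real.sqrt_le_one.2 ?_) (Real.sqrt_le_sqrt ?_)
      · rw [div_lt_iff₀ (by positivity)] at hZ'
        rw [div_le_iff₀ (by positivity)]; linarith
      · gcongr
        exact mul_le_of_le_one_right hZ.le c1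
    have a2 : ‖gg ((0 : ℝ) + t * I)‖ ≤ C0 * (1 + |t|) ^ 2 := by simpa using hC0 t
    have a3 : Real.exp ((1 / 2) ^ 2 / 4) ≤ 3 :=
      (Real.exp_le_exp.2 (by norm_num)).trans (Real.exp_one_lt_d9.le.trans (by norm_num))
    have a4 := (ph_zero ph0 hY hZ hN i n v).trans (mul_le_mul_of_nonneg_left a1 (by positivity))
    rw [nW, norm_real, Real.norm_of_nonneg (by positivity)]
    simp only [add_re, ofReal_re, mul_re, I_re, mul_zero, ofReal_im, I_im, mul_one, sub_self,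
      add_zero, add_im, mul_im, zero_add]
    generalize min 1 (Real.sqrt (U / (3 ^ n * (Z * c)))) = m at *
    have m0 : 0 ≤ m := (Real.sqrt_nonneg _).trans a1
    calc _ = 1 / Z * (ph (N h) Y i n v 0 * Z ^ (-(1 / 2) : ℝ)) * Real.exp (-(t - t0) ^ 2 / 4) *
          ‖gg ((0 : ℝ) + t * I)‖ * Real.exp ((1 / 2) ^ 2 / 4) := by ring
      _ ≤ 1 / Z * (3 * (3 ^ i)⁻¹ * m) * Real.exp (-(t - t0) ^ 2 / 4) * (C0 * (1 + |t|) ^ 2) * 3 := by
          gcongr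
      _ = 9 * C0 * (3 ^ i)⁻¹ * c * (m / (Z * c) * Real.exp (-(t - t0) ^ 2 / 4) * (1 + |t|) ^ 2) := by
          field_simp; ring
      _ ≤ _ := by gcongr; linarith

end Vale.Agent.P026
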