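import Vale.Agent.P026.Stm2b
import Vale.Agent.P026.M.FAM1

/-! P026: one term of the Voronoi inequality, lines one half and minus one half. -/

noncomputable section
open Complex MeasureTheory Filter Topology
open scoped Classical ComplexConjugate

namespace Vale.Agent.P026

namespace FAM1bM

open FAM1M

theorem tt_m (hB : Bas) (hb : BB) (hL : LN) (J : ℤ) (r h : O) (Ψ : O → ℂ) {Z : ℝ} (hZ : 0 < Z)
    (t : ℝ) :
    ∑' k, cc J r h Ψ k * (VV Z (N k) : ℂ) * (N k : ℂ) ^ (-(3 / 2 - (((-1 / 2 : ℝ) : ℂ) + t * I))) =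
      ((Z ^ (-1 : ℝ) * Real.exp (1 ^ 2 / 4) : ℝ) : ℂ) *
        TT J r (fs h Ψ) (Z * Real.exp (-1 / 2)) (1 / 2 - t * I) := by
  rw [TT, ← tsum_mul_left]
  refine tsum_congr fun k => ?_
  by_cases c : k = 0
  · simp [c, cc, bb0 hB hb]
  have p : 0 < N k := by linarith [hB.b1.N_one_le k c]
  have e : -(3 / 2 - (((-1 / 2 : ℝ) : ℂ) + t * I)) = -(1 / 2 + (1 / 2 - t * I)) + ((-1 : ℝ) : ℂ) := by
    push_cast; ring
  have a1 := congrArg ofReal (hL.shift Z (N k) 1 hZ p)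
  rw [e, cc, cpow_add _ _ (ofReal_ne_zero.2 p.ne'), ← ofReal_cpow p.le]
  rw [ofReal_mul, ofReal_mul] at a1
  split_ifs
  · linear_combination (bb k * ang J (toC k) * fs h Ψ k *
      (N k : ℂ) ^ (-(1 / 2 + (1 / 2 - t * I)) : ℂ)) * a1
  · simp

theorem ph_m {x Y U Z : ℝ} (hY : 0 < Y) (hZ : 0 < Z) (hU : x ^ 2 ≤ U * Y)
    (i n v : ℕ) : ph x Y i n v (-1 / 2) * Z ^ (-1 : ℝ) ≤
      3 ^ 10 * (3 ^ i)⁻¹ * (U / (3 ^ n * Z)) := by
  have a1 : Real.exp ((-1 / 2 - 1 / 2) ^ 2 / 4) ≤ 3 :=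
    (Real.exp_le_exp.2 (by norm_num)).trans (Real.exp_one_lt_d9.le.trans (by norm_num))
  have a2 : (3 : ℝ) ^ ((i : ℝ) * (-1 / 2 - 3 / 2)) ≤ (3 ^ i)⁻¹ := by
    rw [← Real.rpow_natCast, ← Real.rpow_neg (by norm_num)]
    exact Real.rpow_le_rpow_of_exponent_le (by norm_num) (by nlinarith [Nat.cast_nonneg (α := ℝ) i])
  have a3 : (3 : ℝ) ^ ((v : ℝ) * (2 * (-1 / 2) - 1)) ≤ 1 :=
    Real.rpow_le_one_of_one_le_of_nonpos (by norm_num) (by nlinarith [Nat.cast_nonneg (α := ℝ) v])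
  have a4 : x ^ 2 / Y ≤ U := (div_le_iff₀ hY).2 hU
  have a5 : (3 : ℝ) ^ ((n : ℝ) * (-1 / 2 - 1 / 2)) = (3 ^ n)⁻¹ := by
    rw [← Real.rpow_natCast, ← Real.rpow_neg (by norm_num)]; congr 1; ring
  have a6 : (3 : ℝ) ^ (-18 * (-1 / 2) : ℝ) = 3 ^ 9 := by
    rw [← Real.rpow_natCast]; congr 1; norm_num
  rw [ph, a5, a6, show (1 : ℝ) - 2 * (-1 / 2) = 2 by ring, Real.rpow_two]
  rw [show (-1 / 2 - 1 / 2 : ℝ) = -1 by ring] at a1 ⊢
  rw [Real.rpow_neg_one, Real.rpow_neg_one]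
  calc _ = Real.exp ((-1) ^ 2 / 4) * 3 ^ ((i : ℝ) * (-1 / 2 - 3 / 2)) *
        3 ^ ((v : ℝ) * (2 * (-1 / 2) - 1)) * (x ^ 2 / Y) * (3 ^ 9 * (3 ^ n * Z)⁻¹) := by ring
    _ ≤ 3 * (3 ^ i)⁻¹ * 1 * U * (3 ^ 9 * (3 ^ n * Z)⁻¹) := by gcongr
    _ = _ := by ring

end FAM1bM

open FAM1M FAM1bM in
theorem fam1bS (hB : Bas) (hb : BB) (hS : SHStmt) (hL : LN) (hG : GAM) : FAM1bStmt := by
  obtain ⟨C0, hC0⟩ := hG.lm
  have p0 : 0 ≤ C0 := by simpa using (norm_nonneg _).trans (hC0 0)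
  refine ⟨2 * (1 + 3 ^ 11 * C0), by positivity, fun J r h Ψ Y U t0 i n v hh hY hU hN _ => ?_⟩
  have ph0 : 0 < N h := by linarith [hB.b1.N_one_le h hh]
  obtain ⟨C, hC, hW⟩ := WW_bd hG ph0 hY t0 i n v
  have hD := WW_diff hG ph0 hY (1 / 2 + t0 * I) i n v
  have nW := norm_WW ph0 hY t0 i n v
  generalize WW h Y (1 / 2 + t0 * I) i n v = W at *
  have s1 := FAM1M.swap hB hD hW (σ := -1 / 2) le_rfl (by norm_num) (cc J r h Ψ) (cc0 hB hb J r h Ψ)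
    (by rw [show (-1 / 2 - 3 / 2 : ℝ) = -2 by norm_num]; exact summ_cc hB hb J r h Ψ)
  have e1 : ∫ t : ℝ, W (-1 / 2 + t * I) * DP J r h Ψ (3 / 2 - t * I) =
      ∑' k, cc J r h Ψ k * FAM1M.EE W (-1 / 2 : ℝ) k := by
    rw [s1.tsum_eq]
    simp only [DP_eq hB hb]
    push_cast
    rfl
  have e2 : ∀ Z σ : ℝ, 0 < Z → -1 / 2 ≤ σ → σ ≤ 1 / 2 →
      ∑' k, cc J r h Ψ k * FAM1M.EE W (-1 / 2 : ℝ) k * (VV Z (N k) : ℂ) =
      ∫ t : ℝ, W (σ + t * I) * ∑' k, cc J r h Ψ k * (VV Z (N k) : ℂ) *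
        (N k : ℂ) ^ (-(3 / 2 - (σ + t * I))) := by
    intro Z σ hZ h1 h2
    rw [← (FAM1M.swap hB hD hW h1 h2 (fun k => cc J r h Ψ k * (VV Z (N k) : ℂ))
      (by simp [cc0 hB hb]) (summ_VV hB hb hL J r h Ψ hZ h2)).tsum_eq]
    refine tsum_congr fun k => ?_
    by_cases c : k = 0
    · simp [c, cc0 hB hb]
    rw [EE_shift hS hC hD hW h1 h2 (hB.b1.N_one_le k c)]
    ring
  rw [e1]
  refine (part hB hL _ (by simp [cc0 hB hb]) s1.summable.norm).trans ?_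
  have hK : (0 : ℝ) ≤ (1 + 3 ^ 11 * C0) * (3 ^ i)⁻¹ := by positivity
  have cpos := Real.exp_pos (-1 / 2 : ℝ)
  have c1 : Real.exp (-1 / 2 : ℝ) ≤ 1 := Real.exp_le_one_iff.2 (by norm_num)
  rw [mul_assoc (2 : ℝ), ENNReal.ofReal_mul (by norm_num), ENNReal.ofReal_ofNat]
  refine split _ _ (ENNReal.ofReal ((1 + 3 ^ 11 * C0) * (3 ^ i)⁻¹)) ENNReal.ofReal_ne_top
    (a := U / 3 ^ n) (by positivity) cpos (fun Z hZ hZ' => ?_) fun Z hZ' => ?_
  · rw [e2 Z (1 / 2) hZ (by norm_num) le_rfl]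
    simp only [tt_half]
    have := line (fun t => W ((1 / 2 : ℝ) + t * I)) (fun t => TT J r (fs h Ψ) Z (1 / 2 - t * I))
      (fun t => min 1 (U / (3 ^ n * Z)) / Z * Real.exp (-(t - t0) ^ 2 / 4) * (1 + |t|) ^ 4)
      (x := 1 / Z) (by positivity) hK 1 fun t => by
        have a1 : 1 ≤ U / (3 ^ n * Z) := by
          rw [le_div_iff₀ (by positivity)] at hZ' ⊢; linarith
        have a2 : ‖gg ((1 / 2 : ℝ) + t * I)‖ ≤ 1 := by simpa using hG.half t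
        have a3 : (1 : ℝ) ≤ (1 + |t|) ^ 4 := one_le_pow₀ (by linarith [abs_nonneg t])
        have a4 := ph_half (N h) Y i n v
        rw [nW, min_eq_left a1, norm_one, mul_one]
        simp only [add_re, ofReal_re, mul_re, I_re, mul_zero, ofReal_im, I_im, mul_one, sub_self,
          add_zero, add_im, mul_im, zero_add]
        calc _ ≤ 1 / Z * ((3 ^ i)⁻¹ * Real.exp (-(t - t0) ^ 2 / 4) * 1) := by gcongr
          _ = 1 * (3 ^ i)⁻¹ * (1 / Z * Real.exp (-(t - t0) ^ 2 / 4) * 1) := by ring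
          _ ≤ _ := by gcongr; linarith
    simpa only [one_mul] using this
  · have hZ : 0 < Z := lt_trans (by positivity) hZ'
    rw [e2 Z (-1 / 2) hZ le_rfl (by norm_num)]
    simp only [tt_m hB hb hL J r h Ψ hZ]
    rw [← mul_assoc, abs_of_pos cpos, ← ENNReal.ofReal_mul hK]
    refine line (fun t => W ((-1 / 2 : ℝ) + t * I)) _ _ (by positivity) (by positivity) _ fun t => ?_
    generalize Real.exp (-1 / 2 : ℝ) = c at *
    have a1 : U / (3 ^ n * Z) ≤ min 1 (U / (3 ^ n * (Z * c))) := by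
      refine le_min ?_ ?_
      · rw [div_lt_iff₀ (by positivity)] at hZ'
        rw [div_le_iff₀ (by positivity)]; linarith
      · gcongr
        exact mul_le_of_le_one_right hZ.le c1
    have a2 : ‖gg ((-1 / 2 : ℝ) + t * I)‖ ≤ C0 * (1 + |t|) ^ 4 := by
      push_cast; exact hC0 t
    have a3 : Real.exp (1 ^ 2 / 4) ≤ 3 :=
      (Real.exp_le_exp.2 (by norm_num)).trans (Real.exp_one_lt_d9.le.trans (by norm_num))
    have a4 := (ph_m hY hZ hN i n v).trans (mul_le_mul_of_nonneg_left a1 (by positivity))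
    rw [nW, norm_real, Real.norm_of_nonneg (by positivity)]
    simp only [add_re, ofReal_re, mul_re, I_re, mul_zero, ofReal_im, I_im, mul_one, sub_self,
      add_zero, add_im, mul_im, zero_add]
    generalize min 1 (U / (3 ^ n * (Z * c))) = m at *
    have m0 : 0 ≤ m := le_trans (by positivity) a1
    calc _ = 1 / Z * (ph (N h) Y i n v (-1 / 2) * Z ^ (-1 : ℝ)) * Real.exp (-(t - t0) ^ 2 / 4) *
          ‖gg ((-1 / 2 : ℝ) + t * I)‖ * Real.exp (1 ^ 2 / 4) := by ring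
      _ ≤ 1 / Z * (3 ^ 10 * (3 ^ i)⁻¹ * m) * Real.exp (-(t - t0) ^ 2 / 4) * (C0 * (1 + |t|) ^ 4) *
          3 := by gcongr
      _ = 3 ^ 11 * C0 * (3 ^ i)⁻¹ * c *
          (m / (Z * c) * Real.exp (-(t - t0) ^ 2 / 4) * (1 + |t|) ^ 4) := by
          field_simp
      _ ≤ _ := by gcongr; linarith

end Vale.Agent.P026
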