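import Vale.Agent.P026.Stm2

/-! P026, module GF: Fourier transform of the Gaussian. -/

noncomputable section
open Complex MeasureTheory Filter Topology
open scoped Classical ComplexConjugate

namespace Vale.Agent.P026

theorem gfS (_hB : Bas) : GFStmt := by
  intro M ξ hM
  have h3 : (Real.sqrt 3 : ℂ) ^ 2 = 3 := by
    rw [← ofReal_pow, Real.sq_sqrt (by norm_num)]
    norm_num
  have h3' : (Real.sqrt 3 : ℂ) ≠ 0 := fun h => by simp [h] at h3
  have hM' : (M : ℂ) ≠ 0 := ofReal_ne_zero.2 hM.ne'
  have h := GaussianFourier.integral_cexp_neg_mul_sq_norm_add (V := ℂ) (b := (M : ℂ)⁻¹)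
    (by simpa using hM) (-(4 * Real.pi * I / Real.sqrt 3)) (I * conj ξ)
  rw [F1]
  convert h using 2
  · ext z
    rw [psi, ← Complex.exp_add]
    congr 1
    have : (inner ℝ (I * conj ξ) z : ℝ) = (z * ξ).im := by
      simp [Complex.inner]
      ring
    rw [this, neg_im]
    push_cast
    field_simp
    ring
  · simp
  · congr 1
    rw [norm_mul, norm_I, norm_conj, one_mul, sg, neg_sq, div_pow, h3, mul_pow, I_sq]
    push_cast
    field_simp

end Vale.Agent.P026
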