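import Vale.Agent.P026.Stm2

/-! P026, module GPO: Gaussian Poisson summation with a periodic factor. -/

noncomputable section
open Complex MeasureTheory Filter Topology
open scoped Classical ComplexConjugate

namespace Vale.Agent.P026

namespace GPOM

theorem gdec {M : ℝ} (hM : 0 < M) (s : ℂ) : ∃ K : ℝ, ∀ z : ℂ,
    ‖cexp (-(‖z + s‖ ^ 2 / M : ℝ))‖ ≤ K * (1 + ‖z‖) ^ (-3 : ℝ) := by
  refine ⟨(1 + ‖s‖) ^ 3 * (8 * (1 + 2 * M ^ 2)), fun z => ?_⟩
  have h1 : 1 + ‖z‖ ≤ (1 + ‖s‖) * (1 + ‖z + s‖) := by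
    have := norm_sub_le (z + s) s
    rw [add_sub_cancel_right] at this
    nlinarith [norm_nonneg s, norm_nonneg (z + s)]
  have hx := norm_nonneg (z + s)
  generalize ‖z + s‖ = x at h1 hx
  have h2 : (1 + x) ^ 3 ≤ 8 * (1 + x ^ 4) := by
    rcases le_total x 1 with h | h
    · have : (1 + x) ^ 3 ≤ 2 ^ 3 := by gcongr; linarith
      nlinarith [pow_nonneg hx 4]
    · have : (1 + x) ^ 3 ≤ (2 * x) ^ 3 := by gcongr; linarith
      nlinarith [pow_nonneg hx 3]
  have h3 := Real.quadratic_le_exp_of_nonneg (x := x ^ 2 / M) (by positivity)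
  have h4 : x ^ 4 = M ^ 2 * (x ^ 2 / M) ^ 2 := by field_simp
  have h5 : 1 + x ^ 4 ≤ (1 + 2 * M ^ 2) * Real.exp (x ^ 2 / M) := by
    have : 0 ≤ x ^ 2 / M := by positivity
    rw [h4]
    nlinarith [sq_nonneg M, sq_nonneg (x ^ 2 / M), mul_nonneg (sq_nonneg M) this]
  rw [← ofReal_neg, norm_exp_ofReal, Real.rpow_neg (by positivity), ← div_eq_mul_inv,
    le_div_iff₀ (by positivity), Real.exp_neg, inv_mul_le_iff₀ (Real.exp_pos _),
    show (3 : ℝ) = (3 : ℕ) by norm_num, Real.rpow_natCast]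
  calc (1 + ‖z‖) ^ 3 ≤ ((1 + ‖s‖) * (1 + x)) ^ 3 := by gcongr
    _ = (1 + ‖s‖) ^ 3 * (1 + x) ^ 3 := mul_pow _ _ _
    _ ≤ (1 + ‖s‖) ^ 3 * (8 * ((1 + 2 * M ^ 2) * Real.exp (x ^ 2 / M))) := by
      gcongr
      linarith
    _ = _ := by ring

theorem gsum (hB : Bas) {M : ℝ} (hM : 0 < M) :
    Summable fun a : O => ‖cexp (-(N a / M : ℝ))‖ := by
  obtain ⟨K, hK⟩ := gdec hM 0
  refine Summable.of_nonneg_of_le (fun _ => norm_nonneg _) (fun a => ?_)
    ((hB.b3.summ' 3 (by norm_num)).mul_left K)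
  simpa [hB.b1.N_eq] using hK (toC a)

theorem shift (hB : Bas) (G : ℂ → ℂ) (s ξ : ℂ) :
    F1 (fun z => G (z + s)) ξ = psi (s * ξ) * F1 G ξ := by
  rw [F1, F1, ← integral_const_mul,
    ← integral_add_right_eq_self (fun z => psi (s * ξ) * (G z * psi (-(z * ξ)))) s]
  congr 1
  ext z
  rw [mul_left_comm, ← hB.b1.psi_add]
  congr 2
  ring

end GPOM

open GPOM in
theorem gpoS (hB : Bas) (h1 : PO1Stmt) (hG : GFStmt) : GPOStmt := by
  intro P q M hq hP hM
  have hN : 0 < N q := lt_of_lt_of_le one_pos (hB.b1.N_one_le q hq)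
  have hq' : toC q ≠ 0 := fun h => hq (hB.b1.inj (h.trans (map_zero toC).symm))
  have hsg : 0 < sg := by unfold sg; positivity
  have hb : ∀ a, ‖P a‖ ≤ ∑ r ∈ Rs q, ‖P r‖ := fun a => by
    obtain ⟨r, hr, h⟩ := hB.b4.ex q a hq
    rw [hB.b4.pe_congr q P a r hP h]
    exact Finset.single_le_sum (f := fun r => ‖P r‖) (fun _ _ => norm_nonneg _) hr
  have hs : Summable fun m : O => P m * cexp (-(N m / M : ℝ)) :=
    Summable.of_norm_bounded ((gsum hB hM).mul_left (∑ r ∈ Rs q, ‖P r‖)) fun a => by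
      rw [norm_mul]
      exact mul_le_mul_of_nonneg_right (hb a) (norm_nonneg _)
  have hs2 : Summable fun b : O => ‖cexp (-(sg * M * N b / N q : ℝ))‖ := by
    convert gsum hB (M := N q / (sg * M)) (by positivity) using 6 with b
    field_simp
  have hs3 : ∀ r, Summable fun b : O => ‖eQ (r * b) q * cexp (-(sg * M * N b / N q : ℝ))‖ :=
    fun r => by simpa only [norm_mul, eQ, hB.b1.norm_psi, one_mul] using hs2
  have key : ∀ r, ∑' m, cexp (-(N (r + q * m) / M : ℝ)) = (Real.pi * M : ℝ) / (kap * N q) *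
      ∑' b : O, eQ (r * b) q * cexp (-(sg * M * N b / N q : ℝ)) := fun r => by
    obtain ⟨K, hK⟩ := gdec (M := M / N q) (by positivity) (toC r / toC q)
    have hF : ∀ b : O, F1 (fun z => cexp (-(‖z + toC r / toC q‖ ^ 2 / (M / N q) : ℝ))) (toC b) =
        (Real.pi * (M / N q) : ℝ) * (eQ (r * b) q * cexp (-(sg * M * N b / N q : ℝ))) := fun b => by
      rw [shift hB (fun z => cexp (-(‖z‖ ^ 2 / (M / N q) : ℝ))), hG _ _ (by positivity), eQ,
        map_mul, ← hB.b1.N_eq, mul_left_comm, div_mul_eq_mul_div,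
        show sg * (M / N q) * N b = sg * M * N b / N q by ring]
    have h := h1 _ K (by fun_prop) hK (by
      simp only [hF, norm_mul (((Real.pi * (M / N q) : ℝ)) : ℂ)]
      exact (hs3 r).mul_left _)
    simp only [hF] at h
    rw [tsum_mul_left, ← mul_assoc] at h
    convert h using 2
    · ext m
      congr 3
      rw [hB.b1.N_eq, hB.b1.N_eq q, map_add, map_mul, show toC r + toC q * toC m =
        toC q * (toC m + toC r / toC q) by field_simp; ring, norm_mul]
      have := norm_pos_iff.2 hq'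
      field_simp
    · push_cast
      ring
  rw [hB.b4.tsum_cls q _ hq hs]
  simp only [hP _ _, tsum_mul_left, key, Finset.sum_mul, mul_assoc (P _)]
  rw [Summable.tsum_finsetSum fun r _ => (hs3 r).of_norm.mul_left _, Finset.mul_sum]
  refine Finset.sum_congr rfl fun r _ => ?_
  rw [tsum_mul_left]
  ring

end Vale.Agent.P026
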