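import Vale.Agent.P026.Stm2

/-! P026: pointwise invariance of the weighted kernel under a unimodular change of variables. -/

noncomputable section
open Complex
open scoped Classical ComplexConjugate

namespace Vale.Agent.P026

namespace INV1M

lemma eQ_congr (h1 : B1) {a b c : O} (h : c ∣ a - b) : eQ a c = eQ b c := by
  have : a = b + (a - b) := by ring
  rw [this, h1.eQ_add, h1.eQ_dvd _ _ h, mul_one]

lemma norm_eQ (h1 : B1) (a c : O) : ‖eQ a c‖ = 1 := h1.norm_psi _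

lemma l6 (h1 : B1) : lam ^ 6 = -27 := by
  have := h1.lam_sq
  linear_combination (lam ^ 4 - 3 * lam ^ 2 + 9) * this

lemma lv27 (h1 : B1) {v : ℕ} (hv : v < 7) : lam ^ v ∣ 27 := by
  have h : lam ^ v ∣ lam ^ 6 := pow_dvd_pow _ (by omega)
  rw [l6 h1] at h
  exact (dvd_neg.1 h)

lemma prim_congr {a b : O} (h : (27 : O) ∣ a - b) : Prim a ↔ Prim b := by
  obtain ⟨t, ht⟩ := h
  constructor
  · rintro ⟨s, hs⟩
    exact ⟨s - 9 * t, by linear_combination hs - ht⟩
  · rintro ⟨s, hs⟩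
    exact ⟨s + 9 * t, by linear_combination hs + ht⟩

lemma phi0_congr (h1 : B1) (r : O) {ρ σ : O} (h6 : lam ^ 6 ∣ ρ - σ) (h7 : lam ∣ ρ → lam ^ 7 ∣ ρ - σ) :
    phi0 r ρ = phi0 r σ := by
  have hl : lam ∣ ρ - σ := (dvd_pow_self lam (by norm_num)).trans h6
  have e6 : eQ (-(ρ * r)) (lam ^ 6) = eQ (-(σ * r)) (lam ^ 6) :=
    eQ_congr h1 (by have := h6.mul_right (-r); convert this using 1; ring)
  unfold phi0
  rw [e6]
  by_cases h : lam ∣ ρ
  · have h' : lam ∣ σ := by have := h.sub hl; simpa using this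
    rw [if_pos h, if_pos h', eQ_congr h1 (a := -(ρ * r)) (b := -(σ * r)) (c := lam ^ 7)
      (by have := (h7 h).mul_right (-r); convert this using 1; ring)]
  · have h' : ¬ lam ∣ σ := fun h' => h (by have := h'.add hl; simpa using this)
    rw [if_neg h, if_neg h']

lemma nu0_congr (h1 : B1) (r : O) {c c2 d d2 : O} (x x2 : O) (hc : (27 : O) ∣ c - c2)
    (h6 : lam ^ 6 ∣ (2 - c) * d - (2 - c2) * d2)
    (h7 : lam ∣ (2 - c) * d → lam ^ 7 ∣ (2 - c) * d - (2 - c2) * d2) :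
    nu0 r c d x = nu0 r c2 d2 x2 := by
  obtain ⟨t, ht⟩ := hc
  have : (9 : O) ∣ c - 1 ↔ (9 : O) ∣ c2 - 1 := by
    constructor
    · rintro ⟨s, hs⟩
      exact ⟨s - 3 * t, by linear_combination hs - ht⟩
    · rintro ⟨s, hs⟩
      exact ⟨s + 3 * t, by linear_combination hs + ht⟩
  unfold nu0
  rw [phi0_congr h1 r h6 h7]
  simp only [this]

lemma cubl_congr (hB : Bas) (h9 : P9Stmt) (v : ℕ) {c c2 : O} (hc : Prim c) (h : (27 : O) ∣ c - c2) :
    cub (lam ^ v) c = cub (lam ^ v) c2 := by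
  have hc2 := (prim_congr h).1 hc
  rw [hB.b6.pow_l _ _ _ (hB.b2.cop _ hc), hB.b6.pow_l _ _ _ (hB.b2.cop _ hc2),
    h9 lam c c2 hB.b1.prime_lam.ne_zero hc hc2 (Dvd.dvd.trans ⟨-lam, by
      linear_combination 9 * hB.b1.lam_sq⟩ h)]

lemma cube_congr (h9 : P9Stmt) {e c c2 : O} (he : IsUnit e) (hc : Prim c) (h : (27 : O) ∣ c - c2) :
    cub e c = cub e c2 := by
  obtain ⟨e', he'⟩ := he.exists_right_inv
  exact h9 e c c2 he.ne_zero hc ((prim_congr h).1 hc)
    (Dvd.dvd.trans ⟨3 * e', by linear_combination -27 * he'⟩ h)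

/-- the weight in terms of `d1 = d / lam^v` -/
def FF (r : O) (v : ℕ) (e h k c d x : O) : ℂ :=
  if Prim c ∧ Prim (-(e * h * d)) then
    nu0 r (-(e * h * d)) (lam ^ v * (k * c)) x *
      (cub (lam ^ v) (-(e * h * d)) * conj (cub e (-(e * h * d))) * cub e c * conj (cub (lam ^ v) c)) *
      eQ (x ^ 3 * (-(e * h) * ((c * -(e * h * d)) ^ 2 - 3 * (c * -(e * h * d)) + 3))) (lam ^ v)
  else 0

lemma FF_congr (hB : Bas) (h9 : P9Stmt) (r : O) {v : ℕ} (hv : v < 7) {e h k : O} (he : IsUnit e)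
    (hk : ¬ lam ∣ k) {c c2 d d2 x x2 : O} (hc : (27 : O) ∣ c - c2) (hd : (27 : O) ∣ d - d2)
    (hx : (9 : O) ∣ x - x2) : FF r v e h k c d x = FF r v e h k c2 d2 x2 := by
  have h1 := hB.b1
  have hd' : (27 : O) ∣ -(e * h * d) - -(e * h * d2) := by
    have := hd.mul_left (-(e * h)); convert this using 1; ring
  unfold FF
  by_cases hp : Prim c ∧ Prim (-(e * h * d))
  · have hp2 : Prim c2 ∧ Prim (-(e * h * d2)) := ⟨(prim_congr hc).1 hp.1, (prim_congr hd').1 hp.2⟩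
    rw [if_pos hp, if_pos hp2, cubl_congr hB h9 v hp.1 hc, cubl_congr hB h9 v hp.2 hd',
      cube_congr h9 he hp.1 hc, cube_congr h9 he hp.2 hd']
    obtain ⟨s, hs⟩ := hc
    obtain ⟨t, ht⟩ := hd
    obtain ⟨u, hu⟩ := hx
    have ec : c = c2 + 27 * s := by linear_combination hs
    have ed : d = d2 + 27 * t := by linear_combination ht
    have ex : x = x2 + 9 * u := by linear_combination hu
    have key : (2 - -(e * h * d)) * (lam ^ v * (k * c)) - (2 - -(e * h * d2)) * (lam ^ v * (k * c2)) =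
        lam ^ 6 * (lam ^ v * -(k * ((2 + e * h * d2) * s + e * h * t * c))) := by
      rw [l6 h1, ed]
      linear_combination (2 + e * h * d2) * lam ^ v * k * hs
    congr 1
    · congr 1
      refine nu0_congr h1 r x x2 hd' (by rw [key]; exact dvd_mul_right _ _) fun hl => ?_
      have hl1 : lam ∣ lam ^ v := by
        have l3 : lam ∣ 3 := ⟨-lam, by linear_combination h1.lam_sq⟩
        have np : ∀ a, Prim a → ¬ lam ∣ a := fun a ha => (hB.b2.cop_iff a).1 (hB.b2.cop a ha)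
        rcases h1.prime_lam.dvd_or_dvd hl with h2 | h2
        · obtain ⟨w, hw⟩ := hp.2
          exact absurd h2 (np _ ⟨-w, by linear_combination -hw⟩)
        · rcases h1.prime_lam.dvd_or_dvd h2 with h3 | h3
          · exact h3
          · rcases h1.prime_lam.dvd_or_dvd h3 with h4 | h4
            · exact absurd h4 hk
            · exact absurd h4 (np _ hp.1)
      rw [key, pow_succ lam 6]
      exact mul_dvd_mul_left _ (hl1.mul_right _)
    · refine eQ_congr h1 ((lv27 h1 hv).trans ?_)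
      have a1 : (27 : O) ∣ x ^ 3 - x2 ^ 3 :=
        ⟨x2 ^ 2 * u + 9 * x2 * u ^ 2 + 27 * u ^ 3, by rw [ex]; ring⟩
      have a2 : (27 : O) ∣ c * -(e * h * d) - c2 * -(e * h * d2) :=
        ⟨-(e * h) * (s * d + c2 * t), by rw [ec, ed]; ring⟩
      generalize c * -(e * h * d) = w at a2 ⊢
      generalize c2 * -(e * h * d2) = w2 at a2 ⊢
      have := (a1.mul_right (-(e * h) * (w ^ 2 - 3 * w + 3))).add
        (a2.mul_left (x2 ^ 3 * -(e * h) * (w + w2 - 3)))
      convert this using 1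
      ring
  · have hp2 : ¬ (Prim c2 ∧ Prim (-(e * h * d2))) := fun hp2 =>
      hp ⟨(prim_congr hc).2 hp2.1, (prim_congr hd').2 hp2.2⟩
    rw [if_neg hp, if_neg hp2]

/-- the weight -/
def nn (r : O) (v : ℕ) (e h k c d x : O) : ℂ :=
  if hd : lam ^ v ∣ d then FF r v e h k c hd.choose x else 0

lemma nn_eq (h1 : B1) (r : O) (v : ℕ) (e h k c d x : O) :
    nn r v e h k c (lam ^ v * d) x = FF r v e h k c d x := by
  have hd : lam ^ v ∣ lam ^ v * d := dvd_mul_right _ _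
  unfold nn
  rw [dif_pos hd, ← mul_left_cancel₀ (pow_ne_zero v h1.prime_lam.ne_zero) hd.choose_spec]

lemma nn_zero (r : O) (v : ℕ) (e h k c x : O) {d : O} (hd : ¬ lam ^ v ∣ d) :
    nn r v e h k c d x = 0 := by
  unfold nn
  rw [dif_neg hd]

lemma nn_congr (hB : Bas) (h9 : P9Stmt) (r : O) {v : ℕ} (hv : v < 7) {e h k : O} (he : IsUnit e)
    (hk : ¬ lam ∣ k) {c c2 d d2 x x2 s t : O} (hc : (27 : O) ∣ c - c2)
    (hd : d2 = d + 729 * s + 27 * t * d) (hx : (9 : O) ∣ x - x2) :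
    nn r v e h k c d x = nn r v e h k c2 d2 x2 := by
  have h1 := hB.b1
  obtain ⟨n, hn⟩ := lv27 h1 hv
  by_cases h0 : lam ^ v ∣ d
  · obtain ⟨d1, rfl⟩ := h0
    have : d2 = lam ^ v * (d1 + 27 * (n * s + t * d1)) := by
      rw [hd]; linear_combination 27 * s * hn
    rw [this, nn_eq h1, nn_eq h1]
    exact FF_congr hB h9 r hv he hk hc ⟨-(n * s + t * d1), by ring⟩ hx
  · have h2 : ¬ lam ^ v ∣ d2 := fun h2 => h0 (by
      have h3 : lam ^ v ∣ 27 * (27 * s + t * d) := (lv27 h1 hv).mul_right _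
      have := h2.sub h3
      convert this using 1
      rw [hd]; ring)
    rw [nn_zero _ _ _ _ _ _ _ h0, nn_zero _ _ _ _ _ _ _ h2]

lemma nn_nu (hB : Bas) (h9 : P9Stmt) {r : O} (h0 : Nu (nu0 r)) {v : ℕ} (hv : v < 7) {e h k : O}
    (he : IsUnit e) (hk : ¬ lam ∣ k) : Nu (nn r v e h k) where
  p1 d x c m := (nn_congr hB h9 r hv he hk (s := 0) (t := 0) ⟨27 * m, by ring⟩ (by ring)
    (by simp))
  p2 c x d m := (nn_congr hB h9 r hv he hk (s := m) (t := 0) (by simp) (by ring) (by simp)).symm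
  p3 c d x m := (nn_congr hB h9 r hv he hk (s := 0) (t := 0) (by simp) (by ring) ⟨m, by ring⟩)
  bd c d x := by
    unfold nn
    split_ifs with hd
    · unfold FF
      split_ifs with hp
      · rw [norm_mul, norm_mul, norm_eQ hB.b1, mul_one, norm_mul, norm_mul, norm_mul,
          Complex.norm_conj, Complex.norm_conj]
        have b := hB.b6.norm_le
        refine le_trans (b := 2 * (1 * 1 * 1 * 1)) ?_ (by norm_num)
        gcongr
        exacts [h0.bd _ _ _, b _ _, b _ _, b _ _, b _ _]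
      · simp
    · simp
  hom u c d x hu := by
    obtain ⟨t, ht⟩ := hu
    have eu : u = 1 + 27 * t := by linear_combination ht
    exact (nn_congr hB h9 r hv he hk (s := 0) (t := 2 * t + 27 * t ^ 2) ⟨-(t * c), by rw [eu]; ring⟩
      (by rw [eu]; ring) ⟨-(3 * t * x), by rw [eu]; ring⟩).symm

lemma alg {L' Lg L1 E' Eg E1 X' X1 a : ℂ} (h1 : Lg ^ 3 = 1) (h2 : Eg ^ 3 = 1) (h3 : L1 ^ 3 = 1)
    (h4 : E' ^ 3 = 1) (h : X' * E' = X1 * E1 * a) :
    L' * X' = a * (Lg * L' * (Eg * E') ^ 2 * (Eg * E1) * (Lg * L1) ^ 2) * (L1 * X1) := by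
  have : a * (Lg * L' * (Eg * E') ^ 2 * (Eg * E1) * (Lg * L1) ^ 2) * (L1 * X1) =
      L' * E' ^ 2 * (X1 * E1 * a) * (Lg ^ 3 * Eg ^ 3 * L1 ^ 3) := by ring
  rw [this, h1, h2, h3, ← h]
  linear_combination -(L' * X') * h4

lemma main (hB : Bas) (h9 : P9Stmt) (hP : PH) (hY : SYMStmt) {v : ℕ} (hv : v < 7) {e h : O}
    (he : IsUnit e) (hh : Prim h) {α β δ c d x : O} (hα : (729 : O) ∣ α) (hδ : (729 : O) ∣ δ)
    (hdet : α * δ - e * h * β = 1) (hc : Prim c) (hC : Prim (δ * c - e * h * d)) :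
    Phi (δ * c - e * h * d) (lam ^ v * (α * d - β * c)) x = cub α h *
      ((cub (lam ^ v) (-(e * h * d)) * conj (cub e (-(e * h * d))) * cub e c * conj (cub (lam ^ v) c)) *
      eQ (x ^ 3 * (-(e * h) * ((c * -(e * h * d)) ^ 2 - 3 * (c * -(e * h * d)) + 3))) (lam ^ v) *
        Phi c (lam ^ v * d) x) * eQ (x ^ 3 * (e * h)) (lam ^ v * (δ * c - e * h * d) * c) := by
  have h1 := hB.b1
  have h27 : (27 : O) ∣ (δ * c - e * h * d) - -(e * h * d) := by
    obtain ⟨t, ht⟩ := hδ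
    exact ⟨27 * t * c, by rw [ht]; ring⟩
  have hc' : Prim (-(e * h * d)) := (prim_congr h27).1 hC
  rw [← cubl_congr hB h9 v hC h27, ← cube_congr h9 he hC h27]
  have a1 : lam ^ v ∣ ((c * -(e * h * d)) ^ 2 - 3 * (c * -(e * h * d)) + 3) * (c * -(e * h * d)) - 1 := by
    obtain ⟨s, hs⟩ := hB.b2.mul _ _ hc hc'
    refine (lv27 h1 hv).trans ⟨s ^ 3, ?_⟩
    have : c * -(e * h * d) = 1 + 3 * s := by linear_combination hs
    rw [this]; ring
  have a3 : lam ^ v ∣ c * -(e * h * d) - c * (δ * c - e * h * d) := by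
    have := ((lv27 h1 hv).trans h27).mul_left (-c)
    convert this using 1; ring
  generalize (c * -(e * h * d)) ^ 2 - 3 * (c * -(e * h * d)) + 3 = k' at a1 ⊢
  generalize c * -(e * h * d) = w at a1 a3
  obtain ⟨g, C1, D1, hg, hC1, rfl, rfl, a, b, hab⟩ := hB.b2.gcd c d hc
  have eC : δ * (g * C1) - e * h * (g * D1) = g * (δ * C1 - e * h * D1) := by ring
  have eD : lam ^ v * (α * (g * D1) - β * (g * C1)) = g * (lam ^ v * (α * D1 - β * C1)) := by ring
  have eD1 : lam ^ v * (g * D1) = g * (lam ^ v * D1) := by ring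
  have hS := hY α β δ e h C1 D1 he hh (Dvd.dvd.trans ⟨81, by norm_num⟩ hα)
    (Dvd.dvd.trans ⟨81, by norm_num⟩ hδ) hdet hC1 (hB.b2.cancel g _ hg (eC ▸ hC)) ⟨a, b, hab⟩
  rw [eC] at hC a3 ⊢
  have hC' := hB.b2.cancel g _ hg hC
  have hAD : (b * δ + a * (e * h)) * (α * D1 - β * C1) + (b * β + a * α) * (δ * C1 - e * h * D1) = 1 := by
    linear_combination (a * C1 + b * D1) * hdet + hab
  have hAC : (b * δ + a * (e * h)) * C1 - b * (δ * C1 - e * h * D1) = e * h := by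
    linear_combination (e * h) * hab
  generalize δ * C1 - e * h * D1 = C' at *
  generalize α * D1 - β * C1 = D' at *
  generalize b * δ + a * (e * h) = A at *
  generalize b * β + a * α = B at *
  have cl : ∀ z, Prim z → IsCoprime (lam ^ v) z := fun z hz =>
    (((h1.prime_lam.irreducible.coprime_iff_not_dvd).2
      ((hB.b2.cop_iff z).1 (hB.b2.cop z hz)))).pow_left
  have ce : ∀ z, IsCoprime e z := fun z => by
    obtain ⟨e', he'⟩ := he.exists_left_inv
    exact ⟨e', 0, by rw [he', zero_mul, add_zero]⟩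
  by_cases hx : g ^ 2 ∣ x ^ 3
  · obtain ⟨y, hy⟩ := hx
    obtain ⟨l, k, hlk⟩ := cl _ (hB.b2.mul _ _ hC' hC1)
    have p1 : PhD (g * C') (g * (lam ^ v * D')) x g C' (lam ^ v * D') (A * l) y :=
      ⟨hg, rfl, rfl, ⟨-(B * l * lam ^ v) - k * C1, by
        linear_combination (l * lam ^ v) * hAD + hlk⟩, hy⟩
    have p2 : PhD (g * C1) (g * (lam ^ v * D1)) x g C1 (lam ^ v * D1) (b * l) y :=
      ⟨hg, rfl, rfl, ⟨-(a * l * lam ^ v) - k * C', by
        linear_combination (l * lam ^ v) * hab + hlk⟩, hy⟩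
    rw [eD, eD1, hP.eq _ _ _ _ _ _ _ _ hC p1, hP.eq _ _ _ _ _ _ _ _ hc p2]
    have g0 := hB.b2.ne g hg
    have c0 := hB.b2.ne C1 hC1
    have c0' := hB.b2.ne C' hC'
    have l0 : lam ^ v ≠ 0 := pow_ne_zero v h1.prime_lam.ne_zero
    have q1 : eQ (x ^ 3 * (-(e * h) * k')) (lam ^ v) = eQ (-(y * (e * h) * k)) (lam ^ v) := by
      refine eQ_congr h1 ?_
      have a2 : lam ^ v ∣ 1 - k * (C' * C1) := ⟨l, by linear_combination -hlk⟩
      have := (((a2.mul_left (g ^ 2 * k')).add (a1.mul_left k)).sub (a3.mul_left (k * k'))).mul_left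
        (-(y * (e * h)))
      convert this using 1
      rw [hy]; ring
    have q2 : eQ (x ^ 3 * (e * h)) (lam ^ v * (g * C') * (g * C1)) =
        eQ (y * (e * h)) (lam ^ v * C' * C1) := by
      rw [← h1.eQ_mul (g ^ 2) (y * (e * h)) _ (pow_ne_zero 2 g0), hy]
      congr 1 <;> ring
    have q3 : eQ (-(y * (e * h) * k)) (lam ^ v) =
        eQ (C' * C1 * -(y * (e * h) * k)) (lam ^ v * C' * C1) := by
      rw [← h1.eQ_mul (C' * C1) _ (lam ^ v) (mul_ne_zero c0' c0)]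
      congr 1; ring
    have q4 : eQ (y * (b * l)) C1 = eQ (lam ^ v * C' * (y * (b * l))) (lam ^ v * C' * C1) :=
      (h1.eQ_mul _ _ _ (mul_ne_zero l0 c0')).symm
    have q5 : eQ (y * (A * l)) C' = eQ (lam ^ v * C1 * (y * (A * l))) (lam ^ v * C' * C1) := by
      rw [← h1.eQ_mul (lam ^ v * C1) _ C' (mul_ne_zero l0 c0)]
      congr 1; ring
    have q6 : eQ (y * (A * l)) C' = eQ (x ^ 3 * (-(e * h) * k')) (lam ^ v) * eQ (y * (b * l)) C1 *
        eQ (x ^ 3 * (e * h)) (lam ^ v * (g * C') * (g * C1)) := by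
      rw [q1, q2, q3, q4, q5, ← h1.eQ_add, ← h1.eQ_add]
      congr 1
      linear_combination (lam ^ v * y * l) * hAC + (y * (e * h)) * hlk
    have q7 := alg (L' := cub (lam ^ v) C') (hB.b6.cube _ _ (cl g hg)) (hB.b6.cube _ _ (ce g))
      (hB.b6.cube _ _ (cl C1 hC1)) (hB.b6.cube _ _ (ce C')) hS
    rw [q6, hB.b6.conj_eq, hB.b6.conj_eq, hB.b6.mul_r _ g C' g0 c0', hB.b6.mul_r _ g C' g0 c0',
      hB.b6.mul_r _ g C1 g0 c0, hB.b6.mul_r _ g C1 g0 c0,
      hB.b6.mul_l _ D' _ (hB.b2.cop _ hC'), hB.b6.mul_l _ D1 _ (hB.b2.cop _ hC1), q7]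
    ring
  · have z1 := hP.zero (g * C') (g * (lam ^ v * D')) x g C' (lam ^ v * D') hg rfl rfl
      (IsCoprime.mul_right (cl _ hC').symm ⟨B, A, by linear_combination hAD⟩) hC hx
    have z2 := hP.zero (g * C1) (g * (lam ^ v * D1)) x g C1 (lam ^ v * D1) hg rfl rfl
      (IsCoprime.mul_right (cl _ hC1).symm ⟨a, b, hab⟩) hc hx
    rw [eD, eD1, z1, z2]
    ring

end INV1M

open INV1M in
theorem inv1S (hB : Bas) (_hC : CRStmt) (h9 : P9Stmt) (_hb : BB) (hP : PH) (hY : SYMStmt)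
    (hA : AV0Stmt) : INV1Stmt := by
  intro r v e h hr hv he hh
  have h1 := hB.b1
  have h0 := (hA r hr).1
  obtain ⟨k, m, hkm⟩ : IsCoprime (e * h) (3 ^ 6) := by
    refine IsCoprime.pow_right (IsCoprime.mul_left ?_ (hB.b2.cop h hh))
    obtain ⟨e', he'⟩ := he.exists_left_inv
    exact ⟨e', 0, by rw [he', zero_mul, add_zero]⟩
  have hk : ¬ lam ∣ k := fun hk => by
    have l3 : lam ∣ 3 := ⟨-lam, by linear_combination h1.lam_sq⟩
    have : lam ∣ 1 := by
      rw [← hkm]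
      exact (hk.mul_right _).add ((l3.trans (dvd_pow_self 3 (by norm_num))).mul_left m)
    exact h1.prime_lam.not_dvd_one this
  refine ⟨nn r v e h k, nn_nu hB h9 h0 hv he hk, fun c d x hd => nn_zero _ _ _ _ _ _ _ hd, ?_⟩
  intro α β δ c d x hα hδ hdet
  obtain ⟨s, hs⟩ := id hα
  obtain ⟨t, ht⟩ := id hδ
  have h27 : (27 : O) ∣ (δ * c - e * h * d) - -(e * h * d) := ⟨27 * t * c, by rw [ht]; ring⟩
  have hD : (729 : O) ∣ (α * d - β * c) - k * c := by
    refine ⟨s * d - (m * β + k * s * δ) * c, ?_⟩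
    linear_combination (d - k * δ * c) * hs + (k * c) * hdet + (β * c) * hkm
  have hpe : Prim (e * (α * d - β * c)) ↔ Prim c := by
    obtain ⟨n, hn⟩ := hD
    obtain ⟨j, hj⟩ := hh
    have : (3 : O) ∣ e * (α * d - β * c) - c :=
      ⟨243 * e * n - e * k * c * j - 243 * m * c, by
        linear_combination e * hn - (e * k * c) * hj + c * hkm⟩
    obtain ⟨i, hi⟩ := this
    constructor
    · rintro ⟨z, hz⟩
      exact ⟨z - i, by linear_combination hz - hi⟩
    · rintro ⟨z, hz⟩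
      exact ⟨z + i, by linear_combination hz + hi⟩
  rw [nn_eq h1, hpe]
  by_cases hc : Prim c
  · rw [if_pos hc]
    unfold FF
    by_cases hC : Prim (δ * c - e * h * d)
    · rw [if_pos ⟨hC, hc⟩, if_pos ⟨hc, (prim_congr h27).1 hC⟩,
        main hB h9 hP hY hv he hh hα hδ hdet hc hC]
      have e1 : nu0 r (δ * c - e * h * d) (lam ^ v * (α * d - β * c)) x =
          nu0 r (-(e * h * d)) (lam ^ v * (k * c)) x := by
        rw [hB.b4.pe_congr 729 _ (δ * c - e * h * d) (-(e * h * d)) (h0.p1 _ x)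
          ⟨t * c, by rw [ht]; ring⟩]
        exact hB.b4.pe_congr 729 _ _ _ (h0.p2 _ x)
          (by have := hD.mul_left (lam ^ v); convert this using 1; ring)
      rw [e1]
      ring
    · rw [if_neg fun h => hC h.1, if_neg fun h => hC ((prim_congr h27).2 h.2)]
      ring
  · rw [if_neg fun h => hc h.2, if_neg hc]

end Vale.Agent.P026
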