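import Vale.Agent.P026.Stm2

/-! The Bessel-type kernel. -/

noncomputable section
open Complex MeasureTheory Filter Topology Set
open scoped Classical ComplexConjugate

namespace Vale.Agent.P026

namespace KKM

theorem sg_pos : 0 < sg := by unfold sg; positivity

theorem gam {a : ℝ} (ha : 0 < a) :
    IntegrableOn (fun ρ : ℝ => ρ ^ (a - 1) * Real.exp (-ρ)) (Ioi 0) := by
  simpa only [mul_comm] using Real.GammaIntegral_convergent ha

theorem exp_le {B y : ℝ} (hB : 0 < B) (hy : 0 < y) : Real.exp (-y) ≤ B ^ B * y ^ (-B) := by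
  have a : (y / B) ^ B ≤ Real.exp y := by
    have := Real.rpow_le_rpow (by positivity) ((by linarith [Real.add_one_le_exp (y / B)]) :
      y / B ≤ Real.exp (y / B)) hB.le
    rwa [← Real.exp_mul, div_mul_cancel₀ _ hB.ne'] at this
  rw [Real.div_rpow hy.le hB.le, div_le_iff₀ (by positivity)] at a
  rw [Real.rpow_neg hy.le, Real.exp_neg, ← div_eq_mul_inv, le_div_iff₀ (by positivity),
    inv_mul_le_iff₀ (Real.exp_pos _)]
  exact a

theorem meas (x : ℝ) : AEStronglyMeasurable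
    (fun ρ : ℝ => ρ ^ (-2 / 3 : ℝ) * Real.exp (-ρ - sg * x ^ 2 / ρ)) (volume.restrict (Ioi 0)) :=
  Measurable.aestronglyMeasurable (by fun_prop)

theorem bd (x : ℝ) : ∀ᵐ ρ ∂(volume.restrict (Ioi (0 : ℝ))),
    ‖ρ ^ (-2 / 3 : ℝ) * Real.exp (-ρ - sg * x ^ 2 / ρ)‖ ≤ ρ ^ (1 / 3 - 1 : ℝ) * Real.exp (-ρ) := by
  refine (ae_restrict_mem measurableSet_Ioi).mono fun ρ (h : 0 < ρ) => ?_
  rw [Real.norm_of_nonneg (by positivity), show (1 / 3 - 1 : ℝ) = -2 / 3 by norm_num]
  have := sg_pos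
  gcongr
  have : 0 ≤ sg * x ^ 2 / ρ := by positivity
  linarith

theorem cont : Continuous kk := by
  refine (continuous_id.mul continuous_const).mul (continuous_of_dominated meas bd
    (gam (by norm_num)) (Eventually.of_forall fun ρ => by fun_prop))

theorem inner {a : ℂ} {r : ℝ} (ha : 0 < a.re) (hr : 0 < r) :
    ∫ x in Ioi (0 : ℝ), (x : ℂ) ^ (2 * a - 1) * cexp (-(r * x ^ 2)) =
      1 / 2 * ((1 / r) ^ a * Gamma a) := by
  rw [← Complex.integral_cpow_mul_exp_neg_mul_Ioi ha hr,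
    ← integral_comp_rpow_Ioi (fun t : ℝ => (t : ℂ) ^ (a - 1) * cexp (-(r * t))) (two_ne_zero' ℝ),
    ← integral_const_mul]
  refine setIntegral_congr_fun measurableSet_Ioi fun x (h : 0 < x) => ?_
  have h' : (x : ℂ) ≠ 0 := ofReal_ne_zero.2 h.ne'
  have e : ((x ^ (2 : ℝ) : ℝ) : ℂ) ^ (a - 1) = (x : ℂ) ^ (2 * (a - 1)) := by
    rw [Complex.cpow_mul_ofReal_nonneg h.le 2 (a - 1) |>.symm]
    norm_num
  simp only [real_smul, e]
  rw [show 2 * a - 1 = 1 + 2 * (a - 1) by ring, cpow_add _ _ h', cpow_one]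
  norm_num
  ring

theorem mel (s : ℂ) (hs : 0 < s.re) :
    IntegrableOn (fun x : ℝ => (kk x : ℂ) * (x : ℂ) ^ (2 * s - 4 / 3)) (Ioi 0) ∧
    ∫ x in Ioi (0 : ℝ), (kk x : ℂ) * (x : ℂ) ^ (2 * s - 4 / 3) =
      Real.pi / 2 * (sg : ℂ) ^ (-s - 1 / 3) * (Gamma (s + 1 / 3) * Gamma (s + 2 / 3)) := by
  have hg := sg_pos
  set f : ℝ → ℝ → ℂ := fun x ρ => (Real.pi * (ρ ^ (-2 / 3 : ℝ) * Real.exp (-ρ)) : ℝ) *
    ((x : ℂ) ^ (2 * (s + 1 / 3) - 1) * cexp (-((sg / ρ : ℝ) * x ^ 2))) with hf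
  have e1 : ∀ x ∈ Ioi (0 : ℝ), (kk x : ℂ) * (x : ℂ) ^ (2 * s - 4 / 3) =
      ∫ ρ in Ioi (0 : ℝ), f x ρ := fun x (h : 0 < x) => by
    have h' : (x : ℂ) ≠ 0 := ofReal_ne_zero.2 h.ne'
    rw [kk, ← integral_const_mul, ← integral_complex_ofReal, ← integral_mul_const]
    refine setIntegral_congr_fun measurableSet_Ioi fun ρ _ => ?_
    simp only [hf]
    rw [show 2 * (s + 1 / 3) - 1 = 1 + (2 * s - 4 / 3) by ring, cpow_add _ _ h', cpow_one,
      sub_eq_add_neg (-ρ), Real.exp_add]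
    push_cast
    ring_nf
  have nf : ∀ ρ, 0 < ρ → ∀ x ∈ Ioi (0 : ℝ), ‖f x ρ‖ = Real.pi * (ρ ^ (-2 / 3 : ℝ) * Real.exp (-ρ)) *
      (x ^ (2 * s.re - 1 / 3) * Real.exp (-(sg / ρ) * x ^ (2 : ℝ))) := fun ρ h x (hx : 0 < x) => by
    simp only [hf]
    rw [norm_mul, norm_mul, Complex.norm_real, Real.norm_of_nonneg (by positivity),
      norm_cpow_eq_rpow_re_of_pos hx, Complex.norm_exp, ← ofReal_pow, ← ofReal_mul, ← ofReal_neg,
      ofReal_re, Real.rpow_two, neg_mul]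
    congr 3
    simp
    ring
  have mf : AEStronglyMeasurable (Function.uncurry f)
      ((volume.restrict (Ioi 0)).prod (volume.restrict (Ioi 0))) :=
    Measurable.aestronglyMeasurable (by
      show Measurable fun p : ℝ × ℝ => f p.1 p.2
      simp only [hf]
      fun_prop)
  have i1 : Integrable (Function.uncurry f)
      ((volume.restrict (Ioi 0)).prod (volume.restrict (Ioi 0))) := by
    refine (integrable_prod_iff' mf).2 ⟨(ae_restrict_mem measurableSet_Ioi).mono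
      fun ρ (h : 0 < ρ) => ?_, ?_⟩
    · refine ((integrableOn_rpow_mul_exp_neg_mul_rpow (s := 2 * s.re - 1 / 3) (p := 2)
        (b := sg / ρ) (by linarith) (by norm_num) (by positivity)).const_mul
          (Real.pi * (ρ ^ (-2 / 3 : ℝ) * Real.exp (-ρ)))).mono'
        (Measurable.aestronglyMeasurable (by
          show Measurable fun x : ℝ => f x ρ
          simp only [hf]
          fun_prop)) ((ae_restrict_mem measurableSet_Ioi).mono fun x hx => (nf ρ h x hx).le)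
    · refine IntegrableOn.congr_fun ((gam (a := s.re + 2 / 3) (by linarith)).const_mul
        (Real.pi * sg ^ (-(s.re + 1 / 3)) * (1 / 2) * Real.Gamma (s.re + 1 / 3)))
        (fun ρ (h : 0 < ρ) => ?_) measurableSet_Ioi
      simp only [Function.uncurry]
      rw [setIntegral_congr_fun measurableSet_Ioi (nf ρ h), integral_const_mul,
        integral_rpow_mul_exp_neg_mul_rpow two_pos (by linarith) (by positivity),
        show (2 * s.re - 1 / 3 + 1) / 2 = s.re + 1 / 3 by ring,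
        show -(2 * s.re - 1 / 3 + 1) / 2 = -(s.re + 1 / 3) by ring,
        Real.div_rpow hg.le h.le, Real.rpow_neg h.le, div_inv_eq_mul,
        show s.re + 2 / 3 - 1 = -2 / 3 + (s.re + 1 / 3) by ring, Real.rpow_add h]
      ring
  refine ⟨IntegrableOn.congr_fun i1.integral_prod_left (fun x hx => (e1 x hx).symm)
    measurableSet_Ioi, ?_⟩
  have a1 : 0 < (s + 1 / 3).re := by simp; linarith
  have a2 : 0 < (s + 2 / 3).re := by simp; linarith
  rw [setIntegral_congr_fun measurableSet_Ioi e1, integral_integral_swap i1,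
    Complex.Gamma_eq_integral a2, GammaIntegral, ← integral_const_mul, ← integral_const_mul]
  refine setIntegral_congr_fun measurableSet_Ioi fun ρ (h : 0 < ρ) => ?_
  have h' : (ρ : ℂ) ≠ 0 := ofReal_ne_zero.2 h.ne'
  simp only [hf]
  rw [integral_const_mul, inner a1 (by positivity), ← ofReal_one, ← ofReal_div, one_div_div,
    div_eq_mul_inv ρ, ofReal_mul ρ, mul_cpow_ofReal_nonneg h.le (by positivity), ofReal_inv,
    inv_cpow _ _ (by rw [arg_ofReal_of_nonneg hg.le]; exact Real.pi_ne_zero.symm), ← cpow_neg,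
    show -(s + ((1 : ℝ) : ℂ) / 3) = -s - (1 : ℝ) / 3 by ring,
    show s + 2 / 3 - (1 : ℝ) = -2 / 3 + (s + (1 : ℝ) / 3) by push_cast; ring,
    cpow_add (-2 / 3) _ h']
  push_cast [ofReal_cpow h.le]
  ring

theorem dec (A : ℝ) (hA : 0 ≤ A) : ∃ C : ℝ, ∀ x, 0 < x → kk x ≤ C * x ^ (-A) := by
  have hg := sg_pos
  set B := (A + 1) / 2 with hB
  have B0 : 0 < B := by positivity
  refine ⟨Real.pi * (B ^ B * sg ^ (-B) * ∫ ρ in Ioi (0 : ℝ), ρ ^ (B + 1 / 3 - 1) * Real.exp (-ρ)),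
    fun x hx => ?_⟩
  have : ∫ ρ in Ioi (0 : ℝ), ρ ^ (-2 / 3 : ℝ) * Real.exp (-ρ - sg * x ^ 2 / ρ) ≤
      ∫ ρ in Ioi (0 : ℝ), B ^ B * sg ^ (-B) * x ^ (-(A + 1)) *
        (ρ ^ (B + 1 / 3 - 1) * Real.exp (-ρ)) := by
    refine setIntegral_mono_on ((gam (by norm_num)).mono' (meas x) (bd x))
      ((gam (by linarith)).const_mul _) measurableSet_Ioi fun ρ (h : 0 < ρ) => ?_
    have := exp_le B0 (y := sg * x ^ 2 / ρ) (by positivity)
    rw [Real.div_rpow (by positivity) h.le, Real.mul_rpow hg.le (by positivity),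
      Real.rpow_neg h.le, div_inv_eq_mul, ← Real.rpow_natCast_mul hx.le,
      show ((2 : ℕ) : ℝ) * -B = -(A + 1) by rw [hB]; push_cast; ring] at this
    rw [sub_eq_add_neg (-ρ), Real.exp_add, show B + 1 / 3 - 1 = -2 / 3 + B by ring, Real.rpow_add h]
    calc _ ≤ ρ ^ (-2 / 3 : ℝ) * (Real.exp (-ρ) * (B ^ B * (sg ^ (-B) * x ^ (-(A + 1)) * ρ ^ B))) := by
          gcongr
      _ = _ := by ring
  rw [integral_const_mul] at this
  rw [kk, show -A = 1 + -(A + 1) by ring, Real.rpow_add hx, Real.rpow_one]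
  refine (mul_le_mul_of_nonneg_left this (by positivity)).trans_eq (by ring)

end KKM

theorem kkS : KK where
  cont := KKM.cont.continuousOn
  nonneg x hx := mul_nonneg (by positivity)
    (setIntegral_nonneg measurableSet_Ioi fun ρ (h : 0 < ρ) => by positivity)
  mel := KKM.mel
  dec := KKM.dec

end Vale.Agent.P026
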