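import Vale.Agent.P026.Stm2

/-! The limit of the normalised lattice sums. -/

noncomputable section
open Complex MeasureTheory Filter Topology
open scoped Classical ComplexConjugate

namespace Vale.Agent.P026

theorem limS (hB : Bas) (h1 : LIM1Stmt) (h2 : LIM2Stmt) (h3 : LIM3Stmt) (h4 : LIM4Stmt) :
    LIMStmt := by
  intro ν z u hν hu
  obtain ⟨K, hK⟩ := h4 ν u hν hu
  have h0 := h3 ν u hν hu
  have key := tendsto_tsum_of_dominated_convergence (𝓕 := atTop)
    (f := fun (t : ℝ) (d : O) => psi (z * toC d / 729) * Sd ν u t d)
    (g := fun d => (kap ^ 2)⁻¹ *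
      if d = 0 then 0 else psi (z * toC d / 729) * Av ν d * Ker u (toC d))
    (((hB.b3.summ' 4 (by norm_num)).mul_left (|K| + 1)))
    (fun d => by
      by_cases hd : d = 0
      · simpa [hd] using h0.const_mul (psi 0)
      · rw [if_neg hd]
        convert (h2 ν u d hν hu hd).const_mul (psi (z * toC d / 729)) using 2
        ring)
    (by
      have := (tendsto_zero_iff_norm_tendsto_zero.1 h0).eventually (ge_mem_nhds one_pos)
      filter_upwards [this, eventually_ge_atTop 1] with t a b d
      rw [norm_mul, hB.b1.norm_psi, one_mul]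
      by_cases hd : d = 0
      · subst hd
        simp only [map_zero, norm_zero, add_zero, Real.one_rpow, mul_one]
        linarith [abs_nonneg K]
      · exact (hK t b d hd).trans (mul_le_mul_of_nonneg_right (by linarith [le_abs_self K])
          (by positivity)))
  rw [tsum_mul_left] at key
  refine Tendsto.congr' ?_ (by
    convert key.const_mul (kap ^ 2 * 3 ^ 16)⁻¹ using 2
    rw [Theta, mul_inv, mul_inv, show kap ^ 4 = kap ^ 2 * kap ^ 2 by ring, mul_inv]
    ring)
  filter_upwards [eventually_ge_atTop 1] with t ht
  exact (h1 ν z u t hν hu ht).symm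

end Vale.Agent.P026
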