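import Vale.Agent.P026.M.LIM4

/-! P026 module LIM3: the zero frequency. -/

noncomputable section
open Complex MeasureTheory Filter Topology
open scoped Classical ComplexConjugate

namespace Vale.Agent.P026

open LIM4M in
theorem lim3S (hB : Bas) (hP : PH) : LIM3Stmt := by
  intro ν u hν hu
  obtain ⟨r, R, K, r0, r1, R1, K0, h, hK⟩ := adm hu
  obtain ⟨K1, H⟩ := core hB hν r0 R1 h
  refine squeeze_zero_norm' (a := fun t => K1 * (R ^ 2 * K * (9 * R / r) ^ 5 * t⁻¹)) ?_ (by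
    simpa using (tendsto_inv_atTop_zero.const_mul (R ^ 2 * K * (9 * R / r) ^ 5)).const_mul K1)
  filter_upwards [eventually_ge_atTop 1] with t t1
  have t0 : 0 < t := by positivity
  refine H t t1 0 _ (by positivity) fun c x pc e1 e2 => ?_
  have c0 : 0 < ‖toC c‖ := lt_of_lt_of_le (by positivity) e1
  rw [mul_zero]
  by_cases hx : c ^ 2 ∣ x ^ 3
  swap
  · rw [hP.d0 c x pc hx, norm_zero, zero_mul]; positivity
  by_cases x0 : x = 0
  · simp only [x0, map_zero, mul_zero, zero_div, hu.zero, norm_zero]; positivity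
  obtain ⟨y, hy⟩ := hx
  have y0 : y ≠ 0 := by rintro rfl; exact x0 (by simpa using hy)
  have a0 : r * t ^ 2 ≤ ‖toC x‖ := by
    have b1 := congrArg N hy
    have b2 := hB.b1.N_one_le y y0
    rw [hB.b1.N_mul, hB.b1.N_pow, hB.b1.N_pow, hB.b1.N_eq x, hB.b1.N_eq c] at b1
    refine le_of_pow_le_pow_left₀ (n := 6) (by norm_num) (norm_nonneg _) ?_
    calc _ = r ^ 2 * (r * t ^ 3) ^ 4 * 1 := by ring
      _ ≤ 1 ^ 2 * ‖toC c‖ ^ 4 * N y := by gcongr
      _ = _ := by linear_combination -b1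
  have a1 : ‖Phi c 0 x‖ ≤ R ^ 2 * t ^ 4 := by
    refine (hP.norm_c c _ x pc).trans ?_
    have : N c ≤ (R * t ^ 2) ^ 3 := by
      rw [hB.b1.N_eq]
      calc _ ≤ 1 * (R * t ^ 3) ^ 2 := by rw [one_mul]; gcongr
        _ ≤ R * (R * t ^ 3) ^ 2 := by gcongr
        _ = _ := by ring
    refine (Real.rpow_le_rpow (by rw [hB.b1.N_eq]; positivity) this (by norm_num)).trans_eq ?_
    rw [← Real.rpow_natCast, ← Real.rpow_mul (by positivity)]
    norm_num
    ring
  have a2 := eta t0 c0 e2 (toC x)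
  have a3 : (1 + ‖(t : ℂ) ^ 2 * toC x / (9 * toC c)‖) ^ (-8 : ℝ) ≤
      (9 * R / r) ^ 5 * (t ^ 5)⁻¹ * (1 + ‖toC x‖ / (9 * R * t)) ^ (-3 : ℝ) := by
    rw [show (-8 : ℝ) = -5 + -3 by norm_num, Real.rpow_add (by positivity)]
    refine mul_le_mul ?_ (Real.rpow_le_rpow_of_nonpos (by positivity) (by linarith) (by norm_num))
      (by positivity) (by positivity)
    have : r * t / (9 * R) ≤ ‖toC x‖ / (9 * R * t) := by
      calc _ = r * t ^ 2 / (9 * R * t) := by field_simp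
        _ ≤ _ := by gcongr
    refine (Real.rpow_le_rpow_of_nonpos (x := r * t / (9 * R)) (by positivity) (by linarith)
      (by norm_num)).trans_eq ?_
    rw [Real.rpow_neg (by positivity), Real.rpow_ofNat]
    field_simp
  have a4 := hK (toC c / t ^ 3) 0 ((t : ℂ) ^ 2 * toC x / (9 * toC c))
  simp only [norm_zero, add_zero, Real.one_rpow, mul_one] at a4
  rw [map_zero, mul_zero, zero_div]
  calc _ ≤ R ^ 2 * t ^ 4 * (K * ((9 * R / r) ^ 5 * (t ^ 5)⁻¹ *
        (1 + ‖toC x‖ / (9 * R * t)) ^ (-3 : ℝ))) :=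
        mul_le_mul a1 (a4.trans (by gcongr)) (norm_nonneg _) (by positivity)
    _ = _ := by field_simp

end Vale.Agent.P026
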