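import Vale.Agent.P026.Stm2

/-! P026 module LIM4: uniform bound for the dual sums. -/

noncomputable section
open Complex MeasureTheory Filter Topology
open scoped Classical ComplexConjugate

namespace Vale.Agent.P026

namespace LIM4M

theorem nuh_le (hB : Bas) {ν : O → O → O → ℂ} (hν : Nu ν) (c d x : O) :
    ‖nuh ν c d x‖ ≤ (Rs 729).card * ((Rs 9).card * 2) := by
  rw [← nsmul_eq_mul, ← nsmul_eq_mul]
  refine (norm_sum_le _ _).trans (Finset.sum_le_card_nsmul _ _ _ fun ρ _ => ?_)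
  refine (norm_sum_le _ _).trans (Finset.sum_le_card_nsmul _ _ _ fun ξ _ => ?_)
  simpa [eQ, hB.b1.norm_psi] using hν.bd _ _ _

theorem summ (hB : Bas) {T : ℝ} (hT : 1 ≤ T) :
    Summable fun a : O => (1 + ‖toC a‖ / T) ^ (-3 : ℝ) := by
  refine Summable.of_nonneg_of_le (fun a => by positivity) (fun a => ?_)
    ((hB.b3.summ' 3 (by norm_num)).mul_left (T⁻¹ ^ (-3 : ℝ)))
  rw [← Real.mul_rpow (by positivity) (by positivity)]
  refine Real.rpow_le_rpow_of_nonpos (by positivity) ?_ (by norm_num)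
  have := inv_le_one_of_one_le₀ hT
  rw [mul_add, mul_one, inv_mul_eq_div]
  linarith

theorem adm {u : ℂ → ℂ × ℂ → ℂ} (hu : Adm u) : ∃ r R K : ℝ, 0 < r ∧ r ≤ 1 ∧ 1 ≤ R ∧ 0 ≤ K ∧
    (∀ C ξ η, F2 (u C) ξ η ≠ 0 → r ≤ ‖C‖ ∧ ‖C‖ ≤ R) ∧
    ∀ C ξ η, ‖F2 (u C) ξ η‖ ≤ K * (1 + ‖ξ‖) ^ (-6 : ℝ) * (1 + ‖η‖) ^ (-8 : ℝ) := by
  obtain ⟨r, R, r0, h⟩ := hu.supp
  obtain ⟨K, hK⟩ := hu.fdec
  refine ⟨min r 1, max R 1, K, by positivity, min_le_right _ _, le_max_right _ _, by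
    simpa using (norm_nonneg _).trans (hK 0 0 0), fun C ξ η e => ?_, hK⟩
  by_contra c
  refine e ?_
  have : ∀ p, u C p = 0 := fun p => by
    by_contra e
    exact c ⟨(min_le_left _ _).trans (h C p e).1, (h C p e).2.1.trans (le_max_left _ _)⟩
  simp [F2, this]

theorem core (hB : Bas) {ν : O → O → O → ℂ} (hν : Nu ν) {u : ℂ → ℂ × ℂ → ℂ} {r R : ℝ} (r0 : 0 < r)
    (R1 : 1 ≤ R) (h : ∀ C ξ η, F2 (u C) ξ η ≠ 0 → r ≤ ‖C‖ ∧ ‖C‖ ≤ R) :
    ∃ K : ℝ, ∀ t : ℝ, 1 ≤ t → ∀ (d : O) (A : ℝ), 0 ≤ A → (∀ c x, Prim c → r * t ^ 3 ≤ ‖toC c‖ →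
      ‖toC c‖ ≤ R * t ^ 3 → ‖Phi c (27 * d) x‖ * ‖F2 (u (toC c / t ^ 3))
        (t ^ 3 * toC d / (729 * toC c)) (t ^ 2 * toC x / (9 * toC c))‖ ≤
        A * (1 + ‖toC x‖ / (9 * R * t)) ^ (-3 : ℝ)) → ‖Sd ν u t d‖ ≤ K * A := by
  obtain ⟨C, hC⟩ := hB.b3.scale 3 (by norm_num)
  set B : ℝ := (Rs 729).card * ((Rs 9).card * 2) with hBe
  have B0 : 0 ≤ B := by positivity
  refine ⟨16 * R ^ 2 * (B / r ^ 2) * (C * (9 * R) ^ 2), fun t t1 d A A0 H => ?_⟩
  have t0 : 0 < t := by positivity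
  have T1 : 1 ≤ 9 * R * t := by nlinarith
  set S := (hB.b3.fin (R ^ 2 * t ^ 6)).toFinset.filter (· ≠ 0) with hS
  have hc := hB.b3.card_le (R ^ 2 * t ^ 6) S (by positivity) fun a ha => by
    simpa [hS, and_comm] using ha
  have s1 : HasSum (fun c : O => if c ∈ S then B / r ^ 2 * A else 0) (S.card * (B / r ^ 2 * A)) := by
    have := hasSum_sum_of_ne_finset_zero (L := SummationFilter.unconditional O)
      (f := fun c : O => if c ∈ S then B / r ^ 2 * A else 0) (s := S) fun c e => if_neg e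
    simpa using this
  have s2 := (summ hB T1).hasSum
  have s3 := s1.mul s2 (s1.summable.mul_of_nonneg s2.summable
    (fun c => by dsimp; split_ifs <;> positivity) fun a => by positivity)
  have := tsum_of_norm_bounded s3 (f := fun a : O × O => if Prim a.1 then nuh ν a.1 d a.2 *
      Phi a.1 (27 * d) a.2 * F2 (u (toC a.1 / t ^ 3)) (t ^ 3 * toC d / (729 * toC a.1))
      (t ^ 2 * toC a.2 / (9 * toC a.1)) * (t ^ 6 / N a.1) else 0) fun ⟨c, x⟩ => by
    have z : 0 ≤ (if c ∈ S then B / r ^ 2 * A else 0) * (1 + ‖toC x‖ / (9 * R * t)) ^ (-3 : ℝ) := by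
      split_ifs <;> positivity
    by_cases pc : Prim c
    swap
    · simpa [pc] using z
    by_cases e : F2 (u (toC c / t ^ 3)) (t ^ 3 * toC d / (729 * toC c))
      (t ^ 2 * toC x / (9 * toC c)) = 0
    · simpa [e] using z
    obtain ⟨e1, e2⟩ := h _ _ _ e
    rw [norm_div, norm_pow, norm_real, Real.norm_of_nonneg t0.le] at e1 e2
    rw [le_div_iff₀ (by positivity)] at e1
    rw [div_le_iff₀ (by positivity)] at e2
    have m : c ∈ S := by
      simp only [hS, Finset.mem_filter, Set.Finite.mem_toFinset, Set.mem_ofPred_eq]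
      refine ⟨?_, hB.b2.ne c pc⟩
      rw [hB.b1.N_eq, show R ^ 2 * t ^ 6 = (R * t ^ 3) ^ 2 by ring]
      gcongr
    have e3 : ‖((t : ℂ) ^ 6 / N c)‖ ≤ 1 / r ^ 2 := by
      rw [norm_div, norm_pow, norm_real, norm_real, Real.norm_of_nonneg t0.le, hB.b1.N_eq,
        Real.norm_of_nonneg (by positivity), div_le_div_iff₀ (pow_pos (lt_of_lt_of_le
          (by positivity) e1) 2) (by positivity), one_mul,
        show t ^ 6 * r ^ 2 = (r * t ^ 3) ^ 2 by ring]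
      gcongr
    simp only [pc, m, if_true, norm_mul, mul_assoc (‖nuh ν c d x‖)]
    calc _ ≤ B * (A * (1 + ‖toC x‖ / (9 * R * t)) ^ (-3 : ℝ) * (1 / r ^ 2)) := by
          exact mul_le_mul (nuh_le hB hν _ _ _) (mul_le_mul (H c x pc e1 e2) e3 (norm_nonneg _)
            (by positivity)) (by positivity) B0
      _ = _ := by ring
  rw [Sd, norm_mul, norm_inv, norm_pow, norm_real, Real.norm_of_nonneg t0.le,
    inv_mul_le_iff₀ (by positivity)]
  refine this.trans ?_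
  calc _ ≤ 16 * (R ^ 2 * t ^ 6) * (B / r ^ 2 * A) * (C * (9 * R * t) ^ 2) := by
        gcongr
        exact hC _ T1
    _ = _ := by ring

theorem eta {R t : ℝ} (t0 : 0 < t) {c : ℂ} (c0 : 0 < ‖c‖) (h : ‖c‖ ≤ R * t ^ 3) (x : ℂ) :
    ‖x‖ / (9 * R * t) ≤ ‖(t : ℂ) ^ 2 * x / (9 * c)‖ := by
  simp only [norm_div, norm_mul, norm_pow, norm_real, Real.norm_of_nonneg t0.le, norm_ofNat]
  calc _ = t ^ 2 * ‖x‖ / (9 * (R * t ^ 3)) := by field_simp
    _ ≤ _ := by gcongr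

end LIM4M

open LIM4M in
theorem lim4S (hB : Bas) (hP : PH) : LIM4Stmt := by
  intro ν u hν hu
  obtain ⟨r, R, K, r0, -, R1, K0, h, hK⟩ := adm hu
  obtain ⟨K1, H⟩ := core hB hν r0 R1 h
  refine ⟨K1 * (729 * K * (729 * R) ^ 6), fun t t1 d d0 => ?_⟩
  have t0 : 0 < t := by positivity
  rw [mul_assoc]
  refine H t t1 d _ (by positivity) fun c x pc e1 e2 => ?_
  have c0 : 0 < ‖toC c‖ := lt_of_lt_of_le (by positivity) e1
  have n27 : N 27 = 729 := by simpa using (hB.b1.N_int 27).trans (by norm_num)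
  have d1 := hB.b1.N_one_le d d0
  have a1 : ‖Phi c (27 * d) x‖ ≤ 729 * (1 + ‖toC d‖) ^ (2 : ℝ) := by
    refine (hP.norm_d c _ x pc (mul_ne_zero (by norm_num) d0)).trans ?_
    rw [hB.b1.N_mul, n27]
    refine (Real.rpow_le_self_of_one_le (by linarith) (by norm_num)).trans ?_
    rw [hB.b1.N_eq, Real.rpow_two]
    gcongr
    linarith
  have a2 : (1 + ‖(t : ℂ) ^ 3 * toC d / (729 * toC c)‖) ^ (-6 : ℝ) ≤
      (729 * R) ^ 6 * (1 + ‖toC d‖) ^ (-6 : ℝ) := by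
    rw [show (729 * R) ^ 6 = (729 * R)⁻¹ ^ (-6 : ℝ) by
      rw [Real.inv_rpow (by positivity), Real.rpow_neg (by positivity), inv_inv]; norm_cast,
      ← Real.mul_rpow (by positivity) (by positivity)]
    refine Real.rpow_le_rpow_of_nonpos (by positivity) ?_ (by norm_num)
    have := inv_le_one_of_one_le₀ (show 1 ≤ 729 * R by linarith)
    rw [mul_add, mul_one]
    refine add_le_add this ?_
    simp only [norm_div, norm_mul, norm_pow, norm_real, Real.norm_of_nonneg t0.le, norm_ofNat]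
    calc _ = t ^ 3 * ‖toC d‖ / (729 * (R * t ^ 3)) := by field_simp
      _ ≤ _ := by gcongr
  have a3 : (1 + ‖(t : ℂ) ^ 2 * toC x / (9 * toC c)‖) ^ (-8 : ℝ) ≤
      (1 + ‖toC x‖ / (9 * R * t)) ^ (-3 : ℝ) :=
    (Real.rpow_le_rpow_of_exponent_le (le_add_of_nonneg_right (norm_nonneg _)) (by norm_num)).trans
      (Real.rpow_le_rpow_of_nonpos (by positivity) (by linarith [eta t0 c0 e2 (toC x)])
        (by norm_num))
  calc _ ≤ 729 * (1 + ‖toC d‖) ^ (2 : ℝ) * (K * ((729 * R) ^ 6 * (1 + ‖toC d‖) ^ (-6 : ℝ)) *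
        (1 + ‖toC x‖ / (9 * R * t)) ^ (-3 : ℝ)) := by
        gcongr
        exact (hK _ _ _).trans (by gcongr)
    _ = _ := by
        rw [show (-4 : ℝ) = 2 + -6 by norm_num, Real.rpow_add (by positivity)]; ring

end Vale.Agent.P026
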