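import Vale.Agent.P026.Stm2

noncomputable section
open Complex MeasureTheory Filter Topology
open scoped Classical ComplexConjugate

namespace Vale.Agent.P026

namespace LNM

theorem cp {x : ℝ} (hx : 0 < x) (s : ℂ) : (x : ℂ) ^ s = cexp (Real.log x * s) := by
  rw [cpow_def_of_ne_zero (ofReal_ne_zero.2 hx.ne'), ofReal_log hx.le]

theorem VV_eq {Y x : ℝ} (hY : 0 < Y) (hx : 0 < x) :
    VV Y x = Real.exp (-(Real.log x - Real.log Y) ^ 2) := by
  rw [VV, Real.log_div hx.ne' hY.ne']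

theorem sq {a : ℝ} (ha : 0 ≤ a) : ((a : ℂ)) ^ (1 / 2 : ℂ) = Real.sqrt a := by
  rw [Real.sqrt_eq_rpow, ofReal_cpow ha]
  norm_num

theorem mel (Y x : ℝ) (w : ℂ) (σ : ℝ) (hY : 0 < Y) (hx : 0 < x) : (x : ℂ) ^ (-w) * VV Y x =
    (2 * Real.sqrt Real.pi : ℝ)⁻¹ * ∫ t : ℝ, cexp ((σ + t * I - w) ^ 2 / 4) *
      (Y : ℂ) ^ (σ + t * I - w) * (x : ℂ) ^ (-(σ + t * I)) := by
  have h := integral_cexp_quadratic (b := -1 / 4) (by norm_num)
    (I * ((σ - w) / 2 - (Real.log x - Real.log Y)))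
    ((σ - w) ^ 2 / 4 - (σ - w) * (Real.log x - Real.log Y) - w * Real.log x)
  have e : ∀ t : ℝ, cexp ((σ + t * I - w) ^ 2 / 4) * (Y : ℂ) ^ (σ + t * I - w) *
      (x : ℂ) ^ (-(σ + t * I)) = cexp (-1 / 4 * (t : ℂ) ^ 2 +
        I * ((σ - w) / 2 - (Real.log x - Real.log Y)) * t +
        ((σ - w) ^ 2 / 4 - (σ - w) * (Real.log x - Real.log Y) - w * Real.log x)) := fun t => by
    rw [cp hY, cp hx, ← Complex.exp_add, ← Complex.exp_add]
    congr 1
    linear_combination ((t : ℂ) ^ 2 / 4) * I_sq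
  have e2 : ((Real.pi : ℂ) / -(-1 / 4)) ^ (1 / 2 : ℂ) = (2 * Real.sqrt Real.pi : ℝ) := by
    rw [show ((Real.pi : ℂ) / -(-1 / 4)) = (2 ^ 2 * Real.pi : ℝ) by push_cast; ring,
      sq (by positivity), Real.sqrt_mul (by norm_num), Real.sqrt_sq (by norm_num)]
  have e3 : ((2 * Real.sqrt Real.pi : ℝ) : ℂ) ≠ 0 := ofReal_ne_zero.2 (by positivity)
  simp only [e]
  rw [h, e2, ofReal_inv, inv_mul_cancel_left₀ e3, cp hx, VV_eq hY hx, ofReal_exp,
    ← Complex.exp_add]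
  congr 1
  push_cast
  linear_combination (-((σ - w) / 2 - (Real.log x - Real.log Y)) ^ 2) * I_sq

theorem fwd (x : ℝ) (s : ℂ) (hx : 0 < x) :
    ∫ Y in Set.Ioi (0 : ℝ), (VV Y x : ℂ) * (Y : ℂ) ^ (-s - 1) =
      (Real.sqrt Real.pi : ℂ) * cexp (s ^ 2 / 4) * (x : ℂ) ^ (-s) := by
  have h := integral_cexp_quadratic (b := -1) (by norm_num) (2 * Real.log x - s)
    (-(Real.log x : ℂ) ^ 2)
  rw [← Real.range_exp, ← Set.image_univ, integral_image_eq_integral_abs_deriv_smul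
    MeasurableSet.univ (fun v _ => (Real.hasDerivAt_exp v).hasDerivWithinAt)
    Real.exp_injective.injOn, Measure.restrict_univ]
  have e : ∀ v : ℝ, |Real.exp v| • ((VV (Real.exp v) x : ℂ) * ((Real.exp v : ℝ) : ℂ) ^ (-s - 1)) =
      cexp (-1 * (v : ℂ) ^ 2 + (2 * Real.log x - s) * v + -(Real.log x : ℂ) ^ 2) := fun v => by
    rw [abs_of_pos (Real.exp_pos v), cp (Real.exp_pos v), VV_eq (Real.exp_pos v) hx, Real.log_exp,
      real_smul, ofReal_exp, ofReal_exp, ← Complex.exp_add, ← Complex.exp_add]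
    congr 1
    simp only [ofReal_neg, ofReal_pow, ofReal_sub]
    ring
  simp only [e]
  rw [h, neg_neg, div_one, sq Real.pi_pos.le, cp hx, mul_assoc, ← Complex.exp_add]
  congr 2
  ring

theorem shift (Y x δ : ℝ) (hY : 0 < Y) (hx : 0 < x) :
    x ^ (-δ) * VV Y x = Y ^ (-δ) * Real.exp (δ ^ 2 / 4) * VV (Y * Real.exp (-δ / 2)) x := by
  rw [VV_eq hY hx, VV_eq (by positivity) hx, Real.rpow_def_of_pos hx, Real.rpow_def_of_pos hY,
    Real.log_mul hY.ne' (Real.exp_pos _).ne', Real.log_exp, ← Real.exp_add, ← Real.exp_add,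
    ← Real.exp_add]
  congr 1
  ring

theorem le (A Y x : ℝ) (hY : 0 < Y) (hx : 0 < x) :
    VV Y x ≤ Real.exp (A ^ 2 / 4) * (Y / x) ^ A := by
  rw [VV_eq hY hx, Real.rpow_def_of_pos (by positivity), Real.log_div hY.ne' hx.ne',
    ← Real.exp_add, Real.exp_le_exp]
  nlinarith [sq_nonneg (Real.log x - Real.log Y - A / 2)]

theorem VV_nonneg (Y x : ℝ) : 0 ≤ VV Y x := (Real.exp_pos _).le

/-- the summand -/
def tm (σ Y : ℝ) (k : O) : ℝ := if k = 0 then 0 else N k ^ σ * VV Y (N k)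

theorem N_nonneg (k : O) : 0 ≤ N k := Nat.cast_nonneg _

theorem tm_nonneg (σ Y : ℝ) (k : O) : 0 ≤ tm σ Y k := by
  unfold tm
  split_ifs
  · rfl
  · exact mul_nonneg (Real.rpow_nonneg (N_nonneg k) _) (VV_nonneg _ _)

variable (hB : Bas)
include hB

theorem tm_le (σ Y : ℝ) (hY : 0 < Y) (k : O) :
    tm σ Y k ≤ Real.exp ((σ + 2) ^ 2 / 4) * Y ^ (σ + 2) * N k ^ (-2 : ℝ) := by
  unfold tm
  split_ifs with h
  · have := N_nonneg k
    positivity
  have h1 : 0 < N k := one_pos.trans_le (hB.b1.N_one_le k h)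
  refine (mul_le_mul_of_nonneg_left (le (σ + 2) Y _ hY h1) (by positivity)).trans (le_of_eq ?_)
  rw [Real.div_rpow hY.le h1.le, show (-2 : ℝ) = σ - (σ + 2) by ring, Real.rpow_sub h1]
  ring

theorem summ (σ Y : ℝ) (hY : 0 < Y) : Summable (tm σ Y) :=
  .of_nonneg_of_le (tm_nonneg σ Y) (tm_le hB σ Y hY) ((hB.b3.summ 2 one_lt_two).mul_left _)

theorem small (σ : ℝ) : ∃ C, 0 ≤ C ∧ ∀ Y, 0 < Y → ∑' k, tm σ Y k ≤ C * Y ^ (σ + 2) := by
  refine ⟨Real.exp ((σ + 2) ^ 2 / 4) * ∑' k : O, N k ^ (-2 : ℝ), mul_nonneg (Real.exp_pos _).le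
    (tsum_nonneg fun k => Real.rpow_nonneg (N_nonneg k) _), fun Y hY => ?_⟩
  refine ((summ hB σ Y hY).tsum_le_tsum (tm_le hB σ Y hY)
    ((hB.b3.summ 2 one_lt_two).mul_left _)).trans (le_of_eq ?_)
  rw [tsum_mul_left]
  ring

theorem zero : ∃ C, 0 ≤ C ∧ ∀ Y, 0 < Y → ∑' k, tm 0 Y k ≤ C * Y := by
  obtain ⟨C, hC, h⟩ := small hB 0
  obtain ⟨D, hD⟩ := hB.b3.scale 3 (by norm_num)
  refine ⟨C + 16 * |D|, by positivity, fun Y hY => ?_⟩
  rcases le_total Y 1 with c | c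
  · refine (h Y hY).trans ?_
    rw [zero_add, Real.rpow_two]
    nlinarith [mul_nonneg hC (mul_nonneg hY.le (sub_nonneg.2 c)), mul_nonneg (abs_nonneg D) hY.le]
  have hT : 1 ≤ Real.sqrt Y := Real.one_le_sqrt.2 c
  have k1 : ∀ k, tm 0 Y k ≤ 16 * (1 + ‖toC k‖ / Real.sqrt Y) ^ (-3 : ℝ) := fun k => by
    unfold tm
    split_ifs with hk
    · positivity
    have h1 : 0 < N k := one_pos.trans_le (hB.b1.N_one_le k hk)
    set u := ‖toC k‖ / Real.sqrt Y with hu
    have h2 : N k / Y = u ^ 2 := by rw [hu, div_pow, Real.sq_sqrt hY.le, hB.b1.N_eq]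
    have h3 : 0 < u := by
      have : 0 < u ^ 2 := h2 ▸ div_pos h1 hY
      exact lt_of_le_of_ne (by positivity) fun e => by rw [← e] at this; simp at this
    have h4 := le (3 / 2) Y _ hY h1
    have h5 := le 0 Y _ hY h1
    rw [← inv_div (N k), h2, Real.inv_rpow (by positivity), ← Real.rpow_natCast u,
      ← Real.rpow_mul h3.le] at h4
    norm_num at h4 h5
    have h6 : Real.exp (9 / 16) ≤ 3 :=
      (Real.exp_le_exp.2 (by norm_num)).trans (Real.exp_one_lt_d9.le.trans (by norm_num))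
    have h7 : VV Y (N k) * u ^ 3 ≤ 3 := ((le_mul_inv_iff₀ (by positivity)).1 h4).trans h6
    rw [Real.rpow_zero, one_mul, Real.rpow_neg (by positivity), le_mul_inv_iff₀ (by positivity),
      Real.rpow_ofNat]
    have h8 : (1 + u) ^ 3 ≤ 4 * (1 + u ^ 3) := by nlinarith [mul_nonneg h3.le (sq_nonneg (u - 1)), sq_nonneg (u - 1)]
    nlinarith [mul_le_mul_of_nonneg_left h8 (VV_nonneg Y (N k))]
  have k2 : Summable fun k : O => (1 + ‖toC k‖ / Real.sqrt Y) ^ (-3 : ℝ) := by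
    refine .of_nonneg_of_le (fun k => by positivity) (fun k => ?_)
      ((hB.b3.summ' 3 (by norm_num)).mul_left (Real.sqrt Y ^ (3 : ℝ)))
    have e : (1 + ‖toC k‖) / Real.sqrt Y ≤ 1 + ‖toC k‖ / Real.sqrt Y := by
      rw [add_div]
      gcongr
      exact div_le_one_of_le₀ hT (by positivity)
    refine (Real.rpow_le_rpow_of_nonpos (by positivity) e (by norm_num)).trans (le_of_eq ?_)
    rw [Real.div_rpow (by positivity) (by positivity), Real.rpow_neg (Real.sqrt_nonneg Y),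
      div_inv_eq_mul, mul_comm]
  refine ((summ hB 0 Y hY).tsum_le_tsum k1 (k2.mul_left _)).trans ?_
  have k3 := hD _ hT
  rw [Real.sq_sqrt hY.le] at k3
  rw [tsum_mul_left]
  nlinarith [mul_le_mul_of_nonneg_right (le_abs_self D) hY.le, mul_nonneg hC hY.le]

end LNM

open LNM

theorem lnS (hB : Bas) : LN := by
  refine ⟨mel, fun x hx => ?_, shift, le, fun Y x c _ _ _ => ?_, fwd, fun σ => ?_⟩
  · have h := fwd x 0 hx
    simp only [neg_zero, zero_sub, cpow_neg_one, cpow_zero] at h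
    apply ofReal_injective
    rw [← integral_complex_ofReal]
    simpa [div_eq_mul_inv] using h
  · rw [VV, VV, div_div_eq_mul_div, mul_comm]
  obtain ⟨C, hC, h⟩ := small hB σ
  obtain ⟨D, hD, h'⟩ := zero hB
  refine ⟨C + D + D * Real.exp (σ ^ 2 / 4) * Real.exp (σ / 2), fun Y hY => ⟨summ hB σ Y hY, ?_⟩⟩
  show ∑' k, tm σ Y k ≤ _
  have hE : 0 ≤ D * Real.exp (σ ^ 2 / 4) * Real.exp (σ / 2) := by positivity
  split_ifs with c
  · rcases le_total Y 1 with d | d
    · rw [min_eq_right d, mul_assoc, ← Real.rpow_add_one hY.ne', add_assoc σ, one_add_one_eq_two]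
      refine (h Y hY).trans ?_
      gcongr
      linarith
    · have e : ∀ k, tm σ Y k = Y ^ σ * Real.exp (σ ^ 2 / 4) * tm 0 (Y * Real.exp (σ / 2)) k :=
        fun k => by
          unfold tm
          split_ifs with hk
          · simp
          · simpa using shift Y (N k) (-σ) hY (one_pos.trans_le (hB.b1.N_one_le k hk))
      simp only [e]
      rw [tsum_mul_left, min_eq_left d, mul_one, Real.rpow_add_one hY.ne']
      refine (mul_le_mul_of_nonneg_left (h' _ (by positivity)) (by positivity)).trans ?_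
      have : 0 ≤ (C + D) * (Y ^ σ * Y) := by positivity
      nlinarith
  · have e : ∀ k, tm σ Y k ≤ tm 0 Y k := fun k => by
      unfold tm
      split_ifs with hk
      · rfl
      · exact mul_le_mul_of_nonneg_right (Real.rpow_le_rpow_of_exponent_le (hB.b1.N_one_le k hk)
          (by linarith)) (VV_nonneg _ _)
    refine (((summ hB σ Y hY).tsum_le_tsum e (summ hB 0 Y hY)).trans (h' Y hY)).trans ?_
    have : Y ≤ (1 + Y) * min 1 Y := by
      rcases le_total Y 1 with d | d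
      · rw [min_eq_right d]; nlinarith
      · rw [min_eq_left d]; linarith
    rw [mul_assoc _ (1 + Y)]
    gcongr
    linarith

end Vale.Agent.P026
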