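import Vale.Agent.P026.Stm2
import Vale.Agent.P026.M.Poi

noncomputable section
open Complex MeasureTheory Filter Topology
open scoped Classical ComplexConjugate FourierTransform ContDiff Nat

namespace Vale.Agent.P026

namespace OMM

def ex (t : ℝ) : ℂ := cexp t

theorem ex_smooth : ContDiff ℝ ∞ ex := Complex.contDiff_exp.comp ofRealCLM.contDiff

theorem ex_iter (n : ℕ) : iteratedDeriv n ex = ex := by
  induction n with
  | zero => simp
  | succ n ih =>
    rw [iteratedDeriv_succ, ih]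
    funext t
    exact (Complex.hasDerivAt_exp t).comp_ofReal.deriv

def ph (z : ℂ) : ℝ := -(27 / 64) * (‖z‖ ^ 2) ^ 3

theorem ph_temp : Function.HasTemperateGrowth ph :=
  (Function.HasTemperateGrowth.const (-(27 / 64) : ℝ)).mul
    ((Function.hasTemperateGrowth_norm_sq (H := ℂ)).pow 3)

theorem poly_exp (m : ℕ) (r : ℝ) (hr : 0 ≤ r) :
    (1 + r) ^ m * Real.exp (-(27 / 64) * (r ^ 2) ^ 3) ≤ m ! * 4 ^ m * Real.exp 1 := by
  have h1 := Real.pow_div_factorial_le_exp ((1 + r) / 4) (by positivity) m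
  rw [div_le_iff₀ (by positivity), div_pow, div_le_iff₀ (by positivity)] at h1
  have h2 : (1 + r) / 4 + -(27 / 64) * (r ^ 2) ^ 3 ≤ 1 := by
    rcases le_total r 1 with h | h
    · nlinarith [pow_nonneg (sq_nonneg r) 3]
    · have : r ≤ (r ^ 2) ^ 3 := by
        rw [← pow_mul]
        exact le_self_pow₀ h (by norm_num)
      linarith
  calc _ ≤ Real.exp ((1 + r) / 4) * m ! * 4 ^ m * Real.exp (-(27 / 64) * (r ^ 2) ^ 3) := by gcongr
    _ = m ! * 4 ^ m * Real.exp ((1 + r) / 4 + -(27 / 64) * (r ^ 2) ^ 3) := by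
      rw [Real.exp_add]; ring
    _ ≤ _ := by gcongr

def G : SchwartzMap ℂ ℂ where
  toFun := ex ∘ ph
  smooth' := ex_smooth.comp ph_temp.1
  decay' k n := by
    obtain ⟨l, C, hC, h⟩ := ph_temp.norm_iteratedFDeriv_le_uniform n
    refine ⟨n ! * (C + 1) ^ n * ((k + l * n)! * 4 ^ (k + l * n) * Real.exp 1), fun x => ?_⟩
    have h1 : (1 : ℝ) ≤ (1 + ‖x‖) ^ l := one_le_pow₀ (by simp)
    have h2 := norm_iteratedFDeriv_comp_le ex_smooth ph_temp.1 (n := n) (by exact_mod_cast le_top) x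
      (C := Real.exp (ph x)) (D := (C + 1) * (1 + ‖x‖) ^ l)
      (fun i _ => by rw [norm_iteratedFDeriv_eq_norm_iteratedDeriv, ex_iter, ex, norm_exp_ofReal])
      (fun i hi hi' => (h i hi' x).trans (le_trans (by nlinarith)
        (le_self_pow₀ (by nlinarith) (by omega))))
    calc _ ≤ (1 + ‖x‖) ^ k * (n ! * Real.exp (ph x) * ((C + 1) * (1 + ‖x‖) ^ l) ^ n) := by
          gcongr
          simp
      _ = n ! * (C + 1) ^ n * ((1 + ‖x‖) ^ (k + l * n) * Real.exp (ph x)) := by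
          rw [mul_pow]
          ring
      _ ≤ _ := mul_le_mul_of_nonneg_left (poly_exp _ _ (norm_nonneg x)) (by positivity)

end OMM

theorem omS (_hB : Bas) : OMStmt := by
  refine ⟨𝓕⁻ OMM.G, fun η => ?_, fun ζ x h => ?_⟩
  · have h := FTc_eq (𝓕⁻ OMM.G : SchwartzMap ℂ ℂ) η
    rw [← SchwartzMap.fourier_coe, FourierTransform.fourier_fourierInv_eq] at h
    refine h.trans ?_
    show cexp (OMM.ph _) = _
    rw [← ofReal_neg]
    congr 2
    have h3 : Real.sqrt 3 ^ 2 = 3 := Real.sq_sqrt (by norm_num)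
    simp only [OMM.ph, norm_mul, norm_conj, norm_I, norm_real, Real.norm_eq_abs, mul_pow, sq_abs,
      div_pow, h3]
    ring
  · rw [SchwartzMap.fourierInv_coe]
    refine (Real.fourierInv_comp_linearIsometry
      (rotation ⟨ζ, by simpa [Submonoid.unitSphere] using h⟩) OMM.G x).symm.trans ?_
    refine congrArg (fun f : ℂ → ℂ => 𝓕⁻ f x) (funext fun z => ?_)
    show OMM.ex (OMM.ph (ζ * z)) = OMM.ex (OMM.ph z)
    simp only [OMM.ph, norm_mul, h, one_mul]

end Vale.Agent.P026
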