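import Vale.Agent.P026.Stm2

/-! P026, module PER: the periodic part of the kernel. -/

noncomputable section
open Complex
open scoped Classical ComplexConjugate

namespace Vale.Agent.P026

namespace PERM

theorem form (hB : Bas) (hP : PH) {g c1 d1 x y e f : O} (hg : Prim g) (hc : Prim c1)
    (hy : x ^ 3 = g ^ 2 * y) (he : e * d1 - 1 = c1 * f) :
    Per (g * d1) (g * c1) x = bb g * cub d1 c1 * eQ (y * f) d1 := by
  have h0 := hB.b2.ne c1 hc
  by_cases hd : d1 = 0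
  · have hu : c1 * -f = 1 := by rw [hd] at he; linear_combination he
    rw [Per, hP.eq _ _ x g c1 d1 e y (hB.b2.mul _ _ hg hc) ⟨hg, rfl, rfl, ⟨f, by
      linear_combination he⟩, hy⟩, hB.b1.eQ_dvd (y * e) c1 ⟨-f * (y * e), by
        linear_combination -(y * e) * hu⟩, hd]
    simp [eQ]
  rw [Per, hP.eq _ _ x g c1 d1 e y (hB.b2.mul _ _ hg hc) ⟨hg, rfl, rfl, ⟨f, by
    linear_combination he⟩, hy⟩, ← hB.b1.eQ_mul d1 (y * e) c1 hd, ← hB.b1.eQ_mul c1 (y * f) d1 h0,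
    show -x ^ 3 = g ^ 2 * -y by linear_combination -hy,
    show g * c1 * (g * d1) = g ^ 2 * (d1 * c1) by ring,
    hB.b1.eQ_mul _ _ _ (pow_ne_zero 2 (hB.b2.ne g hg)), mul_assoc, ← hB.b1.eQ_add, mul_comm c1 d1]
  congr 2
  linear_combination y * he

theorem cube {g x m y : O} (hy : x ^ 3 = g ^ 2 * y) (d : O) :
    ∃ k, (x + g * d * m) ^ 3 = g ^ 2 * (y + d * k) := by
  obtain ⟨z, hz⟩ : g ∣ x ^ 2 := (IsIntegrallyClosed.pow_dvd_pow_iff three_ne_zero).1
    ⟨g * y ^ 2, by linear_combination (x ^ 3 + g ^ 2 * y) * hy⟩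
  exact ⟨3 * z * m + 3 * x * d * m ^ 2 + g * d ^ 2 * m ^ 3, by
    linear_combination hy + 3 * g * d * m * hz⟩

end PERM

open PERM in
theorem perS (hB : Bas) (hC : CRStmt) (h9 : P9Stmt) (_hb : BB) (hP : PH) : PERStmt := by
  refine ⟨?_, ?_⟩
  · rintro d c' c x' x hd hc' hc ⟨k, hk⟩ ⟨m, hm⟩
    obtain ⟨g, c1, d1, hg, hc1, rfl, rfl, hco⟩ := hB.b2.gcd c d hc
    obtain rfl : c' = g * (c1 + 9 * d1 * k) := by linear_combination hk
    obtain rfl : x' = x + g * d1 * m := by linear_combination hm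
    have hc1' := hB.b2.cancel _ _ hg hc'
    by_cases h : g ^ 2 ∣ x ^ 3
    · obtain ⟨y, hy⟩ := h
      obtain ⟨l, hl⟩ := cube (m := m) hy d1
      obtain ⟨a, b, hab⟩ := hco
      rw [form hB hP (e := b) (f := -a) hg hc1 hy (by linear_combination hab),
        form hB hP (e := b - 9 * k * a) (f := -a) hg hc1' hl (by linear_combination hab),
        h9 d1 _ c1 (right_ne_zero_of_mul hd) hc1' hc1 ⟨k, by ring⟩, add_mul, hB.b1.eQ_add,
        hB.b1.eQ_dvd (d1 * l * -a) d1 ⟨l * -a, by ring⟩, mul_one]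
    · rw [Per, Per, hP.zero _ _ x g c1 d1 hg rfl rfl hco hc h,
        hP.zero _ _ _ g _ d1 hg rfl rfl ?_ hc' ?_, zero_mul, zero_mul]
      · rw [show c1 + 9 * d1 * k = c1 + d1 * (9 * k) by ring]
        exact hco.add_mul_left_left _
      · rintro ⟨y, hy⟩
        obtain ⟨l, hl⟩ := cube (m := -m) hy d1
        exact h ⟨y + d1 * l, by linear_combination hl⟩
  · intro e v D c x f he hD hc hf
    obtain ⟨g, c1, D1, hg, hc1, rfl, rfl, hco⟩ := hB.b2.gcd c D hc
    have hD1 := hB.b2.cancel _ _ hg hD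
    have hl : ∀ a, Prim a → IsCoprime (lam ^ v) a := fun a ha =>
      (hB.b1.prime_lam.coprime_iff_not_dvd.2 ((hB.b2.cop_iff a).1 (hB.b2.cop a ha))).pow_left
    have hl' : ∀ a, Prim a → IsCoprime (e * lam ^ v) a := fun a ha =>
      (isCoprime_mul_unit_left_left he _ _).2 (hl a ha)
    have hl0 : e * lam ^ v ≠ 0 := mul_ne_zero he.ne_zero (pow_ne_zero _ hB.b1.prime_lam.ne_zero)
    have hco2 : IsCoprime D1 (e * lam ^ v * c1) := (hl' D1 hD1).symm.mul_right hco.symm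
    rw [show e * lam ^ v * (g * D1) = g * (e * lam ^ v * D1) by ring]
    by_cases h : g ^ 2 ∣ x ^ 3
    · obtain ⟨y, hy⟩ := h
      obtain ⟨a, b, hab⟩ := hco2
      obtain ⟨k, hk⟩ := hf
      obtain ⟨E, hE⟩ : e * lam ^ v * D1 ∣ c1 * (-(b * (e * lam ^ v)) - g ^ 2 * f * e * D1) + 1 := by
        rw [mul_assoc, he.mul_left_dvd]
        exact (hl D1 hD1).mul_dvd ⟨-k - c1 * b * e, by linear_combination -hk⟩
          ⟨a - c1 * g ^ 2 * f * e, by linear_combination -hab⟩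
      rw [form hB hP (e := E) (f := -(b * (e * lam ^ v)) - g ^ 2 * f * e * D1) hg hc1 hy
        (by linear_combination -hE),
        hP.eq _ _ (-x) g D1 (e * lam ^ v * c1) b (-y) hD ⟨hg, rfl, by ring, ⟨-a, by
          linear_combination hab⟩, by linear_combination -hy⟩,
        show y * (-(b * (e * lam ^ v)) - g ^ 2 * f * e * D1) =
          e * lam ^ v * (-y * b) + e * D1 * -(x ^ 3 * f) by linear_combination e * D1 * f * hy,
        hB.b1.eQ_add, hB.b1.eQ_mul _ _ _ hl0,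
        show e * lam ^ v * D1 = e * D1 * lam ^ v by ring,
        hB.b1.eQ_mul _ _ _ (mul_ne_zero he.ne_zero (hB.b2.ne _ hD1)),
        show e * D1 * lam ^ v = e * lam ^ v * D1 by ring,
        hB.b6.mul_l _ D1 c1 (hB.b2.cop _ hc1), hB.b6.mul_l _ c1 D1 (hB.b2.cop _ hD1),
        hB.b6.mul_r _ g c1 (hB.b2.ne _ hg) (hB.b2.ne _ hc1),
        hB.b6.mul_r _ g D1 (hB.b2.ne _ hg) (hB.b2.ne _ hD1), map_mul, hB.b6.conj_eq,
        hB.b6.conj_eq, hC c1 D1 hc1 hD1]
      have h1 := hB.b6.cube _ _ (hl' g hg)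
      have h2 := hB.b6.cube _ _ (hl' D1 hD1)
      generalize cub (e * lam ^ v) g = A at h1
      generalize cub (e * lam ^ v) D1 = B at h2
      linear_combination (-(bb g * cub (e * lam ^ v) c1 * cub D1 c1 * eQ (-y * b) D1 *
        eQ (-(x ^ 3 * f)) (lam ^ v))) * (B ^ 3 * h1 + h2)
    · rw [Per, hP.zero _ _ x g c1 _ hg rfl rfl ((hl' c1 hc1).symm.mul_right hco) hc h,
        hP.zero _ _ (-x) g D1 (e * lam ^ v * c1) hg rfl (by ring) hco2 hD (by
          rwa [Odd.neg_pow (by decide), dvd_neg])]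
      simp

end Vale.Agent.P026
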