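import Vale.Agent.P026.Stm2
import Vale.Agent.P026.M.Poi

/-! P026: Poisson summation, one variable. -/

noncomputable section
open Complex

namespace Vale.Agent.P026

theorem po1S (hB : Bas) : PO1Stmt := by
  intro f K hc hf hs
  have := (poisson hB.b1 hB.b3 f hc (s := 3) (by norm_num) hf hs.of_norm 0).tsum_eq
  simp only [zero_add, zero_mul, hB.b1.psi_zero, mul_one, tsum_mul_left] at this
  rw [← this]
  congr 1
  simp [kap]

end Vale.Agent.P026
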