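import Vale.Agent.P026.M.PO2

/-! P026: Poisson summation with a periodic factor, two variables. -/

noncomputable section
open Complex MeasureTheory Filter Topology Set
open scoped Classical ComplexConjugate

namespace Vale.Agent.P026

namespace POP2M

lemma map_dil {c : ℂ} (hc : c ≠ 0) : Measure.map (fun z : ℂ => c * z) volume =
    ENNReal.ofReal ((‖c‖ ^ 2)⁻¹) • (volume : Measure ℂ) := by
  let A : ℂ →ₗ[ℝ] ℂ := Algebra.lmul ℝ ℂ c
  have hd : LinearMap.det A = ‖c‖ ^ 2 := by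
    rw [← Algebra.norm_apply, Algebra.norm_complex_eq, ← Complex.normSq_eq_norm_sq]; rfl
  have h1 := Measure.map_linearMap_addHaar_eq_smul_addHaar (volume : Measure ℂ) (f := A)
    (by rw [hd]; positivity)
  rw [hd, abs_of_nonneg (by positivity)] at h1
  exact h1

/-- dilation in two complex variables -/
lemma int_mul2 (h : ℂ × ℂ → ℂ) {c d : ℂ} (hc : c ≠ 0) (hd : d ≠ 0) :
    ∫ p : ℂ × ℂ, h (c * p.1, d * p.2) =
      (((‖c‖ ^ 2)⁻¹ * (‖d‖ ^ 2)⁻¹ : ℝ) : ℂ) * ∫ p, h p := by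
  have h2 := ((Homeomorph.mulLeft₀ c hc).prodCongr
    (Homeomorph.mulLeft₀ d hd)).measurableEmbedding.integral_map (μ := volume) h
  have h3 : ((Homeomorph.mulLeft₀ c hc).prodCongr (Homeomorph.mulLeft₀ d hd) : ℂ × ℂ → ℂ × ℂ) =
    Prod.map (fun z => c * z) (fun z => d * z) := rfl
  rw [h3, Measure.volume_eq_prod, ← Measure.map_prod_map _ _ (by fun_prop) (by fun_prop),
    map_dil hc, map_dil hd, Measure.prod_smul_left, Measure.prod_smul_right, smul_smul,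
    integral_smul_measure, ENNReal.toReal_mul, ENNReal.toReal_ofReal (by positivity),
    ENNReal.toReal_ofReal (by positivity), Complex.real_smul, ← Measure.volume_eq_prod] at h2
  exact h2.symm

lemma F2_mul (f : ℂ × ℂ → ℂ) {c d : ℂ} (hc : c ≠ 0) (hd : d ≠ 0) (ξ η : ℂ) :
    F2 (fun p => f (c * p.1, d * p.2)) ξ η =
      (((‖c‖ ^ 2)⁻¹ * (‖d‖ ^ 2)⁻¹ : ℝ) : ℂ) * F2 f (ξ / c) (η / d) := by
  rw [F2, F2, ← int_mul2 _ hc hd]
  refine integral_congr_ae (.of_forall fun p => ?_)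
  have e1 : c * p.1 * (ξ / c) = p.1 * ξ := by field_simp
  have e2 : d * p.2 * (η / d) = p.2 * η := by field_simp
  simp only [e1, e2]

lemma dil {c : ℂ} (hc : c ≠ 0) :
    ∃ C, 0 ≤ C ∧ ∀ z : ℂ, (1 + ‖c * z‖) ^ (-3 : ℝ) ≤ C * (1 + ‖z‖) ^ (-3 : ℝ) := by
  obtain ⟨C, hC⟩ := decay_mul (f := fun z => (((1 + ‖z‖) ^ (-3 : ℝ) : ℝ) : ℂ)) (s := 3) (C := 1)
    (by norm_num) (fun z => by
      rw [Complex.norm_real, Real.norm_of_nonneg (by positivity), one_mul]) hc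
  have h : ∀ z : ℂ, (1 + ‖c * z‖) ^ (-3 : ℝ) ≤ C * (1 + ‖z‖) ^ (-3 : ℝ) := fun z => by
    have := hC z
    rwa [Complex.norm_real, Real.norm_of_nonneg (by positivity)] at this
  refine ⟨C, ?_, h⟩
  have := h 0
  simp at this
  linarith

lemma decay2 {f : ℂ × ℂ → ℂ} {K : ℝ}
    (hf : ∀ p, ‖f p‖ ≤ K * (1 + ‖p.1‖) ^ (-3 : ℝ) * (1 + ‖p.2‖) ^ (-3 : ℝ)) {c d : ℂ}
    (hc : c ≠ 0) (hd : d ≠ 0) : ∃ K', ∀ p : ℂ × ℂ, ‖f (c * p.1, d * p.2)‖ ≤
      K' * (1 + ‖p.1‖) ^ (-3 : ℝ) * (1 + ‖p.2‖) ^ (-3 : ℝ) := by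
  obtain ⟨C, h0, h1⟩ := dil hc
  obtain ⟨D, -, h2⟩ := dil hd
  refine ⟨K * C * D, fun p => (hf _).trans ?_⟩
  have p3 := mul_le_mul (h1 p.1) (h2 p.2) (by positivity) (by positivity)
  have p4 := mul_le_mul_of_nonneg_left p3 (PO2M.K_nonneg hf)
  simp only at p4 ⊢
  linarith

lemma summ_dec (h3 : B3) {f : ℂ × ℂ → ℂ} {K : ℝ}
    (hf : ∀ p, ‖f p‖ ≤ K * (1 + ‖p.1‖) ^ (-3 : ℝ) * (1 + ‖p.2‖) ^ (-3 : ℝ)) :
    Summable fun a : O × O => ‖f (toC a.1, toC a.2)‖ :=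
  Summable.of_nonneg_of_le (fun _ => norm_nonneg _)
    (fun a => (hf _).trans (le_of_eq (mul_assoc _ _ _))) ((PO2M.summ2 h3).mul_left K)

/-- Poisson summation over a pair of residue classes -/
theorem cls2 (h1 : B1) (h3 : B3) (f : ℂ × ℂ → ℂ) (hc : Continuous f) {K K' : ℝ}
    (hf : ∀ p, ‖f p‖ ≤ K * (1 + ‖p.1‖) ^ (-3 : ℝ) * (1 + ‖p.2‖) ^ (-3 : ℝ))
    (hF : ∀ ξ η, ‖F2 f ξ η‖ ≤ K' * (1 + ‖ξ‖) ^ (-3 : ℝ) * (1 + ‖η‖) ^ (-3 : ℝ))
    {c d : O} (c0 : c ≠ 0) (d0 : d ≠ 0) (r s : O) :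
    HasSum (fun k : O × O => (kap ^ 2 * N c * N d)⁻¹ *
      (eQ (r * k.1) c * eQ (s * k.2) d * F2 f (toC k.1 / toC c) (toC k.2 / toC d)))
      (∑' m : O × O, f (toC (r + c * m.1), toC (s + d * m.2))) := by
  have hc0 : toC c ≠ 0 := fun h => c0 (h1.inj (by rw [h, map_zero]))
  have hd0 : toC d ≠ 0 := fun h => d0 (h1.inj (by rw [h, map_zero]))
  obtain ⟨C2, h2⟩ := decay2 hf hc0 hd0
  have := PO2M.poisson2 h1 h3 (fun p => f (toC c * p.1, toC d * p.2)) (by fun_prop) h2 (by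
    simp only [F2_mul f hc0 hd0]
    refine Summable.mul_left _ (Summable.of_norm ?_)
    obtain ⟨C3, h4⟩ := decay2 (f := fun p => F2 f p.1 p.2) (fun p => hF p.1 p.2)
      (inv_ne_zero hc0) (inv_ne_zero hd0)
    simpa only [div_eq_inv_mul] using summ_dec h3 h4) (toC r / toC c) (toC s / toC d)
  have e1 : ∀ m : O, toC c * (toC r / toC c + toC m) = toC (r + c * m) := fun m => by
    rw [map_add, map_mul]; field_simp
  have e1' : ∀ m : O, toC d * (toC s / toC d + toC m) = toC (s + d * m) := fun m => by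
    rw [map_add, map_mul]; field_simp
  simp only [e1, e1', F2_mul f hc0 hd0] at this
  refine HasSum.congr_fun this fun k => ?_
  have e2 : toC r / toC c * toC k.1 = toC (r * k.1) / toC c := by rw [map_mul]; ring
  have e3 : toC s / toC d * toC k.2 = toC (s * k.2) / toC d := by rw [map_mul]; ring
  rw [e2, e3, h1.psi_add, eQ, eQ, h1.N_eq, h1.N_eq]
  push_cast
  ring

/-- splitting a double lattice sum into residue classes -/
lemma tsum_cls2 (h4 : B4) (G : O × O → ℂ) (hG : Summable G) {c d : O} (c0 : c ≠ 0) (d0 : d ≠ 0) :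
    ∑' a, G a = ∑ r ∈ Rs c, ∑ s ∈ Rs d, ∑' m : O × O, G (r + c * m.1, s + d * m.2) := by
  have hs : ∀ r s, Summable fun m : O × O => G (r + c * m.1, s + d * m.2) := fun r s =>
    hG.comp_injective (i := fun m : O × O => (r + c * m.1, s + d * m.2)) fun m n h => by
      simp only [Prod.mk.injEq, add_right_inj] at h
      exact Prod.ext (mul_left_cancel₀ c0 h.1) (mul_left_cancel₀ d0 h.2)
  rw [hG.tsum_prod, h4.tsum_cls c _ c0 hG.prod]
  refine Finset.sum_congr rfl fun r _ => ?_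
  simp only [fun a => h4.tsum_cls d (fun b => G (a, b)) d0 (hG.prod_factor a)]
  rw [Summable.tsum_finsetSum fun s _ => (hs r s).prod]
  exact Finset.sum_congr rfl fun s _ => ((hs r s).tsum_prod).symm

end POP2M

open POP2M in
theorem pop2S (hB : Bas) (_h : PO2Stmt) : POP2Stmt := by
  intro f K P c d c0 d0 hP1 hP2 hc hf hF
  have h4 := hB.b4
  have hb : ∀ a b, ‖P a b‖ ≤ ∑ r ∈ Rs c, ∑ s ∈ Rs d, ‖P r s‖ := fun a b => by
    obtain ⟨r, hr, h1⟩ := h4.ex c a c0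
    obtain ⟨s, hs, h2⟩ := h4.ex d b d0
    have e1 : P a b = P r b := h4.pe_congr c _ a r (hP1 b) h1
    have e2 : P r b = P r s := h4.pe_congr d _ b s (hP2 r) h2
    rw [e1, e2]
    refine le_trans ?_ (Finset.single_le_sum (f := fun r => ∑ s ∈ Rs d, ‖P r s‖)
      (fun _ _ => Finset.sum_nonneg fun _ _ => norm_nonneg _) hr)
    exact Finset.single_le_sum (f := fun s => ‖P r s‖) (fun _ _ => norm_nonneg _) hs
  have hS : Summable fun a : O × O => P a.1 a.2 * f (toC a.1, toC a.2) := by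
    refine Summable.of_norm_bounded ((summ_dec hB.b3 hf).mul_left
      (∑ r ∈ Rs c, ∑ s ∈ Rs d, ‖P r s‖)) fun a => ?_
    rw [norm_mul]
    exact mul_le_mul_of_nonneg_right (hb _ _) (norm_nonneg _)
  rw [tsum_cls2 h4 _ hS c0 d0]
  have hP : ∀ r s m n, P (r + c * m) (s + d * n) = P r s := fun r s m n =>
    (hP1 _ r m).trans (hP2 r s n)
  have := hasSum_sum (s := Rs c) fun r _ => hasSum_sum (s := Rs d) fun s _ =>
    (cls2 hB.b1 hB.b3 f hc hf hF c0 d0 r s).mul_left (P r s)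
  simp only [hP, tsum_mul_left]
  rw [← this.tsum_eq, ← tsum_mul_left]
  refine tsum_congr fun k => ?_
  simp only [Finset.sum_mul, Finset.mul_sum]
  exact Finset.sum_congr rfl fun r _ => Finset.sum_congr rfl fun s _ => by ring

end Vale.Agent.P026
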