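import Vale.Agent.P026.Stm2

/-! Riemann sums over the Eisenstein lattice. -/

noncomputable section
open Complex MeasureTheory Filter Topology
open scoped Classical ComplexConjugate

namespace Vale.Agent.P026

namespace RSM

def fl (z : ℂ) : O := ⟨⌊z.re + z.im / Real.sqrt 3⌋, ⌊2 * z.im / Real.sqrt 3⌋⟩

theorem s3 : Real.sqrt 3 * Real.sqrt 3 = 3 := Real.mul_self_sqrt (by norm_num)

theorem s3p : 0 < Real.sqrt 3 := Real.sqrt_pos.2 (by norm_num)

theorem close (z : ℂ) : ‖toC (fl z) - z‖ ≤ 2 := by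
  have e : toC (fl z) - z = -((Int.fract (z.re + z.im / Real.sqrt 3) : ℝ) +
      (Int.fract (2 * z.im / Real.sqrt 3) : ℝ) * om) := by
    have := s3p.ne'
    have e0 : toC (fl z) = ((⌊z.re + z.im / Real.sqrt 3⌋ : ℝ) : ℂ) +
        ((⌊2 * z.im / Real.sqrt 3⌋ : ℝ) : ℂ) * om := by
      rw [ofReal_intCast, ofReal_intCast]; rfl
    rw [e0, Int.fract, Int.fract]
    generalize (⌊z.re + z.im / Real.sqrt 3⌋ : ℝ) = a
    generalize (⌊2 * z.im / Real.sqrt 3⌋ : ℝ) = b
    apply Complex.ext <;> simp [om] <;> field_simp <;> ring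
  have h : ‖om‖ = 1 := by
    rw [← sq_eq_sq₀ (norm_nonneg _) zero_le_one, ← Complex.normSq_eq_norm_sq]
    simp [om, Complex.normSq_apply]
    linarith [s3]
  rw [e, norm_neg]
  refine (norm_add_le _ _).trans ?_
  rw [norm_mul, h, Complex.norm_real, Complex.norm_real, Real.norm_of_nonneg (Int.fract_nonneg _),
    Real.norm_of_nonneg (Int.fract_nonneg _)]
  linarith [Int.fract_lt_one (z.re + z.im / Real.sqrt 3), Int.fract_lt_one (2 * z.im / Real.sqrt 3)]

theorem close' (r M z : ℂ) {s : ℝ} (hM : M ≠ 0) (hs : 0 < s) :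
    ‖(r + M * toC (fl (z * (s / M)))) / s - z‖ ≤ (‖r‖ + 2 * ‖M‖) / s := by
  have : (s : ℂ) ≠ 0 := by exact_mod_cast hs.ne'
  rw [show (r + M * toC (fl (z * (s / M)))) / s - z =
    (r + M * (toC (fl (z * (s / M))) - z * (s / M))) / s by field_simp; ring, norm_div,
    Complex.norm_real, Real.norm_of_nonneg hs.le]
  refine div_le_div_of_nonneg_right ((norm_add_le _ _).trans ?_) hs.le
  rw [norm_mul]
  nlinarith [close (z * (s / M)), norm_nonneg M]

def lin (c : ℂ) : ℂ →ₗ[ℝ] ℂ where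
  toFun z := ⟨(z * c).re + (z * c).im / Real.sqrt 3, 2 * (z * c).im / Real.sqrt 3⟩
  map_add' a b := by apply Complex.ext <;> simp <;> ring
  map_smul' a b := by apply Complex.ext <;> simp <;> ring

theorem cell {c : ℂ} (hc : c ≠ 0) (a : O) :
    volume ((fun z => fl (z * c)) ⁻¹' {a}) = ENNReal.ofReal (Real.sqrt 3 / 2 / ‖c‖ ^ 2) := by
  have hd : LinearMap.det (lin c) = (Real.sqrt 3 / 2 / ‖c‖ ^ 2)⁻¹ := by
    have := s3p.ne'
    rw [← LinearMap.det_toMatrix Complex.basisOneI, Matrix.det_fin_two,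
      ← Complex.normSq_eq_norm_sq, Complex.normSq_apply]
    simp [LinearMap.toMatrix_apply, lin]
    field_simp
    ring
  have hp : 0 < Real.sqrt 3 / 2 / ‖c‖ ^ 2 := by have := s3p; have := norm_pos_iff.2 hc; positivity
  have e : (fun z => fl (z * c)) ⁻¹' {a} = lin c ⁻¹' (measurableEquivRealProd ⁻¹'
      (Set.Ico (a.re : ℝ) (a.re + 1) ×ˢ Set.Ico (a.im : ℝ) (a.im + 1))) := by
    ext z
    simp only [Set.mem_preimage, Set.mem_singleton_iff, QuadraticAlgebra.ext_iff, fl,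
      Int.floor_eq_iff, measurableEquivRealProd_apply, Set.mem_prod, Set.mem_Ico]
    rfl
  rw [e, Measure.addHaar_preimage_linearMap _ (by rw [hd]; exact inv_ne_zero hp.ne'), hd, inv_inv,
    abs_of_pos hp, volume_preserving_equiv_real_prod.measure_preimage
      (measurableSet_Ico.prod measurableSet_Ico).nullMeasurableSet, Measure.volume_eq_prod,
    Measure.prod_prod]
  simp

theorem dom {w z : ℂ} {C : ℝ} (hC : 0 ≤ C) (h : ‖w - z‖ ≤ C) :
    (1 + ‖w‖) ^ (-3 : ℝ) ≤ (1 + C) ^ (3 : ℝ) * (1 + ‖z‖) ^ (-3 : ℝ) := by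
  have h1 : 1 + ‖z‖ ≤ (1 + C) * (1 + ‖w‖) := by
    have := norm_sub_norm_le z w
    rw [norm_sub_rev] at this
    nlinarith [norm_nonneg w]
  have h2 := Real.rpow_le_rpow_of_nonpos (by positivity) h1 (show (-3 : ℝ) ≤ 0 by norm_num)
  rw [Real.mul_rpow (by positivity) (by positivity), Real.rpow_neg (x := 1 + C) (by positivity),
    inv_mul_le_iff₀ (by positivity)] at h2
  exact h2

theorem step {c c' : ℂ} (hc : c ≠ 0) (hc' : c' ≠ 0) (g : O × O → ℂ) :
    AEStronglyMeasurable (fun p : ℂ × ℂ => g (fl (p.1 * c), fl (p.2 * c'))) volume ∧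
    (Integrable (fun p : ℂ × ℂ => g (fl (p.1 * c), fl (p.2 * c'))) → (Summable fun a => ‖g a‖) ∧
      ∫ p : ℂ × ℂ, g (fl (p.1 * c), fl (p.2 * c')) =
        (kap ^ 2 / (‖c‖ ^ 2 * ‖c'‖ ^ 2 : ℝ)) * ∑' a, g a) := by
  letI : MeasurableSpace O := ⊤
  haveI : Countable O := (QuadraticAlgebra.equivProd _ _).injective.countable
  haveI : MeasurableSingletonClass O := ⟨fun _ => trivial⟩
  have m0 : Measurable fl := (measurable_of_countable (QuadraticAlgebra.equivProd (-1 : ℤ) (-1)).symm).comp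
    (f := fun z : ℂ => (⌊z.re + z.im / Real.sqrt 3⌋, ⌊2 * z.im / Real.sqrt 3⌋)) (by fun_prop)
  have m1 : Measurable fun p : ℂ × ℂ => (fl (p.1 * c), fl (p.2 * c')) := by fun_prop
  have m2 := measurable_of_countable g
  refine ⟨(m2.comp m1).aestronglyMeasurable, fun hi => ?_⟩
  have hi' := (integrable_map_measure m2.aestronglyMeasurable m1.aemeasurable).2 hi
  have hp : ∀ {c : ℂ}, c ≠ 0 → 0 < Real.sqrt 3 / 2 / ‖c‖ ^ 2 := fun hc => by
    have := s3p; have := norm_pos_iff.2 hc; positivity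
  have hv : ∀ a, (Measure.map (fun p : ℂ × ℂ => (fl (p.1 * c), fl (p.2 * c'))) volume {a}).toReal =
      Real.sqrt 3 / 2 / ‖c‖ ^ 2 * (Real.sqrt 3 / 2 / ‖c'‖ ^ 2) := fun a => by
    rw [Measure.map_apply m1 (measurableSet_singleton a), show (fun p : ℂ × ℂ =>
      (fl (p.1 * c), fl (p.2 * c'))) ⁻¹' {a} = ((fun z => fl (z * c)) ⁻¹' {a.1}) ×ˢ
        ((fun z => fl (z * c')) ⁻¹' {a.2}) from Set.ext fun p => Prod.ext_iff,
      Measure.volume_eq_prod, Measure.prod_prod, cell hc, cell hc', ENNReal.toReal_mul,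
      ENNReal.toReal_ofReal (hp hc).le, ENNReal.toReal_ofReal (hp hc').le]
  constructor
  · have := hi'
    rw [← Measure.sum_smul_dirac (Measure.map _ _)] at this
    have h2 := this.summable_of_dirac
    simp only [hv] at h2
    exact (summable_mul_left_iff (mul_pos (hp hc) (hp hc')).ne').1 h2
  · rw [← integral_map m1.aemeasurable m2.aestronglyMeasurable, integral_countable hi']
    simp only [measureReal_def, hv, real_smul]
    rw [tsum_mul_left, kap]
    push_cast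
    ring

theorem one (G : ℂ × ℂ → ℂ) (K : ℝ) (r1 r2 M : ℂ) (hM : M ≠ 0) (hG : Continuous G)
    (hK : ∀ p, ‖G p‖ ≤ K * (1 + ‖p.1‖) ^ (-3 : ℝ) * (1 + ‖p.2‖) ^ (-3 : ℝ)) :
    (∀ t : ℝ, 1 ≤ t → Summable fun m : O × O =>
      ‖G ((r1 + M * toC m.1) / t ^ 3, (r2 + M * toC m.2) / t)‖) ∧
    Tendsto (fun t : ℝ => ((t : ℂ) ^ 8)⁻¹ * ∑' m : O × O,
      G ((r1 + M * toC m.1) / t ^ 3, (r2 + M * toC m.2) / t)) atTop
      (𝓝 ((kap ^ 2 * (‖M‖ ^ 2 : ℝ) ^ 2)⁻¹ * ∫ p, G p)) := by
  have hK0 : 0 ≤ K := by simpa using (norm_nonneg _).trans (hK 0)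
  have hn := norm_pos_iff.2 hM
  set g : ℝ → O × O → ℂ := fun t m => G ((r1 + M * toC m.1) / t ^ 3, (r2 + M * toC m.2) / t)
  have st : ∀ t : ℝ, 1 ≤ t → _ := fun t ht => step (c := (t ^ 3 : ℝ) / M) (c' := t / M)
    (div_ne_zero (by exact_mod_cast (by positivity)) hM)
    (div_ne_zero (by exact_mod_cast (by positivity)) hM) (g t)
  have ib : Integrable fun p : ℂ × ℂ => K * ((1 + (‖r1‖ + 2 * ‖M‖)) ^ (3 : ℝ) *
      (1 + ‖p.1‖) ^ (-3 : ℝ) * ((1 + (‖r2‖ + 2 * ‖M‖)) ^ (3 : ℝ) * (1 + ‖p.2‖) ^ (-3 : ℝ))) :=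
    (((integrable_one_add_norm (E := ℂ) (by simp; norm_num)).const_mul _).mul_prod
      ((integrable_one_add_norm (E := ℂ) (by simp; norm_num)).const_mul _)).const_mul K
  have hb : ∀ t : ℝ, 1 ≤ t → ∀ p : ℂ × ℂ, ‖g t (fl (p.1 * ((t ^ 3 : ℝ) / M)), fl (p.2 * (t / M)))‖ ≤
      K * ((1 + (‖r1‖ + 2 * ‖M‖)) ^ (3 : ℝ) * (1 + ‖p.1‖) ^ (-3 : ℝ) *
        ((1 + (‖r2‖ + 2 * ‖M‖)) ^ (3 : ℝ) * (1 + ‖p.2‖) ^ (-3 : ℝ))) := fun t ht p => by
    have a1 := (close' r1 M p.1 hM (s := t ^ 3) (by positivity)).trans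
      (div_le_self (by positivity) (one_le_pow₀ ht))
    have a2 := (close' r2 M p.2 hM (s := t) (by positivity)).trans (div_le_self (by positivity) ht)
    rw [ofReal_pow] at a1
    refine (hK _).trans ?_
    rw [mul_assoc, ofReal_pow]
    exact mul_le_mul_of_nonneg_left (mul_le_mul (dom (by positivity) a1) (dom (by positivity) a2)
      (by positivity) (by positivity)) hK0
  have hi := fun t ht => (st t ht).2 (ib.mono' (st t ht).1 (Eventually.of_forall (hb t ht)))
  refine ⟨fun t ht => (hi t ht).1, ?_⟩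
  have lim := tendsto_integral_filter_of_dominated_convergence (l := atTop) (f := G) _
    ((eventually_ge_atTop 1).mono fun t ht => (st t ht).1)
    ((eventually_ge_atTop 1).mono fun t ht => Eventually.of_forall (hb t ht)) ib
    (Eventually.of_forall fun p => (hG.tendsto p).comp (Tendsto.prodMk_nhds ?_ ?_))
  · refine Tendsto.congr' ?_ (lim.const_mul _)
    filter_upwards [eventually_ge_atTop 1] with t ht
    have h0 : (t : ℂ) ≠ 0 := by exact_mod_cast (by positivity)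
    have h1 : (‖M‖ : ℂ) ≠ 0 := by exact_mod_cast hn.ne'
    have h2 : kap ≠ 0 := div_ne_zero (by exact_mod_cast s3p.ne') two_ne_zero
    rw [(hi t ht).2, norm_div, norm_div, Complex.norm_real, Complex.norm_real,
      Real.norm_of_nonneg (by positivity), Real.norm_of_nonneg (by positivity)]
    push_cast
    field_simp
    rfl
  · rw [tendsto_iff_norm_sub_tendsto_zero]
    refine squeeze_zero' (Eventually.of_forall fun _ => norm_nonneg _) ?_
      ((tendsto_pow_atTop three_ne_zero).const_div_atTop (‖r1‖ + 2 * ‖M‖))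
    filter_upwards [eventually_gt_atTop 0] with t ht
    have := close' r1 M p.1 hM (s := t ^ 3) (by positivity)
    rwa [ofReal_pow] at this ⊢
  · rw [tendsto_iff_norm_sub_tendsto_zero]
    refine squeeze_zero' (Eventually.of_forall fun _ => norm_nonneg _) ?_
      (tendsto_id.const_div_atTop (‖r2‖ + 2 * ‖M‖))
    filter_upwards [eventually_gt_atTop 0] with t ht
    exact close' r2 M p.2 hM ht

end RSM

open RSM in
theorem rsS (hB : Bas) : RSStmt := by
  intro P M G K hM h1 h2 hG hK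
  have hM' : toC M ≠ 0 := fun h => hM (hB.b1.inj (h.trans (map_zero _).symm))
  have o := fun r : Rs M × Rs M => one G K (toC r.1) (toC r.2) (toC M) hM' hG hK
  have bij : Function.Bijective fun q : Rs M × O => (q.1 : O) + M * q.2 := by
    constructor
    · rintro ⟨⟨a, ha⟩, x⟩ ⟨⟨b, hb⟩, y⟩ h
      obtain rfl : a = b := hB.b4.uniq M a b hM ha hb ⟨y - x, by linear_combination h⟩
      obtain rfl : x = y := mul_left_cancel₀ hM (add_left_cancel h)
      rfl
    · intro a
      obtain ⟨r, hr, m, hm⟩ := hB.b4.ex M a hM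
      exact ⟨(⟨r, hr⟩, m), by linear_combination -hm⟩
  set e := (Equiv.prodProdProdComm (Rs M) (Rs M) O O).trans
    ((Equiv.ofBijective _ bij).prodCongr (Equiv.ofBijective _ bij))
  have lim := tendsto_finset_sum Finset.univ fun (r : Rs M × Rs M) _ =>
    (o r).2.const_mul (P r.1 r.2)
  refine Tendsto.congr' ?_ (by
    convert lim using 2
    rw [← Finset.sum_mul, Fintype.sum_prod_type, hB.b1.N_eq, ← Finset.sum_coe_sort (Rs M)]
    simp only [← Finset.sum_coe_sort (Rs M) (P _)]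
    ring)
  filter_upwards [eventually_ge_atTop 1] with t ht
  have he : ∀ q : (Rs M × Rs M) × O × O, P (e q).1 (e q).2 * G (toC (e q).1 / t ^ 3, toC (e q).2 / t) =
      P q.1.1 q.1.2 * G ((toC q.1.1 + toC M * toC q.2.1) / t ^ 3,
        (toC q.1.2 + toC M * toC q.2.2) / t) := fun q => by
    rw [← map_mul, ← map_mul, ← map_add, ← map_add, show P q.1.1 q.1.2 =
      P (q.1.1 + M * q.2.1) (q.1.2 + M * q.2.2) from ((h1 _ _ _).trans (h2 _ _ _)).symm]
    rfl
  rw [← e.tsum_eq, tsum_congr he, Summable.tsum_prod, tsum_fintype, Finset.mul_sum]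
  · exact Finset.sum_congr rfl fun r _ => by dsimp only; rw [tsum_mul_left]; ring
  · refine Summable.of_norm ((summable_prod_of_nonneg fun _ => norm_nonneg _).2
      ⟨fun r => ?_, Summable.of_finite⟩)
    simp only [norm_mul]
    exact ((o r).1 t ht).mul_left _

end Vale.Agent.P026
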