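import Vale.Agent.P026.Stm2

/-! P026: contour shift in a vertical strip. -/

noncomputable section
open Complex MeasureTheory Filter Topology
open scoped Classical ComplexConjugate

namespace Vale.Agent.P026
namespace SHM

lemma int_exp (c : ℝ) (hc : 0 < c) : Integrable fun t : ℝ => Real.exp (-(c * |t|)) := by
  have h1 : IntegrableOn (fun t : ℝ => Real.exp (-(c * |t|))) (Set.Ioi 0) := by
    refine (exp_neg_integrableOn_Ioi 0 hc).congr_fun (fun t ht => ?_) measurableSet_Ioi
    simp only [abs_of_pos (show 0 < t from ht), neg_mul]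
  have h2 : IntegrableOn (fun t : ℝ => Real.exp (-(c * |t|))) (Set.Iic 0) := by
    refine (integrableOn_exp_mul_Iic hc 0).congr_fun (fun t ht => ?_) measurableSet_Iic
    simp only [abs_of_nonpos (show t ≤ 0 from ht), mul_neg, neg_neg]
  rw [← integrableOn_univ, ← Set.Iic_union_Ioi (a := (0 : ℝ))]
  exact h2.union h1

lemma int_line (f : ℂ → ℂ) (a b C c σ : ℝ) (hc : 0 < c) (h1 : a ≤ σ) (h2 : σ ≤ b)
    (hd : DifferentiableOn ℂ f {s | a ≤ s.re ∧ s.re ≤ b})
    (hb : ∀ s : ℂ, a ≤ s.re → s.re ≤ b → ‖f s‖ ≤ C * Real.exp (-(c * |s.im|))) :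
    Integrable fun t : ℝ => f (σ + t * I) := by
  have hcont : Continuous fun t : ℝ => f (σ + t * I) :=
    hd.continuousOn.comp_continuous (by fun_prop) (fun t => by simp [h1, h2])
  refine ((int_exp c hc).const_mul C).mono' hcont.aestronglyMeasurable (ae_of_all _ fun t => ?_)
  simpa using hb (σ + t * I) (by simpa using h1) (by simpa using h2)

lemma horiz (f : ℂ → ℂ) (a b C c e : ℝ) (hab : a ≤ b) (hc : 0 < c) (he : |e| = 1)
    (hb : ∀ s : ℂ, a ≤ s.re → s.re ≤ b → ‖f s‖ ≤ C * Real.exp (-(c * |s.im|))) :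
    Tendsto (fun T : ℝ => ∫ x in a..b, f (x + ((e * T : ℝ) : ℂ) * I)) atTop (𝓝 0) := by
  have h0 : Tendsto (fun T : ℝ => C * Real.exp (-(c * T)) * |b - a|) atTop (𝓝 0) := by
    have := ((Real.tendsto_exp_neg_atTop_nhds_zero.comp
      (tendsto_id.const_mul_atTop hc)).const_mul C).mul_const |b - a|
    simpa using this
  refine squeeze_zero_norm' ?_ h0
  filter_upwards [eventually_ge_atTop 0] with T hT
  refine intervalIntegral.norm_integral_le_of_norm_le_const fun x hx => ?_
  rw [Set.uIoc_of_le hab] at hx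
  have := hb (x + ((e * T : ℝ) : ℂ) * I) (by simpa using hx.1.le) (by simpa using hx.2)
  simpa [abs_mul, he, abs_of_nonneg hT] using this

end SHM

open SHM in
theorem shS : SHStmt := by
  intro f a b C c hab hc hd hb
  have ia := intervalIntegral_tendsto_integral (int_line f a b C c a hc le_rfl hab hd hb)
    tendsto_neg_atTop_atBot tendsto_id
  have ib := intervalIntegral_tendsto_integral (int_line f a b C c b hc hab le_rfl hd hb)
    tendsto_neg_atTop_atBot tendsto_id
  have h1 := horiz f a b C c (-1) hab hc (by simp) hb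
  have h2 := horiz f a b C c 1 hab hc (by simp) hb
  have h3 := ((h1.sub h2).add (ib.const_smul I)).sub (ia.const_smul I)
  have h4 : ∀ T : ℝ, (∫ x in a..b, f (x + ((-1 * T : ℝ) : ℂ) * I)) - (∫ x in a..b, f (x + ((1 * T : ℝ) : ℂ) * I)) +
      I • (∫ y in (-T)..(id T), f (b + y * I)) - I • (∫ y in (-T)..(id T), f (a + y * I)) = 0 := by
    intro T
    have := integral_boundary_rect_eq_zero_of_differentiableOn f ⟨a, -T⟩ ⟨b, T⟩ (hd.mono fun s hs => by
      have := hs.1
      simp only [Set.uIcc_of_le hab] at this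
      exact this)
    simpa using this
  have h5 := tendsto_nhds_unique (h3.congr h4) tendsto_const_nhds
  simp only [sub_zero, zero_add, smul_eq_mul, ← mul_sub, mul_eq_zero, I_ne_zero, false_or] at h5
  exact (sub_eq_zero.mp h5).symm

end Vale.Agent.P026
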