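import Vale.Agent.P026.Stm2

/-! P026 module SOFT2: the test function is a Schwartz function of all its variables. -/

noncomputable section
open Complex MeasureTheory Filter Topology
open scoped Classical ComplexConjugate ContDiff

namespace Vale.Agent.P026

namespace SOFT2M

lemma comp_le {E F : Type*} [NormedAddCommGroup E] [NormedSpace ℝ E] [NormedAddCommGroup F]
    [NormedSpace ℝ F] {f : F → ℂ} (hf : ContDiff ℝ ∞ f) (L : E →L[ℝ] F) (hL : ‖L‖ ≤ 1) (i : ℕ) (x : E) :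
    ‖iteratedFDeriv ℝ i (fun y => f (L y)) x‖ ≤ ‖iteratedFDeriv ℝ i f (L x)‖ := by
  have := L.iteratedFDeriv_comp_right hf x (i := i) (mod_cast le_top)
  rw [show (fun y => f (L y)) = f ∘ L from rfl, this]
  refine (ContinuousMultilinearMap.norm_compContinuousLinearMap_le _ _).trans ?_
  exact mul_le_of_le_one_right (norm_nonneg _)
    (Finset.prod_le_one (fun _ _ => norm_nonneg _) fun _ _ => hL)

/-- tensor product of Schwartz functions -/
def tens {E F : Type*} [NormedAddCommGroup E] [NormedSpace ℝ E] [NormedAddCommGroup F]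
    [NormedSpace ℝ F] (f : SchwartzMap E ℂ) (g : SchwartzMap F ℂ) : SchwartzMap (E × F) ℂ where
  toFun p := f p.1 * g p.2
  smooth' := ((f.smooth ⊤).comp contDiff_fst).mul ((g.smooth ⊤).comp contDiff_snd)
  decay' k n := by
    refine ⟨∑ i ∈ Finset.range (n + 1), (n.choose i : ℝ) *
      (SchwartzMap.seminorm ℝ k i f * SchwartzMap.seminorm ℝ 0 (n - i) g +
        SchwartzMap.seminorm ℝ 0 i f * SchwartzMap.seminorm ℝ k (n - i) g), fun p => ?_⟩
    have h := norm_iteratedFDeriv_mul_le (𝕜 := ℝ) (f := fun p : E × F => f p.1)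
      (g := fun p : E × F => g p.2) ((f.smooth ⊤).comp contDiff_fst)
      ((g.smooth ⊤).comp contDiff_snd) p (n := n) (mod_cast le_top)
    refine (mul_le_mul_of_nonneg_left h (by positivity)).trans ?_
    rw [Finset.mul_sum]
    refine Finset.sum_le_sum fun i _ => ?_
    have a1 : ‖iteratedFDeriv ℝ i (fun p : E × F => f p.1) p‖ ≤ ‖iteratedFDeriv ℝ i f p.1‖ :=
      comp_le (f.smooth ⊤) (ContinuousLinearMap.fst ℝ E F) (ContinuousLinearMap.norm_fst_le ..) i p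
    have a2 : ‖iteratedFDeriv ℝ (n - i) (fun p : E × F => g p.2) p‖ ≤
        ‖iteratedFDeriv ℝ (n - i) g p.2‖ :=
      comp_le (g.smooth ⊤) (ContinuousLinearMap.snd ℝ E F) (ContinuousLinearMap.norm_snd_le ..) _ p
    have a3 : ‖p‖ ^ k ≤ ‖p.1‖ ^ k + ‖p.2‖ ^ k := by
      rw [Prod.norm_def]
      rcases le_total ‖p.1‖ ‖p.2‖ with c | c
      · rw [max_eq_right c]; exact le_add_of_nonneg_left (by positivity)
      · rw [max_eq_left c]; exact le_add_of_nonneg_right (by positivity)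
    have b1 := f.le_seminorm ℝ k i p.1
    have b2 := f.norm_iteratedFDeriv_le_seminorm ℝ i p.1
    have b3 := g.le_seminorm ℝ k (n - i) p.2
    have b4 := g.norm_iteratedFDeriv_le_seminorm ℝ (n - i) p.2
    calc _ ≤ (‖p.1‖ ^ k + ‖p.2‖ ^ k) * ((n.choose i : ℝ) * ‖iteratedFDeriv ℝ i f p.1‖ *
          ‖iteratedFDeriv ℝ (n - i) g p.2‖) := by gcongr
      _ = (n.choose i : ℝ) * ((‖p.1‖ ^ k * ‖iteratedFDeriv ℝ i f p.1‖) *
          ‖iteratedFDeriv ℝ (n - i) g p.2‖ + ‖iteratedFDeriv ℝ i f p.1‖ *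
            (‖p.2‖ ^ k * ‖iteratedFDeriv ℝ (n - i) g p.2‖)) := by ring
      _ ≤ _ := by gcongr

lemma tens_apply {E F : Type*} [NormedAddCommGroup E] [NormedSpace ℝ E] [NormedAddCommGroup F]
    [NormedSpace ℝ F] (f : SchwartzMap E ℂ) (g : SchwartzMap F ℂ) (p : E × F) :
    tens f g p = f p.1 * g p.2 := rfl

lemma expI : Function.HasTemperateGrowth fun t : ℝ => cexp (t * I) := by
  have hs : ContDiff ℝ ∞ fun t : ℝ => cexp (t * I) :=
    Complex.contDiff_exp.comp (Complex.ofRealCLM.contDiff.mul contDiff_const)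
  have d : ∀ n : ℕ, iteratedDeriv n (fun t : ℝ => cexp (t * I)) = fun t : ℝ => I ^ n * cexp (t * I) := by
    intro n
    induction n with
    | zero => simp
    | succ n ih =>
      rw [iteratedDeriv_succ, ih]
      funext t
      have : HasDerivAt (fun t : ℝ => I ^ n * cexp (t * I)) (I ^ n * (cexp (t * I) * (1 * I))) t :=
        ((Complex.ofRealCLM.hasDerivAt.mul_const I).cexp).const_mul _
      rw [this.deriv]
      ring
  refine ⟨hs, fun n => ⟨0, 1, fun x => ?_⟩⟩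
  rw [norm_iteratedFDeriv_eq_norm_iteratedDeriv, d]
  simp

lemma psi_temp : Function.HasTemperateGrowth psi := by
  have := expI.comp (((2 * Real.pi * (2 / Real.sqrt 3)) • Complex.imCLM).hasTemperateGrowth)
  convert this using 1
  funext z
  simp only [psi, Function.comp, smul_apply, imCLM_apply, smul_eq_mul]
  congr 1
  push_cast
  ring

lemma inv_cut {r R : ℝ} (hr : 0 < r) : ∃ ι : ℂ → ℂ, ι.HasTemperateGrowth ∧
    ∀ z, r ≤ ‖z‖ → ‖z‖ ≤ R → ι z = z⁻¹ := by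
  let b0 : ContDiffBump (0 : ℂ) := ⟨r / 4, r / 2, by positivity, by linarith⟩
  let b1 : ContDiffBump (0 : ℂ) := ⟨|R| + 1, |R| + 2, by positivity, by linarith⟩
  refine ⟨fun z => (b1 z : ℂ) * (((1 - b0 z : ℝ) : ℂ) * z⁻¹), HasCompactSupport.hasTemperateGrowth ?_ ?_,
    fun z h1 h2 => ?_⟩
  · exact HasCompactSupport.mul_right (b1.hasCompactSupport.comp_left (g := fun x : ℝ => (x : ℂ)) rfl)
  · refine (Complex.ofRealCLM.contDiff.comp b1.contDiff).mul (contDiff_iff_contDiffAt.2 fun z => ?_)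
    by_cases hz : z = 0
    · subst hz
      refine (contDiffAt_const (c := 0)).congr_of_eventuallyEq ?_
      filter_upwards [b0.eventuallyEq_one] with y hy
      simp [hy]
    · exact (Complex.ofRealCLM.contDiff.comp (contDiff_const.sub b0.contDiff)).contDiffAt.mul
        ((contDiffAt_inv ℂ hz).restrict_scalars ℝ)
  · have e1 : b1 z = 1 := b1.one_of_mem_closedBall (by
      simp only [Metric.mem_closedBall, dist_zero_right, b1]
      linarith [le_abs_self R])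
    have e0 : b0 z = 0 := b0.zero_of_le_dist (by
      simp only [dist_zero_right, b0]
      linarith)
    simp [e1, e0]

lemma bump_supp {j : ℤ} {β : ℂ → ℂ} (h : Bump j β) : HasCompactSupport β := by
  obtain ⟨r, R, -, h⟩ := h.supp
  refine HasCompactSupport.intro (isCompact_closedBall 0 R) fun z hz => ?_
  by_contra c
  exact hz (by simpa using (h z c).2)

lemma ex_smul {E : Type*} [NormedAddCommGroup E] [NormedSpace ℝ E] {g : E → ℂ}
    (hg : g.HasTemperateGrowth) (G : SchwartzMap E ℂ) : ∃ H : SchwartzMap E ℂ, ∀ p, H p = g p * G p :=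
  ⟨_, SchwartzMap.smulLeftCLM_apply_apply hg G⟩

lemma ex_cs {E : Type*} [NormedAddCommGroup E] [NormedSpace ℝ E] {g : E → ℂ}
    (h1 : HasCompactSupport g) (h2 : ContDiff ℝ ∞ g) : ∃ H : SchwartzMap E ℂ, ∀ p, H p = g p :=
  ⟨h1.toSchwartzMap h2, fun _ => rfl⟩

lemma phase {ι1 ι2 : ℂ → ℂ} (t1 : ι1.HasTemperateGrowth) (t2 : ι2.HasTemperateGrowth) (κ : ℂ) :
    Function.HasTemperateGrowth fun p : ℝ × ℂ × ℂ × ℂ =>
      (p.1 : ℂ) * (κ * p.2.2.2 ^ 3 * (ι2 p.2.2.1 * ι1 p.2.1)) := by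
  let Ls : ℝ × ℂ × ℂ × ℂ →L[ℝ] ℂ := Complex.ofRealCLM.comp (ContinuousLinearMap.fst ℝ _ _)
  let L2 : ℝ × ℂ × ℂ × ℂ →L[ℝ] ℂ × ℂ × ℂ := ContinuousLinearMap.snd ℝ _ _
  let L3 : ℝ × ℂ × ℂ × ℂ →L[ℝ] ℂ × ℂ := (ContinuousLinearMap.snd ℝ _ _).comp L2
  let LC : ℝ × ℂ × ℂ × ℂ →L[ℝ] ℂ := (ContinuousLinearMap.fst ℝ _ _).comp L2
  let LE : ℝ × ℂ × ℂ × ℂ →L[ℝ] ℂ := (ContinuousLinearMap.fst ℝ _ _).comp L3
  let Lx : ℝ × ℂ × ℂ × ℂ →L[ℝ] ℂ := (ContinuousLinearMap.snd ℝ _ _).comp L3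
  have a1 : Function.HasTemperateGrowth fun p : ℝ × ℂ × ℂ × ℂ => (p.1 : ℂ) := Ls.hasTemperateGrowth
  have a2 : Function.HasTemperateGrowth fun p : ℝ × ℂ × ℂ × ℂ => p.2.2.2 := Lx.hasTemperateGrowth
  have a3 : Function.HasTemperateGrowth fun p : ℝ × ℂ × ℂ × ℂ => ι2 p.2.2.1 :=
    t2.comp LE.hasTemperateGrowth
  have a4 : Function.HasTemperateGrowth fun p : ℝ × ℂ × ℂ × ℂ => ι1 p.2.1 :=
    t1.comp LC.hasTemperateGrowth
  exact a1.fun_mul (((Function.HasTemperateGrowth.const κ).fun_mul (a2.fun_pow 3)).fun_mul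
    (a3.fun_mul a4))

end SOFT2M

open SOFT2M in
theorem soft2S (_hB : Bas) : SOFT2Stmt := by
  intro om0 j j' β1 β2 κ h1 h2
  obtain ⟨r1, R1, p1, s1⟩ := h1.supp
  obtain ⟨r2, R2, p2, s2⟩ := h2.supp
  obtain ⟨ι1, t1, e1⟩ := inv_cut (R := R1) p1
  obtain ⟨ι2, t2, e2⟩ := inv_cut (R := R2) p2
  let b : ContDiffBump (0 : ℝ) := ⟨1, 2, one_pos, one_lt_two⟩
  obtain ⟨χ, hχ⟩ := ex_cs (b.hasCompactSupport.comp_left (g := fun x : ℝ => (x : ℂ)) rfl)
    (Complex.ofRealCLM.contDiff.comp b.contDiff)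
  obtain ⟨B1, hB1⟩ := ex_cs (bump_supp h1) h1.smooth
  obtain ⟨B2, hB2⟩ := ex_cs (bump_supp h2) h2.smooth
  obtain ⟨H, hH⟩ := ex_smul (psi_temp.comp (phase t1 t2 κ)) (tens χ (tens B1 (tens B2 om0)))
  refine ⟨H, fun s hs hs' C E x => ?_⟩
  have eb : b s = 1 := b.one_of_mem_closedBall (by
    simp only [Metric.mem_closedBall, dist_zero_right, b, Real.norm_eq_abs]
    rw [abs_le]; constructor <;> linarith)
  simp only [hH, tens_apply, hχ, hB1, hB2, Function.comp, eb]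
  by_cases c1 : β1 C = 0
  · simp [c1]
  by_cases c2 : β2 E = 0
  · simp [c2]
  rw [e1 C (s1 C c1).1 (s1 C c1).2, e2 E (s2 E c2).1 (s2 E c2).2, div_eq_mul_inv, mul_inv]
  push_cast
  ring

end Vale.Agent.P026
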