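import Vale.Agent.P026.Stm2

/-! P026: transformation of the cubic symbol under the congruence subgroup. -/

noncomputable section
open Complex
open scoped Classical ComplexConjugate

namespace Vale.Agent.P026

namespace SYMM

lemma cub_congr (hB : Bas) {a b c : O} (h : c ∣ a - b) : cub a c = cub b c :=
  hB.b4.pe_congr c (fun a => cub a c) a b (hB.b6.pe c) h

lemma shift {h x : O} (hx : IsCoprime h x) {C : O} (hC : C ≠ 0) :
    ∃ t, IsCoprime (h + t * x) C := by
  have : ∃ t : O, (∀ p, Prime p → p ∣ C → ¬ p ∣ h → p ∣ t) ∧ ∀ p, Prime p → p ∣ t → ¬ p ∣ h := by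
    induction C using UniqueFactorizationMonoid.induction_on_prime with
    | h₁ => exact absurd rfl hC
    | h₂ u hu =>
      exact ⟨1, fun p hp h _ => absurd (isUnit_of_dvd_unit h hu) hp.not_isUnit,
        fun p hp h => absurd (isUnit_of_dvd_one h) hp.not_isUnit⟩
    | h₃ a q ha hq ih =>
      obtain ⟨t, h1, h2⟩ := ih ha
      by_cases c : q ∣ h
      · refine ⟨t, fun p hp d n => (hp.dvd_or_dvd d).elim (fun d' => ?_) fun d' => h1 p hp d' n, h2⟩
        exact absurd ((hp.associated_of_dvd hq d').dvd.trans c) n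
      · refine ⟨q * t, fun p hp d n => (hp.dvd_or_dvd d).elim (fun d' => d'.mul_right _)
          fun d' => (h1 p hp d' n).mul_left _, fun p hp d => (hp.dvd_or_dvd d).elim
          (fun d' n => c ((hp.associated_of_dvd hq d').symm.dvd.trans n)) (h2 p hp)⟩
  obtain ⟨t, h1, h2⟩ := this
  refine ⟨t, isCoprime_of_prime_dvd (fun h => hC h.2) fun p hp d d' => ?_⟩
  by_cases c : p ∣ h
  · rcases hp.dvd_or_dvd ((dvd_add_right c).1 d) with k | k
    · exact h2 p hp k c
    · exact hp.not_isUnit (hx.isUnit_of_dvd' c k)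
  · exact c ((dvd_add_left ((h1 p hp d' c).mul_right x)).1 d)

lemma det (hB : Bas) {α β δ e h : O} (hh : Prim h) (hd : α * δ - e * h * β = 1) :
    cub α h * cub δ h = 1 := by
  rw [← hB.b6.mul_l _ _ _ (hB.b2.cop h hh), ← hB.b6.one_l h]
  exact cub_congr hB ⟨e * β, by linear_combination hd⟩

lemma cop (hB : Bas) (hC : CRStmt) {α β δ e h C1 D1 : O} (hh : Prim h)
    (hd : α * δ - e * h * β = 1) (h1 : Prim C1) (h2 : Prim (δ * C1 - e * h * D1))
    (hc : IsCoprime h (δ * C1 - e * h * D1)) :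
    cub (α * D1 - β * C1) (δ * C1 - e * h * D1) * cub e (δ * C1 - e * h * D1) =
      cub D1 C1 * cub e C1 * cub α h := by
  set C := δ * C1 - e * h * D1 with hCd
  have c1 := hB.b2.cop _ h1
  have c2 := hB.b2.cop _ h2
  have e1 : cub e C * cub h C * cub (α * D1 - β * C1) C = cub e C1 * cub h C1 * cub D1 C1 := by
    rw [← hB.b6.mul_l _ _ _ c2, ← hB.b6.mul_l _ _ _ c2, ← hB.b6.mul_l _ _ _ c1,
      ← hB.b6.mul_l _ _ _ c1, ← hB.b6.neg_l _ _ c1,
      cub_congr hB (b := C1) ⟨-α, by rw [hCd]; linear_combination C1 * hd⟩, hC _ _ h1 h2]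
    exact cub_congr hB ⟨δ, by rw [hCd]; ring⟩
  have e2 : cub h C = cub δ h * cub h C1 := by
    rw [hC _ _ hh h2, hC _ _ hh h1, ← hB.b6.mul_l _ _ _ (hB.b2.cop h hh)]
    exact cub_congr hB ⟨-(e * D1), by rw [hCd]; ring⟩
  have e3 := det hB hh hd
  have e4 : cub h C1 ≠ 0 := fun k => by
    have := hB.b6.norm _ _ hc
    rw [e2, k] at this
    simp at this
  rw [e2] at e1
  refine mul_left_cancel₀ e4 ?_
  linear_combination cub α h * e1 - cub h C1 * cub e C * cub (α * D1 - β * C1) C * e3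

end SYMM

open SYMM in
theorem symS (hB : Bas) (hC : CRStmt) (h9 : P9Stmt) : SYMStmt := by
  intro α β δ e h C1 D1 he hh hα hδ hd h1 h2 hc
  obtain ⟨f, hf⟩ := he.exists_right_inv
  have c9 : IsCoprime h 9 := by
    have := (hB.b2.cop h hh).pow_right (n := 2)
    rwa [show (3 : O) ^ 2 = 9 by norm_num] at this
  have cδ : IsCoprime h δ := ⟨-(e * β), α, by linear_combination hd⟩
  have cf : IsCoprime h f := ⟨0, e, by linear_combination hf⟩
  obtain ⟨t, ht⟩ := shift ((c9.mul_right cf).mul_right cδ) (hB.b2.ne _ h2)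
  have hh' : Prim (h + t * (9 * f * δ)) := by
    obtain ⟨k, hk⟩ := hh
    exact ⟨k + t * 3 * f * δ, by linear_combination hk⟩
  have h1' : Prim (C1 + 9 * t * D1) := by
    obtain ⟨k, hk⟩ := h1
    exact ⟨k + 3 * t * D1, by linear_combination hk⟩
  have eC : δ * (C1 + 9 * t * D1) - e * (h + t * (9 * f * δ)) * D1 = δ * C1 - e * h * D1 := by
    linear_combination (-9 * t * δ * D1) * hf
  have eD : (α + 9 * t * β) * D1 - β * (C1 + 9 * t * D1) = α * D1 - β * C1 := by ring
  have hd' : (α + 9 * t * β) * δ - e * (h + t * (9 * f * δ)) * β = 1 := by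
    linear_combination hd - 9 * t * δ * β * hf
  have key := cop hB hC hh' hd' h1' (eC ▸ h2) (eC ▸ ht)
  rw [eC, eD] at key
  have D0 : D1 ≠ 0 := by
    rintro rfl
    obtain ⟨k, hk⟩ := h2
    obtain ⟨m, rfl⟩ := hδ
    have : IsUnit (3 : O) := IsUnit.of_mul_eq_one (3 * m * C1 - k) (by linear_combination hk)
    have := (hB.b1.unit_iff _).1 this
    revert this; decide
  have a1 : cub D1 (C1 + 9 * t * D1) = cub D1 C1 := h9 _ _ _ D0 h1' h1 ⟨t, by ring⟩
  have a2 : cub e (C1 + 9 * t * D1) = cub e C1 :=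
    h9 _ _ _ he.ne_zero h1' h1 ⟨f * t * D1, by linear_combination (-9 * t * D1) * hf⟩
  have a3 : cub δ (h + t * (9 * f * δ)) = cub δ h := by
    by_cases k : δ = 0
    · simp [k]
    · exact h9 _ _ _ k hh' hh ⟨t * f, by ring⟩
  have a4 := det hB hh' hd'
  have a5 := det hB hh hd
  rw [key, a1, a2]
  congr 1
  rw [a3] at a4
  linear_combination cub α h * a4 - cub (α + 9 * t * β) (h + t * (9 * f * δ)) * a5

end Vale.Agent.P026
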