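import Vale.Agent.P026.M.W1
import Vale.Agent.P026.M.PO1
import Vale.Agent.P026.M.POP2
import Vale.Agent.P026.M.GF
import Vale.Agent.P026.M.GPO
import Vale.Agent.P026.M.PER
import Vale.Agent.P026.M.RS
import Vale.Agent.P026.M.LIM1
import Vale.Agent.P026.M.LIM2
import Vale.Agent.P026.M.LIM3
import Vale.Agent.P026.M.LIM4
import Vale.Agent.P026.M.LIM
import Vale.Agent.P026.M.AV0
import Vale.Agent.P026.M.AV1
import Vale.Agent.P026.M.SYM
import Vale.Agent.P026.M.INV1
import Vale.Agent.P026.M.OM
import Vale.Agent.P026.M.SOFT1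
import Vale.Agent.P026.M.SOFT2
import Vale.Agent.P026.M.AI1
import Vale.Agent.P026.M.AI
import Vale.Agent.P026.M.CUT
import Vale.Agent.P026.M.KK
import Vale.Agent.P026.M.GAM
import Vale.Agent.P026.M.MEL
import Vale.Agent.P026.M.SH
import Vale.Agent.P026.M.LN
import Vale.Agent.P026.M.FAM1b

/-! P026: the first half of the wave-2 statements, unconditionally. -/

namespace Vale.Agent.P026.W2

open W1

theorem po1 : PO1Stmt := po1S bas
theorem po2 : PO2Stmt := po2S bas
theorem pop2 : POP2Stmt := pop2S bas po2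
theorem gf : GFStmt := gfS bas
theorem gpo : GPOStmt := gpoS bas po1 gf
theorem per : PERStmt := perS bas cr p9 W1.bb ph
theorem rs : RSStmt := rsS bas
theorem lim : LIMStmt :=
  limS bas (lim1S bas ph sd pop2) (lim2S bas ph per rs) (lim3S bas ph) (lim4S bas ph)
theorem av0 : AV0Stmt := av0S bas cr p9 W1.bb ph sd per
theorem av1 : AV1Stmt := av1S bas cr p9 W1.bb ph sd per
theorem sym : SYMStmt := symS bas cr p9
theorem inv1 : INV1Stmt := inv1S bas cr p9 W1.bb ph sym av0
theorem oms : OMStmt := omS bas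
theorem soft1 : SOFT1Stmt := soft1S bas
theorem soft2 : SOFT2Stmt := soft2S bas
theorem ai : AIStmt := aiS bas gf (ai1S bas)
theorem cut : CUTStmt := cutS bas
theorem kk : KK := kkS
theorem gamm : GAM := gamS
theorem mel : MELStmt := melS kk gamm
theorem sh : SHStmt := shS
theorem ln : LN := lnS bas
theorem fam1b : FAM1bStmt := fam1bS bas W1.bb sh ln gamm

end Vale.Agent.P026.W2
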