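import Vale.Agent.P026.M.CR

/-! P026: the Moebius Dirichlet series of the Eisenstein integers and the Riemann zeta function. -/

noncomputable section
open Complex Filter Topology
open scoped Classical ComplexConjugate

namespace Vale.Agent.P026

namespace ZKM

lemma mu_one : mu 1 = 1 := by
  simp [mu]

lemma norm_mu (n : O) : ‖mu n‖ ≤ 1 := by
  unfold mu; split_ifs <;> simp

lemma mu_prime_mul {p n : O} (hp : Prime p) (hn : n ≠ 0) :
    mu (p * n) = if p ∣ n then 0 else -mu n := by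
  have hc : (UniqueFactorizationMonoid.factors (p * n)).card =
      (UniqueFactorizationMonoid.factors n).card + 1 := by
    rw [Multiset.card_eq_card_of_rel (UniqueFactorizationMonoid.factors_mul hp.ne_zero hn),
      Multiset.card_add, UniqueFactorizationMonoid.card_factors_of_irreducible hp.irreducible,
      add_comm]
  unfold mu
  rw [squarefree_mul_iff, hp.irreducible.isRelPrime_iff_not_dvd, hc, pow_succ]
  by_cases h : p ∣ n <;> by_cases h' : Squarefree n <;> simp [h, h', hp.irreducible.squarefree]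

lemma Nn_cj (a : O) : Nn (cj a) = Nn a := by
  simp only [Nn, nz, cj]; congr 1; ring

lemma Nn_nat (l : ℕ) : Nn (l : O) = l ^ 2 := by
  simp [Nn, nz, QuadraticAlgebra.re_natCast, QuadraticAlgebra.im_natCast, Int.natAbs_pow]

lemma Nn_dvd (hB : Bas) {a b : O} (h : a ∣ b) : Nn a ∣ Nn b := by
  obtain ⟨c, rfl⟩ := h
  exact ⟨_, hB.b1.Nn_mul _ _⟩

lemma root (l : ℕ) (hl : l.Prime) (h : l % 3 = 1) : ∃ x : ℤ, (l : ℤ) ∣ x ^ 2 + x + 1 := by
  have := Fact.mk hl
  have : Fact (Nat.Prime 3) := ⟨Nat.prime_three⟩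
  obtain ⟨u, hu⟩ := exists_prime_orderOf_dvd_card (G := (ZMod l)ˣ) 3 (by
    rw [ZMod.card_units]; omega)
  have h3 : (u : ZMod l) ^ 3 = 1 := by
    rw [← Units.val_pow_eq_pow_val, ← hu, pow_orderOf_eq_one, Units.val_one]
  have h1 : (u : ZMod l) - 1 ≠ 0 := fun h => by
    have : u = 1 := Units.ext (sub_eq_zero.1 h)
    rw [this, orderOf_one] at hu
    omega
  refine ⟨(u : ZMod l).val, (ZMod.intCast_zmod_eq_zero_iff_dvd _ _).1 ?_⟩
  push_cast
  rw [ZMod.natCast_zmod_val]
  exact mul_left_cancel₀ h1 (by linear_combination h3)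

/-- decomposition of rational primes -/
lemma cls (hB : Bas) (l : ℕ) (hl : l.Prime) (h3 : l ≠ 3) :
    (l % 3 = 1 ∧ ∃ p q : O, Prime p ∧ Prim p ∧ Prime q ∧ Prim q ∧ ¬ p ∣ q ∧ Nn p = l ∧ Nn q = l ∧
      ∀ n, l ∣ Nn n ↔ p ∣ n ∨ q ∣ n) ∨
    (l % 3 = 2 ∧ ∃ p : O, Prime p ∧ Prim p ∧ Nn p = l ^ 2 ∧ ∀ n, l ∣ Nn n ↔ p ∣ n) := by
  have l0 : (l : O) ≠ 0 := fun h => by
    have := Nn_nat l
    rw [h] at this
    exact (pow_pos hl.pos 2).ne this
  have l1 : ¬ IsUnit (l : O) := fun h => by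
    have := (hB.b1.unit_iff _).1 h
    rw [Nn_nat] at this
    nlinarith [hl.two_le]
  obtain ⟨p0, hp0, d0⟩ := WfDvdMonoid.exists_irreducible_factor l1 l0
  have c3 : IsCoprime (l : O) 3 := by
    have := ((Nat.coprime_primes hl Nat.prime_three).2 h3).cast (R := O)
    simpa using this
  obtain ⟨u, hu, hp'⟩ := hB.b2.ex p0 (c3.of_isCoprime_of_dvd_left d0)
  set p := u * p0 with hpd
  have hp : Prime p := (associated_unit_mul_right p0 u hu).prime hp0.prime
  have d1 : p ∣ (l : O) := (associated_unit_mul_left p0 u hu).dvd.trans d0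
  clear_value p
  obtain ⟨l', hl', d2, hN⟩ := hB.b5.char p hp
  obtain rfl : l' = l := by
    by_contra hne
    exact hp.not_isUnit ((((Nat.coprime_primes hl' hl).2 hne).cast (R := O)).isUnit_of_dvd' d2 d1)
  have key : ∀ n, l' ∣ Nn n → p ∣ n ∨ cj p ∣ n := fun n hn => by
    have : p ∣ n * cj n := by
      rw [hB.b1.cj_mul]; exact d1.trans (Nat.cast_dvd_cast hn)
    refine (hp.dvd_or_dvd this).imp_right fun h => ?_
    have := map_dvd CRM.cjE h
    change cj p ∣ cj (cj n) at this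
    rwa [CRM.cj_cj] at this
  rcases hN with hN | ⟨hN, ha⟩
  · refine Or.inl ⟨hN ▸ hB.b2.N_mod p hp', p, cj p, hp, hp', CRM.cj_prime hp, CRM.cj_prim hp',
      fun h => ?_, hN, (Nn_cj p).trans hN, fun n => ⟨key n, fun h => ?_⟩⟩
    · have e := hB.b2.uniq _ _ hp' (CRM.cj_prim hp') (hp.associated_of_dvd (CRM.cj_prime hp) h)
      have e1 : p.im = 0 := by
        have := congrArg QuadraticAlgebra.im e
        simp only [cj] at this
        omega
      have : l' = p.re.natAbs ^ 2 := by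
        rw [← hN]; simp [Nn, nz, e1, Int.natAbs_pow]
      rw [this] at hl'
      exact Nat.Prime.not_prime_pow (le_refl 2) hl'
    · rcases h with h | h
      · exact hN ▸ Nn_dvd hB h
      · exact hN ▸ Nn_cj p ▸ Nn_dvd hB h
  · refine Or.inr ⟨?_, p, hp, hp', hN, fun n => ⟨fun hn => (key n hn).elim id fun h => ?_,
      fun h => (dvd_pow_self l' two_ne_zero).trans (hN ▸ Nn_dvd hB h)⟩⟩
    · have a1 : l' % 3 ≠ 0 := fun h =>
        h3 ((Nat.prime_dvd_prime_iff_eq Nat.prime_three hl).1 (Nat.dvd_of_mod_eq_zero h)).symm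
      have a2 : l' % 3 ≠ 1 := fun h => by
        obtain ⟨x, y, hx⟩ := root l' hl h
        have e : (⟨x, -1⟩ : O) * ⟨x + 1, 1⟩ = (l' : O) * (y : O) := by
          ext
          · simp [QuadraticAlgebra.re_natCast, QuadraticAlgebra.im_natCast,
              QuadraticAlgebra.re_intCast, QuadraticAlgebra.im_intCast]
            linarith
          · simp [QuadraticAlgebra.re_natCast, QuadraticAlgebra.im_natCast,
              QuadraticAlgebra.re_intCast, QuadraticAlgebra.im_intCast]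
        have l2 : (2 : ℤ) ≤ l' := by exact_mod_cast hl.two_le
        rcases (ha.prime hp).dvd_or_dvd ⟨_, e⟩ with ⟨z, hz⟩ | ⟨z, hz⟩
        · have := congrArg QuadraticAlgebra.im hz
          simp [QuadraticAlgebra.re_natCast, QuadraticAlgebra.im_natCast] at this
          have := Int.le_of_dvd one_pos (⟨-z.im, by linarith⟩ : (l' : ℤ) ∣ 1)
          omega
        · have := congrArg QuadraticAlgebra.im hz
          simp [QuadraticAlgebra.re_natCast, QuadraticAlgebra.im_natCast] at this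
          have := Int.le_of_dvd one_pos (⟨z.im, by linarith⟩ : (l' : ℤ) ∣ 1)
          omega
      omega
    · have := map_dvd CRM.cjE ha.symm.dvd
      rw [map_natCast] at this
      exact d1.trans (this.trans h)

/-- Moebius series over the primary elements in `S` -/
def Mf (f : ℕ → ℂ) (S : O → Prop) : ℂ := ∑' n, if Prim n ∧ S n then mu n * f (Nn n) else 0

/-- plain series over the primary elements in `S` -/
def Zf (f : ℕ → ℂ) (S : O → Prop) : ℂ := ∑' n, if Prim n ∧ S n then f (Nn n) else 0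

variable {f : ℕ → ℂ}

lemma sum_ite (hf : Summable fun n : O => ‖f (Nn n)‖) (c : O → ℂ) (hc : ∀ n, ‖c n‖ ≤ 1)
    (S : O → Prop) [DecidablePred S] : Summable fun n => if S n then c n * f (Nn n) else 0 := by
  refine hf.of_norm_bounded fun n => ?_
  split_ifs
  · rw [norm_mul]; exact mul_le_of_le_one_left (norm_nonneg _) (hc n)
  · simp

lemma tsum_split {F : O → ℂ} (hF : Summable F) {p : O} (hp : p ≠ 0) :
    ∑' n, F n = (∑' n, if p ∣ n then 0 else F n) + ∑' m, F (p * m) := by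
  have s1 : Summable fun n => if p ∣ n then 0 else F n :=
    hF.norm.of_norm_bounded fun n => by split_ifs <;> simp
  have s2 : Summable fun n => if p ∣ n then F n else 0 :=
    hF.norm.of_norm_bounded fun n => by split_ifs <;> simp
  have e := (mul_right_injective₀ hp).tsum_eq (f := fun n => if p ∣ n then F n else 0)
    fun n hn => by
      by_contra h
      exact hn (if_neg fun ⟨m, hm⟩ => h ⟨m, hm.symm⟩)
  simp only [dvd_mul_right, if_true] at e
  rw [e, ← s1.tsum_add s2]
  exact tsum_congr fun n => by split_ifs <;> simp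

lemma prim_iff (hB : Bas) {p : O} (hp : Prim p) (m : O) : Prim (p * m) ↔ Prim m :=
  ⟨hB.b2.cancel _ _ hp, hB.b2.mul _ _ hp⟩

lemma Mf_split (hB : Bas) (hf : Summable fun n : O => ‖f (Nn n)‖)
    (hm : ∀ a b, f (a * b) = f a * f b) {p : O} (hp : Prime p) (hp' : Prim p) {S : O → Prop}
    (hS : ∀ m, S (p * m) ↔ S m) :
    Mf f S = (1 - f (Nn p)) * Mf f fun n => S n ∧ ¬ p ∣ n := by
  rw [Mf, tsum_split (sum_ite hf mu norm_mu _) hp.ne_zero, sub_mul, one_mul, sub_eq_add_neg,
    ← neg_mul, Mf, ← tsum_mul_left]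
  congr 1
  · exact tsum_congr fun n => by by_cases h : p ∣ n <;> simp [h]
  · refine tsum_congr fun n => ?_
    rw [prim_iff hB hp', hS, hB.b1.Nn_mul, hm]
    by_cases h1 : Prim n
    · rw [mu_prime_mul hp (hB.b2.ne n h1)]
      by_cases h : p ∣ n <;> by_cases h2 : S n <;> simp [h, h1, h2]
      ring
    · simp [h1]

lemma Zf_split (hB : Bas) (hf : Summable fun n : O => ‖f (Nn n)‖)
    (hm : ∀ a b, f (a * b) = f a * f b) {p : O} (hp : Prime p) (hp' : Prim p) {S : O → Prop}
    (hS : ∀ m, S (p * m) ↔ S m) :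
    (Zf f fun n => S n ∧ ¬ p ∣ n) = (1 - f (Nn p)) * Zf f S := by
  have s := sum_ite hf (fun _ => 1) (fun _ => by simp) fun n => Prim n ∧ S n
  simp only [one_mul] at s
  have e := tsum_split s hp.ne_zero
  have e1 : (∑' n, if p ∣ n then 0 else if Prim n ∧ S n then f (Nn n) else 0) =
      Zf f fun n => S n ∧ ¬ p ∣ n := tsum_congr fun n => by by_cases h : p ∣ n <;> simp [h]
  have e2 : (∑' m, if Prim (p * m) ∧ S (p * m) then f (Nn (p * m)) else 0) =
      f (Nn p) * Zf f S := by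
    rw [Zf, ← tsum_mul_left]
    refine tsum_congr fun n => ?_
    rw [prim_iff hB hp', hS, hB.b1.Nn_mul, hm]
    split_ifs <;> simp
  rw [e1, e2] at e
  have e3 : Zf f S = _ := e
  linear_combination -e3

lemma Mf_congr {S S' : O → Prop} (h : ∀ n, Prim n → (S n ↔ S' n)) : Mf f S = Mf f S' :=
  tsum_congr fun n => by
    by_cases c : Prim n
    · simp only [h n c]
    · simp [c]

lemma Zf_congr {S S' : O → Prop} (h : ∀ n, Prim n → (S n ↔ S' n)) : Zf f S = Zf f S' :=
  tsum_congr fun n => by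
    by_cases c : Prim n
    · simp only [h n c]
    · simp [c]

lemma ex_chi : ∃ χ : DirichletCharacter ℂ 3, χ 2 = -1 := by
  have h : ¬ IsSquare (2 : ZMod 3) := by decide
  refine ⟨(quadraticChar (ZMod 3)).ringHomComp (Int.castRingHom ℂ), ?_⟩
  rw [MulChar.ringHomComp_apply, quadraticChar_neg_one_iff_not_isSquare.2 h]
  simp

/-- removing the primes above `l` -/
lemma step (hB : Bas) {χ : DirichletCharacter ℂ 3} (hχ : χ 2 = -1)
    (hm : ∀ a b, f (a * b) = f a * f b) (G : (O → Prop) → ℂ → (O → Prop) → Prop)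
    (g0 : ∀ S S', (∀ n, Prim n → (S n ↔ S' n)) → G S 1 S')
    (g1 : ∀ S1 S2 S3 a b, G S1 a S2 → G S2 b S3 → G S1 (a * b) S3)
    (g2 : ∀ p S, Prime p → Prim p → (∀ m, S (p * m) ↔ S m) →
      G S (1 - f (Nn p)) fun n => S n ∧ ¬ p ∣ n)
    {l : ℕ} (hl : l.Prime) {S : O → Prop} (hS : ∀ p m, Nn p ∣ l ^ 2 → (S (p * m) ↔ S m)) :
    G S ((1 - (1 : DirichletCharacter ℂ 3) l * f l) * (1 - χ l * f l))
      fun n => S n ∧ ¬ l ∣ Nn n := by
  by_cases h3 : l = 3
  · subst h3
    have z : ((3 : ℕ) : ZMod 3) = 0 := rfl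
    rw [z, MulChar.map_zero, MulChar.map_zero]
    simp only [zero_mul, sub_zero, mul_one]
    exact g0 _ _ fun n hn => by
      have := hB.b2.N_mod n hn
      have : ¬ 3 ∣ Nn n := by omega
      simp [this]
  rcases cls hB l hl h3 with ⟨h1, p, q, hp, hp', hq, hq', hpq, e1, e2, h⟩ | ⟨h1, p, hp, hp', e, h⟩
  · have z : (l : ZMod 3) = 1 := by rw [← ZMod.natCast_mod, h1, Nat.cast_one]
    have d : l ∣ l ^ 2 := dvd_pow_self l two_ne_zero
    have a := g1 _ _ _ _ _ (g1 _ _ _ _ _ (g2 p S hp hp' fun m => hS p m (e1 ▸ d))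
      (g2 q _ hq hq' fun m => and_congr (hS q m (e2 ▸ d)) (not_congr
        ⟨fun k => (hp.dvd_or_dvd k).resolve_left hpq, fun k => k.mul_left _⟩)))
      (g0 _ (fun n => S n ∧ ¬ l ∣ Nn n) fun n _ => by rw [h, not_or, and_assoc])
    rw [e1, e2, mul_one] at a
    rwa [z, map_one, map_one, one_mul]
  · have z : (l : ZMod 3) = 2 := by rw [← ZMod.natCast_mod, h1, Nat.cast_ofNat]
    have a := g1 _ _ _ _ _ (g2 p S hp hp' fun m => hS p m (e ▸ dvd_rfl))
      (g0 _ (fun n => S n ∧ ¬ l ∣ Nn n) fun n _ => by rw [h])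
    rw [e, sq, hm] at a
    rw [z, hχ, MulChar.one_apply (by decide)]
    convert a using 1
    ring

/-- smooth norms -/
def Sm (P : ℕ) (n : O) : Prop := ∀ l : ℕ, l.Prime → l ∣ Nn n → l < P
/-- rough norms -/
def Ro (P : ℕ) (n : O) : Prop := ∀ l : ℕ, l.Prime → l ∣ Nn n → P ≤ l

lemma eq_one (hB : Bas) {n : O} (hn : Prim n) (h : ∀ l : ℕ, l.Prime → ¬ l ∣ Nn n) : n = 1 :=
  hB.b2.uniq _ _ hn hB.b2.one (associated_one_iff_isUnit.2 ((hB.b1.unit_iff n).2
    (Nat.eq_one_iff_not_exists_prime_dvd.2 h)))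

lemma Nn_one : Nn 1 = 1 := by simpa using Nn_nat 1

lemma Mf_Sm (hB : Bas) {χ : DirichletCharacter ℂ 3} (hχ : χ 2 = -1)
    (hf : Summable fun n : O => ‖f (Nn n)‖) (hm : ∀ a b, f (a * b) = f a * f b) (h1 : f 1 = 1)
    (P : ℕ) : Mf f (Sm P) = ∏ l ∈ P.primesBelow,
      (1 - (1 : DirichletCharacter ℂ 3) l * f l) * (1 - χ l * f l) := by
  induction P with
  | zero =>
    rw [Nat.primesBelow_zero, Finset.prod_empty, Mf, tsum_eq_single 1 fun n hn => if_neg
      fun h => hn (eq_one hB h.1 fun l hl d => absurd (h.2 l hl d) (Nat.not_lt_zero l)),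
      if_pos ⟨hB.b2.one, fun l hl d => absurd (Nn_one ▸ d) hl.not_dvd_one⟩, mu_one, Nn_one, h1,
      one_mul]
  | succ P ih =>
    rw [Nat.primesBelow_succ]
    split_ifs with hP
    · rw [Finset.prod_insert (Nat.notMem_primesBelow P), ← ih]
      refine (step hB hχ hm (fun S a S' => Mf f S = a * Mf f S')
        (fun S S' h => by rw [one_mul, Mf_congr h])
        (fun S1 S2 S3 a b h h' => by rw [h, h', mul_assoc])
        (fun p S hp hp' h => Mf_split hB hf hm hp hp' h) hP (S := Sm (P + 1))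
        fun p m hp => ?_).trans (congrArg _ (Mf_congr fun n _ => ?_))
      · refine forall₂_congr fun l hl => ?_
        rw [hB.b1.Nn_mul, hl.dvd_mul, or_imp]
        refine and_iff_right fun d => ?_
        rw [(Nat.prime_dvd_prime_iff_eq hl hP).1 (hl.dvd_of_dvd_pow (d.trans hp))]
        exact Nat.lt_succ_self P
      · refine ⟨fun h l hl d => lt_of_le_of_ne (Nat.lt_succ_iff.1 (h.1 l hl d)) ?_, fun h =>
          ⟨fun l hl d => (h l hl d).trans (Nat.lt_succ_self P), fun d => (h P hP d).false⟩⟩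
        rintro rfl
        exact h.2 d
    · rw [← ih]
      refine Mf_congr fun n _ => forall₃_congr fun l hl _ => ⟨fun h => lt_of_le_of_ne
        (Nat.lt_succ_iff.1 h) ?_, fun h => h.trans (Nat.lt_succ_self P)⟩
      rintro rfl
      exact hP hl

lemma Zf_Ro (hB : Bas) {χ : DirichletCharacter ℂ 3} (hχ : χ 2 = -1)
    (hf : Summable fun n : O => ‖f (Nn n)‖) (hm : ∀ a b, f (a * b) = f a * f b)
    (P : ℕ) : Zf f (Ro P) = (∏ l ∈ P.primesBelow,
      (1 - (1 : DirichletCharacter ℂ 3) l * f l) * (1 - χ l * f l)) * Zf f fun _ => True := by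
  induction P with
  | zero => simpa using Zf_congr fun n _ => by simp [Ro]
  | succ P ih =>
    rw [Nat.primesBelow_succ]
    split_ifs with hP
    · rw [Finset.prod_insert (Nat.notMem_primesBelow P), mul_assoc, ← ih]
      refine (Zf_congr fun n _ => ?_).trans (step hB hχ hm (fun S a S' => Zf f S' = a * Zf f S)
        (fun S S' h => by rw [one_mul, Zf_congr h])
        (fun S1 S2 S3 a b h h' => by rw [h', h]; ring)
        (fun p S hp hp' h => Zf_split hB hf hm hp hp' h) hP (S := Ro P) fun p m hp => ?_)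
      · refine ⟨fun h => ⟨fun l hl d => (Nat.le_succ P).trans (h l hl d),
          fun d => Nat.not_succ_le_self P (h P hP d)⟩, fun h l hl d =>
          lt_of_le_of_ne (h.1 l hl d) ?_⟩
        rintro rfl
        exact h.2 d
      · refine forall₂_congr fun l hl => ?_
        rw [hB.b1.Nn_mul, hl.dvd_mul, or_imp]
        refine and_iff_right fun d => ?_
        rw [(Nat.prime_dvd_prime_iff_eq hl hP).1 (hl.dvd_of_dvd_pow (d.trans hp))]
    · rw [← ih]
      refine Zf_congr fun n _ => forall₃_congr fun l hl _ => ⟨fun h => (Nat.le_succ P).trans h,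
        fun h => lt_of_le_of_ne h ?_⟩
      rintro rfl
      exact hP hl

lemma Nn_pos (hB : Bas) {n : O} (hn : Prim n) : 0 < Nn n := by
  have := hB.b2.N_mod n hn
  omega

lemma Mf_lim (hB : Bas) (hf : Summable fun n : O => ‖f (Nn n)‖) :
    Tendsto (fun P => Mf f (Sm P)) atTop (𝓝 (Mf f fun _ => True)) := by
  refine tendsto_tsum_of_dominated_convergence hf (fun n => tendsto_const_nhds.congr' ?_)
    (Eventually.of_forall fun P n => ?_)
  · filter_upwards [eventually_gt_atTop (Nn n)] with P hP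
    by_cases c : Prim n
    · have : Sm P n := fun l _ d => (Nat.le_of_dvd (Nn_pos hB c) d).trans_lt hP
      simp [this]
    · simp [c]
  · split_ifs
    · rw [norm_mul]; exact mul_le_of_le_one_left (norm_nonneg _) (norm_mu n)
    · simp

lemma Zf_lim (hB : Bas) (hf : Summable fun n : O => ‖f (Nn n)‖) (h1 : f 1 = 1) :
    Tendsto (fun P => Zf f (Ro P)) atTop (𝓝 1) := by
  have : (1 : ℂ) = ∑' n : O, if n = 1 then 1 else 0 := by simp
  rw [this]
  refine tendsto_tsum_of_dominated_convergence hf (fun n => tendsto_const_nhds.congr' ?_)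
    (Eventually.of_forall fun P n => ?_)
  · filter_upwards [eventually_gt_atTop (Nn n)] with P hP
    by_cases c : n = 1
    · rw [if_pos c, c, if_pos ⟨hB.b2.one, fun l hl d => absurd (Nn_one ▸ d) hl.not_dvd_one⟩,
        Nn_one, h1]
    · rw [if_neg c, if_neg fun h => c (eq_one hB h.1 fun l hl d =>
        absurd ((h.2 l hl d).trans (Nat.le_of_dvd (Nn_pos hB h.1) d)) hP.not_ge)]
  · split_ifs <;> simp

/-- the two series are inverse to each other -/
theorem Mf_mul_Zf (hB : Bas) (hf : Summable fun n : O => ‖f (Nn n)‖)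
    (hm : ∀ a b, f (a * b) = f a * f b) (h1 : f 1 = 1) :
    (Mf f fun _ => True) * (Zf f fun _ => True) = 1 := by
  obtain ⟨χ, hχ⟩ := ex_chi
  refine tendsto_nhds_unique ((Mf_lim hB hf).mul_const _) ((Zf_lim hB hf h1).congr fun P => ?_)
  rw [Zf_Ro hB hχ hf hm, Mf_Sm hB hχ hf hm h1]

/-- `m ^ (-s)` -/
def pw (s : ℂ) (m : ℕ) : ℂ := (m : ℂ) ^ (-s)

lemma pw_mul (s : ℂ) (a b : ℕ) : pw s (a * b) = pw s a * pw s b := by
  rw [pw, pw, pw, Nat.cast_mul, natCast_mul_natCast_cpow]

lemma pw_one (s : ℂ) : pw s 1 = 1 := by simp [pw]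

lemma summ (hB : Bas) {s : ℂ} (hs : 1 < s.re) : Summable fun n : O => ‖pw s (Nn n)‖ := by
  refine (hB.b3.summ _ hs).congr fun n => ?_
  rw [pw, Complex.norm_natCast_cpow_of_re_ne_zero _ (by simp; linarith), neg_re, N]

lemma dif (c : ℂ) (hc : c ≠ 0) : Differentiable ℂ fun s : ℂ => 1 - c ^ (-s) := fun _ =>
  ((differentiableAt_id.neg).const_cpow (Or.inl hc)).const_sub _

/-- `M(s) ζ(s) H(s) = 1` with an entire `H` -/
theorem main (hB : Bas) : ∃ H : ℂ → ℂ, Differentiable ℂ H ∧ ∀ s : ℂ, 1 < s.re →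
    (Mf (pw s) fun _ => True) * (riemannZeta s * H s) = 1 := by
  obtain ⟨χ, hχ⟩ := ex_chi
  have hne : χ ≠ 1 := by
    rintro rfl
    rw [MulChar.one_apply (by decide)] at hχ
    norm_num at hχ
  refine ⟨fun s => (1 - (3 : ℂ) ^ (-s)) * χ.LFunction s, (dif 3 (by norm_num)).mul
    (DirichletCharacter.differentiable_LFunction hne), fun s hs => ?_⟩
  have e1 := DirichletCharacter.LFunctionTrivChar_eq_mul_riemannZeta (N := 3) (s := s)
    (by rintro rfl; simp at hs)
  rw [Nat.prime_three.primeFactors, Finset.prod_singleton, Nat.cast_ofNat,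
    DirichletCharacter.LFunctionTrivChar, DirichletCharacter.LFunction_eq_LSeries _ hs] at e1
  have t := (Mf_lim hB (summ hB hs)).mul
    ((DirichletCharacter.LSeries_eulerProduct (1 : DirichletCharacter ℂ 3) hs).mul
      (DirichletCharacter.LSeries_eulerProduct χ hs))
  have nz : ∀ (ψ : DirichletCharacter ℂ 3) (l : ℕ), l.Prime → 1 - ψ l * (l : ℂ) ^ (-s) ≠ 0 := by
    intro ψ l hl h
    have a1 : ‖ψ l * (l : ℂ) ^ (-s)‖ < 1 := by
      rw [norm_mul, Complex.norm_natCast_cpow_of_pos hl.pos]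
      refine mul_lt_one_of_nonneg_of_lt_one_right (ψ.norm_le_one _) (by positivity) ?_
      exact Real.rpow_lt_one_of_one_lt_of_neg (by exact_mod_cast hl.one_lt) (by simp; linarith)
    rw [← sub_eq_zero.1 h] at a1
    simp at a1
  simp only
  rw [DirichletCharacter.LFunction_eq_LSeries _ hs, ← mul_assoc (riemannZeta s),
    mul_comm (riemannZeta s), ← e1]
  refine tendsto_nhds_unique t (tendsto_const_nhds.congr fun P => ?_)
  rw [Mf_Sm hB hχ (summ hB hs) (pw_mul s) (pw_one s), ← Finset.prod_mul_distrib, ← Finset.prod_mul_distrib, Finset.prod_eq_one]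
  intro l hl
  rw [mul_mul_mul_comm, pw, mul_inv_cancel₀ (nz 1 l (Nat.prime_of_mem_primesBelow hl)),
    mul_inv_cancel₀ (nz χ l (Nat.prime_of_mem_primesBelow hl)), one_mul]

/-- the same for the elements prime to `2` -/
theorem main2 (hB : Bas) : ∃ H : ℂ → ℂ, Differentiable ℂ H ∧ ∀ s : ℂ, 1 < s.re →
    (Mf (pw s) fun n => IsCoprime n 2) * (riemannZeta s * H s) = 1 := by
  obtain ⟨H, h1, h2⟩ := main hB
  refine ⟨fun s => (1 - (4 : ℂ) ^ (-s)) * H s, (dif 4 (by norm_num)).mul h1, fun s hs => ?_⟩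
  have e := h2 s hs
  rw [Mf_split hB (summ hB hs) (pw_mul s) hB.b1.prime_two.neg ⟨-1, by norm_num⟩ fun _ => Iff.rfl, show Nn (-2) = 4 by decide,
    Mf_congr (S' := fun n => IsCoprime n 2) fun n _ => by
      rw [true_and, neg_dvd, isCoprime_comm,
        hB.b1.prime_two.irreducible.coprime_iff_not_dvd]] at e
  rw [pw, Nat.cast_ofNat] at e
  linear_combination e

end ZKM

end Vale.Agent.P026
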