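import Vale.Agent.P026.Stm3

/-! Primary prime factors, valuations, radicals. -/

noncomputable section
open Complex
open scoped Classical ComplexConjugate

namespace Vale.Agent.P026

namespace B8M

theorem N_le (hB : Bas) {a s : O} (hs : s ≠ 0) (h : a ∣ s) : N a ≤ N s := by
  obtain ⟨q, rfl⟩ := h
  rw [hB.b1.N_mul]
  exact le_mul_of_one_le_right (Nat.cast_nonneg _) (hB.b1.N_one_le q (right_ne_zero_of_mul hs))

theorem mem (hB : Bas) (s p : O) (hs : s ≠ 0) : p ∈ pf s ↔ Prime p ∧ Prim p ∧ p ∣ s := by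
  have f : {p : O | Prime p ∧ Prim p ∧ p ∣ s}.Finite :=
    (hB.b3.fin (N s)).subset fun p hp => N_le hB hs hp.2.2
  rw [pf, dif_pos f, Set.Finite.mem_toFinset]
  rfl

theorem pp {s p : O} (h : p ∈ pf s) : Prime p ∧ Prim p ∧ p ∣ s := by
  unfold pf at h
  split_ifs at h with f
  · simpa using h
  · simp at h

theorem fm {p a : O} (hp : Prime p) (ha : a ≠ 0) : FiniteMultiplicity p a :=
  FiniteMultiplicity.of_prime_left hp ha

theorem eq_of_dvd (hB : Bas) {p q : O} (hp : Prime p) (hp' : Prim p) (hq : Prime q) (hq' : Prim q)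
    (h : p ∣ q) : p = q :=
  hB.b2.uniq p q hp' hq' (hp.associated_of_dvd hq h)

theorem vl_mul {p a b : O} (hp : Prime p) (ha : a ≠ 0) (hb : b ≠ 0) :
    vl p (a * b) = vl p a + vl p b := multiplicity_mul hp (fm hp (mul_ne_zero ha hb))

theorem vl_self {p : O} (_hp : Prime p) : vl p p = 1 := multiplicity_self

theorem vl_pr (hB : Bas) {p q : O} (hp : Prime p) (hp' : Prim p) (hq : Prime q) (hq' : Prim q) :
    vl q p = if q = p then 1 else 0 := by
  split_ifs with h
  · rw [h, vl_self hp]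
  · exact multiplicity_eq_zero.2 fun d => h (eq_of_dvd hB hq hq' hp hp' d)

theorem vl_one {p : O} (hp : Prime p) : vl p 1 = 0 :=
  multiplicity_eq_zero.2 hp.not_dvd_one

theorem pf_mul (hB : Bas) (a b : O) (ha : a ≠ 0) (hb : b ≠ 0) : pf (a * b) = pf a ∪ pf b := by
  ext p
  rw [Finset.mem_union, mem hB _ _ ha, mem hB _ _ hb, mem hB _ _ (mul_ne_zero ha hb)]
  constructor
  · rintro ⟨h1, h2, h3⟩
    exact (h1.dvd_or_dvd h3).imp (fun h => ⟨h1, h2, h⟩) fun h => ⟨h1, h2, h⟩
  · rintro (⟨h1, h2, h3⟩ | ⟨h1, h2, h3⟩)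
    exacts [⟨h1, h2, h3.mul_right _⟩, ⟨h1, h2, h3.mul_left _⟩]

theorem prod' (hB : Bas) (P : Finset O) (hP : ∀ p ∈ P, Prime p ∧ Prim p) (s : O) (hs : Prim s) :
    pf s ⊆ P → s = ∏ p ∈ P, p ^ vl p s := by
  refine hB.b2.ind1 (fun s => pf s ⊆ P → s = ∏ p ∈ P, p ^ vl p s) (fun _ => ?_) ?_ s hs
  · exact (Finset.prod_eq_one fun p hp => by rw [vl_one (hP p hp).1, pow_zero]).symm
  · intro p a hp hp' ha ih h
    have a0 := hB.b2.ne a ha
    rw [pf_mul hB _ _ hp.ne_zero a0, Finset.union_subset_iff] at h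
    have m : p ∈ P := h.1 ((mem hB _ _ hp.ne_zero).2 ⟨hp, hp', dvd_rfl⟩)
    rw [Finset.prod_congr rfl fun q hq => show q ^ vl q (p * a) = (if q = p then q else 1) * q ^ vl q a by
      rw [vl_mul (hP q hq).1 hp.ne_zero a0, vl_pr hB hp hp' (hP q hq).1 (hP q hq).2, pow_add]
      split_ifs <;> simp, Finset.prod_mul_distrib, ← ih h.2, Finset.prod_ite_eq', if_pos m]

theorem prod (hB : Bas) (s : O) (hs : Prim s) : s = ∏ p ∈ pf s, p ^ vl p s :=
  prod' hB _ (fun _ h => ⟨(pp h).1, (pp h).2.1⟩) s hs subset_rfl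

theorem cop (hB : Bas) (s : O) : (pf s : Set O).Pairwise (Function.onFun IsCoprime fun p => p) :=
  fun _ hp _ hq h => (pp hp).1.irreducible.coprime_iff_not_dvd.2 fun d =>
    h (eq_of_dvd hB (pp hp).1 (pp hp).2.1 (pp hq).1 (pp hq).2.1 d)

theorem rad_sqf (hB : Bas) (s : O) : Squarefree (rad s) :=
  Finset.squarefree_prod_of_pairwise_isCoprime (fun _ hp _ hq h => (cop hB s hp hq h).isRelPrime)
    fun _ h => (pp h).1.squarefree

theorem N_rad (hB : Bas) (s : O) : N (rad s) = rd s := by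
  simp only [rad, rd, hB.b1.N_eq, map_prod, norm_prod, Finset.prod_pow]

theorem one_le (hB : Bas) {s p : O} (h : p ∈ pf s) : 1 ≤ N p := hB.b1.N_one_le p (pp h).1.ne_zero

theorem pos {p s : O} (hs : s ≠ 0) (h : p ∈ pf s) : 1 ≤ vl p s :=
  (fm (pp h).1 hs).pow_dvd_iff_le_multiplicity.1 (by simpa using (pp h).2.2)

theorem ome (hB : Bas) (c ε : ℝ) (hc : 0 ≤ c) (hε : 0 < ε) :
    ∃ C, ∀ s, c ^ (pf s).card ≤ C * rd s ^ ε := by
  set F := (hB.b3.fin (c ^ ε⁻¹)).toFinset with hF
  refine ⟨max c 1 ^ F.card, fun s => ?_⟩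
  have n : ∀ p : O, 0 ≤ N p := fun p => Nat.cast_nonneg _
  calc c ^ (pf s).card = ∏ _p ∈ pf s, c := (Finset.prod_const c).symm
    _ ≤ ∏ p ∈ pf s, ((if p ∈ F then max c 1 else 1) * N p ^ ε) := by
      refine Finset.prod_le_prod (fun _ _ => hc) fun p hp => ?_
      split_ifs with h
      · exact (le_max_left c 1).trans (le_mul_of_one_le_right (by positivity)
          (Real.one_le_rpow (one_le hB hp) hε.le))
      · rw [hF, Set.Finite.mem_toFinset, Set.mem_ofPred_eq, not_le] at h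
        rw [one_mul, ← Real.rpow_inv_rpow hc hε.ne']
        exact Real.rpow_le_rpow (by positivity) h.le hε.le
    _ ≤ _ := by
      rw [Finset.prod_mul_distrib, Finset.prod_ite_mem, Finset.prod_const, rd,
        Real.finsetProd_rpow _ _ fun p _ => n p]
      gcongr
      · exact Real.rpow_nonneg (Finset.prod_nonneg fun p _ => n p) _
      · exact le_max_right _ _
      · exact Finset.inter_subset_right

end B8M

open B8M in
theorem b8S (hB : Bas) : B8 where
  mem := mem hB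
  prod := prod hB
  prod' := fun s P hs h hP => prod' hB P hP s hs h
  pf_mul := pf_mul hB
  pf_disj := fun _ _ _ _ h => Finset.disjoint_left.2 fun _ h1 h2 =>
    (pp h1).1.not_isUnit (h.isUnit_of_dvd' (pp h1).2.2 (pp h2).2.2)
  pf_one := Finset.eq_empty_of_forall_notMem fun _ h => (pp h).1.not_dvd_one (pp h).2.2
  pf_pp := fun p k hp hp' hk => by
    ext q
    rw [mem hB _ _ (pow_ne_zero k hp.ne_zero), Finset.mem_singleton]
    exact ⟨fun ⟨h1, h2, h3⟩ => eq_of_dvd hB h1 h2 hp hp' (h1.dvd_of_dvd_pow h3),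
      fun h => by rw [h]; exact ⟨hp, hp', dvd_pow_self _ hk⟩⟩
  vl_mul := fun _ _ _ => vl_mul
  vl_pow := fun _ _ _ hp ha => (fm hp ha).multiplicity_pow hp
  vl_self := fun _ => vl_self
  vl_zero := fun _ _ _ _ => multiplicity_eq_zero
  vl_dvd := fun _ _ _ hp ha => (fm hp ha).pow_dvd_iff_le_multiplicity
  vl_prod := fun P f q hP hq hq' => by
    induction P using Finset.induction_on with
    | empty => simpa using vl_one hq
    | insert p P h ih =>
      have hp := hP p (Finset.mem_insert_self _ _)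
      have hP' := fun r hr => hP r (Finset.mem_insert_of_mem hr)
      rw [Finset.prod_insert h, vl_mul hq (pow_ne_zero _ hp.1.ne_zero)
        (Finset.prod_ne_zero_iff.2 fun r hr => pow_ne_zero _ (hP' r hr).1.ne_zero), ih hP',
        show vl q (p ^ f p) = f p * vl q p from (fm hq hp.1.ne_zero).multiplicity_pow hq,
        vl_pr hB hp.1 hp.2 hq hq']
      by_cases e : q = p
      · subst e; simp [h]
      · simp [e]
  sqf := fun n hn => by
    have n0 := hB.b2.ne n hn
    refine ⟨fun h p hp => le_antisymm (not_lt.1 fun h2 => (pp hp).1.not_isUnit (h p ?_)) (pos n0 hp),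
      fun h => ?_⟩
    · rw [← sq]
      exact (fm (pp hp).1 n0).pow_dvd_iff_le_multiplicity.2 h2
    · rw [prod hB n hn, Finset.prod_congr rfl fun p hp => by rw [h p hp, pow_one]]
      exact rad_sqf hB n
  fl_rad := fun s hs => by
    rw [fl, rad, ← Finset.prod_mul_distrib]
    refine (Finset.prod_congr rfl fun p hp => ?_).trans (prod hB s hs).symm
    rw [← pow_succ, Nat.sub_add_cancel (pos (hB.b2.ne s hs) hp)]
  rad_prim := fun _ => Finset.prod_induction _ Prim hB.b2.mul hB.b2.one fun _ h => (pp h).2.1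
  fl_prim := fun _ => Finset.prod_induction _ Prim hB.b2.mul hB.b2.one fun _ h =>
    hB.b2.pow _ _ (pp h).2.1
  rad_sqf := rad_sqf hB
  N_rad := N_rad hB
  rd_ge := fun _ => Finset.one_le_prod fun _ h => one_le hB h
  rd_le := fun s hs => N_rad hB s ▸ N_le hB hs
    (Finset.prod_dvd_of_coprime (cop hB s) fun _ h => (pp h).2.2)
  rd_mul := fun a b ha hb => by
    rw [rd, rd, rd, pf_mul hB a b ha hb, ← Finset.prod_union_inter]
    exact le_mul_of_one_le_right (Finset.prod_nonneg fun _ _ => Nat.cast_nonneg _)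
      (Finset.one_le_prod fun _ h => one_le hB (Finset.mem_inter.1 h).1)
  rd_pow := fun a k ha => Finset.prod_le_prod_of_subset_of_one_le
    (fun p hp => (mem hB _ _ ha).2 ⟨(pp hp).1, (pp hp).2.1, (pp hp).1.dvd_of_dvd_pow (pp hp).2.2⟩)
    (fun _ _ => Nat.cast_nonneg _) fun _ h _ => one_le hB h
  N7 := fun p hp ho => by
    have h1 := hB.b2.N_mod p ho.1
    have h2 : Nn p ≠ 1 := fun h => hp.not_isUnit ((hB.b1.unit_iff p).2 h)
    have h4 : Nn p ≠ 4 := fun h => hp.not_isUnit (ho.2.isUnit_of_dvd (hp.dvd_of_dvd_pow (n := 2)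
      ⟨cj p, by rw [hB.b1.cj_mul, h]; norm_num⟩))
    unfold N
    exact_mod_cast show 7 ≤ Nn p by omega
  ome := ome hB
  op_mul := fun a b ha hb => ⟨hB.b2.mul a b ha.1 hb.1, ha.2.mul_left hb.2⟩
  op_dvd := fun _ _ hb ha h => ⟨ha, hb.2.of_isCoprime_of_dvd_left h⟩
  dec2 := fun h h0 => by
    obtain ⟨e, a, D, he, hD, rfl⟩ := hB.b2.dec h h0
    have p2 : Prime (-2 : O) := hB.b1.prime_two.neg
    obtain ⟨k, hk, hn⟩ := (fm p2 (hB.b2.ne D hD)).exists_eq_pow_mul_and_not_dvd
    generalize multiplicity (-2 : O) D = b at hk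
    refine ⟨e * (-1) ^ b, a, b, k, (hB.b1.units _).1 (he.mul (isUnit_neg_one.pow b)),
      ⟨hB.b2.cancel _ k (hB.b2.pow (-2) b ⟨-1, by norm_num⟩) (hk ▸ hD), ?_⟩, ?_⟩
    · exact (hB.b1.prime_two.irreducible.coprime_iff_not_dvd.2 fun d => hn (neg_dvd.2 d)).symm
    · rw [hk, neg_pow]; ring
  mu_mul := fun a b h => by
    simp only [mu, squarefree_mul_iff, h.isRelPrime, true_and]
    by_cases ha : Squarefree a <;> by_cases hb : Squarefree b <;> simp only [ha, hb, if_true, if_false,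
      and_true, and_false, mul_zero, zero_mul]
    rw [Multiset.card_eq_card_of_rel (UniqueFactorizationMonoid.factors_mul ha.ne_zero hb.ne_zero),
      Multiset.card_add, pow_add]
  mu_le := fun a => by
    unfold mu
    split_ifs <;> simp

end Vale.Agent.P026
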