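import Vale.Agent.P026.Stm3

/-! P026: finite Fourier series and their duals are multiplicative. -/

noncomputable section
open Complex
open scoped Classical ComplexConjugate

namespace Vale.Agent.P026

namespace VSaM

theorem eQ_pe (hB : Bas) (q a m k : O) : eQ ((a + q * m) * k) q = eQ (a * k) q := by
  rw [add_mul, hB.b1.eQ_add, hB.b1.eQ_dvd (q * m * k) q ⟨m * k, by ring⟩, mul_one]

theorem eQ_crt (hB : Bas) {q1 q2 : O} (h1 : q1 ≠ 0) (h2 : q2 ≠ 0) (a b k : O) :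
    eQ ((a * q2 + b * q1) * k) (q1 * q2) = eQ (a * k) q1 * eQ (b * k) q2 := by
  rw [show (a * q2 + b * q1) * k = q2 * (a * k) + q1 * (b * k) by ring, hB.b1.eQ_add,
    hB.b1.eQ_mul q1 _ _ h1, mul_comm q1 q2, hB.b1.eQ_mul q2 _ _ h2]

theorem dvd_crt {q1 q2 : O} (hc : IsCoprime q1 q2) (n m a1 a2 b1 b2 : O) :
    q1 * q2 ∣ n * (a1 * q2 + a2 * q1) * (b1 * q2 + b2 * q1) - m ↔
      q1 ∣ n * q2 ^ 2 * a1 * b1 - m ∧ q2 ∣ n * q1 ^ 2 * a2 * b2 - m := by
  have e1 : n * (a1 * q2 + a2 * q1) * (b1 * q2 + b2 * q1) - m =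
      n * q2 ^ 2 * a1 * b1 - m + q1 * (n * (a1 * q2 * b2 + a2 * b1 * q2 + a2 * b2 * q1)) := by ring
  have e2 : n * (a1 * q2 + a2 * q1) * (b1 * q2 + b2 * q1) - m =
      n * q1 ^ 2 * a2 * b2 - m + q2 * (n * (a1 * q1 * b2 + a2 * b1 * q1 + a1 * b1 * q2)) := by ring
  constructor
  · intro h
    refine ⟨?_, ?_⟩
    · have := (dvd_mul_right q1 q2).trans h
      rwa [e1, dvd_add_left (dvd_mul_right _ _)] at this
    · have := (dvd_mul_left q2 q1).trans h
      rwa [e2, dvd_add_left (dvd_mul_right _ _)] at this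
  · rintro ⟨h1, h2⟩
    refine hc.mul_dvd ?_ ?_
    · rw [e1]; exact h1.add (dvd_mul_right _ _)
    · rw [e2]; exact h2.add (dvd_mul_right _ _)

end VSaM

open VSaM in
theorem vsaS (hB : Bas) : VSaStmt := by
  refine ⟨fun h Ψ m D => ?_, fun q1 q2 Ψ1 Ψ2 ⟨p1, e1, s1⟩ ⟨p2, e2, s2⟩ hc => ?_⟩
  · simp only [fs, dl, du, Finset.sum_mul, ite_mul, zero_mul]
    exact Finset.sum_comm
  have n1 := hB.b2.ne _ p1
  have n2 := hB.b2.ne _ p2
  obtain ⟨x, y, hxy⟩ := id hc
  have pe : Pe (q1 * q2) fun a => Ψ1 (a * y) * Ψ2 (a * x) := fun a m => by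
    show Ψ1 _ * Ψ2 _ = _
    rw [show (a + q1 * q2 * m) * y = a * y + q1 * (q2 * m * y) by ring, e1,
      show (a + q1 * q2 * m) * x = a * x + q2 * (q1 * m * x) by ring, e2]
  have val : ∀ a b, Ψ1 ((a * q2 + b * q1) * y) * Ψ2 ((a * q2 + b * q1) * x) = Ψ1 a * Ψ2 b := by
    intro a b
    rw [show (a * q2 + b * q1) * y = a + q1 * (b * y - a * x) by linear_combination a * hxy, e1,
      show (a * q2 + b * q1) * x = b + q2 * (a * x - b * y) by linear_combination b * hxy, e2]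
  refine ⟨fun a => Ψ1 (a * y) * Ψ2 (a * x), ⟨hB.b2.mul _ _ p1 p2, pe, fun a ha => ?_⟩,
    fun k => ?_, fun m n D => ?_⟩
  · dsimp only
    by_cases c : IsCoprime a q1
    · rw [s2 _ fun d => ha (c.mul_right d.of_mul_left_left), mul_zero]
    · rw [s1 _ fun d => c d.of_mul_left_left, zero_mul]
  · rw [fs, hB.b4.crt q1 q2 _ n1 n2 hc fun a m => by
      show _ * _ = _ * _
      rw [eQ_pe hB]; congr 1; exact pe a m, fs, fs, Finset.sum_mul_sum]
    refine Finset.sum_congr rfl fun a _ => Finset.sum_congr rfl fun b _ => ?_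
    rw [val, eQ_crt hB n1 n2]; ring
  · have cb : ∀ a b, cub (a * q2 + b * q1) (q1 * q2) =
        cub a q1 * cub q2 q1 * (cub b q2 * cub q1 q2) := by
      intro a b
      have a1 := hB.b6.pe q1 (a * q2) b
      have a2 := hB.b6.pe q2 (b * q1) a
      dsimp only at a1 a2
      rw [hB.b6.mul_r _ _ _ n1 n2, ← hB.b6.mul_l _ _ _ (hB.b2.cop _ p1),
        ← hB.b6.mul_l _ _ _ (hB.b2.cop _ p2), ← a1, ← a2]
      congr 2 <;> ring
    rw [du, hB.b4.crt q1 q2 _ n1 n2 hc fun a t => by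
      refine Finset.sum_congr rfl fun b _ => ?_
      have a1 := hB.b6.pe (q1 * q2) a t
      have a2 := pe a t
      dsimp only at a1 a2 ⊢
      rw [a1, a2, show n * (a + q1 * q2 * t) * b - m = n * a * b - m + q1 * q2 * (n * t * b) by ring]
      simp only [dvd_add_left (dvd_mul_right _ _)], du, du, mul_assoc (_ * _), Finset.sum_mul_sum,
      Finset.mul_sum]
    refine Finset.sum_congr rfl fun a1 _ => ?_
    rw [Finset.mul_sum]
    refine Finset.sum_congr rfl fun a2 _ => ?_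
    rw [hB.b4.crt q1 q2 _ n1 n2 hc fun b t => by
      rw [eQ_pe hB, show n * (a1 * q2 + a2 * q1) * (b + q1 * q2 * t) - m =
        n * (a1 * q2 + a2 * q1) * b - m + q1 * q2 * (n * (a1 * q2 + a2 * q1) * t) by ring]
      simp only [dvd_add_left (dvd_mul_right _ _)], Finset.sum_mul_sum, Finset.mul_sum]
    refine Finset.sum_congr rfl fun b1 _ => ?_
    rw [Finset.mul_sum]
    refine Finset.sum_congr rfl fun b2 _ => ?_
    simp only [dvd_crt hc, val, cb, eQ_crt hB n1 n2]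
    by_cases c1 : q1 ∣ n * q2 ^ 2 * a1 * b1 - m <;> by_cases c2 : q2 ∣ n * q1 ^ 2 * a2 * b2 - m <;>
      simp only [c1, c2, and_self, and_false, false_and, if_true, if_false, mul_zero, zero_mul]
    ring

end Vale.Agent.P026
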