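import Vale.Agent.P026.Stm3

/-! P026: local duals at a prime. -/

noncomputable section
open Complex
open scoped Classical ComplexConjugate

namespace Vale.Agent.P026

namespace VScM

variable {p : O}

theorem cop (hp : Prime p) {a : O} : IsCoprime a p ↔ ¬ p ∣ a :=
  isCoprime_comm.trans hp.coprime_iff_not_dvd

theorem red (hX : SX) (hp : Prime p) (a : O) {x y : ℕ} (hx : x ≠ 0) (hy : y ≠ 0)
    (h : x % 6 = y % 6) : sx a p ^ x = sx a p ^ y := by
  by_cases c : IsCoprime a p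
  · rw [pow_eq_pow_mod x (hX.six a p c), pow_eq_pow_mod y (hX.six a p c), h]
  · rw [hX.zero a p hp.ne_zero c, zero_pow hx, zero_pow hy]

theorem six' (hX : SX) (hp : Prime p) (a : O) : sx a p ^ 6 = if p ∣ a then 0 else 1 := by
  split_ifs with c
  · rw [hX.zero a p hp.ne_zero fun d => (cop hp).1 d c]; norm_num
  · exact hX.six a p ((cop hp).2 c)

theorem ram (hB : Bas) (hX : SX) (hp : Prime p) (D : O) :
    ∑ b ∈ Rs p, sx b p ^ 6 * eQ (b * D) p = N p * (1 - sx D p ^ 6) - 1 := by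
  have e : ∀ b, sx b p ^ 6 * eQ (b * D) p = eQ (D * b) p - if p ∣ b then 1 else 0 := by
    intro b
    rw [six' hX hp]
    split_ifs with c
    · rw [hB.b1.eQ_dvd _ _ (c.mul_left D)]; ring
    · rw [mul_comm b D]; ring
  obtain ⟨b, hb, d⟩ := hB.b4.ex p 0 hp.ne_zero
  rw [zero_sub, dvd_neg] at d
  simp only [e]
  rw [Finset.sum_sub_distrib, hB.b4.orth p D hp.ne_zero, Finset.sum_eq_single_of_mem b hb, if_pos d,
    six' hX hp]
  · split_ifs <;> ring
  · intro b' hb' ne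
    exact if_neg fun d' => ne (hB.b4.uniq p b' b hp.ne_zero hb' hb (d'.sub d))

theorem cf (hX : SX) (hp : Prime p) (ho : OP p) (c : ℂ) {j : ℕ} (hj : j ≠ 0) :
    Cf p fun a => c * sx a p ^ j :=
  ⟨ho.1, fun a m => by have := hX.pe p a m; dsimp only at this ⊢; rw [this],
    fun a ha => by dsimp only; rw [hX.zero a p hp.ne_zero ha, zero_pow hj, mul_zero]⟩

theorem duf (hB : Bas) (hX : SX) (hp : Prime p) (ho : OP p) (c : ℂ) (j : ℕ) {m n : O}
    (hm : ¬ p ∣ m) (hn : ¬ p ∣ n) : ∃ w : ℂ, ‖w‖ ≤ 1 ∧ ∀ D,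
      du p (fun a => c * sx a p ^ j) m n D =
        c * w * ∑ b ∈ Rs p, sx b p ^ (5 * (j + 2)) * eQ (b * D) p := by
  refine ⟨(sx m p * sx n p ^ 5) ^ (j + 2), ?_, fun D => ?_⟩
  · rw [norm_pow, norm_mul, norm_pow, hX.norm _ _ ((cop hp).2 hm), hX.norm _ _ ((cop hp).2 hn)]
    simp
  rw [du, Finset.sum_comm, Finset.mul_sum]
  refine Finset.sum_congr rfl fun b _ => ?_
  by_cases c1 : p ∣ b
  · rw [hX.zero b p hp.ne_zero fun d => (cop hp).1 d c1, zero_pow (by omega), zero_mul, mul_zero]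
    refine Finset.sum_eq_zero fun a _ => if_neg fun d => hm ?_
    simpa using (c1.mul_left (n * a)).sub d
  have c2 : IsCoprime (n * b) p := ((cop hp).2 hn).mul_left ((cop hp).2 c1)
  obtain ⟨u, v, e⟩ := id c2
  obtain ⟨a, ha, d⟩ := hB.b4.ex p (m * u) hp.ne_zero
  have d1 : p ∣ n * a * b - m := by
    have := (d.mul_left (-(n * b))).sub (dvd_mul_left p (m * v))
    rwa [show -(n * b) * (m * u - a) - m * v * p = n * a * b - m by linear_combination -m * e] at this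
  rw [Finset.sum_eq_single_of_mem a ha, if_pos d1]
  · have a1 : sx n p * sx a p * sx b p = sx m p := by
      rw [← hX.mul_l _ _ _ ho, ← hX.mul_l _ _ _ ho]
      exact hB.b4.pe_congr p _ _ _ (hX.pe p) d1
    have a2 : sx a p = sx m p * sx n p ^ 5 * sx b p ^ 5 := by
      have b1 := hX.six n p ((cop hp).2 hn)
      have b2 := hX.six b p ((cop hp).2 c1)
      linear_combination (sx n p ^ 5 * sx b p ^ 5) * a1 - sx a p * sx b p ^ 6 * b1 - sx a p * b2
    rw [← hX.two a p hp.ne_zero, mul_assoc c, ← pow_add, a2, mul_pow, pow_mul]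
    ring
  · intro a' ha' ne
    refine if_neg fun d' => ne (hB.b4.uniq p a' a hp.ne_zero ha' ha ?_)
    refine c2.symm.dvd_of_dvd_mul_left ?_
    have := d'.sub d1
    rwa [show n * a' * b - m - (n * a * b - m) = n * b * (a' - a) by ring] at this

def GS (p : O) (j : ℕ) : ℂ := ∑ r ∈ Rs p, sx r p ^ j * eQ r p

theorem gs (hB : Bas) (hX : SX) (hG : GPStmt) (hp : Prime p) (ho : OP p) {j : ℕ} (hj : ¬ 6 ∣ j) :
    (∀ D, ∑ b ∈ Rs p, sx b p ^ j * eQ (b * D) p = sx D p ^ (5 * j) * GS p j) ∧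
      ‖GS p j‖ = N p ^ (1 / 2 : ℝ) := by
  obtain ⟨h1, h2⟩ := hG p j hp (hB.b2.cop p ho.1) (Or.inl ho.2) hj
  refine ⟨fun D => ?_, ?_⟩
  · rw [h1, map_pow, hX.conj_eq D p hp.ne_zero, pow_mul, GS]
  · rw [← h2, ← Real.sqrt_eq_rpow, Real.sqrt_sq (norm_nonneg _), GS]

end VScM

open VScM in
theorem vscS (hB : Bas) (hX : SX) (hG : GPStmt) : VScStmt := by
  intro p hp ho
  have N1 := hB.b1.N_one_le p hp.ne_zero
  have N0 : 0 < N p := by linarith
  have S0 : 0 < N p ^ (1 / 2 : ℝ) := Real.rpow_pos_of_pos N0 _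
  have SS : N p ^ (1 / 2 : ℝ) * N p ^ (1 / 2 : ℝ) = N p := by
    rw [← Real.rpow_add N0]; norm_num
  have fsj : ∀ i : ℕ, i % 6 ≠ 0 →
      ∀ k, fs p (fun a => (GS p (5 * i))⁻¹ * sx a p ^ (5 * i)) k = sx k p ^ i := by
    intro i hi k
    obtain ⟨h1, h2⟩ := VScM.gs hB hX hG hp ho (j := 5 * i) (by omega)
    have : GS p (5 * i) ≠ 0 := norm_pos_iff.1 (h2 ▸ S0)
    simp only [fs, mul_assoc]
    rw [← Finset.mul_sum, h1, red hX hp k (x := 5 * (5 * i)) (y := i) (by omega) (by omega) (by omega)]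
    field_simp
  refine ⟨fun i h0 h2 => ⟨_, cf hX hp ho _ (by omega), fsj i h0, fun m n hm hn => ?_⟩,
    ⟨_, cf hX hp ho _ (by omega), fsj 2 (by omega), fun m n hm hn => ?_⟩,
    ⟨_, cf hX hp ho (-(N p : ℂ)⁻¹) (j := 6) (by omega), fun k => ?_, fun m n hm hn => ?_⟩⟩
  · obtain ⟨w, w1, w2⟩ := duf hB hX hp ho (GS p (5 * i))⁻¹ (5 * i) hm hn
    obtain ⟨h1, h3⟩ := VScM.gs hB hX hG hp ho (j := 5 * (5 * i + 2)) (by omega)
    refine ⟨(GS p (5 * i))⁻¹ * w * GS p (5 * (5 * i + 2)), ?_, fun D => ?_⟩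
    · rw [norm_mul, norm_mul, norm_inv, h3, (VScM.gs hB hX hG hp ho (j := 5 * i) (by omega)).2]
      calc _ = ‖w‖ := by field_simp
        _ ≤ 1 := w1
    · rw [w2, h1, red hX hp D (x := 5 * (5 * (5 * i + 2))) (y := 8 - i % 6) (by omega) (by omega)
        (by omega)]
      ring
  · obtain ⟨w, w1, w2⟩ := duf hB hX hp ho (GS p (5 * 2))⁻¹ (5 * 2) hm hn
    have h3 := (VScM.gs hB hX hG hp ho (j := 5 * 2) (by omega)).2
    have key : ∀ x : ℝ, |x| ≤ N p → ‖(GS p (5 * 2))⁻¹ * w * x‖ ≤ N p ^ (1 / 2 : ℝ) := by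
      intro x hx
      rw [norm_mul, norm_mul, norm_inv, h3, norm_real, Real.norm_eq_abs]
      calc _ ≤ (N p ^ (1 / 2 : ℝ))⁻¹ * 1 * (N p ^ (1 / 2 : ℝ) * N p ^ (1 / 2 : ℝ)) := by
            rw [SS]; gcongr
        _ = _ := by field_simp
    refine ⟨_, _, key (N p - 1) (by rw [abs_le]; constructor <;> linarith),
      key (-N p) (by rw [abs_le]; constructor <;> linarith), fun D => ?_⟩
    rw [w2]
    simp only [red hX hp _ (x := 5 * (5 * 2 + 2)) (y := 6) (by omega) (by omega) (by omega)]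
    rw [ram hB hX hp]
    push_cast
    ring
  · have : (N p : ℂ) ≠ 0 := ofReal_ne_zero.2 N0.ne'
    simp only [fs, mul_assoc]
    rw [← Finset.mul_sum, ram hB hX hp]
    field_simp
    ring
  · obtain ⟨w, w1, w2⟩ := duf hB hX hp ho (-(N p : ℂ)⁻¹) 6 hm hn
    obtain ⟨h1, h3⟩ := VScM.gs hB hX hG hp ho (j := 5 * (6 + 2)) (by omega)
    refine ⟨-(N p : ℂ)⁻¹ * w * GS p (5 * (6 + 2)), ?_, fun D => ?_⟩
    · rw [norm_mul, norm_mul, norm_neg, norm_inv, h3, norm_real, Real.norm_of_nonneg N0.le,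
        neg_div, Real.rpow_neg N0.le]
      calc _ ≤ (N p)⁻¹ * 1 * N p ^ (1 / 2 : ℝ) := by gcongr
        _ = (N p ^ (1 / 2 : ℝ) * N p ^ (1 / 2 : ℝ))⁻¹ * 1 * N p ^ (1 / 2 : ℝ) := by rw [SS]
        _ = _ := by field_simp
    · rw [w2, h1, red hX hp D (x := 5 * (5 * (6 + 2))) (y := 2) (by omega) (by omega) (by omega)]
      ring

end Vale.Agent.P026
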