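import Vale.Agent.P026.M.PSb

/-! P026 row PS1, part a: the Mellin step. -/

noncomputable section
open Complex MeasureTheory Filter Topology
open scoped Classical ComplexConjugate

namespace Vale.Agent.P026
namespace PS1M
open PSM

lemma cntO : Countable O :=
  Function.Injective.countable (f := fun a : O => (a.re, a.im)) fun a b h => by
    ext
    · exact congrArg Prod.fst h
    · exact congrArg Prod.snd h

lemma gam_cont {σ : ℝ} (hσ : 0 < σ) : Continuous fun u : ℝ => Gamma (σ + u * I) := by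
  refine continuous_iff_continuousAt.2 fun u => ?_
  have h1 : ContinuousAt Gamma (σ + u * I) := by
    refine (Complex.differentiableAt_Gamma _ fun m hm => ?_).continuousAt
    have := congrArg Complex.re hm
    simp at this
    have : (0 : ℝ) ≤ m := Nat.cast_nonneg m
    linarith
  exact ContinuousAt.comp (f := fun u : ℝ => (σ : ℂ) + u * I) h1 (by fun_prop)

lemma gam_int (hΓ : GAM) {σ : ℝ} (hσ : 0 < σ) : Integrable fun u : ℝ => Gamma (σ + u * I) := by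
  obtain ⟨C, hC⟩ := hΓ.dec σ 2 hσ
  refine (integrable_inv_one_add_sq.const_mul C).mono' (gam_cont hσ).aestronglyMeasurable
    (Eventually.of_forall fun u => ?_)
  rw [← div_eq_mul_inv, le_div_iff₀ (by positivity)]
  refine le_trans ?_ (hC u)
  have : 1 + u ^ 2 ≤ (1 + |u|) ^ 2 := by nlinarith [sq_abs u, abs_nonneg u]
  gcongr

lemma mel (hΓ : GAM) {σ x : ℝ} (hσ : 0 < σ) (hx : 0 < x) : cexp (-(x : ℂ)) =
    ((1 / (2 * Real.pi) : ℝ) : ℂ) * ∫ u : ℝ, (x : ℂ) ^ (-(σ + u * I)) * Gamma (σ + u * I) := by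
  have hm : ∀ u : ℝ, mellin (fun x : ℝ => (Real.exp (-x) : ℂ)) (σ + u * I) = Gamma (σ + u * I) := by
    intro u
    rw [← Complex.GammaIntegral_eq_mellin, Complex.Gamma_eq_integral (by simpa using hσ)]
  have h := mellinInv_mellin_eq σ (fun x : ℝ => (Real.exp (-x) : ℂ)) hx ?_ ?_ (by fun_prop)
  · rw [mellinInv] at h
    simp only [hm, smul_eq_mul, Complex.real_smul] at h
    rw [h]; simp
  · have := Complex.GammaIntegral_convergent (s := σ) (by simpa using hσ)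
    unfold MellinConvergent
    simpa only [smul_eq_mul, mul_comm] using this
  · unfold Complex.VerticalIntegrable
    simp only [hm]
    exact gam_int hΓ hσ

lemma cp {x : ℝ} (hx : 0 < x) (w : ℂ) : (x : ℂ) ^ w = cexp (Real.log x * w) := by
  rw [Complex.cpow_def_of_ne_zero (by exact_mod_cast hx.ne'), Complex.ofReal_log hx.le]

lemma alg {X n1 n2 : ℝ} (σ u : ℝ) (hX : 0 < X) (h1 : 0 < n1) (h2 : 0 < n2) :
    ((Real.sqrt (n1 * n2) : ℂ))⁻¹ * ((X / (n1 * n2) : ℝ) : ℂ) ^ (-(σ + u * I)) =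
      (X : ℂ) ^ (-(σ + u * I)) * ((n1 : ℂ) ^ (-1 / 2 + σ + u * I) *
        conj ((n2 : ℂ) ^ (-1 / 2 + σ + ((-u : ℝ) : ℂ) * I))) := by
  have hs : (Real.sqrt (n1 * n2) : ℂ) = cexp ((Real.log n1 + Real.log n2) / 2) := by
    rw [Real.sqrt_eq_rpow, Real.rpow_def_of_pos (mul_pos h1 h2), Real.log_mul h1.ne' h2.ne']
    push_cast; congr 1; ring
  rw [hs, cp (by positivity), cp hX, cp h1, cp h2, ← Complex.exp_conj, ← Complex.exp_neg,
    ← Complex.exp_add, ← Complex.exp_add, ← Complex.exp_add, Real.log_div hX.ne' (by positivity),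
    Real.log_mul h1.ne' h2.ne']
  congr 1
  simp only [map_mul, map_add, map_div₀, map_neg, map_one, Complex.conj_ofReal, Complex.conj_I,
    map_ofNat]
  push_cast
  ring

/-- the summand of the dual sum -/
def FF (κ : ℕ) (y : O → ℂ) (σ : ℝ) (b k : O) (u : ℝ) : ℂ :=
  y k * conj (sx b k) ^ κ * (N k : ℂ) ^ (-1 / 2 + σ + u * I)

lemma FF_le (hB : Bas) (hX : SX) (κ : ℕ) (y : O → ℂ) (hy : ∀ k, y k ≠ 0 → OP k) {σ : ℝ} (hσ : σ ≤ 4)
    (b k : O) (u : ℝ) : ‖FF κ y σ b k u‖ ≤ ‖y k‖ * N k ^ 6 := by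
  unfold FF
  by_cases h : y k = 0
  · simp [h]
  have h1 := op_N hB (hy k h)
  rw [norm_mul, norm_mul, norm_pow, Complex.norm_conj,
    Complex.norm_cpow_eq_rpow_re_of_pos (by linarith)]
  have a1 : ‖sx b k‖ ^ κ ≤ 1 := pow_le_one₀ (norm_nonneg _) (hX.norm_le _ _)
  have a2 : N k ^ (-1 / 2 + σ + u * I : ℂ).re ≤ N k ^ 6 := by
    rw [← Real.rpow_natCast]
    refine Real.rpow_le_rpow_of_exponent_le h1 ?_
    simp; linarith
  calc _ ≤ ‖y k‖ * 1 * N k ^ 6 := by gcongr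
    _ = _ := by ring

lemma FF_cont (hB : Bas) (κ : ℕ) (y : O → ℂ) (hy : ∀ k, y k ≠ 0 → OP k) (σ : ℝ) (b k : O) :
    Continuous (FF κ y σ b k) := by
  unfold FF
  by_cases h : y k = 0
  · simp only [h, zero_mul]; exact continuous_const
  have h1 := op_N hB (hy k h)
  refine continuous_const.mul (Continuous.const_cpow (by fun_prop) (Or.inl ?_))
  exact_mod_cast (by linarith : N k ≠ 0)

/-- the term after Poisson summation -/
def TK (κ : ℕ) (y : O → ℂ) (M : ℝ) (k : O × O) (b : O) : ℂ :=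
  y k.1 * conj (y k.2) * (dd κ k.1 k.2 b * ((Real.sqrt (N (k.1 * k.2)) : ℂ))⁻¹ *
    cexp (-(sg * M * N b / N (k.1 * k.2) : ℝ)))

lemma sg_pos : 0 < sg := by unfold sg; positivity

lemma TK_eq (hB : Bas) (hΓ : GAM) (κ : ℕ) (y : O → ℂ) (hy : ∀ k, y k ≠ 0 → OP k) {M σ : ℝ} (hM : 0 < M)
    (hσ : 0 < σ) (k : O × O) {b : O} (hb : b ≠ 0) : TK κ y M k b = ((1 / (2 * Real.pi) : ℝ) : ℂ) *
      ∫ u : ℝ, Gamma (σ + u * I) * ((sg * M * N b : ℝ) : ℂ) ^ (-(σ + u * I)) *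
        (FF κ y σ b k.1 u * conj (FF κ y σ b k.2 (-u))) := by
  unfold TK FF
  by_cases h1 : y k.1 = 0
  · simp [h1]
  by_cases h2 : y k.2 = 0
  · simp [h2]
  have n1 : 0 < N k.1 := zero_lt_one.trans_le (op_N hB (hy _ h1))
  have n2 : 0 < N k.2 := zero_lt_one.trans_le (op_N hB (hy _ h2))
  have nb : 0 < N b := zero_lt_one.trans_le (hB.b1.N_one_le b hb)
  have hs := sg_pos
  have hX : 0 < sg * M * N b := by positivity
  rw [hB.b1.N_mul, mel hΓ hσ (by positivity : 0 < sg * M * N b / (N k.1 * N k.2)),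
    ← integral_const_mul, ← integral_const_mul, ← integral_const_mul, ← integral_const_mul]
  congr 1
  funext u
  have A := alg σ u hX n1 n2
  unfold dd
  simp only [map_mul, map_pow, Complex.conj_conj]
  linear_combination (y k.1 * conj (y k.2) * conj (sx b k.1) ^ κ * sx b k.2 ^ κ *
    ((1 / (2 * Real.pi) : ℝ) : ℂ) * Gamma (σ + u * I)) * A

lemma mul_le_sq (a b : ENNReal) : a * b ≤ a ^ 2 + b ^ 2 := by
  rcases le_total a b with h | h
  · calc a * b ≤ b * b := by gcongr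
      _ ≤ _ := by rw [← sq]; exact le_add_self
  · calc a * b ≤ a * a := by gcongr
      _ ≤ _ := by rw [← sq]; exact le_self_add

lemma dual (hB : Bas) (hX : SX) (hΓ : GAM) (κ : ℕ) (y : O → ℂ) (hy : ∀ k, y k ≠ 0 → OP k)
    (hs : Summable (fun k => ‖y k‖ * N k ^ 6)) {M σ : ℝ} (hM : 0 < M)
    (hσ : 0 < σ) (hσ4 : σ ≤ 4) {b : O} (hb : b ≠ 0) :
    ‖∑' k : O × O, TK κ y M k b‖ₑ ≤ DU κ y M σ b := by
  have := cntO
  have nb : 0 < N b := zero_lt_one.trans_le (hB.b1.N_one_le b hb)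
  have hsg := sg_pos
  have hX0 : 0 < sg * M * N b := by positivity
  obtain ⟨X, hXd⟩ : ∃ X, X = sg * M * N b := ⟨_, rfl⟩
  simp only [TK_eq hB hΓ κ y hy hM hσ _ hb]
  unfold DU
  rw [← hXd] at hX0 ⊢
  have fl := FF_le hB hX κ y hy hσ4 b
  have fc := FF_cont hB κ y hy σ b
  have a0 : ∀ k, 0 ≤ ‖y k‖ * N k ^ 6 := fun k => mul_nonneg (norm_nonneg _) (pow_nonneg (N0 _) _)
  have nX : ∀ u : ℝ, ‖(X : ℂ) ^ (-(σ + u * I))‖ = X ^ (-σ) := fun u => by
    rw [Complex.norm_cpow_eq_rpow_re_of_pos hX0]; simp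
  have cX : Continuous fun u : ℝ => (X : ℂ) ^ (-(σ + u * I)) :=
    Continuous.const_cpow (by fun_prop) (Or.inl (by exact_mod_cast hX0.ne'))
  have gb : ∀ (k : O × O) (u : ℝ), ‖Gamma (σ + u * I) * (X : ℂ) ^ (-(σ + u * I)) *
      (FF κ y σ b k.1 u * conj (FF κ y σ b k.2 (-u)))‖ ≤
      (X ^ (-σ) * ((‖y k.1‖ * N k.1 ^ 6) * (‖y k.2‖ * N k.2 ^ 6))) * ‖Gamma (σ + u * I)‖ := by
    intro k u
    rw [norm_mul, norm_mul, norm_mul, Complex.norm_conj, nX]
    have := fl k.1 u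
    have := fl k.2 (-u)
    have := a0 k.1
    calc _ ≤ ‖Gamma (σ + u * I)‖ * X ^ (-σ) * ((‖y k.1‖ * N k.1 ^ 6) * (‖y k.2‖ * N k.2 ^ 6)) := by
          gcongr
      _ = _ := by ring
  have gi : ∀ k : O × O, Integrable fun u : ℝ => Gamma (σ + u * I) * (X : ℂ) ^ (-(σ + u * I)) *
      (FF κ y σ b k.1 u * conj (FF κ y σ b k.2 (-u))) := by
    intro k
    refine ((gam_int hΓ hσ).norm.const_mul _).mono' ?_ (Eventually.of_forall (gb k))
    exact (((gam_cont hσ).mul cX).mul ((fc k.1).mul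
      (Complex.continuous_conj.comp ((fc k.2).comp continuous_neg)))).aestronglyMeasurable
  have gs : Summable fun k : O × O => ∫ u : ℝ, ‖Gamma (σ + u * I) * (X : ℂ) ^ (-(σ + u * I)) *
      (FF κ y σ b k.1 u * conj (FF κ y σ b k.2 (-u)))‖ := by
    refine Summable.of_nonneg_of_le (fun k => integral_nonneg fun u => norm_nonneg _) (fun k => ?_)
      (((hs.mul_of_nonneg hs a0 a0).mul_left (X ^ (-σ))).mul_right (∫ u : ℝ, ‖Gamma (σ + u * I)‖))
    rw [← integral_const_mul]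
    exact integral_mono (gi k).norm ((gam_int hΓ hσ).norm.const_mul _) (gb k)
  rw [tsum_mul_left, integral_tsum_of_summable_integral_norm gi gs]
  have sS : ∀ u, Summable fun k => ‖FF κ y σ b k u‖ := fun u =>
    Summable.of_nonneg_of_le (fun _ => norm_nonneg _) (fun k => fl k u) hs
  obtain ⟨S, hS⟩ : ∃ S : ℝ → ℂ, S = fun u => ∑' k, FF κ y σ b k u := ⟨_, rfl⟩
  have Sc : Continuous S := by rw [hS]; exact continuous_tsum fc hs fl
  have e1 : ∀ u : ℝ, ∑' k : O × O, Gamma (σ + u * I) * (X : ℂ) ^ (-(σ + u * I)) *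
      (FF κ y σ b k.1 u * conj (FF κ y σ b k.2 (-u))) =
      Gamma (σ + u * I) * (X : ℂ) ^ (-(σ + u * I)) * (S u * conj (S (-u))) := by
    intro u
    rw [tsum_mul_left, hS]
    simp only
    rw [Complex.conj_tsum, tsum_mul_tsum_of_summable_norm (sS u) (by simpa using sS (-u))]
  have e2 : ∀ u : ℝ, ∑' k, y k * conj (sx b k) ^ κ * (N k : ℂ) ^ (-1 / 2 + σ + u * I) = S u := by
    intro u; rw [hS]; rfl
  simp only [e1, e2]
  obtain ⟨g, hg⟩ : ∃ g : ℝ → ENNReal, g = fun u : ℝ => ‖Gamma (σ + u * I)‖ₑ * ENNReal.ofReal (X ^ (-σ)) :=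
    ⟨_, rfl⟩
  have gm : Measurable g := by rw [hg]; exact (gam_cont hσ).measurable.enorm.mul_const _
  have gn : ∀ u, g (-u) = g u := by
    intro u
    rw [hg]
    have : (σ : ℂ) + ((-u : ℝ) : ℂ) * I = conj (σ + u * I) := by simp
    simp only [this, Complex.Gamma_conj]
    rw [← ofReal_norm, ← ofReal_norm, Complex.norm_conj]
  have e3 : ∫⁻ u : ℝ, g u * ‖S (-u)‖ₑ ^ 2 = ∫⁻ u : ℝ, g u * ‖S u‖ₑ ^ 2 := by
    rw [← lintegral_neg_eq_self]; simp only [gn, neg_neg]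
  have e4 : ∀ u : ℝ, ‖Gamma (σ + u * I)‖ₑ * ENNReal.ofReal (X ^ (-σ)) = g u := fun u => by rw [hg]
  simp only [e4]
  have c1 : ‖((1 / (2 * Real.pi) : ℝ) : ℂ)‖ₑ * 2 ≤ 1 := by
    have e2 : (2 : ENNReal) = ENNReal.ofReal 2 := by norm_num
    rw [← ofReal_norm, e2, ← ENNReal.ofReal_mul (norm_nonneg _), Complex.norm_real,
      Real.norm_of_nonneg (by positivity)]
    refine ENNReal.ofReal_le_one.2 ?_
    rw [div_mul_eq_mul_div, div_le_one (by positivity)]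
    linarith [Real.pi_gt_three]
  calc _ ≤ ‖((1 / (2 * Real.pi) : ℝ) : ℂ)‖ₑ * ∫⁻ u : ℝ, (g u * ‖S u‖ₑ ^ 2 + g u * ‖S (-u)‖ₑ ^ 2) := by
        rw [enorm_mul]
        refine mul_le_mul_right ((enorm_integral_le_lintegral_enorm _).trans
          (lintegral_mono fun u => ?_)) _
        rw [enorm_mul, enorm_mul, enorm_mul, ← mul_add, ← e4, ← ofReal_norm ((X : ℂ) ^ _), nX,
          ← ofReal_norm (conj _), Complex.norm_conj, ofReal_norm]
        exact mul_le_mul_right (mul_le_sq _ _) _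
    _ = ‖((1 / (2 * Real.pi) : ℝ) : ℂ)‖ₑ * 2 * ∫⁻ u : ℝ, g u * ‖S u‖ₑ ^ 2 := by
        have mm : Measurable fun u : ℝ => g u * ‖S u‖ₑ ^ 2 := gm.mul (Sc.measurable.enorm.pow_const 2)
        rw [lintegral_add_left mm, e3]; ring
    _ ≤ _ := by
        simpa using mul_le_mul_left c1 (∫⁻ u : ℝ, g u * ‖S u‖ₑ ^ 2)

end PS1M
end Vale.Agent.P026
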