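import Vale.Agent.P026.M.SS0

noncomputable section
open Complex MeasureTheory Filter Topology
open scoped Classical ComplexConjugate

namespace Vale.Agent.P026
namespace PS1bM
open SS0M

lemma cp {x : ℝ} (hx : 0 < x) (s : ℂ) : (x : ℂ) ^ s = cexp (Real.log x * s) := by
  rw [cpow_def_of_ne_zero (by exact_mod_cast hx.ne'), ← ofReal_log hx.le]

lemma contG {σ : ℝ} (hσ : 0 < σ) : Continuous fun u : ℝ => Gamma (σ + u * I) := by
  refine continuous_iff_continuousAt.2 fun u => ContinuousAt.comp (f := fun u : ℝ => (σ : ℂ) + u * I)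
    (differentiableAt_Gamma _ fun m h => ?_).continuousAt (by fun_prop)
  have := congrArg re h
  simp at this
  have : (0 : ℝ) ≤ m := Nat.cast_nonneg m
  linarith

lemma intG (hΓ : GAM) {σ : ℝ} (hσ : 0 < σ) : Integrable fun u : ℝ => Gamma (σ + u * I) := by
  obtain ⟨C, hC⟩ := hΓ.dec σ 2 hσ
  refine (integrable_inv_one_add_sq.const_mul C).mono' (contG hσ).aestronglyMeasurable
    (Eventually.of_forall fun u => ?_)
  have h1 := hC u
  rw [← div_eq_mul_inv, le_div_iff₀ (by positivity)]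
  refine le_trans (mul_le_mul_of_nonneg_left ?_ (norm_nonneg _)) h1
  nlinarith [abs_nonneg u, sq_abs u]

lemma mel (hΓ : GAM) {σ x : ℝ} (hσ : 0 < σ) (hx : 0 < x) :
    cexp (-(x : ℂ)) = (1 / (2 * Real.pi) : ℝ) * ∫ u : ℝ, (x : ℂ) ^ (-(σ + u * I)) * Gamma (σ + u * I) := by
  have e : ∀ u : ℝ, mellin (fun t : ℝ => (Real.exp (-t) : ℂ)) (σ + u * I) = Gamma (σ + u * I) := fun u => by
    rw [← GammaIntegral_eq_mellin, Gamma_eq_integral (by simpa using hσ)]
  have := mellinInv_mellin_eq σ (fun t : ℝ => (Real.exp (-t) : ℂ)) hx ?_ ?_ (by fun_prop)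
  · unfold mellinInv at this
    simp only [e, smul_eq_mul, real_smul] at this
    rw [this]; simp
  · have := GammaIntegral_convergent (s := σ) (by simpa using hσ)
    unfold MellinConvergent
    simpa only [smul_eq_mul, mul_comm] using this
  · unfold VerticalIntegrable
    simpa only [e] using intG hΓ hσ

variable (hB : Bas) (hX : SX) (hK : KM)
include hB

lemma Npos {k : O} (hk : OP k) : 0 < N k := lt_of_lt_of_le one_pos (hB.b1.N_one_le k (hB.b2.ne k hk.1))
lemma N1 {k : O} (hk : OP k) : 1 ≤ N k := hB.b1.N_one_le k (hB.b2.ne k hk.1)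

include hX in
lemma dd_le (κ : ℕ) (a b h : O) : ‖dd κ a b h‖ ≤ 1 := by
  unfold dd
  rw [norm_mul, norm_pow, norm_pow, RCLike.norm_conj]
  exact mul_le_one₀ (pow_le_one₀ (norm_nonneg _) (hX.norm_le _ _)) (by positivity)
    (pow_le_one₀ (norm_nonneg _) (hX.norm_le _ _))

include hX in
lemma poi (hG : GPOStmt) (κ : ℕ) {a b : O} (ha : OP a) (hb : OP b) {M : ℝ} (hM : 0 < M) :
    ∑' m : O, II κ a b m * cexp (-(N m / M : ℝ)) = (Real.pi * M : ℝ) / kap *
      ∑' h : O, ((Real.sqrt (N (a * b)) : ℂ))⁻¹ * dd κ a b h * cexp (-(sg * M * N h / N (a * b) : ℝ)) := by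
  have hq : a * b ≠ 0 := mul_ne_zero (hB.b2.ne a ha.1) (hB.b2.ne b hb.1)
  have hN : (N (a * b) : ℂ) ≠ 0 := by
    have := hB.b1.N_one_le _ hq
    exact_mod_cast (by linarith : N (a * b) ≠ 0)
  have hpe : Pe (a * b) (dd κ a b) := fun x m => by
    unfold dd
    have e1 := hX.pe a x (b * m)
    have e2 := hX.pe b x (a * m)
    simp only at e1 e2
    rw [show x + a * b * m = x + a * (b * m) by ring, e1,
      show x + a * (b * m) = x + b * (a * m) by ring, e2]
  rw [hG (II κ a b) (a * b) M hq ?_ hM]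
  · have : ∀ h, ∑ r ∈ Rs (a * b), II κ a b r * eQ (r * h) (a * b) =
        N (a * b) * (((Real.sqrt (N (a * b)) : ℂ))⁻¹ * dd κ a b h) := fun h => by
      unfold II
      simp only [Finset.mul_sum, Finset.sum_mul]
      rw [Finset.sum_comm]
      obtain ⟨r0, hr0, hd⟩ := hB.b4.ex (a * b) h hq
      rw [Finset.sum_eq_single r0]
      · have := hB.b4.orth (a * b) (h - r0) hq
        rw [if_pos hd] at this
        rw [← this, Finset.sum_mul, hB.b4.pe_congr _ _ _ _ hpe hd]
        refine Finset.sum_congr rfl fun r _ => ?_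
        rw [show (h - r0) * r = -(r * r0) + r * h by ring, hB.b1.eQ_add]; ring
      · intro r1 hr1 hne
        have := hB.b4.orth (a * b) (h - r1) hq
        rw [if_neg (fun hd' => hne (hB.b4.uniq _ _ _ hq hr1 hr0 (by
          simpa using dvd_sub hd hd')))] at this
        calc _ = ((Real.sqrt (N (a * b)) : ℂ))⁻¹ * dd κ a b r1 *
              ∑ r ∈ Rs (a * b), eQ ((h - r1) * r) (a * b) := by
              rw [Finset.mul_sum]
              refine Finset.sum_congr rfl fun r _ => ?_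
              rw [show (h - r1) * r = -(r * r1) + r * h by ring, hB.b1.eQ_add]; ring
          _ = 0 := by rw [this, mul_zero]
      · exact fun h => absurd hr0 h
    simp only [this, mul_assoc (N (a * b) : ℂ), tsum_mul_left]
    field_simp
  · intro x m
    unfold II
    congr 1
    refine Finset.sum_congr rfl fun h _ => ?_
    rw [show -((x + a * b * m) * h) = -(x * h) + a * b * (-(m * h)) by ring, hB.b1.eQ_add,
      hB.b1.eQ_dvd _ _ (Dvd.intro _ rfl), mul_one]

omit hB in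
lemma kap_le {M : ℝ} (hM : 0 < M) : ‖((Real.pi * M : ℝ) : ℂ) / kap‖ ≤ 4 * M := by
  have h3 : (1.7 : ℝ) < Real.sqrt 3 := Real.lt_sqrt_of_sq_lt (by norm_num)
  rw [norm_div, norm_real, Real.norm_of_nonneg (by positivity), kap, norm_div, norm_real,
    Real.norm_of_nonneg (by positivity), div_le_iff₀ (by simp)]
  simp only [norm_ofNat]
  nlinarith [Real.pi_lt_d2]

variable {y : O → ℂ} (hy : ∀ k, y k ≠ 0 → OP k) (hs : Summable fun k => ‖y k‖ * N k ^ 6)
include hy hs

lemma summ {a : ℝ} (ha : a ≤ 6) : Summable fun k => ‖y k‖ * N k ^ a := by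
  refine hs.of_nonneg_of_le (fun k => mul_nonneg (norm_nonneg _) (Real.rpow_nonneg (N0 k) _)) fun k => ?_
  by_cases h : y k = 0
  · simp [h]
  · refine mul_le_mul_of_nonneg_left ?_ (norm_nonneg _)
    rw [← Real.rpow_natCast]
    exact Real.rpow_le_rpow_of_exponent_le (N1 hB (hy k h)) (by exact_mod_cast ha)

lemma summ2 {a : ℝ} (ha : a ≤ 6) :
    Summable fun k : O × O => (‖y k.1‖ * N k.1 ^ a) * (‖y k.2‖ * N k.2 ^ a) :=
  (summ hB hy hs ha).mul_of_nonneg (summ hB hy hs ha)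
    (fun k => mul_nonneg (norm_nonneg _) (Real.rpow_nonneg (N0 k) _))
    (fun k => mul_nonneg (norm_nonneg _) (Real.rpow_nonneg (N0 k) _))

omit hB hy hs in
/-- terms of the one-variable sums -/
def tm (κ : ℕ) (y : O → ℂ) (σ : ℝ) (h : O) (u : ℝ) (k : O) : ℂ :=
  y k * conj (sx h k) ^ κ * (N k : ℂ) ^ (-1 / 2 + σ + u * I)

omit hs in
include hX in
lemma tm_le (κ : ℕ) (σ : ℝ) (h : O) (u : ℝ) (k : O) : ‖tm κ y σ h u k‖ ≤ ‖y k‖ * N k ^ (σ - 1 / 2) := by
  unfold tm
  by_cases h0 : y k = 0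
  · simp [h0]
  rw [norm_mul, norm_mul, norm_cpow_eq_rpow_re_of_pos (Npos hB (hy k h0)), norm_pow, RCLike.norm_conj]
  have : (-1 / 2 + (σ : ℂ) + u * I).re = σ - 1 / 2 := by simp; ring
  rw [this]
  refine mul_le_mul_of_nonneg_right (mul_le_of_le_one_right (norm_nonneg _)
    (pow_le_one₀ (norm_nonneg _) (hX.norm_le _ _))) (Real.rpow_nonneg (N0 k) _)

omit hs in
lemma tm_cont (κ : ℕ) (σ : ℝ) (h k : O) : Continuous fun u => tm κ y σ h u k := by
  unfold tm
  by_cases h0 : y k = 0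
  · simp only [h0, zero_mul]; exact continuous_const
  simp only [cp (Npos hB (hy k h0))]
  fun_prop

omit hB hy hs in
def Wt (κ : ℕ) (y : O → ℂ) (M : ℝ) (h : O) (k : O × O) : ℂ := y k.1 * conj (y k.2) *
  (((Real.sqrt (N (k.1 * k.2)) : ℂ))⁻¹ * dd κ k.1 k.2 h * cexp (-(sg * M * N h / N (k.1 * k.2) : ℝ)))

include hX in
lemma Wh (hΓ : GAM) (κ : ℕ) {M σ : ℝ} (hM : 0 < M) (hσ : 0 < σ) (hσ4 : σ ≤ 4) {h : O} (hh : h ≠ 0) :
    ‖∑' k, Wt κ y M h k‖ₑ ≤ DU κ y M σ h := by
  have s0 : 0 < sg := lt_of_lt_of_le one_pos sg1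
  have hNh : 0 < N h := lt_of_lt_of_le one_pos (hB.b1.N_one_le h hh)
  have hc : 0 < sg * M * N h := by positivity
  set c := sg * M * N h with hcd
  set g : ℝ → ℂ := fun u => (c : ℂ) ^ (-(σ + u * I)) * Gamma (σ + u * I) with hg
  have gn : ∀ u, ‖g u‖ = ‖Gamma (σ + u * I)‖ * c ^ (-σ) := fun u => by
    rw [hg]; simp only
    rw [norm_mul, norm_cpow_eq_rpow_re_of_pos hc, mul_comm]; simp
  have gc : Continuous g := by
    rw [hg]; simp only [cp hc]
    exact Continuous.mul (by fun_prop) (contG hσ)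
  have gi : Integrable fun u => ‖g u‖ := by
    simp only [gn]; exact (intG hΓ hσ).norm.mul_const _
  set F : O × O → ℝ → ℂ := fun k u => g u * (tm κ y σ h u k.1 * conj (tm κ y σ h (-u) k.2)) with hF
  have e1 : ∀ k, Wt κ y M h k = (1 / (2 * Real.pi) : ℝ) * ∫ u, F k u := fun k => by
    unfold Wt
    by_cases h1 : y k.1 = 0
    · simp [hF, tm, h1]
    by_cases h2 : y k.2 = 0
    · simp [hF, tm, h2]
    have p1 := Npos hB (hy _ h1)
    have p2 := Npos hB (hy _ h2)
    rw [hB.b1.N_mul, mel hΓ hσ (x := c / (N k.1 * N k.2)) (by positivity), ← mul_assoc,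
      mul_left_comm, ← integral_const_mul]
    congr 2
    funext u
    have hs : ((Real.sqrt (N k.1 * N k.2) : ℂ))⁻¹ = cexp ((Real.log (N k.1) + Real.log (N k.2)) * (-1 / 2)) := by
      rw [Real.sqrt_eq_rpow, Real.rpow_def_of_pos (by positivity), ofReal_exp, ← Complex.exp_neg,
        Real.log_mul p1.ne' p2.ne']
      congr 1; push_cast; ring
    simp only [hF, hg, tm, dd, map_mul, map_pow, conj_conj, cp p1, cp p2, cp hc,
      cp (show 0 < c / (N k.1 * N k.2) by positivity), hs, ← exp_conj]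
    rw [Real.log_div hc.ne' (by positivity), Real.log_mul p1.ne' p2.ne']
    have : ∀ a b c d e : ℂ, a + b = c + d + e → cexp a * cexp b = cexp c * cexp d * cexp e := by
      intro a b c d e h
      rw [← Complex.exp_add, ← Complex.exp_add, ← Complex.exp_add, h]
    have := this ((Real.log (N k.1) + Real.log (N k.2)) * (-1 / 2))
      (((Real.log c - (Real.log (N k.1) + Real.log (N k.2)) : ℝ) : ℂ) * -(σ + u * I))
      (Real.log c * -(σ + u * I)) (Real.log (N k.1) * (-1 / 2 + σ + u * I))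
      (conj (Real.log (N k.2) : ℂ) * conj (-1 / 2 + (σ : ℂ) + ((-u : ℝ) : ℂ) * I)) (by
        simp only [map_add, map_mul, conj_ofReal, conj_I, map_div₀, map_neg, map_one, map_ofNat]
        push_cast; ring)
    linear_combination (y k.1 * conj (y k.2) * conj (sx h k.1) ^ κ * sx h k.2 ^ κ * Gamma (σ + u * I)) * this
  have s2 := summ2 hB hy hs (a := σ - 1 / 2) (by linarith)
  have s1 := summ hB hy hs (a := σ - 1 / 2) (by linarith)
  have Fle : ∀ k u, ‖F k u‖ ≤ ‖g u‖ * ((‖y k.1‖ * N k.1 ^ (σ - 1 / 2)) * (‖y k.2‖ * N k.2 ^ (σ - 1 / 2))) :=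
    fun k u => by
      rw [hF]; simp only
      rw [norm_mul (g u), norm_mul (tm _ _ _ _ _ _), RCLike.norm_conj]
      exact mul_le_mul_of_nonneg_left (mul_le_mul (tm_le hB hX hy _ _ _ _ _) (tm_le hB hX hy _ _ _ _ _)
        (norm_nonneg _) (le_trans (norm_nonneg _) (tm_le hB hX hy κ σ h u k.1))) (norm_nonneg _)
  have Fc : ∀ k, Continuous (F k) := fun k =>
    gc.mul ((tm_cont hB hy κ σ h k.1).mul (continuous_conj.comp ((tm_cont hB hy κ σ h k.2).comp continuous_neg)))
  have Fi : ∀ k, Integrable (F k) := fun k =>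
    (gi.mul_const _).mono' (Fc k).aestronglyMeasurable (Eventually.of_forall (Fle k))
  haveI : Countable O := Function.Injective.countable (f := fun a : O => (a.re, a.im))
    fun a b h => by ext <;> simp_all
  have e2 : ∑' k, ∫ u, F k u = ∫ u, ∑' k, F k u := integral_tsum_of_summable_integral_norm Fi
    ((s2.mul_left (∫ u, ‖g u‖)).of_nonneg_of_le (fun k => integral_nonneg fun u => norm_nonneg _) fun k => by
      rw [← integral_mul_const]
      exact integral_mono (Fi k).norm (gi.mul_const _) (Fle k))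
  set S : ℝ → ℂ := fun u => ∑' k, tm κ y σ h u k with hS
  have sn : ∀ u, Summable fun k => ‖tm κ y σ h u k‖ := fun u =>
    s1.of_nonneg_of_le (fun _ => norm_nonneg _) (tm_le hB hX hy κ σ h u)
  have e3 : ∀ u, ∑' k, F k u = g u * (S u * conj (S (-u))) := fun u => by
    rw [hF, hS]; simp only
    rw [tsum_mul_left, conj_tsum, tsum_mul_tsum_of_summable_norm (sn u) (by simpa using sn (-u))]
  have Sc : Continuous S := continuous_tsum (fun k => tm_cont hB hy κ σ h k) s1
    fun k u => tm_le hB hX hy κ σ h u k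
  set A : ℝ → ENNReal := fun u => ‖Gamma (σ + u * I)‖ₑ * ENNReal.ofReal (c ^ (-σ)) * ‖S u‖ₑ ^ 2 with hA
  have Am : Measurable A :=
    (((contG hσ).measurable.enorm).mul_const _).mul (Sc.measurable.enorm.pow_const _)
  have Aeq : ∀ u, A u = ENNReal.ofReal (‖g u‖ * ‖S u‖ ^ 2) := fun u => by
    rw [hA, gn]; simp only
    rw [ENNReal.ofReal_mul (by positivity), ENNReal.ofReal_mul (by positivity),
      ENNReal.ofReal_pow (norm_nonneg _), ofReal_norm, ofReal_norm]
  have gneg : ∀ u, ‖g (-u)‖ = ‖g u‖ := fun u => by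
    rw [gn, gn, ← RCLike.norm_conj (Gamma (σ + u * I)), ← Gamma_conj]
    congr 3; simp
  have hDU : DU κ y M σ h = ∫⁻ u, A u := rfl
  rw [tsum_congr e1, tsum_mul_left, e2, enorm_mul, hDU]
  have b1 : ‖∫ u, ∑' k, F k u‖ₑ ≤ 2 * ∫⁻ u, A u := by
    refine (enorm_integral_le_lintegral_enorm _).trans ?_
    calc _ ≤ ∫⁻ u, A u + A (-u) := lintegral_mono fun u => by
          rw [e3, Aeq, Aeq, gneg, ← ENNReal.ofReal_add (by positivity) (by positivity),
            ← ofReal_norm, norm_mul (g u), norm_mul (S u), RCLike.norm_conj]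
          refine ENNReal.ofReal_le_ofReal ?_
          rw [← mul_add]
          refine mul_le_mul_of_nonneg_left ?_ (norm_nonneg _)
          nlinarith [sq_nonneg (‖S u‖ - ‖S (-u)‖), mul_nonneg (norm_nonneg (S u)) (norm_nonneg (S (-u)))]
      _ = _ := by rw [lintegral_add_left Am, lintegral_neg_eq_self, two_mul]
  calc _ ≤ ‖((1 / (2 * Real.pi) : ℝ) : ℂ)‖ₑ * (2 * ∫⁻ u, A u) := by gcongr
    _ = (‖((1 / (2 * Real.pi) : ℝ) : ℂ)‖ₑ * 2) * ∫⁻ u, A u := by ring
    _ ≤ 1 * ∫⁻ u, A u := by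
      gcongr
      rw [← ofReal_norm, norm_real, Real.norm_of_nonneg (by positivity),
        ← ENNReal.ofReal_ofNat 2, ← ENNReal.ofReal_mul (by positivity), ← ENNReal.ofReal_one]
      refine ENNReal.ofReal_le_ofReal ?_
      rw [div_mul_eq_mul_div, div_le_one (by positivity)]
      nlinarith [Real.pi_gt_three]
    _ = _ := one_mul _

omit hs in
include hX in
lemma W0 {κ : ℕ} (hκ : κ ≠ 0) (M : ℝ) : ‖∑' k, Wt κ y M 0 k‖ₑ = ‖y 1‖ₑ ^ 2 := by
  have z : ∀ k, y k ≠ 0 → k ≠ 1 → sx 0 k = 0 := fun k hk h1 => by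
    have := hy k hk
    refine hX.zero 0 k (hB.b2.ne k this.1) fun h => h1 ?_
    exact hB.b2.uniq _ _ this.1 hB.b2.one (associated_one_iff_isUnit.2 (isCoprime_zero_left.1 h))
  rw [tsum_eq_single (1, 1)]
  · have : N 1 = 1 := by simpa using hB.b1.N_int 1
    simp [Wt, dd, hX.one_r, this, hB.b1.N_zero, pow_two]
  · rintro ⟨a, b⟩ hne
    unfold Wt dd
    by_cases h1 : y a = 0
    · simp [h1]
    by_cases h2 : y b = 0
    · simp [h2]
    by_cases ha : a = 1
    · simp [z b h2 (fun hb => hne (by rw [ha, hb])), hκ]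
    · simp [z a h1 ha, hκ]

end PS1bM
open PS1bM SS0M

theorem ps1bS (hB : Bas) (hX : SX) (hK : KM) (hG : GPOStmt) (hΓ : GAM) : PS1Stmt := by
  intro κ y M σ hκ hM hy hs hσ
  have s0 : 0 < sg := lt_of_lt_of_le one_pos sg1
  have sA : Summable fun p : O × (O × O) => (Real.exp (-(N p.1 / M)) : ℂ) *
      (y p.2.1 * conj (y p.2.2) * II κ p.2.1 p.2.2 p.1) := by
    refine Summable.of_norm_bounded ((summ_exp hB (c := M⁻¹) (by positivity)).mul_of_nonneg
      (summ2 hB hy hs (a := 1) (by norm_num)) (fun _ => (Real.exp_pos _).le) fun k =>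
        mul_nonneg (mul_nonneg (norm_nonneg _) (Real.rpow_nonneg (N0 _) _))
          (mul_nonneg (norm_nonneg _) (Real.rpow_nonneg (N0 _) _))) fun p => ?_
    rw [norm_mul, norm_real, Real.norm_of_nonneg (Real.exp_pos _).le, div_eq_inv_mul]
    refine mul_le_mul_of_nonneg_left ?_ (Real.exp_pos _).le
    by_cases h1 : y p.2.1 = 0
    · simp [h1]
    by_cases h2 : y p.2.2 = 0
    · simp [h2]
    rw [norm_mul, norm_mul, RCLike.norm_conj, Real.rpow_one, Real.rpow_one]
    have := hK.II_le κ _ _ p.1 (hy _ h1) (hy _ h2)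
    calc _ ≤ ‖y p.2.1‖ * ‖y p.2.2‖ * (N p.2.1 * N p.2.2) := by gcongr
      _ = _ := by ring
  have sB : Summable fun p : (O × O) × O => Wt κ y M p.2 p.1 := by
    have w : Summable fun h : O => (if h = 0 then 1 else 0) + 2 / (sg * M) ^ 2 * N h ^ (-((2 : ℕ) : ℝ)) :=
      (hasSum_ite_eq (0 : O) (1 : ℝ)).summable.add ((hB.b3.summ _ (by norm_num)).mul_left _)
    refine Summable.of_norm_bounded ((summ2 hB hy hs (a := 2) (by norm_num)).mul_of_nonneg w (fun k =>
        mul_nonneg (mul_nonneg (norm_nonneg _) (Real.rpow_nonneg (N0 _) _))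
          (mul_nonneg (norm_nonneg _) (Real.rpow_nonneg (N0 _) _))) fun h =>
            add_nonneg (by split_ifs <;> norm_num) (mul_nonneg (by positivity) (Real.rpow_nonneg (N0 _) _)))
      fun p => ?_
    unfold Wt
    by_cases h1 : y p.1.1 = 0
    · simp [h1]
    by_cases h2 : y p.1.2 = 0
    · simp [h2]
    have p1 := N1 hB (hy _ h1)
    have p2 := N1 hB (hy _ h2)
    have p3 : 1 ≤ N p.1.1 * N p.1.2 := one_le_mul_of_one_le_of_one_le p1 p2
    rw [norm_mul, norm_mul, norm_mul, norm_mul, RCLike.norm_conj, cexp_norm, hB.b1.N_mul, norm_inv, norm_real,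
      Real.norm_of_nonneg (Real.sqrt_nonneg _)]
    have q1 : (Real.sqrt (N p.1.1 * N p.1.2))⁻¹ ≤ 1 := inv_le_one_of_one_le₀ (Real.one_le_sqrt.2 p3)
    have q2 := dd_le hB hX κ p.1.1 p.1.2 p.2
    have q3 : Real.exp (-(sg * M * N p.2 / (N p.1.1 * N p.1.2))) ≤ (N p.1.1 * N p.1.2) ^ 2 *
        ((if p.2 = 0 then 1 else 0) + 2 / (sg * M) ^ 2 * N p.2 ^ (-((2 : ℕ) : ℝ))) := by
      by_cases h0 : p.2 = 0
      · rw [if_pos h0, h0, hB.b1.N_zero]
        simp only [mul_zero, zero_div, neg_zero, Real.exp_zero]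
        have : (0 : ℝ) ≤ 2 / (sg * M) ^ 2 * 0 ^ (-((2 : ℕ) : ℝ)) :=
          mul_nonneg (by positivity) (Real.rpow_nonneg le_rfl _)
        nlinarith [one_le_pow₀ (n := 2) p3]
      · have := exp_le hB (A := 2) (c := sg * M / (N p.1.1 * N p.1.2)) (by positivity) h0
        rw [if_neg h0, zero_add, mul_div_right_comm]
        refine this.trans (le_of_eq ?_)
        simp only [Nat.factorial]
        field_simp
        norm_num
        ring
    calc _ ≤ ‖y p.1.1‖ * ‖y p.1.2‖ * (1 * 1 * ((N p.1.1 * N p.1.2) ^ 2 *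
        ((if p.2 = 0 then 1 else 0) + 2 / (sg * M) ^ 2 * N p.2 ^ (-((2 : ℕ) : ℝ))))) := by gcongr
      _ = _ := by rw [Real.rpow_two, Real.rpow_two]; ring
  have e1 : ∑' m : O, (Real.exp (-(N m / M)) : ℂ) * ∑' k : O × O, y k.1 * conj (y k.2) * II κ k.1 k.2 m =
      (Real.pi * M : ℝ) / kap * ∑' h : O, ∑' k, Wt κ y M h k := by
    simp only [← tsum_mul_left (a := (Real.exp _ : ℂ))]
    rw [← Summable.tsum_comm (f := fun m (k : O × O) => (Real.exp (-(N m / M)) : ℂ) *
      (y k.1 * conj (y k.2) * II κ k.1 k.2 m)) sA, Summable.tsum_comm (f := fun (k : O × O) h => Wt κ y M h k) sB,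
      ← tsum_mul_left]
    refine tsum_congr fun k => ?_
    unfold Wt
    by_cases h1 : y k.1 = 0
    · simp [h1]
    by_cases h2 : y k.2 = 0
    · simp [h2]
    rw [tsum_mul_left, mul_left_comm, ← poi hB hX hG κ (hy _ h1) (hy _ h2) hM, ← tsum_mul_left]
    refine tsum_congr fun m => ?_
    rw [ofReal_exp, ofReal_neg]; ring
  rw [e1, enorm_mul]
  refine mul_le_mul' ?_ ((enorm_tsum_le_tsum_enorm).trans ?_)
  · rw [← ofReal_norm]; exact ENNReal.ofReal_le_ofReal (kap_le hM)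
  · rw [ENNReal.tsum_eq_add_tsum_ite 0, W0 hB hX hy hκ]
    refine add_le_add le_rfl (ENNReal.tsum_le_tsum fun h => ?_)
    split_ifs with h0
    · exact le_rfl
    · exact Wh hB hX hy hs hΓ κ hM (hσ h).1 (hσ h).2 h0

end Vale.Agent.P026
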