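import Vale.Agent.P026.Stm3
import Vale.Agent.P026.M.ZK

/-! P026: amplification. -/

noncomputable section
open Complex
open scoped Classical ComplexConjugate

namespace Vale.Agent.P026

namespace AMPM

def tm (Y : ℝ) (n : O) : ℂ := mu n * (N n : ℂ) ^ (-(1 / 2 : ℂ)) * VV Y (N n)

def SS (j : O) (Y : ℝ) : ℂ := ∑' n : O, if OP n ∧ IsCoprime n j then tm Y n else 0

variable (hB : Bas)
include hB

theorem Npos {n : O} (hn : n ≠ 0) : 0 < N n := one_pos.trans_le (hB.b1.N_one_le n hn)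

theorem norm_cp {n : O} (hn : n ≠ 0) : ‖(N n : ℂ) ^ (-(1 / 2 : ℂ))‖ = N n ^ (-(1 / 2) : ℝ) := by
  rw [norm_cpow_eq_rpow_re_of_pos (Npos hB hn)]; norm_num

theorem summ (hL : LN) {Y : ℝ} (hY : 0 < Y) (S : O → Prop) [DecidablePred S]
    (hS : ∀ n, S n → OP n) : Summable fun n => if S n then tm Y n else 0 := by
  obtain ⟨C, h⟩ := hL.sum (-(1 / 2))
  refine (h Y hY).1.of_norm_bounded fun n => ?_
  have v : 0 ≤ VV Y (N n) := (Real.exp_pos _).le
  by_cases k : S n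
  · have n0 := hB.b2.ne n (hS n k).1
    rw [if_pos k, if_neg n0, tm, norm_mul, norm_mul, norm_cp hB n0, norm_real,
      Real.norm_of_nonneg v, mul_assoc]
    exact mul_le_of_le_one_left (mul_nonneg (Real.rpow_nonneg (Npos hB n0).le _) v) (ZKM.norm_mu n)
  · rw [if_neg k, norm_zero]
    split_ifs
    · rfl
    · exact mul_nonneg (Real.rpow_nonneg (Nat.cast_nonneg _) _) v

theorem step (hL : LN) {p a : O} (hp : Prime p) (hp' : OP p) (h : ¬ p ∣ a) {Y : ℝ} (hY : 0 < Y) :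
    SS a Y = SS (p * a) Y - (N p : ℂ) ^ (-(1 / 2 : ℂ)) * SS (p * a) (Y / N p) := by
  have c : ∀ n, IsCoprime n (p * a) ↔ ¬ p ∣ n ∧ IsCoprime n a := fun n => by
    rw [IsCoprime.mul_right_iff, isCoprime_comm, hp.irreducible.coprime_iff_not_dvd]
  rw [SS, ZKM.tsum_split (summ hB hL hY _ fun _ k => k.1) hp.ne_zero, sub_eq_add_neg, ← neg_mul,
    SS, SS, ← tsum_mul_left]
  congr 1
  · exact tsum_congr fun n => by by_cases k : p ∣ n <;> simp [c, k]
  · refine tsum_congr fun n => ?_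
    have e1 : OP (p * n) ↔ OP n := and_congr (ZKM.prim_iff hB hp'.1 n)
      (by rw [IsCoprime.mul_left_iff, and_iff_right hp'.2])
    have e2 : IsCoprime (p * n) a ↔ IsCoprime n a := by
      rw [IsCoprime.mul_left_iff, and_iff_right (hp.irreducible.coprime_iff_not_dvd.2 h)]
    rw [e1, e2, c]
    by_cases k : OP n ∧ IsCoprime n a
    · have n0 := hB.b2.ne n k.1.1
      rw [if_pos k, tm, tm, ZKM.mu_prime_mul hp n0, hB.b1.N_mul,
        hL.scale _ _ _ hY (Npos hB n0) (Npos hB hp.ne_zero), ofReal_mul,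
        mul_cpow_ofReal_nonneg (Npos hB hp.ne_zero).le (Npos hB n0).le]
      by_cases k' : p ∣ n
      · simp [k']
      · rw [if_neg k', if_pos ⟨k.1, k', k.2⟩]; ring
    · rw [if_neg k, if_neg fun k' => k ⟨k'.1, k'.2.2⟩, mul_zero]

theorem expand (hL : LN) : ∀ j, Prim j → IsCoprime j 2 → ∃ D : Finset O, (∀ r ∈ D, r ∣ j) ∧
    ∀ Y : ℝ, 0 < Y → ‖SS 1 Y‖ ≤ ∑ r ∈ D, N r ^ (-(1 / 2) : ℝ) * ‖SS j (Y / N r)‖ := by
  have N1 : N 1 = 1 := by simp [N, ZKM.Nn_one]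
  refine hB.b2.ind1 (fun j => IsCoprime j 2 → ∃ D : Finset O, (∀ r ∈ D, r ∣ j) ∧
    ∀ Y : ℝ, 0 < Y → ‖SS 1 Y‖ ≤ ∑ r ∈ D, N r ^ (-(1 / 2) : ℝ) * ‖SS j (Y / N r)‖)
    (fun _ => ⟨{1}, by simp, fun Y _ => by simp [N1]⟩) fun p a hp hp' ha ih h2 => ?_
  obtain ⟨D, h1, h⟩ := ih h2.of_mul_left_right
  by_cases k : p ∣ a
  · refine ⟨D, fun r hr => (h1 r hr).mul_left _, fun Y hY => ?_⟩
    have : ∀ n, IsCoprime n (p * a) ↔ IsCoprime n a := fun n => by
      rw [IsCoprime.mul_right_iff, and_iff_right_of_imp fun c => c.of_isCoprime_of_dvd_right k]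
    simpa only [SS, this] using h Y hY
  · refine ⟨D ∪ D.image (p * ·), fun r hr => ?_, fun Y hY => (h Y hY).trans ?_⟩
    · rcases Finset.mem_union.1 hr with hr | hr
      · exact (h1 r hr).mul_left _
      · obtain ⟨r', hr', rfl⟩ := Finset.mem_image.1 hr
        exact mul_dvd_mul_left _ (h1 r' hr')
    · rw [Finset.sum_union (Finset.disjoint_left.2 fun r hr hr' => by
        obtain ⟨r', -, e⟩ := Finset.mem_image.1 hr'
        exact k ((Dvd.intro _ e).trans (h1 _ hr))),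
        Finset.sum_image fun x _ y _ e => mul_left_cancel₀ hp.ne_zero e, ← Finset.sum_add_distrib]
      refine Finset.sum_le_sum fun r hr => ?_
      have r0 := Npos hB (ne_zero_of_dvd_ne_zero (hB.b2.ne a ha) (h1 r hr))
      have p0 := Npos hB hp.ne_zero
      rw [step hB hL hp ⟨hp', h2.of_mul_left_left⟩ k (div_pos hY r0), hB.b1.N_mul,
        Real.mul_rpow p0.le r0.le, div_div, mul_comm (N r) (N p), mul_comm (N p ^ _), mul_assoc,
        ← mul_add]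
      refine mul_le_mul_of_nonneg_left ((norm_sub_le _ _).trans ?_) (by positivity)
      rw [norm_mul, norm_cp hB hp.ne_zero]

theorem one_cls {c : O} (hc : c ≠ 0) (n : O) (z : ℂ) :
    ∑ r ∈ Rs c, (if c ∣ n - r then z else 0) = z := by
  obtain ⟨r, hr, h⟩ := hB.b4.ex c n hc
  rw [Finset.sum_eq_single_of_mem r hr fun r' hr' ne => if_neg fun h' => ne ?_, if_pos h]
  exact hB.b4.uniq c r' r hc hr' hr (by simpa using dvd_sub h h')

theorem cls (hX : SX) (hL : LN) (j : O) {Y : ℝ} (hY : 0 < Y) :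
    SS j Y = ∑ i ∈ Rs 27 ×ˢ Rs 4, Smu i.1 i.2 (j ^ 6) Y := by
  have e : ∀ r ρ, Smu r ρ (j ^ 6) Y = ∑' n, if (27 : O) ∣ n - r ∧ (4 : O) ∣ n - ρ ∧ OP n ∧
      IsCoprime n j then tm Y n else 0 := fun r ρ => tsum_congr fun n => by
    by_cases k : (27 : O) ∣ n - r ∧ (4 : O) ∣ n - ρ ∧ OP n
    · rw [if_pos k, hX.pow_l _ _ _ k.2.2]
      by_cases k' : IsCoprime n j
      · rw [if_pos ⟨k.1, k.2.1, k.2.2, k'⟩, hX.six _ _ k'.symm, mul_one, tm]
      · rw [if_neg fun h => k' h.2.2.2, hX.zero _ _ (hB.b2.ne n k.2.2.1) fun h => k' h.symm]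
        simp
    · rw [if_neg k, if_neg fun h => k ⟨h.1, h.2.1, h.2.2.1⟩]
  simp only [e]
  rw [← Summable.tsum_finsetSum fun i _ => summ hB hL hY _ fun _ k => k.2.2.1]
  refine tsum_congr fun n => ?_
  rw [Finset.sum_product]
  rw [← one_cls hB (c := 27) (by decide) n (ite _ _ _)]
  refine Finset.sum_congr rfl fun r _ => ?_
  by_cases k : (27 : O) ∣ n - r
  · rw [if_pos k, ← one_cls hB (c := 4) (by decide) n (ite _ _ _)]
    exact Finset.sum_congr rfl fun ρ _ => by by_cases k' : (4 : O) ∣ n - ρ <;> simp [k, k']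
  · simp [k]

theorem fam (hX : SX) (hL : LN) {J : Finset O} (hJ : ∀ j ∈ J, Prim j) {Z B : ℝ} (hZ : 0 < Z)
    (h : ∀ r ρ, ∑ m ∈ J.image (· ^ 6), ‖Smu r ρ m Z‖ ^ 2 ≤ B) :
    ∑ j ∈ J, ‖SS j Z‖ ^ 2 ≤ ((Rs 27 ×ˢ Rs 4).card : ℝ) ^ 2 * B := by
  have inj : Set.InjOn (· ^ 6) (J : Set O) := fun x hx y hy e => by
    have e : x ^ 6 = y ^ 6 := e
    exact hB.b2.uniq _ _ (hJ x hx) (hJ y hy) (associated_of_dvd_dvd
      ((IsIntegrallyClosed.pow_dvd_pow_iff (by norm_num)).1 e.dvd)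
      ((IsIntegrallyClosed.pow_dvd_pow_iff (by norm_num)).1 e.symm.dvd))
  simp only [Finset.sum_image inj] at h
  calc _ ≤ ∑ j ∈ J, ((Rs 27 ×ˢ Rs 4).card : ℝ) *
        ∑ i ∈ Rs 27 ×ˢ Rs 4, ‖Smu i.1 i.2 (j ^ 6) Z‖ ^ 2 := Finset.sum_le_sum fun j _ => by
        rw [cls hB hX hL j hZ]
        exact (pow_le_pow_left₀ (norm_nonneg _) (norm_sum_le _ _) 2).trans
          sq_sum_le_card_mul_sum_sq
    _ ≤ ((Rs 27 ×ˢ Rs 4).card : ℝ) * ∑ _i ∈ Rs 27 ×ˢ Rs 4, B := by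
        rw [← Finset.mul_sum, Finset.sum_comm]
        exact mul_le_mul_of_nonneg_left (Finset.sum_le_sum fun i _ => h _ _) (Nat.cast_nonneg _)
    _ = _ := by rw [Finset.sum_const, nsmul_eq_mul]; ring

end AMPM

open AMPM in
theorem ampS (hB : Bas) (hX : SX) (hL : LN) (h1 : L1Stmt) : AMPStmt := by
  intro β hβ
  obtain ⟨ε, hε, e⟩ : ∃ ε : ℝ, 0 < ε ∧ 2 * β = 25 / 27 + 5 * ε :=
    ⟨(2 * β - 25 / 27) / 5, by linarith, by ring⟩
  obtain ⟨C, C0, hC⟩ := h1 ε hε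
  obtain ⟨C1, hC1⟩ := hB.b3.div ε hε
  have sm := hB.b3.summ (1 + ε) (by linarith)
  set C2 := ∑' a : O, N a ^ (-(1 + ε)) with hC2
  set I : ℝ := ((Rs 27 ×ˢ Rs 4).card : ℝ) with hI
  refine ⟨Real.sqrt (200 * (|C1| * C2 * (I ^ 2 * (3 * C)))), fun Y hY => ?_⟩
  have Y0 : 0 < Y := by linarith
  have Nn0 : ∀ a, 0 ≤ N a := fun a => Nat.cast_nonneg _
  have C20 : 0 ≤ C2 := tsum_nonneg fun a => Real.rpow_nonneg (Nn0 a) _
  set P := Y ^ (5 / 27 : ℝ) with hP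
  set M := Y ^ (10 / 9 : ℝ) with hM
  have P1 : 1 ≤ P := Real.one_le_rpow hY (by norm_num)
  have PY : P ≤ Y := Real.rpow_le_self_of_one_le hY (by norm_num)
  have YM : Y ≤ M := Real.self_le_rpow_of_one_le hY (by norm_num)
  have PM : P ^ 6 = M := by
    rw [hP, hM, ← Real.rpow_natCast, ← Real.rpow_mul Y0.le]; norm_num
  have Pe : P ^ ε ≤ Y ^ ε := Real.rpow_le_rpow (by linarith) PY hε.le
  obtain ⟨J, hJ, cJ⟩ := hB.b3.card_ge P P1
  have pJ : ∀ j ∈ J, Prim j := fun j hj =>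
    (show (3 : O) ∣ 6 from ⟨2, by norm_num⟩).trans (hJ j hj).1
  have oJ : ∀ j ∈ J, IsCoprime j 2 := fun j hj => by
    obtain ⟨k, hk⟩ := (hJ j hj).1
    exact ⟨1, -(3 * k), by linear_combination hk⟩
  set R := (hB.b3.fin P).toFinset.erase 0 with hR
  have mR : ∀ r, r ∈ R ↔ r ≠ 0 ∧ N r ≤ P := fun r => by simp [hR]
  have f1 : ∀ r ∈ R, ∑ j ∈ J, ‖SS j (Y / N r)‖ ^ 2 ≤ I ^ 2 * (3 * C * (Y ^ (3 * ε) * M)) := by
    intro r hr
    have r1 := hB.b1.N_one_le r ((mR r).1 hr).1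
    have z1 : 1 ≤ Y / N r := (one_le_div (by linarith)).2 (((mR r).1 hr).2.trans PY)
    have z2 : Y / N r ≤ Y := div_le_self Y0.le r1
    refine fam hB hX hL pJ (by linarith) fun a ρ => (hC a ρ _ M _ z1 (hY.trans YM)
      fun m hm => ?_).trans ?_
    · obtain ⟨j, hj, rfl⟩ := Finset.mem_image.1 hm
      exact ⟨pow_ne_zero _ (hB.b2.ne j (pJ j hj)), by
        rw [hB.b1.N_pow, ← PM]; exact pow_le_pow_left₀ (Nn0 j) (hJ j hj).2 6⟩
    · have a1 : (M * (Y / N r)) ^ ε ≤ Y ^ (3 * ε) := by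
        rw [Real.rpow_mul Y0.le]
        refine Real.rpow_le_rpow (by positivity) ?_ hε.le
        calc _ ≤ Y ^ (2 : ℝ) * Y ^ (1 : ℝ) := mul_le_mul
              (Real.rpow_le_rpow_of_exponent_le hY (by norm_num)) (by rwa [Real.rpow_one])
              (by positivity) (by positivity)
          _ = _ := by rw [← Real.rpow_add Y0]; norm_num
      have a2 : (Y / N r) ^ (20 / 7 : ℝ) * M ^ (-11 / 7 : ℝ) ≤ M := by
        calc _ ≤ Y ^ (20 / 7 : ℝ) * M ^ (-11 / 7 : ℝ) := by gcongr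
          _ = M := by rw [hM, ← Real.rpow_mul Y0.le, ← Real.rpow_add Y0]; norm_num
      calc _ ≤ C * Y ^ (3 * ε) * (3 * M) := by gcongr; linarith
        _ = _ := by ring
  have f2 : ∑ r ∈ R, (N r)⁻¹ ≤ C2 * Y ^ ε := by
    calc _ ≤ ∑ r ∈ R, N r ^ (-(1 + ε)) * Y ^ ε := Finset.sum_le_sum fun r hr => by
          have r0 := Npos hB ((mR r).1 hr).1
          calc (N r)⁻¹ = N r ^ (-(1 + ε)) * N r ^ ε := by
                rw [← Real.rpow_add r0, ← Real.rpow_neg_one]; congr 1; ring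
            _ ≤ _ := mul_le_mul_of_nonneg_left ((Real.rpow_le_rpow r0.le ((mR r).1 hr).2
                hε.le).trans Pe) (by positivity)
      _ ≤ _ := by
          rw [← Finset.sum_mul]
          exact mul_le_mul_of_nonneg_right (sm.sum_le_tsum _ fun a _ =>
            Real.rpow_nonneg (Nn0 a) _) (by positivity)
  have f3 : ∀ j ∈ J, ‖SS 1 Y‖ ^ 2 ≤
      |C1| * Y ^ ε * ∑ r ∈ R, (N r)⁻¹ * ‖SS j (Y / N r)‖ ^ 2 := by
    intro j hj
    have j0 := hB.b2.ne j (pJ j hj)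
    obtain ⟨D, d1, d2⟩ := expand hB hL j (pJ j hj) (oJ j hj)
    refine (pow_le_pow_left₀ (norm_nonneg _) (d2 Y Y0) 2).trans
      (sq_sum_le_card_mul_sum_sq.trans (mul_le_mul ((hC1 j j0 D d1).trans ?_) ?_
        (Finset.sum_nonneg fun _ _ => sq_nonneg _) (by positivity)))
    · exact mul_le_mul (le_abs_self _) ((Real.rpow_le_rpow (Nn0 j) (hJ j hj).2 hε.le).trans Pe)
        (Real.rpow_nonneg (Nn0 j) _) (abs_nonneg _)
    · refine (Finset.sum_congr rfl fun r _ => ?_).trans_le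
        (Finset.sum_le_sum_of_subset_of_nonneg (fun r hr => ?_) fun r _ _ =>
          mul_nonneg (inv_nonneg.2 (Nn0 r)) (sq_nonneg _))
      · rw [mul_pow, ← Real.rpow_natCast, ← Real.rpow_mul (Nn0 r), ← Real.rpow_neg_one]
        norm_num
      · obtain ⟨k, rfl⟩ := d1 r hr
        refine (mR r).2 ⟨left_ne_zero_of_mul j0, le_trans ?_ (hJ _ hj).2⟩
        rw [hB.b1.N_mul]
        exact le_mul_of_one_le_right (Nn0 r) (hB.b1.N_one_le k (right_ne_zero_of_mul j0))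
  have f4 : P / 200 * ‖SS 1 Y‖ ^ 2 ≤
      |C1| * Y ^ ε * (C2 * Y ^ ε * (I ^ 2 * (3 * C * (Y ^ (3 * ε) * M)))) := by
    calc _ ≤ ∑ _j ∈ J, ‖SS 1 Y‖ ^ 2 := by
          rw [Finset.sum_const, nsmul_eq_mul]; gcongr
      _ ≤ ∑ j ∈ J, |C1| * Y ^ ε * ∑ r ∈ R, (N r)⁻¹ * ‖SS j (Y / N r)‖ ^ 2 := Finset.sum_le_sum f3
      _ ≤ _ := by
          rw [← Finset.mul_sum, Finset.sum_comm]
          refine mul_le_mul_of_nonneg_left (le_trans (Finset.sum_le_sum fun r hr => ?_)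
            ((Finset.sum_mul _ _ _).symm.trans_le
              (mul_le_mul_of_nonneg_right f2 (by positivity)))) (by positivity)
          rw [← Finset.mul_sum]
          exact mul_le_mul_of_nonneg_left (f1 r hr) (inv_nonneg.2 (Nn0 r))
  have e0 : Smu0 Y = SS 1 Y := tsum_congr fun n => by simp [tm, isCoprime_one_right]
  have e1 : Y ^ ε * Y ^ ε * Y ^ (3 * ε) * M = (Y ^ β) ^ 2 * P := by
    rw [sq, hM, hP]
    simp only [← Real.rpow_add Y0]
    congr 1; linarith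
  rw [e0]
  refine le_of_sq_le_sq ?_ (by positivity)
  rw [mul_pow, Real.sq_sqrt (by positivity)]
  refine le_of_mul_le_mul_left ?_ (show 0 < P / 200 by positivity)
  refine f4.trans (le_of_eq ?_)
  linear_combination |C1| * C2 * I ^ 2 * 3 * C * e1

end Vale.Agent.P026
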