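import Vale.Agent.P026.Stm3

/-! P026: decomposition of the fixed twist into finite Fourier series. -/

noncomputable section
open Complex
open scoped Classical ComplexConjugate

namespace Vale.Agent.P026
namespace DECM

/-- the local conditions at one modulus -/
def Loc (s Q : O) (Ψ : O → ℂ) (T' : Finset O) : Prop :=
  Cf Q Ψ ∧ Q ∣ rad s ∧ T'.card ≤ 2 ^ (pf s).card ∧ (∀ s' ∈ T', AdS s Q s') ∧
    ∀ m n, IsCoprime m Q → IsCoprime n Q → ∃ z : O → ℂ, (∀ s', ‖z s'‖ ≤ wq s Q) ∧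
      ∀ D, du Q Ψ m n D = ∑ s' ∈ T', z s' * sx D s'

def Dec (s : O) : Prop := ∃ (T : Finset O) (Ψ : O → O → ℂ) (T' : O → Finset O),
  (∀ k, sx k s = ∑ Q ∈ T, fs Q (Ψ Q) k) ∧ ∀ Q ∈ T, Loc s Q (Ψ Q) (T' Q)

lemma rs1 (hB : Bas) (F : O → ℂ) (c : ℂ) (h : ∀ a, F a = c) : ∑ a ∈ Rs 1, F a = c := by
  rw [Finset.sum_congr rfl fun a _ => h a, Finset.sum_const, hB.b4.card 1 one_ne_zero,
    (hB.b1.unit_iff 1).mp isUnit_one, one_smul]

lemma fs1 (hB : Bas) (c : ℂ) (k : O) : fs 1 (fun _ => c) k = c :=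
  rs1 hB _ _ fun a => by rw [hB.b1.eQ_dvd _ _ (one_dvd _), mul_one]

lemma op1 (hB : Bas) : OP 1 := ⟨hB.b2.one, isCoprime_one_left⟩

lemma wq1 (h8 : B8) (s : O) (hs : s ≠ 0) : wq s 1 = 1 := by
  unfold wq
  rw [Finset.filter_false_of_mem fun p hp => ((h8.mem s p hs).mp hp).1.not_dvd_one, Finset.prod_empty]

lemma ads1 (hB : Bas) (h8 : B8) (s Q : O) : AdS s Q 1 :=
  ⟨op1 hB, fun p hp => by simp [h8.pf_one] at hp⟩

lemma loc1 (hB : Bas) (h8 : B8) (hX : SX) (s : O) (hs : s ≠ 0) (c : ℂ) (hc : ‖c‖ ≤ 1) :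
    Loc s 1 (fun _ => c) {1} := by
  refine ⟨⟨hB.b2.one, fun _ _ => rfl, fun a ha => absurd isCoprime_one_right ha⟩, one_dvd _,
    by simpa using Nat.one_le_two_pow, fun s' hs' => ?_, fun m n _ _ => ⟨fun _ => c, fun _ => ?_, fun D => ?_⟩⟩
  · rw [Finset.mem_singleton.mp hs']; exact ads1 hB h8 s 1
  · rw [wq1 h8 s hs]; exact hc
  · rw [Finset.sum_singleton, hX.one_r, mul_one]
    refine rs1 hB _ _ fun a => rs1 hB _ _ fun b => ?_
    rw [if_pos (one_dvd _), hB.b6.unit_r _ _ isUnit_one, hB.b1.eQ_dvd _ _ (one_dvd _), mul_one, mul_one]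

lemma dec1 (hB : Bas) (h8 : B8) (hX : SX) : Dec 1 :=
  ⟨{1}, fun _ _ => 1, fun _ => {1}, fun k => by rw [Finset.sum_singleton, fs1 hB, hX.one_r],
    fun Q hQ => by rw [Finset.mem_singleton.mp hQ]; exact loc1 hB h8 hX 1 one_ne_zero 1 (by simp)⟩

lemma sx_pow (hX : SX) (x p : O) (hp : Prime p) (i j : ℕ) (hi : i ≠ 0) :
    sx x p ^ (i + 6 * j) = sx x p ^ i := by
  by_cases h : IsCoprime x p
  · rw [pow_add, pow_mul, hX.six x p h, one_pow, mul_one]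
  · rw [hX.zero x p hp.ne_zero h, zero_pow hi, zero_pow (by omega)]

section pp
variable (hB : Bas) (h8 : B8) {p : O} {k : ℕ} (hp : Prime p) (ho : OP p) (hk : k ≠ 0)
include hB h8 hp ho

lemma op_pow (j : ℕ) : OP (p ^ j) := ⟨hB.b2.pow _ _ ho.1, ho.2.pow_left⟩

lemma vl_pp (j : ℕ) : vl p (p ^ j) = j := by
  rw [h8.vl_pow p p j hp hp.ne_zero, h8.vl_self p hp, mul_one]

include hk

lemma wq_pp : wq (p ^ k) p = N p ^ tb (-1 / 2) (1 / 2) 0 (k % 6) := by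
  unfold wq
  rw [h8.pf_pp p k hp ho.1 hk, Finset.filter_singleton, if_pos dvd_rfl, Finset.prod_singleton,
    vl_pp hB h8 hp ho]

lemma rad_pp : p ∣ rad (p ^ k) := by
  unfold rad
  rw [h8.pf_pp p k hp ho.1 hk, Finset.prod_singleton]

lemma ads_pp (j : ℕ) (hj : j ≠ 0) (h : j % 6 = (8 - k % 6) % 6) : AdS (p ^ k) p (p ^ j) := by
  refine ⟨op_pow hB h8 hp ho j, fun q hq => ?_⟩
  rw [h8.pf_pp p j hp ho.1 hj, Finset.mem_singleton] at hq
  subst hq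
  rw [h8.pf_pp q k hp ho.1 hk, vl_pp hB h8 hp ho, vl_pp hB h8 hp ho]
  exact ⟨Finset.mem_singleton_self _, dvd_rfl, h⟩

lemma loc_single (hX : SX) (Ψ : O → ℂ) (j : ℕ) (hj : j ≠ 0) (h : j % 6 = (8 - k % 6) % 6) (hc : Cf p Ψ)
    (hd : ∀ m n, ¬ p ∣ m → ¬ p ∣ n → ∃ z : ℂ, ‖z‖ ≤ N p ^ tb (-1 / 2) (1 / 2) 0 (k % 6) ∧
      ∀ D, du p Ψ m n D = z * sx D p ^ j) : Loc (p ^ k) p Ψ {p ^ j} := by
  refine ⟨hc, rad_pp hB h8 hp ho hk, by simpa using Nat.one_le_two_pow, fun s' hs' => ?_, fun m n hm hn => ?_⟩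
  · rw [Finset.mem_singleton.mp hs']; exact ads_pp hB h8 hp ho hk j hj h
  · obtain ⟨z, hz, hD⟩ := hd m n (hp.irreducible.coprime_iff_not_dvd.mp hm.symm)
      (hp.irreducible.coprime_iff_not_dvd.mp hn.symm)
    refine ⟨fun _ => z, fun _ => by rw [wq_pp hB h8 hp ho hk]; exact hz, fun D => ?_⟩
    rw [Finset.sum_singleton, hD, hX.pow_r _ _ _ hp.ne_zero]

lemma dec_pp (hX : SX) (hc : VScStmt) : Dec (p ^ k) := by
  obtain ⟨c1, ⟨Ψ2, cf2, f2, d2⟩, ⟨Ψ0, cf0, f0, d0⟩⟩ := hc p hp ho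
  have hpk := pow_ne_zero k hp.ne_zero
  by_cases h0 : k % 6 = 0
  · have hN : 1 ≤ N p := hB.b1.N_one_le p hp.ne_zero
    refine ⟨{1, p}, fun Q => if Q = 1 then fun _ => 1 - (N p : ℂ)⁻¹ else Ψ0,
      fun Q => if Q = 1 then {1} else {p ^ 2}, fun x => ?_, fun Q hQ => ?_⟩
    · rw [Finset.sum_pair hp.ne_one.symm]
      simp only [if_true, if_neg hp.ne_one]
      rw [fs1 hB, f0, hX.pow_r _ _ _ hp.ne_zero, ← sx_pow hX x p hp 6 (k / 6 - 1) (by norm_num)]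
      congr 1; omega
    · rcases Finset.mem_insert.mp hQ with rfl | hQ
      · simp only [if_true]
        refine loc1 hB h8 hX _ hpk _ ?_
        rw [show 1 - (N p : ℂ)⁻¹ = ((1 - (N p)⁻¹ : ℝ) : ℂ) by push_cast; ring, norm_real, Real.norm_eq_abs]
        have h1 : (N p)⁻¹ ≤ 1 := inv_le_one_of_one_le₀ hN
        have h2 : 0 ≤ (N p)⁻¹ := by positivity
        rw [abs_le]; constructor <;> linarith
      · rw [Finset.mem_singleton.mp hQ]
        simp only [if_neg hp.ne_one]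
        refine loc_single hB h8 hp ho hk hX Ψ0 2 two_ne_zero (by omega) cf0 fun m n hm hn => ?_
        simpa only [h0, tb, if_true] using d0 m n hm hn
  by_cases h2 : k % 6 = 2
  · have h16 : (1 : O) ≠ p ^ 6 := fun h =>
      hp.not_dvd_one (h ▸ dvd_pow_self p (by norm_num))
    refine ⟨{p}, fun _ => Ψ2, fun _ => {1, p ^ 6}, fun x => ?_, fun Q hQ => ?_⟩
    · rw [Finset.sum_singleton, f2, hX.pow_r _ _ _ hp.ne_zero, ← sx_pow hX x p hp 2 (k / 6) (by norm_num)]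
      congr 1; omega
    · rw [Finset.mem_singleton.mp hQ]
      refine ⟨cf2, rad_pp hB h8 hp ho hk, ?_, fun s' hs' => ?_, fun m n hm hn => ?_⟩
      · rw [h8.pf_pp p k hp ho.1 hk, Finset.card_singleton]; exact Finset.card_le_two
      · rcases Finset.mem_insert.mp hs' with rfl | hs'
        · exact ads1 hB h8 _ _
        · rw [Finset.mem_singleton.mp hs']
          exact ads_pp hB h8 hp ho hk 6 (by norm_num) (by omega)
      · obtain ⟨z, z', hz, hz', hD⟩ := d2 m n (hp.irreducible.coprime_iff_not_dvd.mp hm.symm)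
          (hp.irreducible.coprime_iff_not_dvd.mp hn.symm)
        refine ⟨fun s' => if s' = 1 then z else z', fun s' => ?_, fun D => ?_⟩
        · rw [wq_pp hB h8 hp ho hk, h2]
          simp only [tb, two_ne_zero, if_false, if_true]
          split_ifs; exacts [hz, hz']
        · rw [Finset.sum_pair h16, hD, hX.one_r, hX.pow_r _ _ _ hp.ne_zero]
          simp only [if_true, if_neg h16.symm, mul_one]
  · obtain ⟨Ψ, cf, f, d⟩ := c1 k h0 h2
    refine ⟨{p}, fun _ => Ψ, fun _ => {p ^ (8 - k % 6)}, fun x => ?_, fun Q hQ => ?_⟩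
    · rw [Finset.sum_singleton, f, hX.pow_r _ _ _ hp.ne_zero]
    · rw [Finset.mem_singleton.mp hQ]
      refine loc_single hB h8 hp ho hk hX Ψ _ (by omega) rfl cf fun m n hm hn => ?_
      simpa only [tb, h0, h2, if_false, Real.rpow_zero] using d m n hm hn

end pp

lemma inj (hB : Bas) {x y x' y' : O} (hx : Prim x) (hx' : Prim x') (h1 : IsCoprime x y')
    (h2 : IsCoprime x' y) (h : x * y = x' * y') : (x, y) = (x', y') := by
  have e : x = x' := hB.b2.uniq _ _ hx hx' (associated_of_dvd_dvd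
    (h1.dvd_of_dvd_mul_right (h ▸ dvd_mul_right x y)) (h2.dvd_of_dvd_mul_right (h ▸ dvd_mul_right x' y')))
  subst e
  rw [mul_left_cancel₀ (hB.b2.ne x hx) h]

lemma cop_pf (hB : Bas) (h8 : B8) {x y : O} {A B : Finset O} (hx : Prim x) (hy : Prim y)
    (h1 : ∀ p ∈ pf x, p ∈ A) (h2 : ∀ p ∈ pf y, p ∈ B) (hd : Disjoint A B) : IsCoprime x y := by
  refine isCoprime_of_prime_dvd (fun h => hB.b2.ne x hx h.1) fun z hz hzx hzy => ?_
  obtain ⟨u, hu, hp⟩ := hB.b2.ex z ((hB.b2.cop x hx).of_isCoprime_of_dvd_left hzx)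
  have ha : Associated z (u * z) := associated_unit_mul_right z u hu
  have hq : Prime (u * z) := ha.prime hz
  exact Finset.disjoint_left.mp hd
    (h1 _ ((h8.mem x _ (hB.b2.ne x hx)).mpr ⟨hq, hp, ha.symm.dvd.trans hzx⟩))
    (h2 _ ((h8.mem y _ (hB.b2.ne y hy)).mpr ⟨hq, hp, ha.symm.dvd.trans hzy⟩))

section mul
variable (hB : Bas) (h8 : B8) {a b : O} (ha : Prim a) (hb : Prim b) (hab : IsCoprime a b)
include hB h8 ha hb hab

lemma vl_left {p : O} (hp : p ∈ pf a) : vl p (a * b) = vl p a := by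
  have h1 := (h8.mem a p (hB.b2.ne a ha)).mp hp
  rw [h8.vl_mul p a b h1.1 (hB.b2.ne a ha) (hB.b2.ne b hb),
    (h8.vl_zero p b h1.1 (hB.b2.ne b hb)).mpr fun h => h1.1.not_isUnit (hab.isUnit_of_dvd' h1.2.2 h), add_zero]

lemma wq_half {Q1 Q2 : O} (h2 : Q2 ∣ b) :
    ∏ p ∈ (pf a).filter (· ∣ Q1 * Q2), N p ^ tb (-1 / 2) (1 / 2) 0 (vl p (a * b) % 6) = wq a Q1 := by
  unfold wq
  refine Finset.prod_congr (Finset.filter_congr fun p hp => ?_) fun p hp => ?_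
  · have h1 := (h8.mem a p (hB.b2.ne a ha)).mp hp
    refine ⟨fun h => (h1.1.dvd_or_dvd h).resolve_right fun h' => ?_, fun h => h.mul_right _⟩
    exact h1.1.not_isUnit (hab.isUnit_of_dvd' h1.2.2 (h'.trans h2))
  · rw [vl_left hB h8 ha hb hab (Finset.mem_filter.mp hp).1]

lemma wq_mul {Q1 Q2 : O} (h1 : Q1 ∣ a) (h2 : Q2 ∣ b) : wq (a * b) (Q1 * Q2) = wq a Q1 * wq b Q2 := by
  have hd := h8.pf_disj a b (hB.b2.ne a ha) (hB.b2.ne b hb) hab
  rw [← wq_half hB h8 ha hb hab h2, ← wq_half hB h8 hb ha hab.symm h1, mul_comm Q2 Q1, mul_comm b a]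
  unfold wq
  rw [h8.pf_mul a b (hB.b2.ne a ha) (hB.b2.ne b hb), Finset.filter_union,
    Finset.prod_union (Finset.disjoint_filter_filter hd)]

lemma ads_half {Q1 Q2 s1 s2 : O} (h1 : AdS a Q1 s1) (h2 : AdS b Q2 s2) {p : O} (hp : p ∈ pf s1) :
    p ∈ pf (a * b) ∧ p ∣ Q1 * Q2 ∧ vl p (s1 * s2) % 6 = (8 - vl p (a * b) % 6) % 6 := by
  have hd := h8.pf_disj a b (hB.b2.ne a ha) (hB.b2.ne b hb) hab
  obtain ⟨e1, e2, e3⟩ := h1.2 p hp
  have hc := cop_pf hB h8 h1.1.1 h2.1.1 (fun q hq => (h1.2 q hq).1) (fun q hq => (h2.2 q hq).1) hd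
  rw [h8.pf_mul a b (hB.b2.ne a ha) (hB.b2.ne b hb), vl_left hB h8 ha hb hab e1,
    vl_left hB h8 h1.1.1 h2.1.1 hc hp]
  exact ⟨Finset.mem_union_left _ e1, e2.mul_right _, e3⟩

lemma ads_mul {Q1 Q2 s1 s2 : O} (h1 : AdS a Q1 s1) (h2 : AdS b Q2 s2) :
    AdS (a * b) (Q1 * Q2) (s1 * s2) := by
  refine ⟨h8.op_mul _ _ h1.1 h2.1, fun p hp => ?_⟩
  rw [h8.pf_mul _ _ (hB.b2.ne _ h1.1.1) (hB.b2.ne _ h2.1.1)] at hp
  rcases Finset.mem_union.mp hp with hp | hp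
  · exact ads_half hB h8 ha hb hab h1 h2 hp
  · rw [mul_comm a, mul_comm Q1, mul_comm s1]
    exact ads_half hB h8 hb ha hab.symm h2 h1 hp

omit hB hb hab in
lemma dvd_of_rad {Q : O} (h : Q ∣ rad a) : Q ∣ a :=
  h.trans (Dvd.intro_left _ (h8.fl_rad a ha))

lemma loc_mul (hX : SX) (hV : VSaStmt) {Q1 Q2 : O} {Ψ1 Ψ2 : O → ℂ} {T1 T2 : Finset O}
    (h1 : Loc a Q1 Ψ1 T1) (h2 : Loc b Q2 Ψ2 T2) :
    ∃ (Ψ : O → ℂ) (T : Finset O), (∀ k, fs (Q1 * Q2) Ψ k = fs Q1 Ψ1 k * fs Q2 Ψ2 k) ∧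
      Loc (a * b) (Q1 * Q2) Ψ T := by
  obtain ⟨c1, r1, k1, a1, d1⟩ := h1
  obtain ⟨c2, r2, k2, a2, d2⟩ := h2
  have hd := h8.pf_disj a b (hB.b2.ne a ha) (hB.b2.ne b hb) hab
  have q1 := dvd_of_rad h8 ha r1
  have q2 := dvd_of_rad h8 hb r2
  have hQ : IsCoprime Q1 Q2 := (hab.of_isCoprime_of_dvd_left q1).of_isCoprime_of_dvd_right q2
  obtain ⟨Ψ, cf, hf, hdu⟩ := hV.2 Q1 Q2 Ψ1 Ψ2 c1 c2 hQ
  have hcop : ∀ x ∈ T1, ∀ y ∈ T2, IsCoprime x y := fun x hx y hy =>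
    cop_pf hB h8 (a1 x hx).1.1 (a2 y hy).1.1 (fun q hq => ((a1 x hx).2 q hq).1)
      (fun q hq => ((a2 y hy).2 q hq).1) hd
  have hinj : Set.InjOn (fun q : O × O => q.1 * q.2) ((T1 ×ˢ T2 : Finset (O × O)) : Set (O × O)) := by
    intro q hq q' hq' h
    have hq := Finset.mem_product.mp hq
    have hq' := Finset.mem_product.mp hq'
    exact inj hB (a1 _ hq.1).1.1 (a1 _ hq'.1).1.1 (hcop _ hq.1 _ hq'.2) (hcop _ hq'.1 _ hq.2) h
  refine ⟨Ψ, (T1 ×ˢ T2).image fun q => q.1 * q.2, hf, cf, ?_, ?_, fun s' hs' => ?_, fun m n hm hn => ?_⟩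
  · unfold rad at *
    rw [h8.pf_mul a b (hB.b2.ne a ha) (hB.b2.ne b hb), Finset.prod_union hd]
    exact mul_dvd_mul r1 r2
  · rw [h8.pf_mul a b (hB.b2.ne a ha) (hB.b2.ne b hb), Finset.card_union_of_disjoint hd, pow_add]
    exact Finset.card_image_le.trans ((Finset.card_product _ _).trans_le (Nat.mul_le_mul k1 k2))
  · obtain ⟨q, hq, rfl⟩ := Finset.mem_image.mp hs'
    have hq := Finset.mem_product.mp hq
    exact ads_mul hB h8 ha hb hab (a1 _ hq.1) (a2 _ hq.2)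
  · obtain ⟨z1, hz1, e1⟩ := d1 m (n * Q2 ^ 2) hm.of_mul_right_left
      (hn.of_mul_right_left.mul_left hQ.symm.pow_left)
    obtain ⟨z2, hz2, e2⟩ := d2 m (n * Q1 ^ 2) hm.of_mul_right_right
      (hn.of_mul_right_right.mul_left hQ.pow_left)
    let iv : O → O × O := Function.invFunOn (fun q : O × O => q.1 * q.2) ((T1 ×ˢ T2 : Finset (O × O)) : Set (O × O))
    refine ⟨fun s' => cub Q2 Q1 * cub Q1 Q2 * (z1 (iv s').1 * z2 (iv s').2), fun s' => ?_, fun D => ?_⟩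
    · rw [wq_mul hB h8 ha hb hab q1 q2, norm_mul, norm_mul, norm_mul, ← one_mul (wq a Q1 * _)]
      exact mul_le_mul (mul_le_one₀ (hB.b6.norm_le _ _) (norm_nonneg _) (hB.b6.norm_le _ _))
        (mul_le_mul (hz1 _) (hz2 _) (norm_nonneg _) ((norm_nonneg _).trans (hz1 1))) (by positivity) zero_le_one
    · rw [hdu, e1, e2, Finset.sum_image hinj, mul_assoc, Finset.sum_mul_sum, ← Finset.sum_product',
        Finset.mul_sum]
      refine Finset.sum_congr rfl fun q hq => ?_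
      have h3 : iv (q.1 * q.2) = q := hinj.leftInvOn_invFunOn hq
      have hq := Finset.mem_product.mp hq
      beta_reduce
      rw [h3, hX.mul_r _ _ _ (hB.b2.ne _ (a1 _ hq.1).1.1) (hB.b2.ne _ (a2 _ hq.2).1.1)]
      ring

lemma dec_mul (hX : SX) (hV : VSaStmt) (h1 : Dec a) (h2 : Dec b) : Dec (a * b) := by
  obtain ⟨T1, Ψ1, T1', e1, l1⟩ := h1
  obtain ⟨T2, Ψ2, T2', e2, l2⟩ := h2
  have key : ∀ q : O × O, ∃ (Ψ : O → ℂ) (T : Finset O), q ∈ T1 ×ˢ T2 →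
      (∀ k, fs (q.1 * q.2) Ψ k = fs q.1 (Ψ1 q.1) k * fs q.2 (Ψ2 q.2) k) ∧ Loc (a * b) (q.1 * q.2) Ψ T := by
    intro q
    by_cases hq : q ∈ T1 ×ˢ T2
    · have hq' := Finset.mem_product.mp hq
      obtain ⟨Ψ, T, h⟩ := loc_mul hB h8 ha hb hab hX hV (l1 _ hq'.1) (l2 _ hq'.2)
      exact ⟨Ψ, T, fun _ => h⟩
    · exact ⟨0, ∅, fun h => absurd h hq⟩
  choose G T' hG using key
  have hcop : ∀ x ∈ T1, ∀ y ∈ T2, IsCoprime x y := fun x hx y hy =>
    (hab.of_isCoprime_of_dvd_left (dvd_of_rad h8 ha (l1 x hx).2.1)).of_isCoprime_of_dvd_right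
      (dvd_of_rad h8 hb (l2 y hy).2.1)
  have hinj : Set.InjOn (fun q : O × O => q.1 * q.2) ((T1 ×ˢ T2 : Finset (O × O)) : Set (O × O)) := by
    intro q hq q' hq' h
    have hq := Finset.mem_product.mp hq
    have hq' := Finset.mem_product.mp hq'
    exact inj hB (l1 _ hq.1).1.1 (l1 _ hq'.1).1.1 (hcop _ hq.1 _ hq'.2) (hcop _ hq'.1 _ hq.2) h
  let iv : O → O × O := Function.invFunOn (fun q : O × O => q.1 * q.2) ((T1 ×ˢ T2 : Finset (O × O)) : Set (O × O))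
  have h3 : ∀ q ∈ T1 ×ˢ T2, iv (q.1 * q.2) = q := fun q hq => hinj.leftInvOn_invFunOn hq
  refine ⟨(T1 ×ˢ T2).image fun q => q.1 * q.2, fun Q => G (iv Q), fun Q => T' (iv Q), fun k => ?_,
    fun Q hQ => ?_⟩
  · rw [hX.mul_r _ _ _ (hB.b2.ne a ha) (hB.b2.ne b hb), e1, e2, Finset.sum_image hinj, Finset.sum_mul_sum,
      ← Finset.sum_product']
    refine Finset.sum_congr rfl fun q hq => ?_
    beta_reduce
    rw [h3 q hq, (hG q hq).1]
  · obtain ⟨q, hq, rfl⟩ := Finset.mem_image.mp hQ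
    simp only [h3 q hq]
    exact (hG q hq).2

end mul

end DECM

open DECM in
theorem decS (hB : Bas) (h8 : B8) (hX : SX) (ha : VSaStmt) (hc : VScStmt) : DECStmt := by
  intro s hs
  have key : ∀ c, Prim c → IsCoprime c 2 → Dec c := by
    refine hB.b2.ind (fun c => IsCoprime c 2 → Dec c) (fun _ => dec1 hB h8 hX) (fun p k hp hq h2 => ?_)
      fun a b pa pb hab h1 h2 h => ?_
    · rcases eq_or_ne k 0 with rfl | hk
      · rw [pow_zero]; exact dec1 hB h8 hX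
      · exact dec_pp hB h8 hp ⟨hq, (IsCoprime.pow_left_iff (Nat.pos_of_ne_zero hk)).mp h2⟩ hk hX hc
    · exact dec_mul hB h8 pa pb hab hX ha (h1 h.of_mul_left_left) (h2 h.of_mul_left_right)
  exact key s hs.1 hs.2

end Vale.Agent.P026
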