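import Vale.Agent.P026.Stm3

/-! P026 row EUL: the Euler product bound. -/

noncomputable section
open Complex MeasureTheory Filter Topology
open scoped Classical ComplexConjugate

namespace Vale.Agent.P026

namespace EULM

/-- abstract form: a sum over an injective family of functions is at most the product of local sums -/
theorem sum_le_prod {ι α β : Type*} (P : Finset ι) (B : Finset β) (g : ι → β → ℝ)
    (hg : ∀ p b, 0 ≤ g p b) (T : Finset α) (F : α → ι → β) (hF : ∀ x ∈ T, ∀ p ∈ P, F x p ∈ B)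
    (hinj : ∀ x ∈ T, ∀ y ∈ T, (∀ p ∈ P, F x p = F y p) → x = y) :
    ∑ x ∈ T, ∏ p ∈ P, g p (F x p) ≤ ∏ p ∈ P, ∑ b ∈ B, g p b := by
  rw [Finset.prod_sum P (fun _ => B) g]
  let e : α → (∀ a ∈ P, β) := fun x a _ => F x a
  have he : Set.InjOn e T := by
    intro x hx y hy h
    refine hinj x hx y hy fun p hp => ?_
    exact congrFun (congrFun h p) hp
  have h1 : ∑ x ∈ T, ∏ p ∈ P, g p (F x p) =
      ∑ f ∈ T.image e, ∏ p ∈ P.attach, g p.1 (f p.1 p.2) := by
    rw [Finset.sum_image he]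
    refine Finset.sum_congr rfl fun x _ => ?_
    exact (Finset.prod_attach P fun p => g p (F x p)).symm
  rw [h1]
  refine Finset.sum_le_sum_of_subset_of_nonneg ?_ fun f _ _ => Finset.prod_nonneg fun p _ => hg _ _
  intro f hf
  obtain ⟨x, hx, rfl⟩ := Finset.mem_image.1 hf
  exact Finset.mem_pi.2 fun p hp => hF x hx p hp

end EULM

theorem eulS (hB : Bas) (h8 : B8) : EULStmt := by
  intro g G T hg hG hs hloc hT
  set P : Finset O := T.biUnion fun x => pf (x.1 * x.2) with hP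
  set n : ℕ := (T ×ˢ P).sup (fun y => vl y.2 y.1.1 + vl y.2 y.1.2) + 1 with hn
  let g' : O → ℕ × ℕ → ℝ := fun p b => if b.1 = 0 ∧ b.2 = 0 then 1 else g p b.1 b.2
  have hne : ∀ x ∈ T, x.1 ≠ 0 ∧ x.2 ≠ 0 := fun x hx =>
    ⟨hB.b2.ne _ (hT x hx).1.1, hB.b2.ne _ (hT x hx).2.1⟩
  have hPm : ∀ p ∈ P, Prime p ∧ OP p := by
    intro p hp
    obtain ⟨x, hx, hpx⟩ := Finset.mem_biUnion.1 hp
    have := (h8.mem _ p (mul_ne_zero (hne x hx).1 (hne x hx).2)).1 hpx
    exact ⟨this.1, h8.op_dvd _ _ (h8.op_mul _ _ (hT x hx).1 (hT x hx).2) this.2.1 this.2.2⟩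
  have hsub : ∀ x ∈ T, pf (x.1 * x.2) ⊆ P := fun x hx =>
    Finset.subset_biUnion_of_mem (fun x : O × O => pf (x.1 * x.2)) hx
  have h1 : ∀ x ∈ T, ∏ p ∈ pf (x.1 * x.2), g p (vl p x.1) (vl p x.2) =
      ∏ p ∈ P, g' p (vl p x.1, vl p x.2) := by
    intro x hx
    have h0 := mul_ne_zero (hne x hx).1 (hne x hx).2
    rw [← Finset.prod_subset (hsub x hx) (f := fun p => g' p (vl p x.1, vl p x.2))]
    · refine Finset.prod_congr rfl fun p hp => ?_
      have hm := (h8.mem _ p h0).1 hp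
      have : ¬ (vl p x.1 = 0 ∧ vl p x.2 = 0) := by
        rintro ⟨a, b⟩
        rw [h8.vl_zero p _ hm.1 (hne x hx).1] at a
        rw [h8.vl_zero p _ hm.1 (hne x hx).2] at b
        exact (hm.1.dvd_or_dvd hm.2.2).elim a b
      simp only [g', if_neg this]
    · intro p hp hp'
      have hm := hPm p hp
      have hnd : ¬ p ∣ x.1 * x.2 := fun h => hp' ((h8.mem _ p h0).2 ⟨hm.1, hm.2.1, h⟩)
      have a : vl p x.1 = 0 := (h8.vl_zero p _ hm.1 (hne x hx).1).2 fun h => hnd (h.mul_right _)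
      have b : vl p x.2 = 0 := (h8.vl_zero p _ hm.1 (hne x hx).2).2 fun h => hnd (h.mul_left _)
      simp [g', a, b]
  rw [Finset.sum_congr rfl h1]
  have hg' : ∀ p b, 0 ≤ g' p b := by
    intro p b
    simp only [g']
    split_ifs
    · exact zero_le_one
    · exact hg _ _ _
  have h2 := EULM.sum_le_prod P (Finset.range n ×ˢ Finset.range n) g' hg' T
    (fun x p => (vl p x.1, vl p x.2)) (by
      intro x hx p hp
      have : vl p x.1 + vl p x.2 ≤ (T ×ˢ P).sup (fun y => vl y.2 y.1.1 + vl y.2 y.1.2) :=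
        Finset.le_sup (f := fun y : (O × O) × O => vl y.2 y.1.1 + vl y.2 y.1.2) (b := (x, p))
          (Finset.mem_product.2 ⟨hx, hp⟩)
      simp only [Finset.mem_product, Finset.mem_range]
      omega) (by
      intro x hx y hy h
      have hP' : ∀ p ∈ P, Prime p ∧ Prim p := fun p hp => ⟨(hPm p hp).1, (hPm p hp).2.1⟩
      have s1 : ∀ z ∈ T, pf z.1 ⊆ P ∧ pf z.2 ⊆ P := by
        intro z hz
        have := hsub z hz
        rw [h8.pf_mul _ _ (hne z hz).1 (hne z hz).2] at this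
        exact ⟨Finset.subset_union_left.trans this, Finset.subset_union_right.trans this⟩
      refine Prod.ext ?_ ?_
      · rw [h8.prod' x.1 P (hT x hx).1.1 (s1 x hx).1 hP', h8.prod' y.1 P (hT y hy).1.1 (s1 y hy).1 hP']
        refine Finset.prod_congr rfl fun p hp => ?_
        rw [show vl p x.1 = vl p y.1 from congrArg Prod.fst (h p hp)]
      · rw [h8.prod' x.2 P (hT x hx).2.1 (s1 x hx).2 hP', h8.prod' y.2 P (hT y hy).2.1 (s1 y hy).2 hP']
        refine Finset.prod_congr rfl fun p hp => ?_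
        rw [show vl p x.2 = vl p y.2 from congrArg Prod.snd (h p hp)])
  refine h2.trans ?_
  have h3 : ∀ p ∈ P, ∑ b ∈ Finset.range n ×ˢ Finset.range n, g' p b ≤ Real.exp (G p) := by
    intro p hp
    have e1 : ∀ b : ℕ × ℕ, g' p b = (if b = (0, 0) then 1 else 0) +
        (if b.1 = 0 ∧ b.2 = 0 then 0 else g p b.1 b.2) := by
      rintro ⟨j, v⟩
      by_cases h : j = 0 ∧ v = 0
      · simp [g', h.1, h.2]
      · have : ¬ ((j, v) = (0, 0)) := fun e => h (Prod.mk.inj e)
        simp only [g', if_neg h, if_neg this, zero_add]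
    simp only [e1, Finset.sum_add_distrib]
    rw [Finset.sum_product (f := fun b : ℕ × ℕ => if b.1 = 0 ∧ b.2 = 0 then 0 else g p b.1 b.2)]
    have a1 := hloc p n (hPm p hp).1 (hPm p hp).2
    have a2 : ∑ b ∈ Finset.range n ×ˢ Finset.range n, (if b = (0, 0) then (1 : ℝ) else 0) ≤ 1 := by
      rw [Finset.sum_ite_eq']
      split_ifs
      · exact le_rfl
      · exact zero_le_one
    have a3 := Real.add_one_le_exp (G p)
    linarith
  calc ∏ p ∈ P, ∑ b ∈ Finset.range n ×ˢ Finset.range n, g' p b ≤ ∏ p ∈ P, Real.exp (G p) :=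
        Finset.prod_le_prod (fun p _ => Finset.sum_nonneg fun b _ => hg' p b) h3
    _ = Real.exp (∑ p ∈ P, G p) := (Real.exp_sum _ _).symm
    _ ≤ Real.exp (∑' p, G p) := Real.exp_le_exp.2 (hs.sum_le_tsum P fun p _ => hG p)

end Vale.Agent.P026
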