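import Vale.Agent.P026.Stm3

noncomputable section
open Complex
open scoped Classical ComplexConjugate

namespace Vale.Agent.P026

namespace EXPM

theorem cop (hB : Bas) {p q : O} (hp : Prime p) (hp' : Prim p) (hq : Prime q) (hq' : Prim q)
    (h : p ≠ q) : IsCoprime p q := by
  rw [hp.irreducible.coprime_iff_not_dvd]
  intro hd
  exact h (hB.b2.uniq p q hp' hq' (hp.associated_of_dvd hq hd))

theorem op_one (hB : Bas) : OP (1 : O) := ⟨hB.b2.one, isCoprime_one_left⟩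

theorem op_pow (hB : Bas) {p : O} (hp : OP p) (k : ℕ) : OP (p ^ k) :=
  ⟨hB.b2.pow p k hp.1, hp.2.pow_left⟩

theorem op_prod (hB : Bas) (h8 : B8) (Q : Finset O) (f : O → ℕ) (hQ : ∀ p ∈ Q, Prime p ∧ OP p) :
    OP (∏ p ∈ Q, p ^ f p) :=
  Finset.prod_induction _ OP (fun a b => h8.op_mul a b) (op_one hB)
    fun p hp => op_pow hB (hQ p hp).2 _

theorem cop_prod (hB : Bas) (Q R : Finset O) (f g : O → ℕ) (hQ : ∀ p ∈ Q, Prime p ∧ OP p)
    (hR : ∀ p ∈ R, Prime p ∧ OP p) (hd : Disjoint Q R) :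
    IsCoprime (∏ p ∈ Q, p ^ f p) (∏ p ∈ R, p ^ g p) :=
  IsCoprime.prod_left fun p hp => IsCoprime.prod_right fun q hq =>
    (cop hB (hQ p hp).1 (hQ p hp).2.1 (hR q hq).1 (hR q hq).2.1
      (fun h => Finset.disjoint_left.1 hd hp (h ▸ hq))).pow

theorem Kn_prod (hB : Bas) (h8 : B8) (hK : KM) {κ : ℕ} (hκ : κ = 1 ∨ κ = 3) (m : O) (f g : O → ℕ)
    (Q : Finset O) (hQ : ∀ p ∈ Q, Prime p ∧ OP p) :
    Kn κ (∏ p ∈ Q, p ^ f p) (∏ p ∈ Q, p ^ g p) m = ∏ p ∈ Q, Kn κ (p ^ f p) (p ^ g p) m := by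
  induction Q using Finset.induction_on with
  | empty => simp [hK.one]
  | insert a Q ha ih =>
    have hQ' : ∀ p ∈ Q, Prime p ∧ OP p := fun p hp => hQ p (Finset.mem_insert_of_mem hp)
    have ha' := hQ a (Finset.mem_insert_self a Q)
    rw [Finset.prod_insert ha, Finset.prod_insert ha, Finset.prod_insert ha, ← ih hQ']
    refine hK.mul κ _ _ _ _ m hκ (op_pow hB ha'.2 _) (op_pow hB ha'.2 _) (op_prod hB h8 Q f hQ')
      (op_prod hB h8 Q g hQ') ?_
    have h1 : ∀ (i : ℕ) (f : O → ℕ), IsCoprime (a ^ i) (∏ p ∈ Q, p ^ f p) := fun i f => by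
      have := cop_prod hB {a} Q (fun _ => i) f (by simpa using ha') hQ' (by simpa using ha)
      simpa using this
    exact IsCoprime.mul_left (IsCoprime.mul_right (h1 _ _) (h1 _ _))
      (IsCoprime.mul_right (h1 _ _) (h1 _ _))

theorem part2 (hB : Bas) (h8 : B8) (hK : KM) {κ : ℕ} (hκ : κ = 1 ∨ κ = 3) (k m : O) (P : Finset O)
    (hk : OP k) (hP : ∀ p ∈ P, Prime p ∧ OP p) (hs : pf k ⊆ P) :
    ∏ p ∈ P, al κ p m (vl p k) = if Squarefree k then Kn κ k 1 m else 0 := by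
  have k0 : k ≠ 0 := hB.b2.ne k hk.1
  split_ifs with h
  · have e := h8.prod' k P hk.1 hs fun p hp => ⟨(hP p hp).1, (hP p hp).2.1⟩
    have := Kn_prod hB h8 hK hκ m (fun p => vl p k) (fun _ => 0) P hP
    simp only [pow_zero, Finset.prod_const_one] at this
    rw [← e] at this
    rw [this]
    refine Finset.prod_congr rfl fun p hp => ?_
    by_cases hd : p ∣ k
    · rw [(h8.sqf k hk.1).1 h p ((h8.mem k p k0).2 ⟨(hP p hp).1, (hP p hp).2.1, hd⟩)]
      simp [al]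
    · rw [(h8.vl_zero p k (hP p hp).1 k0).2 hd]
      simp [al, hK.one]
  · rw [h8.sqf k hk.1] at h
    push Not at h
    obtain ⟨p, hp, h1⟩ := h
    have hm := (h8.mem k p k0).1 hp
    have h0 : vl p k ≠ 0 := fun h => (h8.vl_zero p k hm.1 k0).1 h hm.2.2
    exact Finset.prod_eq_zero (hs hp) (by simp [al, h0, h1])

/-- the unitary divisor attached to a set of primes -/
def Ed (k : O) (t : Finset O) : O := ∏ p ∈ t, p ^ vl p k

theorem split (hB : Bas) (h8 : B8) {k : O} {P t : Finset O} (hk : OP k)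
    (hP : ∀ p ∈ P, Prime p ∧ OP p) (hs : pf k ⊆ P) (ht : t ⊆ P) :
    UD (Ed k t) k ∧ k / Ed k t = Ed k (P \ t) := by
  have e := h8.prod' k P hk.1 hs fun p hp => ⟨(hP p hp).1, (hP p hp).2.1⟩
  have e2 : Ed k t * Ed k (P \ t) = k := by
    unfold Ed
    rw [mul_comm, Finset.prod_sdiff ht, ← e]
  have h0 : Ed k t ≠ 0 := hB.b2.ne _ (op_prod hB h8 t _ fun p hp => hP p (ht hp)).1
  have e3 : k / Ed k t = Ed k (P \ t) := by
    conv_lhs => rw [← e2]
    rw [e2]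
    exact (EuclideanDomain.eq_div_of_mul_eq_right h0 e2).symm
  refine ⟨⟨⟨_, e2.symm⟩, ?_⟩, e3⟩
  rw [e3]
  exact cop_prod hB t (P \ t) _ _ (fun p hp => hP p (ht hp))
    (fun p hp => hP p (Finset.mem_sdiff.1 hp).1) Finset.disjoint_sdiff

theorem vl_Ed (h8 : B8) (k : O) {t : Finset O} (ht : ∀ p ∈ t, Prime p ∧ OP p) {q : O} (hq : Prime q)
    (hq' : Prim q) : vl q (Ed k t) = if q ∈ t then vl q k else 0 :=
  h8.vl_prod t (fun p => vl p k) q (fun p hp => ⟨(ht p hp).1, (ht p hp).2.1⟩) hq hq'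

theorem pf_Ed (hB : Bas) (h8 : B8) (k : O) {t : Finset O} (ht : ∀ p ∈ t, Prime p ∧ OP p)
    (h1 : ∀ p ∈ t, 1 ≤ vl p k) : pf (Ed k t) = t := by
  have h0 : Ed k t ≠ 0 := hB.b2.ne _ (op_prod hB h8 t _ ht).1
  ext q
  rw [h8.mem _ q h0]
  constructor
  · rintro ⟨a, b, c⟩
    by_contra hn
    have := vl_Ed h8 k ht a b
    rw [if_neg hn] at this
    exact (h8.vl_zero q _ a h0).1 this c
  · intro hq
    refine ⟨(ht q hq).1, (ht q hq).2.1, ?_⟩
    exact (dvd_pow_self q (by have := h1 q hq; omega)).trans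
      (Finset.dvd_prod_of_mem (fun p => p ^ vl p k) hq)

theorem vl_UD (hB : Bas) (h8 : B8) {E k p : O} (hE : OP E) (hk : OP k) (hU : UD E k)
    (hp : p ∈ pf E) : vl p k = vl p E := by
  have E0 : E ≠ 0 := hB.b2.ne _ hE.1
  have k0 : k ≠ 0 := hB.b2.ne _ hk.1
  have hm := (h8.mem E p E0).1 hp
  have e : E * (k / E) = k := EuclideanDomain.mul_div_cancel' E0 hU.1
  have q0 : k / E ≠ 0 := fun h => k0 (by rw [← e, h, mul_zero])
  have h1 := h8.vl_mul p E (k / E) hm.1 E0 q0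
  rw [e] at h1
  have h2 : vl p (k / E) = 0 := (h8.vl_zero p _ hm.1 q0).2 fun hd =>
    hm.1.not_unit (hU.2.isUnit_of_dvd' hm.2.2 hd)
  omega

end EXPM

open EXPM in
theorem expS (hB : Bas) (h8 : B8) (hK : KM) : EXPStmt := by
  intro κ k1 k2 m P D hκ h1 h2 hP s1 s2 hD hD'
  refine ⟨?_, part2 hB h8 hK hκ k1 m P h1 hP s1⟩
  have k0 : k1 ≠ 0 := hB.b2.ne _ h1.1
  let c : O → Prop := fun p => vl p k1 = vl p k2 ∧ 1 ≤ vl p k1 ∧ p ^ (vl p k1 - 1) ∣ m
  have e1 : ∏ p ∈ P, Kl κ p m (vl p k1) (vl p k2) = ∏ p ∈ P,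
      ((if c p then (cl κ p (vl p k1) : ℂ) else 0) + Kn κ (p ^ vl p k1) (p ^ vl p k2) m) :=
    Finset.prod_congr rfl fun p _ => by unfold Kl; rw [add_comm]
  rw [e1, Finset.prod_add, ← Finset.sum_filter]
  have e2 : ∀ t ∈ P.powerset, (∏ p ∈ t, (if c p then (cl κ p (vl p k1) : ℂ) else 0)) *
      ∏ p ∈ P \ t, Kn κ (p ^ vl p k1) (p ^ vl p k2) m = if ∀ p ∈ t, c p then
      (∏ p ∈ t, (cl κ p (vl p k1) : ℂ)) * Kn κ (Ed k1 (P \ t)) (Ed k2 (P \ t)) m else 0 := by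
    intro t _
    rw [Finset.prod_ite_zero]
    unfold Ed
    rw [Kn_prod hB h8 hK hκ m _ _ _ fun p hp => hP p (Finset.mem_sdiff.1 hp).1]
    split_ifs <;> simp
  rw [Finset.sum_congr rfl e2, ← Finset.sum_filter]
  have hE : ∀ t, t ⊆ P → (∀ p ∈ t, c p) → Ed k2 t = Ed k1 t := fun t _ hc =>
    Finset.prod_congr rfl fun p hp => by rw [(hc p hp).1]
  refine Finset.sum_nbij' (Ed k1) pf ?_ ?_ ?_ ?_ ?_
  · intro t ht
    obtain ⟨ht, hc⟩ := Finset.mem_filter.1 ht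
    rw [Finset.mem_powerset] at ht
    have htP : ∀ p ∈ t, Prime p ∧ OP p := fun p hp => hP p (ht hp)
    have u1 := (split hB h8 h1 hP s1 ht).1
    have u2 := (split hB h8 h2 hP s2 ht).1
    rw [hE t ht hc] at u2
    refine Finset.mem_filter.2 ⟨hD' _ (op_prod hB h8 t _ htP).1 u1.1, u1, u2, ?_⟩
    unfold fl
    rw [pf_Ed hB h8 k1 htP fun p hp => (hc p hp).2.1]
    refine Finset.prod_dvd_of_coprime (fun p hp q hq hpq => ?_) fun p hp => ?_
    · exact (cop hB (htP p hp).1 (htP p hp).2.1 (htP q hq).1 (htP q hq).2.1 hpq).pow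
    · rw [vl_Ed h8 k1 htP (htP p hp).1 (htP p hp).2.1, if_pos hp]
      exact (hc p hp).2.2
  · intro E hE
    obtain ⟨hE, u1, u2, hf⟩ := Finset.mem_filter.1 hE
    have oE := hD E hE
    have E0 : E ≠ 0 := hB.b2.ne _ oE.1
    refine Finset.mem_filter.2 ⟨Finset.mem_powerset.2 fun p hp => ?_, fun p hp => ?_⟩
    · have hm := (h8.mem E p E0).1 hp
      exact s1 ((h8.mem k1 p k0).2 ⟨hm.1, hm.2.1, hm.2.2.trans u1.1⟩)
    · have hm := (h8.mem E p E0).1 hp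
      have a1 := vl_UD hB h8 oE h1 u1 hp
      have a2 := vl_UD hB h8 oE h2 u2 hp
      refine ⟨a1.trans a2.symm, ?_, ?_⟩
      · rw [a1]
        exact Nat.one_le_iff_ne_zero.2 fun h => (h8.vl_zero p E hm.1 E0).1 h hm.2.2
      · rw [a1]
        exact (Finset.dvd_prod_of_mem (fun p => p ^ (vl p E - 1)) hp).trans hf
  · intro t ht
    obtain ⟨ht, hc⟩ := Finset.mem_filter.1 ht
    rw [Finset.mem_powerset] at ht
    exact pf_Ed hB h8 k1 (fun p hp => hP p (ht hp)) fun p hp => (hc p hp).2.1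
  · intro E hE
    obtain ⟨hE, u1, -, -⟩ := Finset.mem_filter.1 hE
    have oE := hD E hE
    conv_rhs => rw [h8.prod E oE.1]
    exact Finset.prod_congr rfl fun p hp => by rw [vl_UD hB h8 oE h1 u1 hp]
  · intro t ht
    obtain ⟨ht, hc⟩ := Finset.mem_filter.1 ht
    rw [Finset.mem_powerset] at ht
    have htP : ∀ p ∈ t, Prime p ∧ OP p := fun p hp => hP p (ht hp)
    have u1 := (split hB h8 h1 hP s1 ht).2
    have u2 := (split hB h8 h2 hP s2 ht).2
    rw [hE t ht hc] at u2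
    rw [u1, u2]
    congr 1
    unfold cE
    rw [pf_Ed hB h8 k1 htP fun p hp => (hc p hp).2.1]
    push_cast
    exact Finset.prod_congr rfl fun p hp => by
      rw [vl_Ed h8 k1 htP (htP p hp).1 (htP p hp).2.1, if_pos hp]

end Vale.Agent.P026
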