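import Vale.Agent.P026.Stm3

/-! The level 2 input. -/

noncomputable section
open Complex
open scoped Classical ComplexConjugate

namespace Vale.Agent.P026

namespace F3M

theorem mono {κ : ℕ} {J : ℤ} {s : O} {H Z t B B' : ℝ} (h : FB κ J s H Z t (B ^ 2)) (h0 : 0 ≤ B)
    (k : B ≤ B') : FB κ J s H Z t (B' ^ 2) := fun r φ S a b =>
  (h r φ S a b).trans (pow_le_pow_left₀ h0 k 2)

theorem mw0 (a : ℕ → ℝ) (s : O) : 0 ≤ mw a s :=
  Finset.prod_nonneg fun _ _ => Real.rpow_nonneg (Nat.cast_nonneg _) _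

theorem mw1 (s : O) : mw (tb 0 0 0) s = 1 := Finset.prod_eq_one fun _ _ => by simp [tb]

end F3M

open F3M in
theorem f3S (h8 : B8) (h3 : L3Stmt) (hR : REDStmt) (hV : VSStmt) : F3Stmt := fun ε hε => by
  obtain ⟨δ, d0, d1, d2⟩ : ∃ δ : ℝ, 0 < δ ∧ 14 * δ ≤ ε ∧ 14 * δ ≤ 1 :=
    ⟨min ε 1 / 14, by positivity, by linarith [min_le_left ε 1], by linarith [min_le_right ε 1]⟩
  obtain ⟨C1, c1, h1⟩ := h3 δ d0
  obtain ⟨C2, c2, h2⟩ := hR δ d0
  obtain ⟨C3, c3, h4⟩ := hV 0 (3 / 4) (2 * δ) (by norm_num) (by positivity) (by linarith)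
  refine ⟨1 + C3 * (C2 * C1), le_add_of_nonneg_right (by positivity), fun J hJ s H Y t hs hH hY => ?_⟩
  have H0 : 0 ≤ H := by linarith
  have r1 := h8.rd_ge s
  have m0 := mw0 (tb 0 (1 / 2) 0) s
  have m1 := mw0 (tb 1 2 (3 / 2)) s
  refine mono (h4 3 J H (C2 * C1 * Real.sqrt H) (C2 * C1 * H ^ (1 / 4 : ℝ)) 0 0 0 0 (1 / 2) 0 1 2 (3 / 2)
    (Or.inl rfl) hJ hH (by positivity) ?_ le_rfl le_rfl le_rfl le_rfl zero_le_one (by norm_num)
    (by norm_num) le_rfl (by norm_num) (by norm_num) (by norm_num) (fun s' Z t' hs' hZ => ?_) s Y t hs hY)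
    (by positivity) ?_
  · rw [Real.sqrt_eq_rpow]
    exact mul_le_mul_of_nonneg_left (Real.rpow_le_rpow_of_exponent_le hH (by norm_num)) (by positivity)
  · have m := (lt_min one_pos hZ).le
    refine mono (h2 5 (-J) s' H t' (C1 * Real.sqrt H) (C1 * H ^ (1 / 4 : ℝ)) (3 / 4) hs' (by positivity)
      (by positivity) (by norm_num) (by norm_num) (fun Z hZ => h1 (-J) s' H Z t' hH hZ) Z hZ)
      (by positivity) ?_
    rw [mw1, pow_zero, mul_one, mul_one]
    have := Real.one_le_rpow (h8.rd_ge s') (show 0 ≤ 2 * δ by positivity)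
    refine le_trans (le_of_eq (by ring)) (mul_le_mul_of_nonneg_right
      (le_mul_of_one_le_right (by positivity) this) (by positivity))
  · have u1 : 1 ≤ 1 + H ^ 2 / Y := le_add_of_nonneg_right (by positivity)
    have e1 : rd s ^ (7 * (2 * δ)) * (1 + H ^ 2 / Y) ^ (2 * (2 * δ)) ≤
        (rd s * H * (1 + H ^ 2 / Y)) ^ ε := by
      rw [Real.mul_rpow (by positivity) (by positivity)]
      exact mul_le_mul ((Real.rpow_le_rpow_of_exponent_le r1 (by linarith)).trans
        (Real.rpow_le_rpow (by positivity) (le_mul_of_one_le_right (by positivity) hH) hε.le))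
        (Real.rpow_le_rpow_of_exponent_le u1 (by linarith)) (by positivity) (by positivity)
    refine mul_le_mul_of_nonneg_right (le_trans (le_of_eq (by ring)) (mul_le_mul_of_nonneg_right
      (mul_le_mul (le_add_of_nonneg_left zero_le_one) e1 (by positivity) (by positivity))
      (by positivity))) (by positivity)

end Vale.Agent.P026
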