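import Vale.Agent.P026.Stm3

/-! P026: level 1 input from level 2, reduction and the Voronoi step. -/

noncomputable section
open Complex

namespace Vale.Agent.P026

namespace F5M

theorem fb_mono {κ : ℕ} {J : ℤ} {s : O} {H Z t x y : ℝ} (h : FB κ J s H Z t (x ^ 2)) (h0 : 0 ≤ x)
    (hxy : x ≤ y) : FB κ J s H Z t (y ^ 2) :=
  fun r φ S h1 h2 => (h r φ S h1 h2).trans (pow_le_pow_left₀ h0 hxy 2)

theorem mw_nonneg (a : ℕ → ℝ) (s : O) : 0 ≤ mw a s :=
  Finset.prod_nonneg fun _ _ => Real.rpow_nonneg (Nat.cast_nonneg _) _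

end F5M

open F5M in
theorem f5S (h8 : B8) (h2 : L2Stmt) (hR : REDStmt) (hV : VSStmt) : F5Stmt := by
  intro ε hε
  obtain ⟨η, hη, hη1, hη2⟩ : ∃ η : ℝ, 0 < η ∧ 14 * η ≤ ε ∧ η ≤ 1 / 14 :=
    ⟨min (ε / 14) (1 / 14), lt_min (by positivity) (by norm_num),
      by linarith [min_le_left (ε / 14) (1 / 14)], min_le_right _ _⟩
  obtain ⟨C2, hC2, h2⟩ := h2 η hη
  obtain ⟨CR, hCR, hR⟩ := hR η hη
  obtain ⟨CV, hCV, hV⟩ := hV 4 (9 / 14) (2 * η) (by norm_num) (by positivity) (by linarith)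
  refine ⟨max 1 (CV * (CR * C2)), le_max_left _ _, fun s H Y t hs hH hY => ?_⟩
  have hH0 : 0 ≤ H := by linarith
  have hsq : 1 ≤ Real.sqrt H := Real.one_le_sqrt.2 hH
  have hHe : 0 ≤ H ^ η := Real.rpow_nonneg hH0 _
  have key := hV 5 1 H (CR * C2 * H ^ η * Real.sqrt H) (CR * C2 * H ^ η) (2 / 7) (4 / 7) (3 / 7)
    (1 / 14) (11 / 14) (3 / 7) (19 / 14) (29 / 14) (12 / 7) (Or.inr rfl) (Or.inl rfl) hH
    (by positivity) (le_mul_of_one_le_right (by positivity) hsq) (by norm_num) (by norm_num)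
    (by norm_num) (by norm_num) (by norm_num) (by norm_num) (by norm_num) (by norm_num)
    (by norm_num) (by norm_num) (by norm_num) ?_ s Y t hs hY
  · have hr := h8.rd_ge s
    have hW : 1 ≤ 1 + H ^ 2 / Y := by
      have : 0 ≤ H ^ 2 / Y := by positivity
      linarith
    have ha := mw_nonneg (tb (1 / 14) (11 / 14) (3 / 7)) s
    have hc := mw_nonneg (tb (19 / 14) (29 / 14) (12 / 7)) s
    have hq : 0 ≤ (H ^ 2 / Y) ^ (9 / 14 : ℝ) := by positivity
    refine fb_mono key (by positivity) ?_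
    rw [Real.rpow_zero, Real.mul_rpow (by positivity) (by positivity),
      Real.mul_rpow (by positivity) hH0]
    have e1 : rd s ^ (7 * (2 * η)) ≤ rd s ^ ε := Real.rpow_le_rpow_of_exponent_le hr (by linarith)
    have e2 : H ^ η ≤ H ^ ε := Real.rpow_le_rpow_of_exponent_le hH (by linarith)
    have e3 : (1 + H ^ 2 / Y) ^ (2 * (2 * η)) ≤ (1 + H ^ 2 / Y) ^ ε :=
      Real.rpow_le_rpow_of_exponent_le hW (by linarith)
    have e4 := le_max_right 1 (CV * (CR * C2))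
    calc _ = CV * (CR * C2) * (rd s ^ (7 * (2 * η)) * H ^ η * (1 + H ^ 2 / Y) ^ (2 * (2 * η))) *
          (Real.sqrt H * mw (tb (1 / 14) (11 / 14) (3 / 7)) s +
            1 * mw (tb (19 / 14) (29 / 14) (12 / 7)) s * (H ^ 2 / Y) ^ (9 / 14 : ℝ)) *
          (1 + |t|) ^ 8 := by ring
      _ ≤ _ := by gcongr
  · intro s' Z t' hs' hZ
    have hr := h8.rd_ge s'
    have hq := mw_nonneg (tb (2 / 7) (4 / 7) (3 / 7)) s'
    have h3 := hR 3 (-1) s' H t' (C2 * (rd s' * H) ^ η * (1 + |t'|) ^ 4 * Real.sqrt H)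
      (C2 * (rd s' * H) ^ η * (1 + |t'|) ^ 4 * mw (tb (2 / 7) (4 / 7) (3 / 7)) s') (9 / 14) hs'
      (by positivity) (by positivity) (by norm_num) (by norm_num)
      (fun Z' hZ' => h2 (-1) s' H Z' t' (Or.inr rfl) hs' hH hZ') Z hZ
    have hm : 0 ≤ min 1 Z := le_min zero_le_one hZ.le
    refine fb_mono h3 (by positivity) ?_
    rw [Real.mul_rpow (by positivity) hH0]
    have e1 : rd s' ^ η ≤ rd s' ^ (2 * η) := Real.rpow_le_rpow_of_exponent_le hr (by linarith)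
    calc _ = min 1 Z * (1 + Z) ^ (2 * η) * rd s' ^ η * (CR * C2 * H ^ η * Real.sqrt H +
          CR * C2 * H ^ η * mw (tb (2 / 7) (4 / 7) (3 / 7)) s' * Z ^ (9 / 14 : ℝ)) *
          (1 + |t'|) ^ 4 := by ring
      _ ≤ _ := by gcongr

end Vale.Agent.P026
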