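import Vale.Agent.P026.Stm2
import Vale.Agent.P026.M.ZK

/-! P026: from a power saving for smoothed Moebius sums to a zero free half plane. -/

noncomputable section
open Complex MeasureTheory Filter Topology Set Asymptotics
open scoped Classical ComplexConjugate

namespace Vale.Agent.P026

namespace ENDM

lemma VV_nonneg (Y x : ℝ) : 0 ≤ VV Y x := (Real.exp_pos _).le

/-- continuation of a Dirichlet series from a bound for the smoothed sums -/
theorem cont (hL : LN) {ι : Type} [Countable ι] (c : ι → ℂ) (x : ι → ℝ) (hx : ∀ i, c i ≠ 0 → 0 < x i)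
    {a σ C : ℝ} (hc : ∀ b, a < b → Summable fun i => ‖c i‖ * x i ^ (-b))
    (h : ∀ Y : ℝ, 1 ≤ Y → ‖∑' i, c i * VV Y (x i)‖ ≤ C * Y ^ σ) :
    ∃ G : ℂ → ℂ, DifferentiableOn ℂ G {s | σ < s.re} ∧
      ∀ s : ℂ, a < s.re → G s = Real.sqrt Real.pi * cexp (s ^ 2 / 4) *
        ∑' i, c i * (x i : ℂ) ^ (-s) := by
  set A : ℝ → ℂ := fun Y => ∑' i, c i * VV Y (x i) with hA
  have bd : ∀ (B Y : ℝ) i, 0 < Y → ‖c i * VV Y (x i)‖ ≤
      Real.exp (B ^ 2 / 4) * Y ^ B * (‖c i‖ * x i ^ (-B)) := fun B Y i hY => by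
    by_cases k : c i = 0
    · simp [k]
    · have := hL.le B Y (x i) hY (hx i k)
      rw [Real.div_rpow hY.le (hx i k).le, div_eq_mul_inv (Y ^ B), ← Real.rpow_neg (hx i k).le] at this
      rw [norm_mul, norm_real, Real.norm_of_nonneg (VV_nonneg _ _)]
      calc _ ≤ ‖c i‖ * _ := mul_le_mul_of_nonneg_left this (norm_nonneg _)
        _ = _ := by ring
  have co : ContinuousOn A (Ioi 0) := fun y hy => by
    have : ContinuousOn A (Ioo 0 (y + 1)) := by
      refine continuousOn_tsum (fun i => ?_) ((hc (|a| + 1) (by linarith [le_abs_self a])).mul_left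
        (Real.exp ((|a| + 1) ^ 2 / 4) * (y + 1) ^ (|a| + 1))) fun i Y hY =>
        (bd (|a| + 1) Y i hY.1).trans ?_
      · by_cases k : c i = 0
        · simp only [k, zero_mul]; exact continuousOn_const
        · refine continuousOn_const.mul (continuous_ofReal.comp_continuousOn
            (Real.continuous_exp.comp_continuousOn (ContinuousOn.neg (ContinuousOn.pow
              (ContinuousOn.log (continuousOn_const.div continuousOn_id fun Y hY => hY.1.ne')
                fun Y hY => (div_pos (hx i k) hY.1).ne') 2))))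
      · by_cases k : c i = 0
        · simp [k]
        · have := (hx i k).le
          gcongr
          · exact hY.1.le
          · exact hY.2.le
    exact (this.continuousAt (Ioo_mem_nhds hy (by linarith))).continuousWithinAt
  refine ⟨fun s => mellin A (-s), fun s hs => ?_, fun s hs => ?_⟩
  · refine (DifferentiableAt.comp s (g := mellin A) (f := fun s => -s)
      (mellin_differentiableAt_of_isBigO_rpow (a := -σ) (b := -(|a| + |s.re| + 1))
      (co.locallyIntegrableOn measurableSet_Ioi) ?_ ?_ ?_ ?_)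
      differentiableAt_id.neg).differentiableWithinAt
    · refine IsBigO.of_bound C ?_
      filter_upwards [eventually_ge_atTop 1] with Y hY
      rw [neg_neg, Real.norm_of_nonneg (by positivity)]
      exact h Y hY
    · rw [neg_re]; exact neg_lt_neg hs
    · have s1 := hc (|a| + |s.re| + 1) (by linarith [le_abs_self a, abs_nonneg s.re])
      refine IsBigO.of_bound (Real.exp ((|a| + |s.re| + 1) ^ 2 / 4) *
        ∑' i, ‖c i‖ * x i ^ (-(|a| + |s.re| + 1))) ?_
      filter_upwards [self_mem_nhdsWithin] with Y hY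
      rw [neg_neg, Real.norm_of_nonneg (Real.rpow_nonneg (le_of_lt hY) _), mul_right_comm,
        ← tsum_mul_left]
      exact tsum_of_norm_bounded (s1.mul_left _).hasSum fun i => bd _ Y i hY
    · rw [neg_re]; linarith [le_abs_self s.re, abs_nonneg a]
  · have sp : (Real.sqrt Real.pi : ℂ) ≠ 0 := by
      exact_mod_cast (Real.sqrt_pos.2 Real.pi_pos).ne'
    have i1 : ∀ i, Integrable (fun Y : ℝ => c i * ((VV Y (x i) : ℂ) * (Y : ℂ) ^ (-s - 1)))
        (volume.restrict (Ioi 0)) := fun i => by
      by_cases k : c i = 0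
      · simp [k]
      · refine (Integrable.of_integral_ne_zero ?_).const_mul _
        rw [hL.fwd _ _ (hx i k)]
        exact mul_ne_zero (mul_ne_zero sp (exp_ne_zero _))
          (by rw [Ne, cpow_eq_zero_iff]; exact fun h => (hx i k).ne' (by exact_mod_cast h.1))
    have i2 : ∀ i, ∫ Y in Ioi (0 : ℝ), ‖c i * ((VV Y (x i) : ℂ) * (Y : ℂ) ^ (-s - 1))‖ =
        ‖(Real.sqrt Real.pi : ℂ) * cexp ((s.re : ℂ) ^ 2 / 4)‖ * (‖c i‖ * x i ^ (-s.re)) := by
      intro i
      by_cases k : c i = 0
      · simp [k]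
      · have e := hL.fwd _ (s.re : ℂ) (hx i k)
        have e2 : ∫ Y in Ioi (0 : ℝ), (VV Y (x i) : ℂ) * (Y : ℂ) ^ (-(s.re : ℂ) - 1) =
            ((∫ Y in Ioi (0 : ℝ), VV Y (x i) * Y ^ (-s.re - 1) : ℝ) : ℂ) := by
          rw [← integral_complex_ofReal]
          refine setIntegral_congr_fun measurableSet_Ioi fun Y hY => ?_
          rw [ofReal_mul, ofReal_cpow (le_of_lt hY)]
          push_cast
          rfl
        have e3 := congrArg norm (e2.symm.trans e)
        rw [norm_real, Real.norm_of_nonneg (setIntegral_nonneg measurableSet_Ioi fun Y hY =>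
          mul_nonneg (VV_nonneg _ _) (Real.rpow_nonneg (le_of_lt hY) _)), norm_mul _ (_ ^ _),
          norm_cpow_eq_rpow_re_of_pos (hx i k), neg_re, ofReal_re] at e3
        rw [mul_left_comm, ← e3, ← integral_const_mul]
        refine setIntegral_congr_fun measurableSet_Ioi fun Y hY => ?_
        rw [norm_mul, norm_mul, norm_real, Real.norm_of_nonneg (VV_nonneg _ _),
          norm_cpow_eq_rpow_re_of_pos hY]
        simp
    have e := integral_tsum_of_summable_integral_norm i1
      (((hc _ hs).mul_left _).congr fun i => (i2 i).symm)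
    simp only [mellin]
    rw [← tsum_mul_left]
    refine Eq.trans (setIntegral_congr_fun measurableSet_Ioi fun Y _ => ?_)
      (e.symm.trans (tsum_congr fun i => ?_))
    · simp only [hA, smul_eq_mul]
      rw [← tsum_mul_left]
      exact tsum_congr fun i => by ring
    · by_cases k : c i = 0
      · simp [k]
      · rw [integral_const_mul, hL.fwd _ _ (hx i k)]; ring

/-- the identity theorem turns `G ζ H = E` into a zero free region -/
theorem zero_free {G H E : ℂ → ℂ} {σ a : ℝ} (hG : DifferentiableOn ℂ G {s | σ < s.re})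
    (hH : Differentiable ℂ H) (hE : Differentiable ℂ E) (hE0 : ∀ s, E s ≠ 0)
    (h : ∀ s : ℂ, a < s.re → G s * (riemannZeta s * H s) = E s) {s : ℂ} (hs : σ < s.re) :
    riemannZeta s ≠ 0 := by
  intro hz
  have s1 : s ≠ 1 := by
    rintro rfl
    exact riemannZeta_ne_zero_of_one_le_re (by simp) hz
  have op : IsOpen {s : ℂ | σ < s.re} := isOpen_lt continuous_const continuous_re
  set b : ℝ := |σ| + |a| + 2 with hb
  have b1 : σ < b := by linarith [le_abs_self σ, abs_nonneg a]
  have b2 : max a 1 < b := max_lt (by linarith [le_abs_self a, abs_nonneg σ])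
    (by linarith [abs_nonneg a, abs_nonneg σ])
  have key := AnalyticOnNhd.eqOn_of_preconnected_of_eventuallyEq (𝕜 := ℂ)
    (f := fun s => G s * (riemannZeta₁ s * H s)) (g := fun s => (s - 1) * E s)
    ((hG.mul (differentiable_riemannZeta₁.mul hH).differentiableOn).analyticOnNhd op)
    (((differentiable_id.sub_const 1).mul hE).differentiableOn.analyticOnNhd op)
    (convex_halfSpace_re_gt σ).isPreconnected (z₀ := (b : ℂ)) (by simpa using b1) (by
      filter_upwards [(isOpen_lt continuous_const continuous_re).mem_nhds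
        (show (b : ℂ) ∈ {s : ℂ | max a 1 < s.re} by simpa using b2)] with z hz
      have z1 : z ≠ 1 := by
        rintro rfl
        simp at hz
      rw [← h z ((le_max_left _ _).trans_lt hz), riemannZeta_eq_inv_sub_mul z1]
      field_simp [sub_ne_zero.2 z1]) hs
  rw [riemannZeta_eq_inv_sub_mul s1, mul_eq_zero,
    or_iff_right (inv_ne_zero (sub_ne_zero.2 s1))] at hz
  simp only [hz, zero_mul, mul_zero] at key
  exact mul_ne_zero (sub_ne_zero.2 s1) (hE0 s) key.symm

/-- endgame for a set `S` of primary elements whose Moebius series inverts `ζ H`; the weight may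
carry a factor `N n ^ (-w)` -/
theorem fin (hB : Bas) (hL : LN) (S : O → Prop) {H : ℂ → ℂ} (hH : Differentiable ℂ H)
    (hS : ∀ s : ℂ, 1 < s.re → ZKM.Mf (ZKM.pw s) S * (riemannZeta s * H s) = 1) (w : ℂ) {σ C : ℝ}
    (h : ∀ Y : ℝ, 1 ≤ Y → ‖∑' n : O, if Prim n ∧ S n then
      mu n * (N n : ℂ) ^ (-w) * VV Y (N n) else 0‖ ≤ C * Y ^ σ) {s : ℂ} (hs : σ + w.re < s.re) :
    riemannZeta s ≠ 0 := by
  have pos : ∀ n, Prim n → 0 < N n := fun n hn =>
    one_pos.trans_le (hB.b1.N_one_le n (hB.b2.ne n hn))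
  have : Countable O := (QuadraticAlgebra.equivProd (-1 : ℤ) (-1)).injective.countable
  obtain ⟨G, h1, h2⟩ := cont hL (fun n => if Prim n ∧ S n then mu n * (N n : ℂ) ^ (-w) else 0) N
    (fun n hn => pos n (by by_contra k; simp [k] at hn)) (a := 1 - w.re) (σ := σ) (C := C)
    (fun b hb => (hB.b3.summ (w.re + b) (by linarith)).of_nonneg_of_le
      (fun n => mul_nonneg (norm_nonneg _) (Real.rpow_nonneg (Nat.cast_nonneg _) _)) fun n => by
        split_ifs with k
        · rw [norm_mul, norm_cpow_eq_rpow_re_of_pos (pos n k.1), neg_add,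
            Real.rpow_add (pos n k.1), neg_re, mul_assoc]
          exact mul_le_of_le_one_left (mul_pos (Real.rpow_pos_of_pos (pos n k.1) _)
            (Real.rpow_pos_of_pos (pos n k.1) _)).le (ZKM.norm_mu n)
        · rw [norm_zero, zero_mul]; exact Real.rpow_nonneg (Nat.cast_nonneg _) _)
    fun Y hY => by simpa only [ite_mul, zero_mul] using h Y hY
  refine zero_free (G := fun s => G (s - w)) (E := fun s => Real.sqrt Real.pi *
    cexp ((s - w) ^ 2 / 4)) (a := 1) (h1.comp (differentiable_id.sub_const w).differentiableOn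
      fun z hz => ?_) hH (by fun_prop) (fun z => mul_ne_zero ?_ (exp_ne_zero _)) (fun z hz => ?_) hs
  · have : σ + w.re < z.re := hz
    show σ < (z - w).re
    rw [sub_re]; linarith
  · exact_mod_cast (Real.sqrt_pos.2 Real.pi_pos).ne'
  · have e : ∑' n, (if Prim n ∧ S n then mu n * (N n : ℂ) ^ (-w) else 0) * (N n : ℂ) ^ (-(z - w)) =
        ZKM.Mf (ZKM.pw z) S := tsum_congr fun n => by
      split_ifs with k
      · rw [mul_assoc, ← cpow_add _ _ (by exact_mod_cast (pos n k.1).ne'), ZKM.pw, N,
          ofReal_natCast]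
        congr 2; ring
      · rw [zero_mul]
    rw [h2 _ (by rw [sub_re]; linarith), e, mul_assoc, hS z hz, mul_one]

/-- all primary elements -/
theorem fin1 (hB : Bas) (hL : LN) (w : ℂ) {σ C : ℝ}
    (h : ∀ Y : ℝ, 1 ≤ Y → ‖∑' n : O, if Prim n then
      mu n * (N n : ℂ) ^ (-w) * VV Y (N n) else 0‖ ≤ C * Y ^ σ) {s : ℂ} (hs : σ + w.re < s.re) :
    riemannZeta s ≠ 0 := by
  obtain ⟨H, h1, h2⟩ := ZKM.main hB
  exact fin hB hL _ h1 h2 w (by simpa only [and_true] using h) hs

/-- primary elements prime to `2` -/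
theorem fin2 (hB : Bas) (hL : LN) (w : ℂ) {σ C : ℝ}
    (h : ∀ Y : ℝ, 1 ≤ Y → ‖∑' n : O, if Prim n ∧ IsCoprime n 2 then
      mu n * (N n : ℂ) ^ (-w) * VV Y (N n) else 0‖ ≤ C * Y ^ σ) {s : ℂ} (hs : σ + w.re < s.re) :
    riemannZeta s ≠ 0 := by
  obtain ⟨H, h1, h2⟩ := ZKM.main2 hB
  exact fin hB hL _ h1 h2 w (by convert h) hs

end ENDM

end Vale.Agent.P026
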