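import Vale.Agent.P026.Stm3
import Vale.Agent.P026.M.END

/-! P026: the final step. -/

noncomputable section
open Complex

namespace Vale.Agent.P026

theorem finS (hB : Bas) (hL : LN) : FINStmt := by
  rintro β - ⟨C, h⟩ s hs
  refine ENDM.fin2 hB hL (1 / 2) (σ := β) (C := C) (fun Y hY => ?_) ?_
  · refine le_of_eq_of_le (congrArg norm (tsum_congr fun n => ?_)) (h Y hY)
    by_cases k : OP n
    · rw [if_pos k, if_pos (show Prim n ∧ IsCoprime n 2 from k)]
    · rw [if_neg k, if_neg (show ¬ (Prim n ∧ IsCoprime n 2) from k)]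
  · have : (1 / 2 : ℂ).re = 1 / 2 := by norm_num
    rw [this]; linarith

end Vale.Agent.P026
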