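import Vale.Agent.P026.Stm3

/-! P026 module KM: the kernel `Kn`. -/

noncomputable section
open Complex MeasureTheory Filter Topology
open scoped Classical ComplexConjugate

namespace Vale.Agent.P026

namespace KMM

lemma dd_mul_l (hX : SX) (κ : ℕ) {k1 k2 : O} (h1 : OP k1) (h2 : OP k2) (a b : O) :
    dd κ k1 k2 (a * b) = dd κ k1 k2 a * dd κ k1 k2 b := by
  simp only [dd, hX.mul_l _ _ _ h1, hX.mul_l _ _ _ h2, map_mul, mul_pow]
  ring

lemma dd_pe (hX : SX) (κ : ℕ) (k1 k2 a m : O) : dd κ k1 k2 (a + k1 * k2 * m) = dd κ k1 k2 a := by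
  have e1 : sx (a + k1 * k2 * m) k1 = sx a k1 := by rw [mul_assoc]; exact hX.pe k1 a _
  have e2 : sx (a + k1 * k2 * m) k2 = sx a k2 := by
    rw [mul_comm k1, mul_assoc]; exact hX.pe k2 a _
  rw [dd, dd, e1, e2]

lemma term_pe (hB : Bas) (hX : SX) (κ : ℕ) (k1 k2 m : O) :
    Pe (k1 * k2) fun h => dd κ k1 k2 h * eQ (-(m * h)) (k1 * k2) := fun a t => by
  show dd κ k1 k2 (a + k1 * k2 * t) * eQ (-(m * (a + k1 * k2 * t))) (k1 * k2) = _
  rw [dd_pe hX, show -(m * (a + k1 * k2 * t)) = -(m * a) + k1 * k2 * (-(m * t)) by ring,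
    hB.b1.eQ_add, hB.b1.eQ_dvd _ _ (dvd_mul_right _ _), mul_one]

lemma N_nonneg (a : O) : 0 ≤ N a := Nat.cast_nonneg _

lemma N_one (hB : Bas) : N 1 = 1 := by simpa using hB.b1.N_pow 1 0

lemma sqrtN_mul (hB : Bas) (a b : O) :
    (Real.sqrt (N (a * b)) : ℂ) = Real.sqrt (N a) * Real.sqrt (N b) := by
  rw [hB.b1.N_mul, Real.sqrt_mul (N_nonneg a)]; push_cast; ring

lemma II_mul (hB : Bas) (hX : SX) (κ : ℕ) {a1 a2 b1 b2 : O} (m : O) (h1 : OP a1) (h2 : OP a2)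
    (h3 : OP b1) (h4 : OP b2) (hc : IsCoprime (a1 * a2) (b1 * b2)) :
    II κ (a1 * b1) (a2 * b2) m =
      dd κ a1 a2 (b1 * b2) * dd κ b1 b2 (a1 * a2) * (II κ a1 a2 m * II κ b1 b2 m) := by
  have n1 := hB.b2.ne _ h1.1
  have n2 := hB.b2.ne _ h2.1
  have n3 := hB.b2.ne _ h3.1
  have n4 := hB.b2.ne _ h4.1
  have nA := mul_ne_zero n1 n2
  have nB := mul_ne_zero n3 n4
  have e : a1 * b1 * (a2 * b2) = a1 * a2 * (b1 * b2) := by ring
  have pe := term_pe hB hX κ (a1 * b1) (a2 * b2) m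
  unfold II
  rw [e] at pe ⊢
  rw [hB.b4.crt _ _ _ nA nB hc pe, sqrtN_mul hB (a1 * a2)]
  have t : ∀ r1 r2 : O, dd κ (a1 * b1) (a2 * b2) (r1 * (b1 * b2) + r2 * (a1 * a2)) *
      eQ (-(m * (r1 * (b1 * b2) + r2 * (a1 * a2)))) (a1 * a2 * (b1 * b2)) =
      dd κ a1 a2 (b1 * b2) * dd κ b1 b2 (a1 * a2) *
        ((dd κ a1 a2 r1 * eQ (-(m * r1)) (a1 * a2)) * (dd κ b1 b2 r2 * eQ (-(m * r2)) (b1 * b2))) := by
    intro r1 r2
    have d0 : ∀ h, dd κ (a1 * b1) (a2 * b2) h = dd κ a1 a2 h * dd κ b1 b2 h := fun h => by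
      simp only [dd, hX.mul_r _ _ _ n1 n3, hX.mul_r _ _ _ n2 n4, map_mul, mul_pow]
      ring
    have d1 : dd κ a1 a2 (r1 * (b1 * b2) + r2 * (a1 * a2)) = dd κ a1 a2 r1 * dd κ a1 a2 (b1 * b2) := by
      rw [mul_comm r2, dd_pe hX, dd_mul_l hX κ h1 h2]
    have d2 : dd κ b1 b2 (r1 * (b1 * b2) + r2 * (a1 * a2)) = dd κ b1 b2 r2 * dd κ b1 b2 (a1 * a2) := by
      rw [add_comm, mul_comm r1, dd_pe hX, dd_mul_l hX κ h3 h4]
    have d3 : eQ (-(m * (r1 * (b1 * b2) + r2 * (a1 * a2)))) (a1 * a2 * (b1 * b2)) =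
        eQ (-(m * r1)) (a1 * a2) * eQ (-(m * r2)) (b1 * b2) := by
      rw [show -(m * (r1 * (b1 * b2) + r2 * (a1 * a2))) =
        b1 * b2 * (-(m * r1)) + a1 * a2 * (-(m * r2)) by ring, hB.b1.eQ_add,
        hB.b1.eQ_mul _ _ _ nA, mul_comm (a1 * a2) (b1 * b2), hB.b1.eQ_mul _ _ _ nB]
    rw [d0, d1, d2, d3]
    ring
  simp only [t, ← Finset.mul_sum, ← Finset.sum_mul]
  rw [mul_inv]
  ring

lemma mul_conj_one {z : ℂ} (h : ‖z‖ = 1) : z * conj z = 1 := by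
  rw [Complex.mul_conj, Complex.normSq_eq_norm_sq, h]; simp

lemma tk_dd (hB : Bas) (hC : CRStmt) (hb : BB) (hX : SX) {κ : ℕ} (hκ : κ = 1 ∨ κ = 3)
    {a1 a2 b1 b2 : O} (h1 : OP a1) (h2 : OP a2) (h3 : OP b1) (h4 : OP b2)
    (hc : IsCoprime (a1 * a2) (b1 * b2)) :
    tk κ (a1 * b1) * conj (tk κ (a2 * b2)) * (dd κ a1 a2 (b1 * b2) * dd κ b1 b2 (a1 * a2)) =
      tk κ a1 * conj (tk κ a2) * (tk κ b1 * conj (tk κ b2)) *
        (quad (a1 * a2) (b1 * b2) * quad (b1 * b2) (a1 * a2)) := by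
  have n1 := hB.b2.ne _ h1.1
  have n2 := hB.b2.ne _ h2.1
  have n3 := hB.b2.ne _ h3.1
  have n4 := hB.b2.ne _ h4.1
  have c11 : IsCoprime a1 b1 := hc.of_mul_left_left.of_mul_right_left
  have c12 : IsCoprime a1 b2 := hc.of_mul_left_left.of_mul_right_right
  have c21 : IsCoprime a2 b1 := hc.of_mul_left_right.of_mul_right_left
  have c22 : IsCoprime a2 b2 := hc.of_mul_left_right.of_mul_right_right
  rw [hB.b7.mul_r _ _ _ n3 n4, hB.b7.mul_r _ _ _ n1 n2]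
  rcases hκ with rfl | rfl
  · simp only [tk, if_true, dd, pow_one, sx, hb.mul _ _ h1.1 h3.1 c11, hb.mul _ _ h2.1 h4.1 c22,
      sqrtN_mul hB, map_mul, map_div₀, conj_ofReal, conj_conj, hB.b7.conj_eq,
      hB.b6.mul_l _ _ _ (hB.b2.cop _ h1.1), hB.b6.mul_l _ _ _ (hB.b2.cop _ h2.1),
      hB.b6.mul_l _ _ _ (hB.b2.cop _ h3.1), hB.b6.mul_l _ _ _ (hB.b2.cop _ h4.1),
      hC b1 a1 h3.1 h1.1, hC b2 a1 h4.1 h1.1, hC b1 a2 h3.1 h2.1, hC b2 a2 h4.1 h2.1]
    have x11 := hB.b6.cube _ _ c11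
    have x22 := congrArg conj (hB.b6.cube _ _ c22)
    rw [map_pow, map_one] at x22
    have x12 := mul_conj_one (hB.b6.norm _ _ c12)
    have x21 := mul_conj_one (hB.b6.norm _ _ c21)
    have x : cub a1 b1 ^ 3 * conj (cub a2 b2) ^ 3 * (cub a1 b2 * conj (cub a1 b2)) *
        (cub a2 b1 * conj (cub a2 b1)) = 1 := by rw [x11, x22, x12, x21]; ring
    simp only [div_eq_mul_inv, mul_inv]
    linear_combination (bb a1 * (Real.sqrt (N a1) : ℂ)⁻¹ * (conj (bb a2) * (Real.sqrt (N a2) : ℂ)⁻¹) *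
      (bb b1 * (Real.sqrt (N b1) : ℂ)⁻¹ * (conj (bb b2) * (Real.sqrt (N b2) : ℂ)⁻¹)) *
      (quad (a1 * a2) b1 * quad (a1 * a2) b2 * (quad (b1 * b2) a1 * quad (b1 * b2) a2))) * x
  · have e : ∀ a c, c ≠ 0 → conj (sx a c) ^ 3 = quad a c := fun a c hc => by
      rw [← map_pow, hX.three _ _ hc, hB.b7.conj_eq]
    simp only [tk, show ¬ (3 = 1) by norm_num, if_false, dd, e _ _ n1, e _ _ n3, hX.three _ _ n2,
      hX.three _ _ n4, hb.mul _ _ h1.1 h3.1 c11, hb.mul _ _ h2.1 h4.1 c22, norm_mul,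
      hB.b6.norm _ _ c11, hB.b6.norm _ _ c22, mul_one, sqrtN_mul hB, map_mul, map_div₀, conj_ofReal,
      ofReal_mul, div_eq_mul_inv, mul_inv, map_inv₀]
    ring

lemma scale (hB : Bas) (hX : SX) (κ : ℕ) (k1 k2 u m : O) (h1 : OP k1) (h2 : OP k2)
    (hu : IsCoprime u (k1 * k2)) :
    II κ k1 k2 (u * m) = sx u k1 ^ κ * conj (sx u k2 ^ κ) * II κ k1 k2 m := by
  have n := mul_ne_zero (hB.b2.ne _ h1.1) (hB.b2.ne _ h2.1)
  have a := hB.b4.affine _ _ u 0 n (term_pe hB hX κ k1 k2 m) hu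
  simp only [add_zero, dd_mul_l hX κ h1 h2, mul_assoc, ← Finset.mul_sum] at a
  have x1 := mul_conj_one (hX.norm _ _ hu.of_mul_right_left)
  have x2 := mul_conj_one (hX.norm _ _ hu.of_mul_right_right)
  have x : sx u k1 ^ κ * conj (sx u k2 ^ κ) * dd κ k1 k2 u = 1 := by
    rw [dd, map_pow]
    calc _ = (sx u k1 * conj (sx u k1)) ^ κ * (sx u k2 * conj (sx u k2)) ^ κ := by
          simp only [mul_pow]; ring
      _ = 1 := by rw [x1, x2]; simp
  unfold II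
  rw [← a]
  simp only [mul_comm u m, mul_assoc m u]
  linear_combination (-((Real.sqrt (N (k1 * k2)) : ℂ)⁻¹ *
    ∑ h ∈ Rs (k1 * k2), dd κ k1 k2 h * eQ (-(m * (u * h))) (k1 * k2))) * x

lemma II_conj (hB : Bas) (κ : ℕ) (k1 k2 m : O) : conj (II κ k1 k2 m) = II κ k2 k1 (-1 * m) := by
  unfold II
  rw [mul_comm k2 k1, map_mul, map_inv₀, conj_ofReal, map_sum]
  congr 1
  refine Finset.sum_congr rfl fun h _ => ?_
  rw [map_mul, ← hB.b1.eQ_neg, dd, dd, map_mul, map_pow, map_pow, conj_conj]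
  congr 1
  · ring
  · congr 1; ring

lemma II_le' (hB : Bas) (hX : SX) (κ : ℕ) (k1 k2 m : O) (h1 : OP k1) (h2 : OP k2) :
    ‖II κ k1 k2 m‖ ≤ Real.sqrt (N (k1 * k2)) := by
  have n := mul_ne_zero (hB.b2.ne _ h1.1) (hB.b2.ne _ h2.1)
  have p : 0 < Real.sqrt (N (k1 * k2)) :=
    Real.sqrt_pos.2 (lt_of_lt_of_le one_pos (hB.b1.N_one_le _ n))
  have s : ‖∑ h ∈ Rs (k1 * k2), dd κ k1 k2 h * eQ (-(m * h)) (k1 * k2)‖ ≤ N (k1 * k2) := by
    refine (norm_sum_le _ _).trans ((Finset.sum_le_card_nsmul _ _ 1 fun h _ => ?_).trans ?_)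
    · rw [norm_mul, eQ, hB.b1.norm_psi, mul_one, dd, norm_mul, norm_pow, norm_pow, Complex.norm_conj]
      exact mul_le_one₀ (pow_le_one₀ (norm_nonneg _) (hX.norm_le _ _)) (by positivity)
        (pow_le_one₀ (norm_nonneg _) (hX.norm_le _ _))
    · simp [hB.b4.card _ n, N]
  rw [II, norm_mul, norm_inv, Complex.norm_real, Real.norm_of_nonneg p.le, inv_mul_le_iff₀ p,
    Real.mul_self_sqrt (N_nonneg _)]
  exact s

lemma tk_le (hB : Bas) (hb : BB) (κ : ℕ) {k : O} (h : OP k) : ‖tk κ k‖ ≤ Real.sqrt (N k) := by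
  have n := hB.b1.N_one_le _ (hB.b2.ne _ h.1)
  have p : 0 < Real.sqrt (N k) := Real.sqrt_pos.2 (lt_of_lt_of_le one_pos n)
  have a : ‖bb k‖ ≤ N k :=
    (hb.norm_le k).trans (by simpa using Real.rpow_le_rpow_of_exponent_le n (show (2 / 3 : ℝ) ≤ 1 by norm_num))
  rw [tk, norm_div, Complex.norm_real, Real.norm_of_nonneg p.le, div_le_iff₀ p,
    Real.mul_self_sqrt (N_nonneg _)]
  split_ifs
  · exact a
  · simpa using a

lemma N_prod (hB : Bas) (P : Finset O) (f : O → O) : N (∏ p ∈ P, f p) = ∏ p ∈ P, N (f p) := by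
  induction P using Finset.induction_on with
  | empty => simpa using N_one hB
  | insert p P hp ih => rw [Finset.prod_insert hp, Finset.prod_insert hp, hB.b1.N_mul, ih]

lemma cl_le (κ : ℕ) (p : O) (hp : 7 ≤ N p) {j : ℕ} (hj : j ≠ 0) :
    0 ≤ cl κ p j ∧ cl κ p j ≤ (N p ^ j) ^ 2 := by
  have h1 : 1 ≤ N p := by linarith
  unfold cl
  split_ifs with c1 c2 c3
  · exact ⟨zero_le_one, one_le_pow₀ (one_le_pow₀ h1)⟩
  · exact ⟨le_rfl, by positivity⟩
  all_goals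
    refine ⟨by positivity, ?_⟩
    have a1 : (2 : ℝ) ^ (j + 1) ≤ N p ^ (j - j / 3) :=
      calc (2 : ℝ) ^ (j + 1) ≤ 2 ^ (2 * (j - j / 3)) := pow_le_pow_right₀ (by norm_num) (by omega)
        _ = 4 ^ (j - j / 3) := by rw [pow_mul]; norm_num
        _ ≤ _ := pow_le_pow_left₀ (by norm_num) (by linarith) _
    calc _ ≤ N p ^ (j - j / 3) * N p ^ (j + j / 3) :=
          mul_le_mul a1 (pow_le_pow_right₀ h1 (by omega)) (by positivity) (by positivity)
      _ = _ := by rw [← pow_add, ← pow_mul]; congr 1; omega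

lemma tk_one (hB : Bas) (hb : BB) (κ : ℕ) : tk κ 1 = 1 := by
  simp [tk, hb.one, N_one hB]

lemma sum_one (hB : Bas) (F : O → ℂ) (h : ∀ x, F x = 1) : ∑ r ∈ Rs 1, F r = 1 := by
  have := hB.b4.card 1 one_ne_zero
  have e : (Nn 1 : ℂ) = 1 := by
    have := N_one hB
    rw [N] at this
    exact_mod_cast this
  simp [h, this, e]

end KMM

open KMM in
theorem kmS (hB : Bas) (hC : CRStmt) (hQ : QR) (hH : HD) (hb : BB) (h8 : B8) (hX : SX) : KM where
  mul κ a1 a2 b1 b2 m hκ h1 h2 h3 h4 hc := by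
    have oA := h8.op_mul _ _ h1 h2
    have oB := h8.op_mul _ _ h3 h4
    have g := hQ.recip _ _ oA.2 oB.2 hc
    have gA : gam (a1 * a2) ≠ 0 := fun c => by simpa [c] using hQ.norm _ oA.2
    have gB : gam (b1 * b2) ≠ 0 := fun c => by simpa [c] using hQ.norm _ oB.2
    have q1 : quad (a1 * a2) (b1 * b2) ≠ 0 := fun c => by simpa [c] using hB.b7.norm _ _ hc
    have q2 : quad (b1 * b2) (a1 * a2) ≠ 0 := fun c => by simpa [c] using hB.b7.norm _ _ hc.symm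
    have t := tk_dd hB hC hb hX hκ h1 h2 h3 h4 hc
    unfold Kn
    rw [II_mul hB hX κ m h1 h2 h3 h4 hc, show a1 * b1 * (a2 * b2) = a1 * a2 * (b1 * b2) by ring,
      ← g, ← mul_assoc, t]
    field_simp
  one κ m := by
    have g : gam 1 = 1 := by
      rw [gam, Gq, sum_one hB _ fun x => hB.b1.eQ_dvd _ _ (one_dvd _), N_one hB]; simp
    have i : II κ 1 1 m = 1 := by
      rw [II, mul_one, sum_one hB _ fun x => by
        rw [hB.b1.eQ_dvd _ _ (one_dvd _), dd, hX.one_r]; simp, N_one hB]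
      simp
    rw [Kn, tk_one hB hb, i, mul_one 1, g]
    simp
  herm κ k1 k2 m hκ h1 h2 := by
    have o := h8.op_mul _ _ h1 h2
    have n1 := hB.b2.ne _ h1.1
    have n2 := hB.b2.ne _ h2.1
    have cp : ∀ k : O, IsCoprime (-1) k := fun k => isCoprime_one_left.neg_left
    have s : ∀ k, OP k → sx (-1) k ^ κ = quad (-1) k := fun k hk => by
      have := hB.b7.sq _ _ (cp k)
      rw [sx, hB.b6.neg_l _ _ (hB.b2.cop _ hk.1), hB.b6.one_l, map_one, mul_one]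
      rcases hκ with rfl | rfl
      · exact pow_one _
      · rw [pow_succ, this, one_mul]
    have q1 : quad (-1) k1 ≠ 0 := fun c => by simpa [c] using hB.b7.norm _ _ (cp k1)
    have q2 : quad (-1) k2 ≠ 0 := fun c => by simpa [c] using hB.b7.norm _ _ (cp k2)
    have g : gam (k1 * k2) ≠ 0 := fun c => by simpa [c] using hQ.norm _ o.2
    unfold Kn
    rw [map_div₀, map_mul, map_mul, conj_conj, II_conj hB, scale hB hX κ k2 k1 _ m h2 h1 (cp _),
      s _ h1, s _ h2, hB.b7.conj_eq, hX.gam_conj _ o.2, hB.b7.mul_r _ _ _ n1 n2, mul_comm k2 k1]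
    field_simp
  scale κ k1 k2 u m h1 h2 hu := scale hB hX κ k1 k2 u m h1 h2 hu
  II_le κ k1 k2 m h1 h2 := by
    refine (II_le' hB hX κ k1 k2 m h1 h2).trans ?_
    have := hB.b1.N_one_le _ (mul_ne_zero (hB.b2.ne _ h1.1) (hB.b2.ne _ h2.1))
    rw [← hB.b1.N_mul, Real.sqrt_le_left (N_nonneg _)]
    nlinarith
  Kn_le κ k1 k2 m h1 h2 := by
    rw [Kn, norm_div, hQ.norm _ (h8.op_mul _ _ h1 h2).2, div_one, norm_mul, norm_mul,
      Complex.norm_conj]
    calc _ ≤ Real.sqrt (N k1) * Real.sqrt (N k2) * Real.sqrt (N (k1 * k2)) :=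
          mul_le_mul (mul_le_mul (tk_le hB hb κ h1) (tk_le hB hb κ h2) (norm_nonneg _)
            (Real.sqrt_nonneg _)) (II_le' hB hX κ k1 k2 m h1 h2) (norm_nonneg _) (by positivity)
      _ = _ := by
          rw [← Real.sqrt_mul (N_nonneg _), ← hB.b1.N_mul, Real.mul_self_sqrt (N_nonneg _)]
  cE_le κ E hE := by
    have n := hB.b2.ne _ hE.1
    have k : ∀ p ∈ pf E, 0 ≤ cl κ p (vl p E) ∧ cl κ p (vl p E) ≤ (N p ^ vl p E) ^ 2 := fun p hp => by
      obtain ⟨a, b, c⟩ := (h8.mem E p n).1 hp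
      exact cl_le κ p (h8.N7 p a (h8.op_dvd _ _ hE b c)) fun d => (h8.vl_zero p E a n).1 d c
    refine ⟨Finset.prod_nonneg fun p hp => (k p hp).1, ?_⟩
    have e : N E = ∏ p ∈ pf E, N p ^ vl p E := by
      conv_lhs => rw [h8.prod E hE.1, N_prod hB]
      simp only [hB.b1.N_pow]
    rw [e, ← Finset.prod_pow]
    exact Finset.prod_le_prod (fun p hp => (k p hp).1) fun p hp => (k p hp).2
  pr1 n m hn hs := by
    have n0 := hB.b2.ne _ hn.1
    have p : 0 < N n := lt_of_lt_of_le one_pos (hB.b1.N_one_le _ n0)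
    have sq : (Real.sqrt (N n) : ℂ) ≠ 0 := ofReal_ne_zero.2 (Real.sqrt_pos.2 p).ne'
    have sq2 : (Real.sqrt (N n) : ℂ) * Real.sqrt (N n) = N n := by
      rw [← ofReal_mul, Real.mul_self_sqrt p.le]
    have b : bb n = gs n := by simpa [N_one hB] using hb.eq n 1 hn.1 hB.b2.one hs
    have i : II 1 n 1 m = (Real.sqrt (N n) : ℂ)⁻¹ * (sx m n * conj (g6 n)) := by
      have := congrArg conj (hH.tw6 n m hn.1 hn.2 hs)
      rw [map_sum, map_mul, conj_conj] at this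
      rw [II, mul_one, ← this]
      congr 1
      refine Finset.sum_congr rfl fun h _ => ?_
      rw [map_mul, ← hB.b1.eQ_neg, dd, hX.one_r, mul_comm m h]
      simp
    have m1 : conj (mu n) = mu n := by simp [mu, hs]
    have m2 : mu n * mu n = 1 := by
      rw [mu, if_pos hs, ← mul_pow]; simp
    have d := congrArg conj (hH.dup n hn.1 hn.2 hs)
    simp only [map_mul, conj_conj, m1, hX.gam_conj _ hn.2] at d
    have d' : conj (g6 n) = mu n * (cub 2 n * (quad (-1) n * gam n) * conj (ang 1 (toC n)) *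
        conj (gs n)) := by rw [← d, ← mul_assoc, m2, one_mul]
    have g : gam n ≠ 0 := fun c => by simpa [c] using hQ.norm _ hn.2
    have n3 : gs n * conj (gs n) = Real.sqrt (N n) * Real.sqrt (N n) := by
      rw [sq2, Complex.mul_conj, Complex.normSq_eq_norm_sq, hH.n3 n (hB.b2.cop _ hn.1) hs]
    rw [Kn, tk_one hB hb, i, d', tk, if_pos rfl, b, mul_one n, map_one]
    field_simp
    linear_combination (sx m n * mu n * cub 2 n * quad (-1) n * conj (ang 1 (toC n))) * n3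
  pr3 n m hn hs := by
    have n0 := hB.b2.ne _ hn.1
    have p : 0 < N n := lt_of_lt_of_le one_pos (hB.b1.N_one_le _ n0)
    have sq : (Real.sqrt (N n) : ℂ) ≠ 0 := ofReal_ne_zero.2 (Real.sqrt_pos.2 p).ne'
    have b : bb n = gs n := by simpa [N_one hB] using hb.eq n 1 hn.1 hB.b2.one hs
    have t : tk 3 n = 1 := by
      rw [tk, if_neg (by norm_num), b, ← hH.n3 n (hB.b2.cop _ hn.1) hs,
        Real.sqrt_sq (norm_nonneg _), div_self]
      rwa [← hH.n3 n (hB.b2.cop _ hn.1) hs, Real.sqrt_sq (norm_nonneg _)] at sq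
    have i : II 3 n 1 m = (Real.sqrt (N n) : ℂ)⁻¹ * (quad (-1 * m) n * g2 n) := by
      rw [II, mul_one, ← hH.tw2 n (-1 * m) hn.2 (hB.b2.cop _ hn.1) hs]
      congr 1
      refine Finset.sum_congr rfl fun h _ => ?_
      rw [dd, hX.one_r, ← map_pow, hX.three _ _ n0, hB.b7.conj_eq, one_pow, mul_one]
      congr 2
      ring
    have g : gam n ≠ 0 := fun c => by simpa [c] using hQ.norm _ hn.2
    rw [Kn, tk_one hB hb, t, i, hQ.g2_eq n hn.2 hs, hB.b7.mul_l _ _ _ hn.2, hX.three _ _ n0,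
      mul_one n, map_one]
    field_simp

end Vale.Agent.P026
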