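import Vale.Agent.P026.Stm3

noncomputable section
open Complex
open scoped Classical ComplexConjugate

namespace Vale.Agent.P026

namespace L1M

def ph (k : O) : ℂ := if IsCoprime k 2 then conj (cub k (-2)) * quad (-1) k else 0

theorem cop_add (a m : O) : IsCoprime (a + 8 * m) 2 ↔ IsCoprime a 2 := by
  have : a + 8 * m = a + 2 * (4 * m) := by ring
  rw [this, IsCoprime.add_mul_left_left_iff]

theorem ph_p8 (hB : Bas) (hQ : QR) : P8 ph := by
  refine ⟨fun a m => ?_, fun k => ?_⟩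
  · unfold ph
    by_cases h : IsCoprime a 2
    · rw [if_pos h, if_pos ((cop_add a m).2 h)]
      have h1 : cub (a + 8 * m) (-2) = cub a (-2) :=
        hB.b4.pe_congr (-2) (fun a => cub a (-2)) _ _ (hB.b6.pe (-2)) ⟨-(4 * m), by ring⟩
      have h2 : quad (-1) a = quad (-1) (a + 8 * m) :=
        hQ.qp (-1) a (a + 8 * m) (by norm_num) h ⟨2 * m, by ring⟩
      rw [h1, h2]
    · rw [if_neg h, if_neg (fun h' => h ((cop_add a m).1 h'))]
  · unfold ph
    split_ifs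
    · rw [norm_mul, RCLike.norm_conj]
      exact mul_le_one₀ (hB.b6.norm_le _ _) (norm_nonneg _) (hB.b7.norm_le _ _)
    · simp

theorem ang_conj (hB : Bas) {n : O} (hn : n ≠ 0) : ang 1 (toC n) * conj (ang 1 (toC n)) = 1 := by
  have h0 : toC n ≠ 0 := fun h => hn (hB.b1.inj (by rw [h, map_zero]))
  have h1 : ‖ang 1 (toC n)‖ = 1 := by
    unfold ang
    rw [zpow_one, norm_div, norm_real, norm_norm, div_self (norm_ne_zero_iff.2 h0)]
  rw [mul_conj, normSq_eq_norm_sq, h1]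
  norm_num

theorem ph_mul (hB : Bas) (hC : CRStmt) {n : O} (hn : OP n) :
    ph n * (cub 2 n * quad (-1) n) = 1 := by
  have hp : Prim (-2 : O) := ⟨-1, by ring⟩
  have h1 : cub 2 n = cub n (-2) := by
    rw [hC n (-2) hn.1 hp, hB.b6.neg_l 2 n (hB.b2.cop n hn.1)]
  have h2 : ‖cub n (-2)‖ = 1 := hB.b6.norm _ _ hn.2.neg_right
  have h3 : quad (-1) n ^ 2 = 1 := hB.b7.sq _ _ isCoprime_one_left.neg_left
  have h4 : conj (cub n (-2)) * cub n (-2) = 1 := by
    rw [mul_comm, mul_conj, normSq_eq_norm_sq, h2]; norm_num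
  unfold ph
  rw [if_pos hn.2, h1]
  linear_combination (quad (-1) n ^ 2) * h4 + h3

theorem prim_eq (hB : Bas) (hC : CRStmt) (hX : SX) (hK : KM) (r ρ m : O) (Y : ℝ) :
    prim1 1 (xx 1 1 r ρ 1 ph Y 0) m = Smu r ρ m Y := by
  unfold prim1 Smu
  refine tsum_congr fun n => ?_
  by_cases hc : (27 : O) ∣ n - r ∧ (4 : O) ∣ n - ρ ∧ OP n
  · rw [if_pos hc]
    by_cases hs : Squarefree n
    · rw [if_pos ⟨hc.2.2, hs⟩, hK.pr1 n m hc.2.2 hs]
      unfold xx
      rw [if_pos hc, if_pos rfl, hX.one_r]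
      have h1 := ang_conj hB (hB.b2.ne n hc.2.2.1)
      have h2 := ph_mul hB hC hc.2.2
      have h3 : (-(1 / 2 + ((0 : ℝ) : ℂ) * I)) = -(1 / 2 : ℂ) := by simp
      rw [h3]
      generalize (N n : ℂ) ^ (-(1 / 2 : ℂ)) = w
      calc _ = (ang 1 (toC n) * conj (ang 1 (toC n))) * (ph n * (cub 2 n * quad (-1) n)) *
            (mu n * sx m n * w * (VV Y (N n) : ℂ)) := by ring
        _ = _ := by rw [h1, h2]; ring
    · rw [if_neg (fun h => hs h.2)]
      simp [mu, hs]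
  · rw [if_neg hc]
    unfold xx
    rw [if_neg hc]
    simp

theorem pw {M Z : ℝ} (hM : 0 < M) (hZ : 0 < Z) :
    M / Z * (Z ^ 2 / M) ^ (2 * 0 + 4 * (9 / 14) : ℝ) * Z ^ (-2 * (9 / 14) : ℝ) =
      Z ^ (20 / 7 : ℝ) * M ^ (-11 / 7 : ℝ) := by
  have e1 : M = Real.exp (Real.log M) := (Real.exp_log hM).symm
  have e2 : Z = Real.exp (Real.log Z) := (Real.exp_log hZ).symm
  generalize Real.log M = a at e1
  generalize Real.log Z = b at e2
  subst e1 e2
  rw [← Real.exp_sub, ← Real.exp_nat_mul, ← Real.exp_sub]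
  simp only [← Real.exp_mul, ← Real.exp_add]
  congr 1
  push_cast
  ring

end L1M

open L1M in
theorem l1S (hB : Bas) (hC : CRStmt) (hQ : QR) (h8 : B8) (hX : SX) (hP : PSStmt) (hF : F5Stmt)
    (hS : SUMAStmt) (hK : KM) : L1Stmt := by
  intro ε hε
  set η : ℝ := min (ε / 40) (1 / 100) with hη
  have η0 : 0 < η := lt_min (by positivity) (by norm_num)
  have η1 : η ≤ 1 / 100 := min_le_right _ _
  have η2 : 40 * η ≤ ε := by have := min_le_left (ε / 40) (1 / 100); linarith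
  obtain ⟨C, C0, hC1⟩ := hP 8 η 0 (9 / 14) η0 η1 le_rfl (by norm_num) (by norm_num)
  obtain ⟨D, D1, hD⟩ := hF η η0
  obtain ⟨A, A0, hA⟩ := hS
  obtain ⟨hA1, hA2⟩ := hA η η0.le
  refine ⟨C * D ^ 2 * (1 + A), by positivity, fun r ρ Y M S hY hM hSm => ?_⟩
  have op1 : OP (1 : O) := ⟨hB.b2.one, isCoprime_one_left⟩
  have e : (2 * 0 + 4 * (9 / 14) : ℝ) = 18 / 7 := by norm_num
  have key := hC1 1 1 D _ _ r ρ 1 ph Y M 0 A A S (Or.inl rfl) hD op1 (ph_p8 hB hQ) hY hM D1 hA1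
    (by rw [e]; exact hA2) hSm
  simp only [prim_eq hB hC hX hK] at key
  have r1 : rd (1 : O) = 1 := by simp [rd, h8.pf_one]
  have Y0 : 0 < Y := by linarith
  have M0 : 0 < M := by linarith
  rw [pw M0 Y0, r1, one_mul, abs_zero, add_zero, one_pow, mul_one] at key
  refine key.trans ?_
  have h1 : (M * Y) ^ (40 * η) ≤ (M * Y) ^ ε :=
    Real.rpow_le_rpow_of_exponent_le (by nlinarith) η2
  have w0 : 0 ≤ Y ^ (20 / 7 : ℝ) * M ^ (-11 / 7 : ℝ) := by positivity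
  generalize Y ^ (20 / 7 : ℝ) * M ^ (-11 / 7 : ℝ) = w at w0 ⊢
  have h2 : M + Y * A + w * A ≤ (1 + A) * (M + Y + w) := by nlinarith [mul_nonneg A0 M0.le]
  calc C * D ^ 2 * (M * Y) ^ (40 * η) * (M + Y * A + w * A)
      ≤ C * D ^ 2 * (M * Y) ^ ε * ((1 + A) * (M + Y + w)) := by gcongr
    _ = _ := by ring

end Vale.Agent.P026
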