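import Vale.Agent.P026.M.WQ

noncomputable section
open Complex
open scoped Classical

namespace Vale.Agent.P026

namespace L2M

open WQM

theorem mw_ge (hB : Bas) (h8 : B8) {s : O} (hs : s ≠ 0) {a : ℕ → ℝ} (ha : ∀ i, 0 ≤ a i) :
    1 ≤ mw a s := by
  simpa [mw] using sub_le (Finset.empty_subset (pf s)) (f := fun p => N p ^ a (vl p s % 6))
    fun _ hp => Real.one_le_rpow (N1 hB h8 hs hp) (ha _)

theorem mw_le (hB : Bas) (h8 : B8) {s : O} (hs : s ≠ 0) {a b : ℕ → ℝ} (h : ∀ i, a i ≤ b i) :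
    mw a s ≤ mw b s :=
  Finset.prod_le_prod (fun p _ => Real.rpow_nonneg (by unfold N; positivity) _)
    fun _ hp => Real.rpow_le_rpow_of_exponent_le (N1 hB h8 hs hp) (h _)

theorem mw_pow (s : O) {a b : ℕ → ℝ} (x : ℝ) (h : ∀ i, a i * x = b i) : mw a s ^ x = mw b s := by
  have h0 : ∀ p, 0 ≤ N p := fun p => by unfold N; positivity
  rw [mw, ← Real.finsetProd_rpow _ _ fun p _ => Real.rpow_nonneg (h0 p) _]
  exact Finset.prod_congr rfl fun p _ => by rw [← Real.rpow_mul (h0 p), h]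

theorem term_le (hB : Bas) (hH : HD) (hX : SX) (J : ℤ) (r s : O) {φ : O → ℂ} (hφ : P8 φ)
    (Z t : ℝ) (m n : O) : ‖SQc J r s φ Z t n * sx m n ^ 3‖ ≤
      if n = 0 then 0 else N n ^ (-1 / 2 : ℝ) * VV Z (N n) := by
  have hV : 0 ≤ VV Z (N n) := (Real.exp_pos _).le
  have h0 : 0 ≤ N n := by unfold N; positivity
  unfold SQc
  split_ifs with h h' h'
  · exact absurd h' (hB.b2.ne n h.2.1.1)
  · have h1 := hB.b1.N_one_le n h'
    have e1 : ‖gs n‖ = N n ^ (1 / 2 : ℝ) := by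
      rw [← hH.n3 n (hB.b2.cop n h.2.1.1) h.2.2, ← Real.sqrt_eq_rpow, Real.sqrt_sq (norm_nonneg _)]
    have e2 : ‖ang J (toC n)‖ = 1 := by
      have : toC n ≠ 0 := fun e => h' (hB.b1.inj (by simpa using e))
      simp [ang, this]
    have e3 : ‖(N n : ℂ) ^ (-(1 + t * I))‖ = N n ^ (-1 : ℝ) := by
      rw [norm_cpow_eq_rpow_re_of_pos (by linarith)]; simp
    simp only [norm_mul, norm_pow, e1, e2, e3, norm_real, Real.norm_of_nonneg hV]
    rw [show (-1 / 2 : ℝ) = 1 / 2 + -1 by norm_num, Real.rpow_add (by linarith)]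
    have := hX.norm_le n s
    have := hφ.2 n
    have := pow_le_one₀ (n := 3) (norm_nonneg _) (hX.norm_le m n)
    calc _ ≤ N n ^ (1 / 2 : ℝ) * 1 * 1 * 1 * N n ^ (-1 : ℝ) * VV Z (N n) * 1 := by gcongr
      _ = _ := by ring
  · simp
  · simp only [zero_mul, norm_zero]; positivity

theorem split (hB : Bas) (hQ : QR) (hH : HD) (hb : BB) (hX : SX) (hL : LN) (hK : KM) (J : ℤ)
    (r s : O) {φ : O → ℂ} (hφ : P8 φ) {Z : ℝ} (hZ : 0 < Z) (t : ℝ) : ∃ φ', P8 φ' ∧ ∀ m,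
      ∑' n, SQc J r s φ Z t n * sx m n ^ 3 = ∑ ρ ∈ Rs 4, prim1 3 (xx 3 J r ρ s φ' Z t) m := by
  have h4 : (4 : O) ≠ 0 := by
    rw [show (4 : O) = 2 * 2 by norm_num]
    exact mul_ne_zero hB.b1.prime_two.ne_zero hB.b1.prime_two.ne_zero
  refine ⟨fun k => if IsCoprime k 2 then φ k * quad (-1) k else 0, ⟨fun a m => ?_, fun k => ?_⟩,
    fun m => ?_⟩
  · have e : IsCoprime (a + 8 * m) 2 ↔ IsCoprime a 2 := by
      rw [show a + 8 * m = a + 2 * (4 * m) by ring, IsCoprime.add_mul_left_left_iff]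
    simp only [e]
    split_ifs with h
    · rw [hφ.1, hQ.qp (-1) a (a + 8 * m) (by simp) h ⟨2 * m, by ring⟩]
    · rfl
  · beta_reduce
    split_ifs
    · rw [norm_mul]
      exact mul_le_one₀ (hφ.2 k) (norm_nonneg _) (hB.b7.norm_le _ _)
    · simp
  have key : ∀ ρ n, (if OP n ∧ Squarefree n then xx 3 J r ρ s (fun k => if IsCoprime k 2 then
      φ k * quad (-1) k else 0) Z t n * Kn 3 n 1 m else 0) =
      if (4 : O) ∣ n - ρ then SQc J r s φ Z t n * sx m n ^ 3 else 0 := fun ρ n => by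
    by_cases h : OP n ∧ Squarefree n
    swap
    · simp [SQc, h]
    by_cases h1 : (27 : O) ∣ n - r
    swap
    · simp [SQc, xx, h1]
    by_cases h2 : (4 : O) ∣ n - ρ
    swap
    · simp [xx, h2]
    have n0 := hB.b2.ne n h.1.1
    have n1 : (0 : ℝ) < N n := by linarith [hB.b1.N_one_le n n0]
    have e0 : bb n = gs n := by
      have := hb.eq n 1 h.1.1 hB.b2.one h.2
      rwa [one_pow, mul_one, hB.b1.N_eq, map_one, norm_one, one_pow, ofReal_one, one_pow,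
        mul_one] at this
    have e1 : (‖gs n‖ : ℂ) = (N n : ℂ) ^ (1 / 2 : ℂ) := by
      have : ‖gs n‖ = N n ^ (1 / 2 : ℝ) := by
        rw [← hH.n3 n (hB.b2.cop n h.1.1) h.2, ← Real.sqrt_eq_rpow, Real.sqrt_sq (norm_nonneg _)]
      rw [this, ofReal_cpow n1.le]; norm_num
    have e2 := hB.b7.sq (-1) n (isCoprime_one_left.neg_left)
    have e3 : (N n : ℂ) ^ (-(1 / 2 + t * I)) = (N n : ℂ) ^ (-(1 + t * I)) * (N n : ℂ) ^ (1 / 2 : ℂ) := by
      rw [← cpow_add _ _ (by exact_mod_cast n1.ne')]; congr 1; ring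
    have e4 : (N n : ℂ) ^ (1 / 2 : ℂ) ≠ 0 := by
      rw [Ne, cpow_eq_zero_iff]; exact fun e => n1.ne' (by exact_mod_cast e.1)
    simp only [SQc, xx, h, h1, h2, h.1.2, and_self, if_true, hK.pr3 n m h.1 h.2, e0, e1, e3,
      show (3 : ℕ) ≠ 1 by norm_num, if_false]
    field_simp
    rw [e2, mul_one]
  obtain ⟨C, hC⟩ := hL.sum (-1 / 2)
  have sm : Summable fun n => SQc J r s φ Z t n * sx m n ^ 3 :=
    .of_norm_bounded (hC Z hZ).1 (term_le hB hH hX J r s hφ Z t m)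
  simp only [prim1, key]
  rw [← Summable.tsum_finsetSum fun ρ _ => (sm.indicator {n | (4 : O) ∣ n - ρ}).congr fun n => by
    simp [Set.indicator_apply]]
  refine tsum_congr fun n => ?_
  obtain ⟨ρ, hρ, e⟩ := hB.b4.ex 4 n h4
  rw [Finset.sum_eq_single_of_mem ρ hρ, if_pos e]
  intro ρ' hρ' hne
  exact if_neg fun e' => hne (hB.b4.uniq 4 _ _ h4 hρ' hρ (by simpa using dvd_sub e e'))

theorem num4 {x H Z M e ε : ℝ} (hx : 1 ≤ x) (hH : 1 ≤ H) (hZ : 1 ≤ Z) (e0 : 0 < e)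
    (he : 100 * e ≤ ε) (M0 : 0 ≤ M) (M3 : M ≤ H * (x * Z) ^ 2) :
    (x * M * Z) ^ (40 * e) * x ^ e ≤ ((1 + Z) ^ ε * (x * H) ^ ε) ^ 2 := by
  obtain ⟨u, hu⟩ : ∃ u, u = (1 + Z) * (x * H) := ⟨_, rfl⟩
  have u0 : x * Z ≤ (1 + Z) * x := by nlinarith
  have u1 : (1 + Z) * x ≤ u := by rw [hu]; gcongr; nlinarith
  have u2 : x ≤ u := by nlinarith
  have u4 : Z * (x * H) ≤ u := by rw [hu]; gcongr; linarith
  have u5 : 0 < u := by linarith
  have u3 : x * M * Z ≤ u ^ 3 := by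
    calc x * M * Z ≤ x * (H * (x * Z) ^ 2) * Z := by gcongr
      _ = (Z * (x * H)) * (x * Z) ^ 2 := by ring
      _ ≤ u * u ^ 2 := by gcongr; exact u0.trans u1
      _ = u ^ 3 := by ring
  rw [← Real.mul_rpow (by positivity) (by positivity), ← hu, ← Real.rpow_natCast,
    ← Real.rpow_mul u5.le]
  calc _ ≤ (u ^ 3) ^ (40 * e) * u ^ e := by gcongr
    _ = u ^ (121 * e) := by
        rw [← Real.rpow_natCast, ← Real.rpow_mul u5.le, ← Real.rpow_add u5]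
        congr 1; push_cast; ring
    _ ≤ _ := Real.rpow_le_rpow_of_exponent_le (by linarith) (by push_cast; linarith)

theorem num {x H Z w v c M A e ε : ℝ} (hx : 1 ≤ x) (hH : 1 ≤ H) (hZ : 1 ≤ Z) (hw : 1 ≤ w)
    (hwx : w ≤ x) (v0 : 0 ≤ v) (hv : v ≤ w) (hc : 0 ≤ c) (hcw : c ^ (2 / 7 : ℝ) = w) (hA : 0 ≤ A)
    (e0 : 0 < e) (he : 100 * e ≤ ε) (hM : M = max H ((w * Z ^ (9 / 14 : ℝ)) ^ 2)) :
    (x * M * Z) ^ (40 * e) * (M + Z * (A * x ^ e * v ^ 2) + M / Z * (Z ^ 2 / M) ^ (7 / 2 : ℝ) *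
      Z ^ (-2 * (3 / 4 : ℝ)) * (A * x ^ e * c ^ 2)) ≤ (1 + 2 * A) *
      ((1 + Z) ^ ε * (x * H) ^ ε * (√H + w * Z ^ (9 / 14 : ℝ))) ^ 2 := by
  set y := Z ^ (9 / 14 : ℝ) with hy
  have Z0 : 0 < Z := by linarith
  have y1 : 1 ≤ y := Real.one_le_rpow hZ (by norm_num)
  have y2 : y ^ 2 = Z ^ (9 / 7 : ℝ) := by
    rw [hy, ← Real.rpow_natCast, ← Real.rpow_mul Z0.le]; norm_num
  have y3 : Z ≤ y ^ 2 := by
    rw [y2]; simpa using Real.rpow_le_rpow_of_exponent_le hZ (show (1 : ℝ) ≤ 9 / 7 by norm_num)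
  have y4 : y ≤ Z := by
    simpa using Real.rpow_le_rpow_of_exponent_le hZ (show (9 / 14 : ℝ) ≤ 1 by norm_num)
  set W := (w * y) ^ 2 with hW
  have W1 : 1 ≤ W := one_le_pow₀ (one_le_mul_of_one_le_of_one_le hw y1)
  have M1 : W ≤ M := hM ▸ le_max_right _ _
  have M0 : 0 < M := by linarith
  have M2 : M ≤ H + W := hM ▸ max_le (by linarith) (by linarith)
  have M3 : M ≤ H * W := hM ▸ max_le (by nlinarith) (by nlinarith)
  have x1 : 1 ≤ x ^ e := Real.one_le_rpow hx e0.le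
  have t3 : M / Z * (Z ^ 2 / M) ^ (7 / 2 : ℝ) * Z ^ (-2 * (3 / 4 : ℝ)) * c ^ 2 ≤ W := by
    have a1 : c ^ 2 = w ^ 7 := by
      rw [← hcw, ← Real.rpow_natCast _ 7, ← Real.rpow_mul hc, ← Real.rpow_natCast]; norm_num
    have a2 : M / Z * (Z ^ 2 / M) ^ (7 / 2 : ℝ) * Z ^ (-2 * (3 / 4 : ℝ)) =
        y ^ 7 * M ^ (-5 / 2 : ℝ) := by
      rw [Real.div_rpow (by positivity) M0.le, hy, ← Real.rpow_natCast, ← Real.rpow_natCast,
        ← Real.rpow_mul Z0.le, ← Real.rpow_mul Z0.le,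
        show (9 / 14 * (7 : ℕ) : ℝ) = (2 : ℕ) * (7 / 2) + -2 * (3 / 4) - 1 by norm_num,
        show (-5 / 2 : ℝ) = 1 - 7 / 2 by norm_num, Real.rpow_sub M0, Real.rpow_sub Z0,
        Real.rpow_add Z0, Real.rpow_one, Real.rpow_one]
      field_simp
    have a3 : M ^ (-5 / 2 : ℝ) ≤ ((w * y) ^ 5)⁻¹ := by
      refine (Real.rpow_le_rpow_of_nonpos (by linarith) M1 (by norm_num)).trans_eq ?_
      rw [hW, ← Real.rpow_natCast, ← Real.rpow_mul (by positivity), ← Real.rpow_natCast,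
        ← Real.rpow_neg (by positivity)]
      norm_num
    rw [a1, a2]
    calc y ^ 7 * M ^ (-5 / 2 : ℝ) * w ^ 7 ≤ y ^ 7 * ((w * y) ^ 5)⁻¹ * w ^ 7 := by gcongr
      _ = W := by rw [hW]; field_simp
  have t2 : Z * v ^ 2 ≤ W := by
    rw [hW, mul_pow, mul_comm]; gcongr
  have t1 : M + Z * (A * x ^ e * v ^ 2) + M / Z * (Z ^ 2 / M) ^ (7 / 2 : ℝ) *
      Z ^ (-2 * (3 / 4 : ℝ)) * (A * x ^ e * c ^ 2) ≤ (1 + 2 * A) * x ^ e * (H + W) := by
    have b1 := mul_le_mul_of_nonneg_left t3 (by positivity : 0 ≤ A * x ^ e)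
    have b2 := mul_le_mul_of_nonneg_left t2 (by positivity : 0 ≤ A * x ^ e)
    have b3 : 0 ≤ A * x ^ e * H := by positivity
    have b4 : M ≤ x ^ e * (H + W) := by nlinarith
    nlinarith
  have t4 := num4 hx hH hZ e0 he M0.le (M3.trans (by rw [hW]; gcongr))
  have t5 : H + W ≤ (√H + w * y) ^ 2 := by
    have := Real.sq_sqrt (show 0 ≤ H by linarith)
    have : 0 ≤ √H * (w * y) := by positivity
    nlinarith
  calc _ ≤ (x * M * Z) ^ (40 * e) * ((1 + 2 * A) * x ^ e * (H + W)) := by gcongr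
    _ = (1 + 2 * A) * ((x * M * Z) ^ (40 * e) * x ^ e * (H + W)) := by ring
    _ ≤ (1 + 2 * A) * (((1 + Z) ^ ε * (x * H) ^ ε) ^ 2 * (√H + w * y) ^ 2) := by gcongr
    _ = _ := by ring

end L2M

open L2M WQM in
theorem l2S (hB : Bas) (hQ : QR) (hH : HD) (hb : BB) (h8 : B8) (hX : SX) (hL : LN) (hP : PSStmt)
    (hF : F3Stmt) (hS : SUMBStmt) (hK : KM) : L2Stmt := by
  intro ε hε
  have e0 : 0 < min (ε / 100) (1 / 100) := lt_min (by linarith) (by norm_num)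
  have e1 := min_le_left (ε / 100) (1 / 100)
  have e2 := min_le_right (ε / 100) (1 / 100)
  generalize min (ε / 100) (1 / 100) = e at e0 e1 e2
  obtain ⟨CP, P0, hP⟩ := hP 4 e (1 / 4) (3 / 4) e0 e2 (by norm_num) (by norm_num) (by norm_num)
  obtain ⟨D, D1, hF⟩ := hF e e0
  obtain ⟨A, A0, hS⟩ := hS e e0
  obtain ⟨CL, hCL⟩ := hL.sum (-1 / 2)
  obtain ⟨C, C1, C2, C3⟩ : ∃ C : ℝ, 1 ≤ C ∧ 256 * CP * D ^ 2 * (1 + 2 * A) ≤ C ∧ 4 * |CL| ≤ C :=
    ⟨1 + 256 * CP * D ^ 2 * (1 + 2 * A) + 4 * |CL|, by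
      have : 0 ≤ 256 * CP * D ^ 2 * (1 + 2 * A) := by positivity
      have := abs_nonneg CL
      refine ⟨?_, ?_, ?_⟩ <;> linarith⟩
  refine ⟨C, by linarith, fun J s H Z t hJ hs H1 hZ r φ S hφ hm => ?_⟩
  have s0 := hB.b2.ne s hs.1
  have x1 := h8.rd_ge s
  have w1 : 1 ≤ mw (tb (2 / 7) (4 / 7) (3 / 7)) s :=
    mw_ge hB h8 s0 (tb_nn (by norm_num) (by norm_num) (by norm_num))
  have t1 : 1 ≤ (1 + |t|) ^ 4 := one_le_pow₀ (by linarith [abs_nonneg t])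
  rcases le_total Z 1 with hZ1 | hZ1
  · have b1 : ∀ m, ‖∑' n, SQc J r s φ Z t n * sx m n ^ 3‖ ≤ |CL| * min 1 Z := fun m => by
      refine (tsum_of_norm_bounded (hCL Z hZ).1.hasSum (term_le hB hH hX J r s hφ Z t m)).trans
        ((hCL Z hZ).2.trans ?_)
      rw [if_pos (by norm_num)]
      have := Real.rpow_le_one hZ.le hZ1 (show (0 : ℝ) ≤ -1 / 2 + 1 by norm_num)
      have := le_abs_self CL
      calc _ ≤ |CL| * Z ^ (-1 / 2 + 1 : ℝ) * min 1 Z := by gcongr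
        _ ≤ |CL| * 1 * min 1 Z := by gcongr
        _ = _ := by ring
    have b2 := hB.b3.card_le H S (by linarith) hm
    have b3 : 1 ≤ (1 + Z) ^ ε := Real.one_le_rpow (by linarith) hε.le
    have b4 : 1 ≤ (rd s * H) ^ ε :=
      Real.one_le_rpow (one_le_mul_of_one_le_of_one_le x1 H1) hε.le
    calc _ ≤ ∑ _m ∈ S, (|CL| * min 1 Z) ^ 2 := Finset.sum_le_sum fun m _ => by gcongr; exact b1 m
      _ ≤ 16 * H * (|CL| * min 1 Z) ^ 2 := by rw [Finset.sum_const, nsmul_eq_mul]; gcongr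
      _ = (min 1 Z * 1 * (4 * |CL| * 1 * 1 * √H + 0)) ^ 2 := by
          rw [add_zero, mul_pow _ (_ * √H), mul_pow _ √H, Real.sq_sqrt (by linarith)]; ring
      _ ≤ _ := by gcongr; positivity
  obtain ⟨φ', hφ', e⟩ := split hB hQ hH hb hX hL hK J r s hφ hZ t
  have c16 : (Rs 4).card = 16 := by
    rw [hB.b4.card]; · rfl
    rw [show (4 : O) = 2 * 2 by norm_num]
    exact mul_ne_zero hB.b1.prime_two.ne_zero hB.b1.prime_two.ne_zero
  have hn := num (c := mw (tb 1 2 (3 / 2)) s) (v := mw (tb 0 (1 / 2) 0) s) (ε := ε) x1 H1 hZ1 w1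
    ((mw_le hB h8 s0 (b := fun _ => 1) fun i => by unfold tb; split_ifs <;> norm_num).trans_eq
      (by simp [mw, rd]))
    (zero_le_one.trans (mw_ge hB h8 s0 (tb_nn (by norm_num) (by norm_num) (by norm_num))))
    (mw_le hB h8 s0 fun i => by unfold tb; split_ifs <;> norm_num)
    (zero_le_one.trans (mw_ge hB h8 s0 (tb_nn (by norm_num) (by norm_num) (by norm_num))))
    (mw_pow s _ fun i => by unfold tb; split_ifs <;> norm_num) A0 e0 (by linarith) rfl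
  set M := max H ((mw (tb (2 / 7) (4 / 7) (3 / 7)) s * Z ^ (9 / 14 : ℝ)) ^ 2)
  have HM : H ≤ M := le_max_left _ _
  have b1 := fun ρ => hP 3 J D _ _ r ρ s φ' Z M t _ _ S (.inr rfl) (hF J hJ) hs hφ' hZ1
    (H1.trans HM) D1 (hS s hs).1 (by norm_num; exact (hS s hs).2)
    fun m h => ⟨(hm m h).1, (hm m h).2.trans HM⟩
  rw [show (2 * (1 / 4) + 4 * (3 / 4) : ℝ) = 7 / 2 by norm_num] at b1
  calc _ ≤ ∑ m ∈ S, 16 * ∑ ρ ∈ Rs 4, ‖prim1 3 (xx 3 J r ρ s φ' Z t) m‖ ^ 2 :=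
        Finset.sum_le_sum fun m _ => by
          rw [e]
          refine (pow_le_pow_left₀ (norm_nonneg _) (norm_sum_le _ _) 2).trans ?_
          simpa [c16] using sq_sum_le_card_mul_sum_sq (s := Rs 4)
            (f := fun ρ => ‖prim1 3 (xx 3 J r ρ s φ' Z t) m‖)
    _ ≤ 16 * ∑ _ρ ∈ Rs 4, CP * D ^ 2 * ((1 + 2 * A) * ((1 + Z) ^ ε * (rd s * H) ^ ε *
          (√H + mw (tb (2 / 7) (4 / 7) (3 / 7)) s * Z ^ (9 / 14 : ℝ))) ^ 2) * (1 + |t|) ^ (2 * 4) := by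
        rw [← Finset.mul_sum, Finset.sum_comm]
        gcongr with ρ
        refine (b1 ρ).trans ?_
        rw [mul_assoc (CP * D ^ 2)]
        gcongr
    _ = 256 * CP * D ^ 2 * (1 + 2 * A) * ((1 + Z) ^ ε * (rd s * H) ^ ε * (1 + |t|) ^ 4 *
          (√H + mw (tb (2 / 7) (4 / 7) (3 / 7)) s * Z ^ (9 / 14 : ℝ))) ^ 2 := by
        rw [Finset.sum_const, c16, nsmul_eq_mul]; push_cast; ring
    _ ≤ C ^ 2 * _ := by gcongr; nlinarith
    _ = _ := by rw [min_eq_left hZ1]; ring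

end Vale.Agent.P026
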