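import Vale.Agent.P026.Stm3

/-! The level three family bound from the trivial large sieve. -/

noncomputable section
open Complex
open scoped Classical ComplexConjugate

namespace Vale.Agent.P026

namespace L3M

/-- the majorant -/
def wt (σ Z : ℝ) (k : O) : ℝ := if k = 0 then 0 else N k ^ σ * VV Z (N k)

theorem V0 (Z x : ℝ) : 0 ≤ VV Z x := (Real.exp_pos _).le
theorem V1 (Z x : ℝ) : VV Z x ≤ 1 := Real.exp_le_one_iff.2 (neg_nonpos.2 (sq_nonneg _))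
theorem N0 (k : O) : 0 ≤ N k := Nat.cast_nonneg _

theorem wt0 (σ Z : ℝ) (k : O) : 0 ≤ wt σ Z k := by
  have := V0 Z (N k)
  have := N0 k
  unfold wt
  split_ifs <;> positivity

theorem a_le (hB : Bas) (hH : HD) (hX : SX) (J r s) {φ} (hφ : P8 φ) (Z t n) :
    ‖SQc J r s φ Z t n‖ ≤ wt (-1 / 2) Z n := by
  unfold SQc
  split_ifs with h
  swap
  · simpa using wt0 _ _ _
  have n0 := hB.b2.ne n h.2.1.1
  have n1 := hB.b1.N_one_le n n0
  have np : 0 < N n := by linarith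
  have g : ‖gs n‖ = N n ^ (1 / 2 : ℝ) := by
    rw [← hH.n3 n (hB.b2.cop n h.2.1.1) h.2.2, ← Real.sqrt_eq_rpow, Real.sqrt_sq (norm_nonneg _)]
  have a : ‖ang J (toC n)‖ = 1 := by
    have : ‖toC n‖ ≠ 0 := norm_ne_zero_iff.2 ((map_ne_zero_iff _ hB.b1.inj).2 n0)
    rw [ang, norm_zpow, norm_div, Complex.norm_real, norm_norm, div_self this, one_zpow]
  have v := V0 Z (N n)
  rw [wt, if_neg n0, show (-1 / 2 : ℝ) = 1 / 2 + -1 by norm_num, Real.rpow_add np]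
  simp only [norm_mul, g, a, Complex.norm_cpow_eq_rpow_re_of_pos np, Complex.norm_real,
    Real.norm_of_nonneg v]
  have e : (-(1 + (t : ℂ) * I)).re = -1 := by simp
  rw [e]
  calc _ ≤ N n ^ (1 / 2 : ℝ) * 1 * 1 * 1 * N n ^ (-1 : ℝ) * VV Z (N n) := by
        gcongr
        exacts [hX.norm_le _ _, hφ.2 _]
    _ = _ := by ring

theorem wt_mul (hB : Bas) (σ Z : ℝ) (A : ℕ) (k : O) : wt σ Z k * N k ^ A = wt (σ + A) Z k := by
  unfold wt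
  split_ifs with h
  · simp
  · rw [Real.rpow_add_natCast (by linarith [hB.b1.N_one_le k h])]
    ring

theorem wt_sq (hB : Bas) {ε : ℝ} (hε : 0 < ε) (Z : ℝ) (k : O) :
    wt (-1 / 2) Z k ^ 2 ≤ wt (-1 + ε) Z k := by
  unfold wt
  split_ifs with h
  · simp
  · have n1 := hB.b1.N_one_le k h
    have v := V0 Z (N k)
    rw [mul_pow, ← Real.rpow_natCast, ← Real.rpow_mul (N0 k)]
    gcongr
    · norm_num; linarith
    · nlinarith [V1 Z (N k)]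

end L3M

open L3M in
theorem l3S (hB : Bas) (hH : HD) (hX : SX) (hL : LN) (h0 : SS0Stmt) : L3Stmt := by
  intro ε hε
  obtain ⟨B, hB1, hBε⟩ : ∃ B : ℕ, 1 ≤ B ∧ 1 ≤ ε * B := by
    refine ⟨⌈ε⁻¹⌉₊ + 1, by omega, ?_⟩
    have := Nat.le_ceil ε⁻¹
    push_cast
    nlinarith [mul_inv_cancel₀ hε.ne']
  obtain ⟨C0, hC0, h0⟩ := h0 (B + 1) (by omega)
  obtain ⟨C1, h1⟩ := hL.sum (-1 / 2)
  obtain ⟨C2, h2⟩ := hL.sum (-1 + ε)
  obtain ⟨C3, h3⟩ := hL.sum (-1 / 2 + (B + 1 : ℕ))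
  set K := 16 * C1 ^ 2 + C0 * (|C2| + C3 ^ 2) with hK
  have K0 : 0 ≤ K := by positivity
  refine ⟨√K, Real.sqrt_nonneg _, fun J s H Z t hH1 hZ r φ S hφ hS => ?_⟩
  set a := SQc J r s φ Z t with ha
  have al : ∀ n, ‖a n‖ ≤ wt (-1 / 2) Z n := a_le hB hH hX J r s hφ Z t
  obtain ⟨s1, b1⟩ := h1 Z hZ
  obtain ⟨s2, b2⟩ := h2 Z hZ
  obtain ⟨s3, b3⟩ := h3 Z hZ
  rw [if_pos (by norm_num)] at b1
  rw [if_pos (by linarith)] at b2
  rw [if_pos (by have : (0 : ℝ) ≤ (B + 1 : ℕ) := Nat.cast_nonneg _; linarith)] at b3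
  set m := min 1 Z with hm
  have m0 : 0 ≤ m := le_min zero_le_one hZ.le
  obtain ⟨u, u0, hu⟩ : ∃ u : ℝ, 0 < u ∧ u ^ 4 = H :=
    ⟨H ^ ((4 : ℕ) : ℝ)⁻¹, by positivity, Real.rpow_inv_natCast_pow (by linarith) (by norm_num)⟩
  obtain ⟨v, v0, hv⟩ : ∃ v : ℝ, 0 < v ∧ v ^ 4 = Z :=
    ⟨Z ^ ((4 : ℕ) : ℝ)⁻¹, by positivity, Real.rpow_inv_natCast_pow hZ.le (by norm_num)⟩
  have e1 : √H = u ^ 2 := by
    rw [← hu, show u ^ 4 = (u ^ 2) ^ 2 by ring, Real.sqrt_sq (by positivity)]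
  have e2 : H ^ (1 / 4 : ℝ) = u := by
    rw [← hu, ← Real.rpow_natCast, ← Real.rpow_mul u0.le]; norm_num
  have e3 : Z ^ (3 / 4 : ℝ) = v ^ 3 := by
    rw [← hv, ← Real.rpow_natCast, ← Real.rpow_mul v0.le, ← Real.rpow_natCast]; norm_num
  have e4 : Z ^ (-1 / 2 + 1 : ℝ) = v ^ 2 := by
    rw [← hv, ← Real.rpow_natCast, ← Real.rpow_mul v0.le, ← Real.rpow_natCast]; norm_num
  set q := (1 + Z) ^ ε with hq
  have q1 : 1 ≤ q := Real.one_le_rpow (by linarith) hε.le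
  suffices h : ∑ x ∈ S, ‖∑' n, a n * sx x n ^ 5‖ ^ 2 ≤ m ^ 2 * q ^ 2 * K * (u ^ 4 + u ^ 2 * v ^ 6) by
    refine h.trans ?_
    rw [e1, e2, e3, show (m * q * (√K * u ^ 2 + √K * u * v ^ 3)) ^ 2 =
      m ^ 2 * q ^ 2 * √K ^ 2 * (u ^ 4 + u ^ 2 * v ^ 6 + 2 * u ^ 3 * v ^ 3) by ring, Real.sq_sqrt K0]
    exact mul_le_mul_of_nonneg_left (le_add_of_nonneg_right (by positivity)) (by positivity)
  have triv : ∑ x ∈ S, ‖∑' n, a n * sx x n ^ 5‖ ^ 2 ≤ m ^ 2 * 1 ^ 2 * (16 * C1 ^ 2) * (u ^ 4 * v ^ 4) := by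
    have c := hB.b3.card_le H S (by linarith) hS
    have : ∀ x ∈ S, ‖∑' n, a n * sx x n ^ 5‖ ^ 2 ≤ (C1 * v ^ 2 * m) ^ 2 := fun x _ => by
      rw [← e4]
      refine pow_le_pow_left₀ (norm_nonneg _) ((tsum_of_norm_bounded s1.hasSum fun n => ?_).trans b1) 2
      rw [norm_mul, norm_pow]
      exact (mul_le_of_le_one_right (norm_nonneg _)
        (pow_le_one₀ (norm_nonneg _) (hX.norm_le _ _))).trans (al n)
    refine (Finset.sum_le_card_nsmul _ _ _ this).trans ?_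
    rw [nsmul_eq_mul]
    calc _ ≤ 16 * H * (C1 * v ^ 2 * m) ^ 2 := by gcongr
      _ = _ := by rw [← hu]; ring
  have K1 : 16 * C1 ^ 2 ≤ K := le_add_of_nonneg_right (by positivity)
  by_cases c1 : v ≤ 1
  · refine triv.trans ?_
    gcongr
    have : v ^ 4 ≤ 1 := pow_le_one₀ v0.le c1
    nlinarith [pow_pos u0 4, mul_pos (pow_pos u0 2) (pow_pos v0 6)]
  by_cases c2 : u ≤ v
  · refine triv.trans ?_
    gcongr
    have : u ^ 2 * (u ^ 2 * v ^ 4) ≤ v ^ 2 * (u ^ 2 * v ^ 4) := by gcongr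
    nlinarith [pow_pos u0 4]
  push Not at c1 c2
  have Z1 : 1 ≤ Z := hv ▸ one_le_pow₀ c1.le
  have m1 : m = 1 := min_eq_left Z1
  rw [m1, mul_one] at b2 b3
  have zq : Z ^ ε ≤ q := Real.rpow_le_rpow hZ.le (by linarith) hε.le
  have z1 : 1 ≤ Z ^ ε := Real.one_le_rpow Z1 hε.le
  set M := H + Z ^ 2 * Z ^ ε with hM
  have M1 : Z ^ 2 * Z ^ ε ≤ M := by linarith
  have M2 : H ≤ M := le_add_of_nonneg_right (by positivity)
  have t3 : ∀ n, ‖a n‖ * N n ^ (B + 1) ≤ wt (-1 / 2 + (B + 1 : ℕ)) Z n := fun n => by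
    rw [← wt_mul hB]
    exact mul_le_mul_of_nonneg_right (al n) (pow_nonneg (N0 n) _)
  have t2 : ∀ n, ‖a n‖ ^ 2 ≤ wt (-1 + ε) Z n := fun n =>
    (pow_le_pow_left₀ (norm_nonneg _) (al n) 2).trans (wt_sq hB hε Z n)
  have p3 : ∀ n, 0 ≤ ‖a n‖ * N n ^ (B + 1) := fun n => mul_nonneg (norm_nonneg _) (pow_nonneg (N0 n) _)
  have s3' := Summable.of_nonneg_of_le p3 t3 s3
  refine (h0 5 a M S (by norm_num) (hH1.trans M2) (fun n hn => ?_) s3'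
    fun x hx => (hS x hx).2.trans M2).trans ?_
  · by_contra hc
    exact hn (if_neg fun h => hc h.2)
  have f2 : ∑' n, ‖a n‖ ^ 2 ≤ |C2| * q := by
    refine (((Summable.of_nonneg_of_le (fun _ => by positivity) t2 s2).tsum_le_tsum t2 s2).trans
      b2).trans ?_
    rw [show -1 + ε + 1 = ε by ring]
    gcongr
    exact le_abs_self _
  have f3 : (∑' n, ‖a n‖ * N n ^ (B + 1)) ^ 2 ≤ C3 ^ 2 * (Z ^ 2 * ((Z ^ 2) ^ B * Z)) := by
    refine (pow_le_pow_left₀ (tsum_nonneg p3) ((s3'.tsum_le_tsum t3 s3).trans b3) 2).trans_eq ?_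
    rw [mul_pow, ← Real.rpow_natCast (Z ^ _), ← Real.rpow_mul hZ.le,
      show (-1 / 2 + ((B + 1 : ℕ) : ℝ) + 1) * (2 : ℕ) = (2 * B + 3 : ℕ) by push_cast; ring,
      Real.rpow_natCast]
    ring
  have f4 : (Z ^ 2) ^ B * Z ≤ M ^ B := by
    refine le_trans ?_ (pow_le_pow_left₀ (by positivity) M1 B)
    rw [mul_pow, ← Real.rpow_mul_natCast hZ.le]
    gcongr
    simpa using Real.rpow_le_rpow_of_exponent_le Z1 hBε
  have Mp : 0 < M := by linarith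
  have f5 : Z ^ 2 ≤ u ^ 2 * v ^ 6 := by
    rw [← hv, show (v ^ 4) ^ 2 = v ^ 2 * v ^ 6 by ring]
    gcongr
  have f6 : M ≤ q * (u ^ 4 + u ^ 2 * v ^ 6) := by
    rw [hM, ← hu, mul_add, mul_comm (Z ^ 2)]
    gcongr
    exact le_mul_of_one_le_left (by positivity) q1
  have f7 : Z ^ 2 ≤ q ^ 2 * (u ^ 4 + u ^ 2 * v ^ 6) :=
    (f5.trans (le_add_of_nonneg_left (by positivity))).trans
      (le_mul_of_one_le_left (by positivity) (one_le_pow₀ q1))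
  calc _ ≤ C0 * (q * (u ^ 4 + u ^ 2 * v ^ 6) * (|C2| * q) +
        M / M ^ (B + 1) * (C3 ^ 2 * (q ^ 2 * (u ^ 4 + u ^ 2 * v ^ 6) * M ^ B))) := by
        gcongr
        refine f3.trans ?_
        gcongr
    _ = 1 ^ 2 * q ^ 2 * (C0 * (|C2| + C3 ^ 2)) * (u ^ 4 + u ^ 2 * v ^ 6) := by
        field_simp
        ring
    _ ≤ _ := by
        rw [m1]
        gcongr
        exact le_add_of_nonneg_left (by positivity)

end Vale.Agent.P026
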