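import Vale.Agent.P026.Stm3

noncomputable section
open Complex MeasureTheory Filter Topology
open scoped Classical ComplexConjugate

namespace Vale.Agent.P026

namespace LOCM

/-- Gauss sum at a prime -/
def G (p : O) (e : ℕ) (a : O) : ℂ := ∑ r ∈ Rs p, sx r p ^ e * eQ (r * a) p

variable (hB : Bas) (hX : SX) {p : O} (hp : Prime p)
include hB hp

theorem Np : 0 < N p := one_pos.trans_le (hB.b1.N_one_le p hp.ne_zero)

include hX

theorem sum_eq (κ i j n : ℕ) (hn : i + j = n + 1) (m : O) :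
    ∑ h ∈ Rs (p ^ i * p ^ j), dd κ (p ^ i) (p ^ j) h * eQ (-(m * h)) (p ^ i * p ^ j) =
      (if p ^ n ∣ m then (N p : ℂ) ^ n else 0) *
        ∑ r ∈ Rs p, sx r p ^ (κ * (5 * i + j)) * eQ (-(m * r)) (p * p ^ n) := by
  have h0 := hp.ne_zero
  have e1 : ∀ h, dd κ (p ^ i) (p ^ j) h = sx h p ^ (κ * (5 * i + j)) := fun h => by
    rw [dd, hX.pow_r _ _ _ h0, hX.pow_r _ _ _ h0, map_pow, hX.conj_eq _ _ h0]
    ring
  have e2 : ∀ r s, eQ (-(m * (r + p * s))) (p * p ^ n) =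
      eQ (-(m * r)) (p * p ^ n) * eQ (-m * s) (p ^ n) := fun r s => by
    rw [← hB.b1.eQ_mul p (-m * s) _ h0, ← hB.b1.eQ_add]
    congr 1
    ring
  have e3 : ∀ r s, sx (r + p * s) p = sx r p := hX.pe p
  simp only [e1]
  rw [← pow_add, hn, pow_succ', hB.b4.lift p (p ^ n) _ h0 (pow_ne_zero n h0) fun a b => by
    simp only [mul_assoc, e2, e3]
    rw [hB.b1.eQ_dvd (-m * _) _ ((dvd_mul_right _ b).mul_left _), mul_one], Finset.mul_sum]
  refine Finset.sum_congr rfl fun r _ => ?_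
  simp only [e2, e3, ← mul_assoc]
  rw [← Finset.mul_sum, hB.b4.orth _ _ (pow_ne_zero n h0), hB.b1.N_pow]
  simp only [dvd_neg, ofReal_pow]
  ring

theorem II_zero (κ i j n : ℕ) (hn : i + j = n + 1) {m : O} (h : ¬ p ^ n ∣ m) :
    II κ (p ^ i) (p ^ j) m = 0 := by
  rw [II, sum_eq hB hX hp κ i j n hn, if_neg h, zero_mul, mul_zero]

theorem II_val (κ i j n : ℕ) (hn : i + j = n + 1) (a : O) :
    II κ (p ^ i) (p ^ j) (p ^ n * a) = ((Real.sqrt (N p ^ (n + 1)) : ℂ))⁻¹ *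
      ((N p : ℂ) ^ n * G p (κ * (5 * i + j)) (-a)) := by
  rw [II, sum_eq hB hX hp κ i j n hn, if_pos (dvd_mul_right _ _), ← pow_add, hn, hB.b1.N_pow, G]
  congr 2
  refine Finset.sum_congr rfl fun r _ => ?_
  rw [← hB.b1.eQ_mul (p ^ n) (r * -a) p (pow_ne_zero n hp.ne_zero), mul_comm p]
  congr 2
  ring

theorem II_sq (κ i j n : ℕ) (hn : i + j = n + 1) (a : O) :
    ‖II κ (p ^ i) (p ^ j) (p ^ n * a)‖ ^ 2 = N p ^ n * (‖G p (κ * (5 * i + j)) (-a)‖ ^ 2 / N p) := by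
  have h := Np hB hp
  rw [II_val hB hX hp κ i j n hn, norm_mul, norm_mul, norm_inv, norm_pow, norm_real, norm_real,
    mul_pow, inv_pow, Real.norm_eq_abs, sq_abs, Real.sq_sqrt (by positivity),
    Real.norm_of_nonneg h.le]
  field_simp
  ring

theorem G_le (e : ℕ) (a : O) : ‖G p e a‖ ≤ N p := by
  refine (norm_sum_le_of_le _ (n := fun _ => 1) fun r _ => ?_).trans ?_
  · rw [norm_mul, eQ, hB.b1.norm_psi, mul_one, norm_pow]
    exact pow_le_one₀ (norm_nonneg _) (hX.norm_le _ _)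
  · simp [hB.b4.card p hp.ne_zero, N]

theorem G_triv {e : ℕ} (he : e ≠ 0) (h6 : 6 ∣ e) (a : O) :
    G p e a = (if p ∣ a then (N p : ℂ) else 0) - 1 := by
  obtain ⟨r0, h1, h2⟩ := hB.b4.ex p 0 hp.ne_zero
  rw [zero_sub, dvd_neg] at h2
  have e1 : ∀ r ∈ Rs p, sx r p ^ e * eQ (r * a) p = eQ (a * r) p - if r = r0 then 1 else 0 := by
    intro r hr
    by_cases c : p ∣ r
    · rw [if_pos (hB.b4.uniq p r r0 hp.ne_zero hr h1 (c.sub h2)), hX.zero r p hp.ne_zero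
        (fun h => hp.coprime_iff_not_dvd.1 h.symm c), zero_pow he, hB.b1.eQ_dvd _ _ (c.mul_left a)]
      ring
    · obtain ⟨k, rfl⟩ := h6
      rw [if_neg (fun h : r = r0 => c (h ▸ h2)), pow_mul,
        hX.six r p (hp.coprime_iff_not_dvd.2 c).symm, mul_comm a]
      ring
  rw [G, Finset.sum_congr rfl e1, Finset.sum_sub_distrib, hB.b4.orth p a hp.ne_zero,
    Finset.sum_ite_eq', if_pos h1]

theorem G_sq (hG : GPStmt) (ho : OP p) {e : ℕ} (h6 : ¬ 6 ∣ e) (a : O) :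
    ‖G p e a‖ ^ 2 = if p ∣ a then 0 else N p := by
  obtain ⟨h1, h2⟩ := hG p e hp (hB.b2.cop p ho.1) (Or.inl ho.2) h6
  rw [G, h1, norm_mul, mul_pow, h2, norm_conj, norm_pow]
  split_ifs with c
  · rw [hX.zero a p hp.ne_zero fun h => hp.coprime_iff_not_dvd.1 h.symm c, norm_zero,
      zero_pow (fun h : e = 0 => h6 (h ▸ dvd_zero 6))]
    simp
  · rw [hX.norm a p (hp.coprime_iff_not_dvd.2 c).symm]
    simp

omit hX

theorem tk_sq (hH : HD) (hb : BB) (ho : OP p) (κ i : ℕ) :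
    ‖tk κ (p ^ i)‖ ^ 2 = if i % 3 = 2 then 0 else N p ^ (i / 3) := by
  have h := Np hB hp
  have e : ‖tk κ (p ^ i)‖ ^ 2 = ‖bb (p ^ i)‖ ^ 2 / N p ^ i := by
    rw [tk, norm_div, div_pow, norm_real, Real.norm_eq_abs, sq_abs, hB.b1.N_pow,
      Real.sq_sqrt (by positivity)]
    split_ifs <;> simp
  rw [e]
  obtain ⟨k, rfl | rfl | rfl⟩ : ∃ k, i = 3 * k ∨ i = 3 * k + 1 ∨ i = 3 * k + 2 :=
    ⟨i / 3, by omega⟩
  · rw [hb.pp0 p k hp ho.1, if_neg (by omega), show 3 * k / 3 = k by omega, norm_pow, norm_real,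
      Real.norm_of_nonneg h.le]
    field_simp
    ring
  · rw [hb.pp1 p k hp ho.1, if_neg (by omega), show (3 * k + 1) / 3 = k by omega, norm_mul, mul_pow,
      hH.n3 p (hB.b2.cop p ho.1) hp.squarefree, norm_pow, norm_real, Real.norm_of_nonneg h.le]
    field_simp
    ring
  · rw [hb.pp2 p k hp ho.1, if_pos (by omega)]
    simp

omit hB hp in
theorem Kn_sq (hQ : QR) (ho : OP p) (κ i j : ℕ) (m : O) : ‖Kn κ (p ^ i) (p ^ j) m‖ ^ 2 =
    ‖tk κ (p ^ i)‖ ^ 2 * ‖tk κ (p ^ j)‖ ^ 2 * ‖II κ (p ^ i) (p ^ j) m‖ ^ 2 := by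
  rw [Kn, norm_div, hQ.norm _ (ho.2.pow_left.mul_left ho.2.pow_left), norm_mul, norm_mul, norm_conj]
  ring

theorem Kn_le (hQ : QR) (hH : HD) (hb : BB) (ho : OP p) (κ i j : ℕ) (m : O) {k : ℕ}
    (h : ‖II κ (p ^ i) (p ^ j) m‖ ^ 2 ≤ N p ^ k) :
    ‖Kn κ (p ^ i) (p ^ j) m‖ ^ 2 ≤ N p ^ (k + i / 3 + j / 3) := by
  have h0 := Np hB hp
  have e : ∀ i, ‖tk κ (p ^ i)‖ ^ 2 ≤ N p ^ (i / 3) := fun i => by
    rw [tk_sq hB hp hH hb ho]
    split_ifs
    · positivity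
    · rfl
  rw [Kn_sq hQ ho]
  calc _ ≤ N p ^ (i / 3) * N p ^ (j / 3) * N p ^ k := by gcongr <;> apply e
    _ = _ := by ring

end LOCM

open LOCM

theorem locS (hB : Bas) (hQ : QR) (hH : HD) (hb : BB) (hX : SX) (hG : GPStmt) : LOC := by
  refine ⟨fun κ p m i j _ hp _ h1 h => ?_, fun κ p m i j hp ho h => ?_, fun κ p m i j _ hp ho => ?_,
    fun κ p m i j hκ hp ho h1 h => ?_, fun κ p m i j _ hp ho h6 h => ?_,
    fun κ p m i hκ hp ho h1 h2 => ?_, fun κ p m hκ hp ho h => ?_⟩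
  · rw [Kn, II_zero hB hX hp κ i j _ (by omega) h, mul_zero, zero_div]
  · refine norm_eq_zero.1 (pow_eq_zero_iff two_ne_zero |>.1 ?_)
    rw [Kn_sq hQ ho, tk_sq hB hp hH hb ho, tk_sq hB hp hH hb ho]
    rcases h with h | h <;> simp [h]
  · have h0 := Np hB hp
    refine Kn_le hB hp hQ hH hb ho κ i j m ?_
    obtain h | ⟨n, hn⟩ : i + j = 0 ∨ ∃ n, i + j = n + 1 := by rcases i + j with _ | n <;> simp
    · obtain ⟨rfl, rfl⟩ : i = 0 ∧ j = 0 := by omega
      have e : Nn 1 = 1 := (hB.b1.unit_iff 1).1 isUnit_one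
      simp [II, dd, hX.one_r, hB.b1.eQ_dvd, hB.b4.card, N, e]
    by_cases c : p ^ n ∣ m
    · obtain ⟨a, rfl⟩ := c
      rw [II_sq hB hX hp κ i j n hn, hn, pow_succ (N p) n]
      gcongr
      rw [div_le_iff₀ h0, ← sq]
      gcongr
      exact G_le hB hX hp _ _
    · rw [II_zero hB hX hp κ i j n hn c]
      simpa using by positivity
  · have h0 := Np hB hp
    obtain ⟨n, hn⟩ : ∃ n, i + j = n + 1 := ⟨i + j - 1, by omega⟩
    rw [show i + j + i / 3 + j / 3 - 1 = n + i / 3 + j / 3 by omega]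
    refine Kn_le hB hp hQ hH hb ho κ i j m ?_
    by_cases c : p ^ n ∣ m
    · obtain ⟨a, rfl⟩ := c
      rw [II_sq hB hX hp κ i j n hn]
      refine mul_le_of_le_one_right (by positivity) ((div_le_one h0).2 ?_)
      by_cases d : 6 ∣ κ * (5 * i + j)
      · have e : ¬ p ∣ -a := fun e => h.resolve_left (not_not.2 d) (by
          rw [hn, pow_succ]
          exact mul_dvd_mul_left _ (dvd_neg.1 e))
        rw [G_triv hB hX hp (by rcases hκ with rfl | rfl <;> omega) d, if_neg e]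
        simpa using hB.b1.N_one_le p hp.ne_zero
      · rw [G_sq hB hX hp hG ho d]
        split_ifs
        · exact h0.le
        · rfl
    · rw [II_zero hB hX hp κ i j n hn c]
      simpa using by positivity
  · obtain ⟨n, hn⟩ : ∃ n, i + j = n + 1 := ⟨i + j - 1, by
      have : i + j ≠ 0 := fun e => h6 (by simp [show 5 * i + j = 0 by omega])
      omega⟩
    obtain ⟨a, rfl⟩ := h
    refine norm_eq_zero.1 (pow_eq_zero_iff two_ne_zero |>.1 ?_)
    rw [Kn_sq hQ ho, hn, pow_succ p, mul_assoc (p ^ n), II_sq hB hX hp κ i j n hn,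
      G_sq hB hX hp hG ho h6, if_pos (dvd_neg.2 (dvd_mul_right p a))]
    simp
  · have h0 := Np hB hp
    have h3 : (N p : ℂ) ≠ 0 := ofReal_ne_zero.2 h0.ne'
    obtain ⟨n, hn⟩ : ∃ n, i + i = n + 1 := ⟨i + i - 1, by omega⟩
    rw [Kn, hX.gam_one _ _ ho.2.pow_left (by simp), div_one, mul_conj, normSq_eq_norm_sq,
      tk_sq hB hp hH hb ho, if_neg h2, show 2 * i = n + 1 by omega, Nat.add_sub_cancel]
    by_cases c : p ^ n ∣ m
    · obtain ⟨a, rfl⟩ := c
      rw [II_val hB hX hp κ i i n hn, G_triv hB hX hp (by rcases hκ with rfl | rfl <;> omega)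
        ⟨κ * i, by ring⟩, if_pos (dvd_mul_right _ _), ← hn, pow_add (N p),
        Real.sqrt_mul_self (by positivity), hn, pow_succ p]
      have e : (N p : ℂ) ^ n = N p ^ i * N p ^ i / N p := by
        rw [← pow_add, hn]
        field_simp
        ring
      simp only [dvd_neg, mul_dvd_mul_iff_left (pow_ne_zero n hp.ne_zero), e]
      push_cast
      split_ifs <;> field_simp <;> ring
    · rw [II_zero hB hX hp κ i i n hn c, if_neg c, if_neg fun e => c ((pow_dvd_pow p (by omega)).trans e)]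
      simp
  · have h0 := Np hB hp
    have e := Kn_sq hQ ho κ 1 0 (p ^ 0 * m)
    rw [II_sq hB hX hp κ 1 0 0 rfl, G_sq hB hX hp hG ho (by rcases hκ with rfl | rfl <;> omega),
      if_neg (mt dvd_neg.1 h), tk_sq hB hp hH hb ho, tk_sq hB hp hH hb ho, div_self h0.ne'] at e
    rcases (by simpa using e : ‖Kn κ p 1 m‖ = 1 ∨ ‖Kn κ p 1 m‖ = -1) with h1 | h1
    · exact h1
    · linarith [norm_nonneg (Kn κ p 1 m)]

end Vale.Agent.P026
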