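import Vale.Agent.P026.Stm3
import Vale.Agent.P026.M.GPO

/-! P026: positivity and Poisson summation give the dual bound. -/

noncomputable section
open Complex MeasureTheory Filter Topology
open scoped Classical ComplexConjugate

namespace Vale.Agent.P026

namespace PS2M

lemma N0 (a : O) : 0 ≤ N a := Nat.cast_nonneg _

lemma pow_le (hB : Bas) (k : O) : N k ^ 6 ≤ N k ^ 7 := by
  by_cases h : k = 0
  · simp [h, hB.b1.N_zero]
  · exact pow_le_pow_right₀ (hB.b1.N_one_le k h) (by norm_num)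

lemma esum (hB : Bas) {M : ℝ} (hM : 0 < M) : Summable fun m : O => Real.exp (-(N m / M)) := by
  have := GPOM.gsum hB hM
  simpa only [← Complex.ofReal_neg, Complex.norm_exp_ofReal] using this

lemma tk_le (hB : Bas) (hb : BB) (κ : ℕ) {k : O} (hk : k ≠ 0) : ‖tk κ k‖ ≤ N k := by
  have h1 := hB.b1.N_one_le k hk
  have h2 : ‖(if κ = 1 then bb k else (‖bb k‖ : ℂ))‖ = ‖bb k‖ := by split_ifs <;> simp
  have h3 : 1 ≤ Real.sqrt (N k) := Real.one_le_sqrt.2 h1
  rw [tk, norm_div, h2, Complex.norm_real, Real.norm_of_nonneg (Real.sqrt_nonneg _)]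
  refine (div_le_self (norm_nonneg _) h3).trans ((hb.norm_le k).trans ?_)
  simpa using Real.rpow_le_rpow_of_exponent_le h1 (show (2 / 3 : ℝ) ≤ 1 by norm_num)

lemma op_one : OP 1 := ⟨by simp [Prim], isCoprime_one_left⟩

lemma yE_one (hB : Bas) (hb : BB) (hX : SX) (κ : ℕ) (x : O → ℂ) (E : O) : yE κ x E 1 = x E := by
  have h1 : Nn 1 = 1 := (hB.b1.unit_iff 1).1 isUnit_one
  simp [yE, op_one, isCoprime_one_left, tk, hb.one, hX.one_r, N, h1]

lemma yE_summ (hB : Bas) (hb : BB) (hX : SX) (κ : ℕ) {x : O → ℂ} {E : O} (hE : E ≠ 0)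
    (hs : Summable fun k => ‖x k‖ * N k ^ 7) : Summable fun k => ‖yE κ x E k‖ * N k ^ 6 := by
  refine Summable.of_nonneg_of_le (fun k => mul_nonneg (norm_nonneg _) (pow_nonneg (N0 k) _))
    (fun k => ?_) (hs.comp_injective (mul_right_injective₀ hE))
  simp only [Function.comp, yE]
  split_ifs with h
  · have k0 := hB.b2.ne k h.1.1
    have h1 := tk_le hB hb κ k0
    have h2 : ‖sx (fl E) k ^ κ‖ ≤ 1 := by
      rw [norm_pow]; exact pow_le_one₀ (norm_nonneg _) (hX.norm_le _ _)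
    have h3 : N k ≤ N (E * k) := by
      rw [hB.b1.N_mul]; exact le_mul_of_one_le_left (N0 k) (hB.b1.N_one_le E hE)
    have h4 : N k ^ 7 ≤ N (E * k) ^ 7 := pow_le_pow_left₀ (N0 k) h3 7
    have h5 : ‖tk κ k‖ * ‖sx (fl E) k ^ κ‖ ≤ N k := by
      simpa using mul_le_mul h1 h2 (norm_nonneg _) (N0 k)
    have h6 := mul_le_mul_of_nonneg_right h5 (pow_nonneg (N0 k) 6)
    rw [norm_mul, norm_mul, mul_assoc, mul_assoc, ← mul_assoc ‖tk κ k‖]
    refine mul_le_mul_of_nonneg_left (h6.trans (le_of_eq_of_le (by ring) h4)) (norm_nonneg _)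
  · simp only [norm_zero, zero_mul]
    exact mul_nonneg (norm_nonneg _) (pow_nonneg (N0 _) _)

lemma QF_eq (h8 : B8) (hX : SX) (hK : KM) {κ : ℕ} {x : O → ℂ} {ρ E : O} (hE : OP E)
    (hx : ∀ k, x k ≠ 0 → (4 : O) ∣ k - ρ) (m : O) :
    QF κ x E (fl E * m) = ∑' k : O × O, yE κ x E k.1 * conj (yE κ x E k.2) * II κ k.1 k.2 m := by
  refine tsum_congr fun k => ?_
  simp only [yE]
  by_cases h1 : OP k.1 ∧ IsCoprime k.1 E
  · by_cases h2 : OP k.2 ∧ IsCoprime k.2 E
    · rw [if_pos ⟨h1.1, h2.1, h1.2, h2.2⟩, if_pos h1, if_pos h2]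
      by_cases a1 : x (E * k.1) = 0
      · simp [a1]
      by_cases a2 : x (E * k.2) = 0
      · simp [a2]
      have h4 : IsCoprime (4 : O) E := by
        rw [show (4 : O) = 2 ^ 2 by norm_num]; exact hE.2.symm.pow_left
      have h5 : (4 : O) ∣ k.1 - k.2 := h4.dvd_of_dvd_mul_left (by
        rw [show E * (k.1 - k.2) = E * k.1 - ρ - (E * k.2 - ρ) by ring]
        exact dvd_sub (hx _ a1) (hx _ a2))
      have h6 : IsCoprime (fl E) (k.1 * k.2) :=
        (h1.2.symm.mul_right h2.2.symm).of_isCoprime_of_dvd_left ⟨rad E, (h8.fl_rad E hE.1).symm⟩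
      rw [Kn, hX.gam_one _ _ h1.1.2 h5, hK.scale κ _ _ _ m h1.1 h2.1 h6]
      simp only [map_mul]
      ring
    · rw [if_neg fun h => h2 ⟨h.2.1, h.2.2.2⟩, if_neg h2]; simp
  · rw [if_neg fun h => h1 ⟨h.1, h.2.2.1⟩, if_neg h1]; simp

/-- the contribution of one `E` -/
lemma oneE (hB : Bas) (hb : BB) (h8 : B8) (hX : SX) (hK : KM) (h1 : PS1Stmt) {κ : ℕ} {x : O → ℂ}
    {ρ E : O} {M G : ℝ} (σ : O → ℝ) (hκ : κ ≠ 0) (hM : 0 < M) (hE : OP E)
    (hx : ∀ k, x k ≠ 0 → (4 : O) ∣ k - ρ) (hs : Summable fun k => ‖x k‖ * N k ^ 7)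
    (hσ : ∀ h, 0 < σ h ∧ σ h ≤ 4) (hG : ∀ m, cE κ E * ‖QF κ x E m‖ ≤ G) :
    ‖∑' m : O, Real.exp (-(N m / M)) * QE κ x m E‖ₑ ≤
      4 * (ENNReal.ofReal (cE κ E * (M / N (fl E))) *
      (‖x E‖ₑ ^ 2 + ∑' h : O, if h = 0 then 0 else DU κ (yE κ x E) (M / N (fl E)) (σ h) h)) := by
  have f0 : fl E ≠ 0 := hB.b2.ne _ (h8.fl_prim E)
  have fN : 0 < N (fl E) := one_pos.trans_le (hB.b1.N_one_le _ f0)
  have hM' : 0 < M / N (fl E) := div_pos hM fN
  have c0 := (hK.cE_le κ E hE).1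
  have key := h1 κ (yE κ x E) _ σ hκ hM' (fun k hk => by
    by_contra h
    exact hk (if_neg fun h' => h h'.1)) (yE_summ hB hb hX κ (hB.b2.ne E hE.1) hs) hσ
  simp only [← QF_eq h8 hX hK hE hx, yE_one hB hb hX] at key
  have e1 : ∑' m : O, Real.exp (-(N m / M)) * QE κ x m E =
      ∑' m : O, Real.exp (-(N (fl E * m) / M)) * QE κ x (fl E * m) E := by
    refine ((mul_right_injective₀ f0).tsum_eq (f := fun m => Real.exp (-(N m / M)) * QE κ x m E)
      fun m hm => ?_).symm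
    by_contra h
    refine hm ?_
    simp only [QE]
    rw [if_neg fun h' => h (h'.2.imp fun _ e => e.symm), mul_zero]
  have hS : Summable fun m : O => (cE κ E : ℂ) *
      ((Real.exp (-(N m / (M / N (fl E)))) : ℂ) * QF κ x E (fl E * m)) := by
    refine Summable.of_norm_bounded ((esum hB hM').mul_left G) fun m => ?_
    rw [norm_mul, norm_mul, Complex.norm_real, Complex.norm_real, Real.norm_of_nonneg c0,
      Real.norm_of_nonneg (Real.exp_pos _).le]
    have := mul_le_mul_of_nonneg_right (hG (fl E * m)) (Real.exp_pos (-(N m / (M / N (fl E))))).le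
    linarith
  have e2 : ∑' m : O, Real.exp (-(N (fl E * m) / M)) * QE κ x (fl E * m) E =
      ((cE κ E : ℂ) * ∑' m : O,
        (Real.exp (-(N m / (M / N (fl E)))) : ℂ) * QF κ x E (fl E * m)).re := by
    rw [← tsum_mul_left, Complex.re_tsum hS]
    refine tsum_congr fun m => ?_
    have e3 : N (fl E * m) / M = N m / (M / N (fl E)) := by rw [hB.b1.N_mul]; field_simp
    rw [QE, if_pos ⟨hE, dvd_mul_right _ _⟩, e3, Complex.re_ofReal_mul, Complex.re_ofReal_mul]
    ring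
  rw [e1, e2]
  have e4 : ∀ z : ℂ, ‖z.re‖ₑ ≤ ‖z‖ₑ := fun z => by
    rw [← ofReal_norm, ← ofReal_norm]
    exact ENNReal.ofReal_le_ofReal (Complex.abs_re_le_norm z)
  refine (e4 _).trans ?_
  rw [enorm_mul, ← ofReal_norm (cE κ E : ℂ), Complex.norm_real, Real.norm_of_nonneg c0]
  refine (mul_le_mul_right key _).trans (le_of_eq ?_)
  rw [ENNReal.ofReal_mul c0, ENNReal.ofReal_mul (by norm_num : (0 : ℝ) ≤ 4), ENNReal.ofReal_ofNat]
  ring

end PS2M

open PS2M in
theorem ps2S (hB : Bas) (hb : BB) (h8 : B8) (hX : SX) (hK : KM) (hP : PSDStmt) (h1 : PS1Stmt) :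
    PS2Stmt := by
  intro ε hε
  obtain ⟨C, hC⟩ := h8.ome 2 ε (by norm_num) hε
  have C0 : 0 ≤ C := by
    have h := hC 1
    have h' : 0 < rd 1 ^ ε := Real.rpow_pos_of_pos (one_pos.trans_le (h8.rd_ge 1)) ε
    have h'' : (0 : ℝ) < 2 ^ (pf 1).card := by positivity
    by_contra k
    nlinarith
  refine ⟨4 * (C * Real.exp 1), by positivity, fun κ x ρ M σ S hκ hM hx hs hσ hS => ?_⟩
  have M0 : 0 < M := one_pos.trans_le hM
  obtain ⟨⟨g, hg, hg'⟩, hQ⟩ := hP κ x hκ (Summable.of_nonneg_of_le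
    (fun k => mul_nonneg (norm_nonneg _) (pow_nonneg (N0 k) _))
    (fun k => mul_le_mul_of_nonneg_left (pow_le hB k) (norm_nonneg _)) hs)
  have bd : ∀ m E, ‖QE κ x m E‖ ≤ ‖g E‖ := fun m E => by
    simp only [QE]
    split_ifs with h
    · rw [norm_mul, Real.norm_of_nonneg (hK.cE_le κ E h.1).1]
      exact (mul_le_mul_of_nonneg_left (Complex.abs_re_le_norm _) (hK.cE_le κ E h.1).1).trans
        ((hg' m E h.1).trans (le_abs_self _))
    · simp
  have s2 : Summable fun p : O × O => Real.exp (-(N p.1 / M)) * QE κ x p.1 p.2 := by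
    refine Summable.of_norm_bounded ((esum hB M0).mul_of_nonneg hg.norm
      (fun _ => (Real.exp_pos _).le) fun _ => norm_nonneg _) fun p => ?_
    rw [norm_mul, Real.norm_of_nonneg (Real.exp_pos _).le]
    exact mul_le_mul_of_nonneg_left (bd _ _) (Real.exp_pos _).le
  have s1 : Summable fun m : O => Real.exp (-(N m / M)) * ∑' E, QE κ x m E := by
    simpa only [tsum_mul_left] using s2.prod
  have step : ∑ m ∈ S, ‖prim1 κ x m‖ ^ 2 ≤ C * Real.exp 1 * M ^ ε *
      ∑' E, ∑' m : O, Real.exp (-(N m / M)) * QE κ x m E := by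
    have e := Summable.tsum_comm (f := fun m E => Real.exp (-(N m / M)) * QE κ x m E) s2
    rw [e]
    simp only [tsum_mul_left]
    refine le_trans ?_ (mul_le_mul_of_nonneg_left (s1.sum_le_tsum S fun m _ =>
      mul_nonneg (Real.exp_pos _).le (hQ m).1) (by positivity))
    rw [Finset.mul_sum]
    refine Finset.sum_le_sum fun m hm => ((hQ m).2 (hS m hm).1).trans ?_
    rw [← mul_assoc]
    refine mul_le_mul_of_nonneg_right ((hC m).trans ?_) (hQ m).1
    have a1 : rd m ^ ε ≤ M ^ ε := Real.rpow_le_rpow (zero_le_one.trans (h8.rd_ge m))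
      ((h8.rd_le m (hS m hm).1).trans (hS m hm).2) hε.le
    have a2 : 1 ≤ Real.exp 1 * Real.exp (-(N m / M)) := by
      rw [← Real.exp_add]
      exact Real.one_le_exp (by have := (div_le_one M0).2 (hS m hm).2; linarith)
    have a3 := mul_le_mul a1 a2 zero_le_one (by positivity)
    have a4 := mul_le_mul_of_nonneg_left a3 C0
    linarith
  refine (ENNReal.ofReal_le_ofReal step).trans ?_
  rw [ENNReal.ofReal_mul (by positivity), show 4 * (C * Real.exp 1) * M ^ ε =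
    C * Real.exp 1 * M ^ ε * 4 by ring, ENNReal.ofReal_mul (p := C * Real.exp 1 * M ^ ε) (by positivity),
    ENNReal.ofReal_ofNat, mul_assoc (ENNReal.ofReal _), ← ENNReal.tsum_mul_left (a := 4)]
  refine mul_le_mul_right ((Real.ofReal_le_enorm _).trans (enorm_tsum_le_tsum_enorm.trans
    (ENNReal.tsum_le_tsum fun E => ?_))) _
  split_ifs with hE
  · exact oneE hB hb h8 hX hK h1 (σ E) (by omega) M0 hE hx hs (hσ E) fun m => hg' m E hE
  · simp [QE, hE]

end Vale.Agent.P026
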