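import Vale.Agent.P026.Stm3

noncomputable section
open Complex
open scoped Classical ComplexConjugate

namespace Vale.Agent.P026
namespace PS3M

theorem cp {x : ℝ} (hx : 0 < x) (s : ℂ) : (x : ℂ) ^ s = cexp (Real.log x * s) := by
  rw [cpow_def_of_ne_zero (by exact_mod_cast hx.ne'), ← ofReal_log hx.le]

theorem cop_rad (h8 : B8) {k E : O} (hE : Prim E) (hE0 : E ≠ 0) (h : IsCoprime k (rad E)) : IsCoprime k E := by
  rw [h8.prod E hE]
  exact IsCoprime.prod_right fun p hp => (IsCoprime.of_prod_right h p hp).pow_right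

theorem cop_rad' (h8 : B8) {k E : O} (hE : Prim E) (h : IsCoprime k E) : IsCoprime k (rad E) := by
  have := h8.fl_rad E hE
  rw [← this] at h
  exact h.of_mul_right_right

/-- quadratic part at `e lam^a 2^b` -/
def Qf (e : O) (a b : ℕ) (n : O) : ℂ := quad e n * quad lam n ^ a * quad 2 n ^ b

theorem Qf_per (hB : Bas) (hQ : QR) {e : O} (he : IsUnit e) (a b : ℕ) {n n' : O} (hn : IsCoprime n 2)
    (h : (24 : O) ∣ n - n') : Qf e a b n = Qf e a b n' := by
  have h3 : lam ∣ (3 : O) := ⟨-lam, by linear_combination hB.b1.lam_sq⟩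
  unfold Qf
  rw [hQ.qp e n n' he.ne_zero hn, hQ.qp lam n n' hB.b1.prime_lam.ne_zero hn,
    hQ.qp 2 n n' hB.b1.prime_two.ne_zero hn]
  · exact Dvd.dvd.trans ⟨3, by norm_num⟩ h
  · refine Dvd.dvd.trans ?_ h
    obtain ⟨c, hc⟩ := h3
    exact ⟨2 * c, by linear_combination 8 * hc⟩
  · rw [he.mul_right_dvd]
    exact Dvd.dvd.trans ⟨6, by norm_num⟩ h

theorem Qf_le (hB : Bas) (e : O) (a b : ℕ) (n : O) : ‖Qf e a b n‖ ≤ 1 := by
  unfold Qf
  rw [norm_mul, norm_mul, norm_pow, norm_pow]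
  have h1 := hB.b7.norm_le e n
  have h2 := pow_le_one₀ (n := a) (norm_nonneg _) (hB.b7.norm_le lam n)
  have h3 := pow_le_one₀ (n := b) (norm_nonneg _) (hB.b7.norm_le 2 n)
  exact mul_le_one₀ (mul_le_one₀ h1 (by positivity) h2) (by positivity) h3

theorem odd_add {k m : O} (h : IsCoprime k 2) : IsCoprime (k + 2 * m) 2 := h.add_mul_left_left m

theorem odd_iff (k m : O) : IsCoprime (k + 8 * m) 2 ↔ IsCoprime k 2 := by
  constructor
  · intro h
    have := odd_add (m := -(4 * m)) h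
    rwa [show k + 8 * m + 2 * -(4 * m) = k by ring] at this
  · intro h
    have := odd_add (m := 4 * m) h
    rwa [show k + 2 * (4 * m) = k + 8 * m by ring] at this

theorem odd_star {k : O} (h : IsCoprime k 2) : IsCoprime (16 - 15 * k) 2 := by
  have := odd_add (m := 8 - 8 * k) h
  rwa [show k + 2 * (8 - 8 * k) = 16 - 15 * k by ring] at this

def ph (ε : O → O → ℂ) (κ : ℕ) (ρ : O) (φ : O → ℂ) (E e : O) (a b : ℕ) (h' h0 k : O) : ℂ :=
  if IsCoprime k 2 ∧ (4 : O) ∣ E * k - ρ then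
    φ (E * k) * (ε (fl E) k * conj (ε h' k) * conj (ε h0 k) * Qf e a b (16 - 15 * k) * cub k (-2) ^ b) ^ κ
  else 0

theorem ang_mul (J : ℤ) (z w : ℂ) : ang J (z * w) = ang J z * ang J w := by
  unfold ang
  rw [norm_mul, ← mul_zpow]
  push_cast
  rw [mul_div_mul_comm]

theorem norm_ang (J : ℤ) (z : ℂ) : ‖ang J z‖ ≤ 1 := by
  unfold ang
  rw [norm_zpow]
  by_cases hz : z = 0
  · subst hz
    by_cases hJ : J = 0 <;> simp [hJ, zero_zpow]
  · have : ‖z / (‖z‖ : ℂ)‖ = 1 := by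
      rw [norm_div, norm_real, norm_norm, div_self (norm_ne_zero_iff.mpr hz)]
    rw [this, one_zpow]

theorem pw_id (hL : LN) {x y Z : ℝ} (hx : 0 < x) (hy : 0 < y) (hZ : 0 < Z) (t σ u : ℝ) :
    ((y * x : ℝ) : ℂ) ^ (-(1 / 2 + t * I)) * (VV Z (y * x) : ℂ) * ((Real.sqrt x : ℂ))⁻¹ *
      (x : ℂ) ^ (-1 / 2 + σ + u * I) =
    ((y : ℂ) ^ (-(1 / 2 + t * I)) * (((Z / y) ^ (σ - 1 / 2) * Real.exp ((σ - 1 / 2) ^ 2 / 4) : ℝ) : ℂ)) *
      ((x : ℂ) ^ (-(1 / 2 + (1 / 2 + ((t - u : ℝ) : ℂ) * I))) *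
        (VV (Z / y * Real.exp ((σ - 1 / 2) / 2)) x : ℂ)) := by
  have h1 := hL.shift (Z / y) x (1 / 2 - σ) (by positivity) hx
  rw [show -(1 / 2 - σ) = σ - 1 / 2 by ring, show (1 / 2 - σ) ^ 2 = (σ - 1 / 2) ^ 2 by ring] at h1
  rw [hL.scale Z x y hZ hx hy]
  have h2 : (((x ^ (σ - 1 / 2) * VV (Z / y) x : ℝ)) : ℂ) = _ := congrArg _ h1
  have hs : ((Real.sqrt x : ℂ))⁻¹ = cexp (Real.log x * (-1 / 2)) := by
    rw [Real.sqrt_eq_rpow, Real.rpow_def_of_pos hx, ofReal_exp, ← Complex.exp_neg]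
    congr 1; push_cast; ring
  have hx2 : ((x ^ (σ - 1 / 2) : ℝ) : ℂ) = cexp (Real.log x * (σ - 1 / 2)) := by
    rw [Real.rpow_def_of_pos hx, ofReal_exp]; congr 1; push_cast; ring
  rw [ofReal_mul, hx2, ofReal_mul] at h2
  rw [mul_assoc ((y : ℂ) ^ _), mul_left_comm ((((Z / y) ^ (σ - 1 / 2) * _ : ℝ)) : ℂ), ← h2,
    cp (mul_pos hy hx), cp hx, cp hx, cp hy, hs, Real.log_mul hy.ne' hx.ne']
  have : ∀ a b c d e f v : ℂ, a + b + c = d + e + f →
      cexp a * v * cexp b * cexp c = cexp d * (cexp e * (cexp f * v)) := by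
    intro a b c d e f v h
    have := congrArg cexp h
    rw [Complex.exp_add, Complex.exp_add, Complex.exp_add, Complex.exp_add] at this
    linear_combination v * this
  apply this
  push_cast; ring

theorem conj_pow (hX : SX) {κ : ℕ} (hκ : κ = 1 ∨ κ = 3) (k h : O) (hh : h ≠ 0) :
    conj (sx k h) ^ κ = sx k h ^ kd κ := by
  rw [hX.conj_eq k h hh]
  rcases hκ with rfl | rfl
  · simp [kd]
  · simp only [kd]
    by_cases hc : IsCoprime k h
    · have := hX.six k h hc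
      norm_num
      linear_combination (sx k h ^ 9 + sx k h ^ 3) * this
    · simp [hX.zero k h hh hc]

end PS3M
open PS3M

theorem ps3S (hB : Bas) (hC : CRStmt) (h9 : P9Stmt) (hQ : QR) (hb : BB) (h8 : B8) (hX : SX) (hL : LN) :
    PS3Stmt := by
  intro κ J r ρ s φ Z t E e a b h' hκ hs hφ hZ hE he hh'
  obtain ⟨ε, hε1, hε4, hεr⟩ := hX.recip
  have hE0 := hB.b2.ne E hE.1
  have h27 : IsCoprime E 27 := by
    have := (hB.b2.cop E hE.1).pow_right (n := 3)
    norm_num at this; exact this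
  obtain ⟨Eb, v, hEb⟩ := h27
  have hcl : ∀ k, (27 : O) ∣ E * k - r ↔ (27 : O) ∣ k - Eb * r := by
    intro k
    constructor
    · rintro ⟨c, hc⟩
      exact ⟨Eb * c + v * k, by linear_combination Eb * hc - k * hEb⟩
    · rintro ⟨c, hc⟩
      exact ⟨E * c - v * r, by linear_combination E * hc + r * hEb⟩
  have hfl : OP (fl E) := h8.op_dvd _ _ hE (h8.fl_prim E) ⟨rad E, (h8.fl_rad E hE.1).symm⟩
  have hm2 : Prim (-2 : O) := ⟨-1, by norm_num⟩
  refine ⟨Eb * r, ph ε κ ρ φ E e a b h', ⟨fun h0 => ⟨?_, ?_⟩, ?_⟩, ?_⟩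
  · intro k m
    unfold ph
    have e1 : (4 : O) ∣ E * (k + 8 * m) - ρ ↔ (4 : O) ∣ E * k - ρ := by
      rw [show E * (k + 8 * m) - ρ = E * k - ρ + 4 * (2 * E * m) by ring]
      exact dvd_add_left (Dvd.intro _ rfl)
    rw [odd_iff, e1]
    split_ifs with hk
    · have e2 : φ (E * (k + 8 * m)) = φ (E * k) := by
        rw [show E * (k + 8 * m) = E * k + 8 * (E * m) by ring]; exact hφ.1 _ _
      have e3 : ∀ x, ε x (k + 8 * m) = ε x k := fun x =>
        hε4 _ _ _ _ (by simp) ⟨2 * m, by ring⟩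
      have e4 : Qf e a b (16 - 15 * (k + 8 * m)) = Qf e a b (16 - 15 * k) :=
        (Qf_per hB hQ he a b (odd_star hk.1) ⟨5 * m, by ring⟩).symm
      have e5 : cub (k + 8 * m) (-2) = cub k (-2) := by
        have := hB.b6.pe (-2) k (-4 * m)
        simp only at this
        rw [← this]; congr 1; ring
      rw [e2, e3, e3, e3, e4, e5]
    · rfl
  · intro k
    unfold ph
    split_ifs
    · rw [norm_mul, norm_pow]
      refine mul_le_one₀ (hφ.2 _) (by positivity) (pow_le_one₀ (norm_nonneg _) ?_)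
      simp only [norm_mul, norm_pow, RCLike.norm_conj]
      have h3 := pow_le_one₀ (n := b) (norm_nonneg _) (hB.b6.norm_le k (-2))
      exact mul_le_one₀ (mul_le_one₀ (mul_le_one₀ (mul_le_one₀ (hε1 _ _) (by positivity) (hε1 _ _))
        (by positivity) (hε1 _ _)) (by positivity) (Qf_le hB _ _ _ _)) (by positivity) h3
    · simp
  · intro h1 h2 h12
    funext k
    unfold ph
    rw [hε4 h1 h2 k k h12 (by simp)]
  · intro h0 σ u hh0
    have hNE : 0 < N E := lt_of_lt_of_le one_pos (hB.b1.N_one_le E hE0)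
    set A : ℂ := if κ = 1 then 1 else bb E / (‖bb E‖ : ℂ) with hA
    set c3 : ℂ := (cub e (Eb * r) * cub lam (Eb * r) ^ a) ^ κ with hc3
    set c : ℂ := A * c3 * ang J (toC E) * sx E s * ((N E : ℂ) ^ (-(1 / 2 + t * I)) *
      (((Z / N E) ^ (σ - 1 / 2) * Real.exp ((σ - 1 / 2) ^ 2 / 4) : ℝ) : ℂ)) with hc
    have key : ∀ k, yE κ (xx κ J r ρ s φ Z t) E k * conj (sx (e * lam ^ a * 2 ^ b * h' * h0) k) ^ κ *
        (N k : ℂ) ^ (-1 / 2 + σ + u * I) = c * (if (27 : O) ∣ k - Eb * r then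
          bb k * ang J (toC k) * tw (kd κ) h0 (sE κ s E h') (ph ε κ ρ φ E e a b h' h0) k *
            (N k : ℂ) ^ (-(1 / 2 + (1 / 2 + ((t - u : ℝ) : ℂ) * I))) *
            VV (Z / N E * Real.exp ((σ - 1 / 2) / 2)) (N k) else 0) := by
      intro k
      have hs0 := hB.b2.ne s hs.1
      have hf0 := hB.b2.ne _ hfl.1
      have hr0 := hB.b2.ne _ (h8.rad_prim E)
      have hh'0 := hB.b2.ne _ hh'.1
      have hh00 := hB.b2.ne _ hh0.1
      have hE2 : (if κ = 1 then (1 : O) else E ^ 2) ≠ 0 := by split_ifs <;> simp [hE0]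
      have hsE : sx k (sE κ s E h') = sx k s * sx k (fl E) ^ κ * sx k (rad E) ^ 6 *
          sx k (if κ = 1 then 1 else E ^ 2) * sx k h' ^ kd κ := by
        unfold sE
        rw [hX.mul_r _ _ _ (mul_ne_zero (by simp [hs0, hf0, hr0]) hE2) (by simp [hh'0]),
          hX.mul_r _ _ _ (by simp [hs0, hf0, hr0]) hE2, hX.mul_r _ _ _ (by simp [hs0, hf0]) (by simp [hr0]),
          hX.mul_r _ _ _ hs0 (by simp [hf0]), hX.pow_r _ _ _ hf0, hX.pow_r _ _ _ hr0, hX.pow_r _ _ _ hh'0]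
      by_cases hk : OP k ∧ IsCoprime k E
      swap
      · unfold yE
        rw [if_neg hk]
        split_ifs with h27
        · by_cases hbk : bb k = 0
          · simp [hbk]
          have hpk : Prim k := by
            rcases hb.cases k with h | ⟨n, u, hn, hu, _, rfl⟩
            · exact absurd h hbk
            · exact hB.b2.mul _ _ hn (hB.b2.pow _ _ hu)
          by_cases hod : IsCoprime k 2
          · have : ¬ IsCoprime k (rad E) := fun h => hk ⟨⟨hpk, hod⟩, cop_rad h8 hE.1 hE0 h⟩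
            simp [tw, hsE, hX.zero k _ hr0 this]
          · simp [tw, ph, hod]
        · simp
      obtain ⟨hk, hkE⟩ := hk
      have hk0 := hB.b2.ne k hk.1
      have hNk : 0 < N k := lt_of_lt_of_le one_pos (hB.b1.N_one_le k hk0)
      have hEk := h8.op_mul _ _ hE hk
      unfold yE xx
      rw [if_pos ⟨hk, hkE⟩]
      by_cases h27 : (27 : O) ∣ k - Eb * r
      swap
      · rw [if_neg h27, if_neg (fun h => h27 ((hcl k).1 h.1))]; simp
      rw [if_pos h27]
      by_cases h4 : (4 : O) ∣ E * k - ρ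
      swap
      · rw [if_neg (fun h => h4 h.2.1)]; simp [tw, ph, h4]
      rw [if_pos ⟨(hcl k).2 h27, h4, hEk⟩]
      have hr' : Prim (Eb * r) := by
        obtain ⟨c, hc⟩ := h27
        obtain ⟨d, hd⟩ := hk.1
        exact ⟨d - 9 * c, by linear_combination hd - hc⟩
      have hk3 := hB.b2.cop k hk.1
      have q1 : cub e k = cub e (Eb * r) := h9 e _ _ he.ne_zero hk.1 hr' (by
        rw [he.mul_right_dvd]; exact Dvd.dvd.trans ⟨3, by norm_num⟩ h27)
      have q2 : cub lam k = cub lam (Eb * r) := h9 lam _ _ hB.b1.prime_lam.ne_zero hk.1 hr'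
        (Dvd.dvd.trans ⟨-lam, by linear_combination 9 * hB.b1.lam_sq⟩ h27)
      have q3 : cub 2 k = cub k (-2) := by
        rw [← hC _ _ hm2 hk.1, hB.b6.neg_l _ _ hk3]
      have q4 : Qf e a b (16 - 15 * k) = Qf e a b k := by
        refine (Qf_per hB hQ he a b hk.2 ?_).symm
        obtain ⟨d, hd⟩ := hk.1
        exact ⟨2 * d, by linear_combination 16 * hd⟩
      have q5 : conj (sx (e * lam ^ a * 2 ^ b * h' * h0) k) = cub e (Eb * r) * cub lam (Eb * r) ^ a *
          (conj (ε h' k) * conj (ε h0 k) * Qf e a b (16 - 15 * k) * cub k (-2) ^ b) *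
          (conj (sx k h') * conj (sx k h0)) := by
        rw [hX.mul_l _ _ _ hk, hX.mul_l _ _ _ hk, hX.mul_l _ _ _ hk, hX.mul_l _ _ _ hk, hX.pow_l _ _ _ hk,
          hX.pow_l _ _ _ hk, hεr h' k hh' hk, hεr h0 k hh0 hk, q4, ← q1, ← q2, ← q3]
        have hcj : ∀ x, conj (sx x k) = quad x k * cub x k := fun x => by
          simp [sx, hB.b7.conj_eq]
        simp only [map_mul, map_pow, hcj, Qf, mul_pow]
        ring
      have q6 : (if κ = 1 then 1 else bb (E * k) / (‖bb (E * k)‖ : ℂ)) * tk κ k =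
          A * sx k (if κ = 1 then 1 else E ^ 2) * bb k * ((Real.sqrt (N k) : ℂ))⁻¹ := by
        rw [hA]
        unfold tk
        split_ifs with h1
        · rw [hX.one_r]; ring
        · rw [hX.pow_r _ _ _ hE0, hX.two _ _ hE0, hb.mul E k hE.1 hk.1 hkE.symm, hC E k hE.1 hk.1,
            norm_mul, norm_mul, hB.b6.norm k E hkE]
          by_cases hbk : bb k = 0
          · simp [hbk]
          · have : (‖bb k‖ : ℂ) ≠ 0 := by exact_mod_cast norm_ne_zero_iff.mpr hbk
            push_cast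
            field_simp
      have q7 := pw_id hL hNk hNE hZ t σ u
      rw [q5, hB.b1.N_mul, map_mul toC, ang_mul, hX.mul_l E k s hs, hεr _ k hfl hk]
      have q8 : ph ε κ ρ φ E e a b h' h0 k = _ := if_pos ⟨hk.2, h4⟩
      unfold tw
      rw [q8, hsE, hX.six k _ (cop_rad' h8 hE.1 hkE), ← conj_pow hX hκ k h' hh'0,
        ← conj_pow hX hκ k h0 hh00, hc, hc3]
      simp only [mul_pow]
      set P1 := ((N E * N k : ℝ) : ℂ) ^ (-(1 / 2 + t * I))
      set P2 := (VV Z (N E * N k) : ℂ)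
      set P3 := (N k : ℂ) ^ (-1 / 2 + σ + u * I)
      set W := ang J (toC E) * ang J (toC k) * sx E s * sx k s * φ (E * k) * ε (fl E) k ^ κ *
        sx k (fl E) ^ κ * cub e (Eb * r) ^ κ * (cub lam (Eb * r) ^ a) ^ κ * conj (ε h' k) ^ κ *
        conj (ε h0 k) ^ κ * Qf e a b (16 - 15 * k) ^ κ * (cub k (-2) ^ b) ^ κ * conj (sx k h') ^ κ *
        conj (sx k h0) ^ κ with hW
      linear_combination (W * P1 * P2 * P3) * q6 +
        (W * A * sx k (if κ = 1 then 1 else E ^ 2) * bb k) * q7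
    rw [tsum_congr key, tsum_mul_left, norm_mul]
    refine mul_le_mul_of_nonneg_right ?_ (norm_nonneg _)
    have hA1 : ‖A‖ ≤ 1 := by
      rw [hA]; split_ifs
      · simp
      · rw [norm_div, norm_real, norm_norm]; exact div_self_le_one _
    have hc31 : ‖c3‖ ≤ 1 := by
      rw [hc3, norm_pow, norm_mul, norm_pow]
      exact pow_le_one₀ (by positivity) (mul_le_one₀ (hB.b6.norm_le _ _) (by positivity)
        (pow_le_one₀ (norm_nonneg _) (hB.b6.norm_le _ _)))
    rw [hc, norm_mul, norm_mul ((N E : ℂ) ^ _), norm_cpow_eq_rpow_re_of_pos hNE, norm_real,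
      Real.norm_of_nonneg (by positivity)]
    have e1 : (-(1 / 2 + (t : ℂ) * I)).re = -1 / 2 := by simp; norm_num
    rw [e1, ← mul_assoc (N E ^ _)]
    refine mul_le_of_le_one_left (by positivity) ?_
    rw [norm_mul, norm_mul, norm_mul]
    exact mul_le_one₀ (mul_le_one₀ (mul_le_one₀ hA1 (by positivity) hc31) (by positivity) (norm_ang _ _))
      (by positivity) (hX.norm_le _ _)

end Vale.Agent.P026
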