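import Vale.Agent.P026.M.VS

/-! P026: global positivity of the kernel. -/

noncomputable section
open Complex MeasureTheory Filter Topology
open scoped Classical ComplexConjugate

namespace Vale.Agent.P026

namespace PSDM

open VIM VSM

def AA (x : O → ℂ) : ℝ := ∑' k, ‖x k‖ * N k ^ 6
def uu (x : O → ℂ) (E k : O) : ℝ := ‖x (E * k)‖ * N k
def qt (κ : ℕ) (x : O → ℂ) (E m : O) (k : O × O) : ℂ :=
  if OP k.1 ∧ OP k.2 ∧ IsCoprime k.1 E ∧ IsCoprime k.2 E then
    x (E * k.1) * conj (x (E * k.2)) * Kn κ k.1 k.2 m else 0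

lemma uu0 (x : O → ℂ) (E k : O) : 0 ≤ uu x E k := mul_nonneg (norm_nonneg _) (N0 k)

lemma uu_le (hB : Bas) (x : O → ℂ) {E : O} (hE : E ≠ 0) (k : O) :
    uu x E k ≤ (N E ^ 6)⁻¹ * (‖x (E * k)‖ * N (E * k) ^ 6) := by
  have h1 : 0 < N E := lt_of_lt_of_le one_pos (hB.b1.N_one_le E hE)
  have h2 : N k ≤ N k ^ 6 := by
    by_cases hk : k = 0
    · rw [hk, hB.b1.N_zero]; norm_num
    · exact le_self_pow₀ (hB.b1.N_one_le k hk) (by norm_num)
  rw [hB.b1.N_mul, uu]
  calc _ ≤ ‖x (E * k)‖ * N k ^ 6 := by gcongr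
    _ = _ := by field_simp

lemma uu_sum (hB : Bas) {x : O → ℂ} (hx : Summable fun k => ‖x k‖ * N k ^ 6) {E : O} (hE : E ≠ 0) :
    Summable (uu x E) ∧ ∑' k, uu x E k ≤ (N E ^ 6)⁻¹ * AA x := by
  have h1 := hx.comp_injective (mul_right_injective₀ hE)
  have h2 := Summable.of_nonneg_of_le (uu0 x E) (uu_le hB x hE) (h1.mul_left _)
  refine ⟨h2, (h2.tsum_le_tsum (uu_le hB x hE) (h1.mul_left _)).trans ?_⟩
  rw [tsum_mul_left]
  have := N0 E
  refine mul_le_mul_of_nonneg_left ?_ (by positivity)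
  exact tsum_comp_le_tsum_of_inj hx (fun k => by have := N0 k; positivity) (mul_right_injective₀ hE)

lemma qt_le (hK : KM) (κ : ℕ) {x y : O → ℂ} (hy : ∀ k, ‖y k‖ ≤ ‖x k‖) (E m : O) (k : O × O) :
    ‖qt κ y E m k‖ ≤ uu x E k.1 * uu x E k.2 := by
  unfold qt
  split_ifs with c
  · have h1 := hK.Kn_le κ k.1 k.2 m c.1 c.2.1
    have h2 := hy (E * k.1)
    have h3 := hy (E * k.2)
    rw [norm_mul, norm_mul, Complex.norm_conj, uu, uu]
    calc _ ≤ ‖x (E * k.1)‖ * ‖x (E * k.2)‖ * (N k.1 * N k.2) := by gcongr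
      _ = _ := by ring
  · rw [norm_zero]; exact mul_nonneg (uu0 _ _ _) (uu0 _ _ _)

lemma QF_le (hB : Bas) (hK : KM) (κ : ℕ) {x y : O → ℂ} (hx : Summable fun k => ‖x k‖ * N k ^ 6)
    (hy : ∀ k, ‖y k‖ ≤ ‖x k‖) {E : O} (hE : OP E) (m : O) :
    cE κ E * ‖QF κ y E m‖ ≤ AA x ^ 2 * N E ^ (-(10 : ℝ)) := by
  have h0 := hB.b2.ne _ hE.1
  obtain ⟨h1, h2⟩ := uu_sum hB hx h0
  have h3 := h1.mul_of_nonneg h1 (uu0 x E) (uu0 x E)
  have h4 : ‖QF κ y E m‖ ≤ (∑' k, uu x E k) * ∑' k, uu x E k := by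
    rw [h1.tsum_mul_tsum h1 h3]
    exact tsum_of_norm_bounded h3.hasSum (qt_le hK κ hy E m)
  have h5 : 0 ≤ ∑' k, uu x E k := tsum_nonneg (uu0 x E)
  have h6 : 0 < N E := lt_of_lt_of_le one_pos (hB.b1.N_one_le E h0)
  obtain ⟨h7, h8⟩ := hK.cE_le κ E hE
  have h9 := h5.trans h2
  calc _ ≤ N E ^ 2 * (((N E ^ 6)⁻¹ * AA x) * ((N E ^ 6)⁻¹ * AA x)) := by
        gcongr
        exact h4.trans (by gcongr)
    _ = _ := by
      rw [Real.rpow_neg h6.le, show (10 : ℝ) = ((10 : ℕ) : ℝ) by norm_num, Real.rpow_natCast]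
      field_simp

def xT (T : Finset O) (x : O → ℂ) (k : O) : ℂ := if k ∈ T then x k else 0

lemma xT_le (T : Finset O) (x : O → ℂ) (k : O) : ‖xT T x k‖ ≤ ‖x k‖ := by
  unfold xT; split_ifs <;> simp

lemma QF_fin (hB : Bas) (h8 : B8) (κ : ℕ) (x : O → ℂ) {T : Finset O} (hT : ∀ k ∈ T, OP k) {E : O}
    (hE : OP E) (m : O) : QF κ (xT T x) E m = ∑ k1 ∈ T, ∑ k2 ∈ T,
      if UD E k1 ∧ UD E k2 then x k1 * conj (x k2) * Kn κ (k1 / E) (k2 / E) m else 0 := by
  have h0 := hB.b2.ne _ hE.1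
  have dv : ∀ k, E * k / E = k := fun k => mul_div_cancel_left₀ k h0
  have ud : ∀ k, UD E (E * k) ↔ IsCoprime k E := fun k => by
    rw [UD, dv]; exact ⟨fun a => a.2.symm, fun a => ⟨dvd_mul_right _ _, a.symm⟩⟩
  have op : ∀ k, E * k ∈ T → OP k := fun k hk =>
    h8.op_dvd k _ (hT _ hk) (hB.b2.cancel E k hE.1 (hT _ hk).1) (dvd_mul_left _ _)
  set f : O × O → ℂ := fun k => if k ∈ T ×ˢ T then (if UD E k.1 ∧ UD E k.2 then
    x k.1 * conj (x k.2) * Kn κ (k.1 / E) (k.2 / E) m else 0) else 0 with hf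
  have inj : Function.Injective fun k : O × O => (E * k.1, E * k.2) := fun a b h =>
    Prod.ext (mul_left_cancel₀ h0 (congrArg Prod.fst h)) (mul_left_cancel₀ h0 (congrArg Prod.snd h))
  have h1 := inj.tsum_eq (f := f) (by
    rintro ⟨k1, k2⟩ hk
    have : UD E k1 ∧ UD E k2 := by
      by_contra c
      exact hk (by simp only [hf, if_neg c, ite_self])
    obtain ⟨⟨⟨a, rfl⟩, -⟩, ⟨b, rfl⟩, -⟩ := this
    exact ⟨(a, b), rfl⟩)
  rw [← Finset.sum_product' (f := fun k1 k2 => if UD E k1 ∧ UD E k2 then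
      x k1 * conj (x k2) * Kn κ (k1 / E) (k2 / E) m else 0),
    ← Finset.sum_congr rfl fun k hk => (if_pos hk : f k = _),
    ← tsum_eq_sum (L := .unconditional _) fun k hk => (if_neg hk : f k = 0), ← h1]
  refine tsum_congr fun k => ?_
  simp only [hf, Finset.mem_product, ud, dv, xT]
  by_cases c1 : E * k.1 ∈ T
  · by_cases c2 : E * k.2 ∈ T
    · simp only [c1, c2, op _ c1, op _ c2, true_and, if_true]
    · simp [c2]
  · simp [c1]

lemma fin (hB : Bas) (h8 : B8) (hK : KM) (hl : PSDLStmt) (hS : SCHStmt) (hE : EXPStmt) {κ : ℕ}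
    (hκ : κ = 1 ∨ κ = 3) (x : O → ℂ) {T : Finset O} (hT : ∀ k ∈ T, OP k) (m : O) :
    0 ≤ ∑' E, QE κ (xT T x) m E ∧
      (m ≠ 0 → ‖prim1 κ (xT T x) m‖ ^ 2 ≤ 2 ^ (pf m).card * ∑' E, QE κ (xT T x) m E) := by
  set P := T.biUnion pf with hP
  have ne : ∀ k ∈ T, k ≠ 0 := fun k hk => hB.b2.ne _ (hT k hk).1
  have p1 : ∀ p ∈ P, Prime p ∧ OP p := fun p hp => by
    obtain ⟨k, hk, h⟩ := Finset.mem_biUnion.1 hp
    obtain ⟨a, b, c⟩ := (h8.mem k p (ne k hk)).1 h
    exact ⟨a, h8.op_dvd p k (hT k hk) b c⟩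
  have p2 : ∀ k ∈ T, pf k ⊆ P := fun k hk => Finset.subset_biUnion_of_mem pf hk
  have fD : {E | OP E ∧ ∃ k ∈ T, E ∣ k}.Finite := (hB.b3.fin (∑ k ∈ T, N k)).subset (by
    rintro E ⟨-, k, hk, h⟩
    exact (N_le hB (ne k hk) h).trans (Finset.single_le_sum (fun k _ => N0 k) hk))
  have ex := fun k1 (h1 : k1 ∈ T) k2 (h2 : k2 ∈ T) => hE κ k1 k2 m P fD.toFinset hκ (hT _ h1)
    (hT _ h2) p1 (p2 _ h1) (p2 _ h2) (fun E h => (fD.mem_toFinset.1 h).1)
    fun E a b => fD.mem_toFinset.2 ⟨h8.op_dvd E k1 (hT _ h1) a b, k1, h1, b⟩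
  have opp : ∀ p ∈ P, ∀ i : ℕ, OP (p ^ i) := fun p hp i =>
    ⟨hB.b2.pow _ _ (p1 p hp).2.1, (p1 p hp).2.2.pow_left⟩
  have key := hS O O P (fun p => Kl κ p m) (fun p => al κ p m) (fun p => if p ∣ m then 1 / 2 else 1)
    (fun p _ => by split_ifs <;> norm_num) (fun p hp i j => by
      simp only [Kl, map_add]
      rw [hK.herm κ _ _ m hκ (opp p hp i) (opp p hp j)]
      congr 1
      by_cases c : i = j
      · subst c; split_ifs <;> simp
      · rw [if_neg fun a => c a.1.symm, if_neg fun a => c a.1, map_zero])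
    (fun p hp n y => hl κ p m n y hκ (p1 p hp).1 (p1 p hp).2) T (fun k p => vl p k) x
  have e1 : ∑ k ∈ T, x k * ∏ p ∈ P, al κ p m (vl p k) = prim1 κ (xT T x) m := by
    rw [prim1, tsum_eq_sum (s := T) fun k hk => by simp [xT, hk]]
    refine Finset.sum_congr rfl fun k hk => ?_
    rw [(ex k hk k hk).2]
    simp only [xT, hk, hT k hk, true_and, if_true]
    split_ifs <;> simp
  have e2 : (∑ k1 ∈ T, ∑ k2 ∈ T, x k1 * conj (x k2) * ∏ p ∈ P, Kl κ p m (vl p k1) (vl p k2)).re =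
      ∑' E, QE κ (xT T x) m E := by
    rw [tsum_eq_sum (s := fD.toFinset) fun E h => ?_]
    · rw [Finset.sum_congr rfl fun k1 h1 => Finset.sum_congr rfl fun k2 h2 => by
        rw [(ex k1 h1 k2 h2).1, Finset.mul_sum]]
      rw [Finset.sum_congr rfl fun k1 _ => Finset.sum_comm, Finset.sum_comm, Complex.re_sum]
      refine Finset.sum_congr rfl fun E h => ?_
      have o := (fD.mem_toFinset.1 h).1
      rw [QE, QF_fin hB h8 κ x hT o]
      by_cases c : fl E ∣ m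
      · rw [if_pos ⟨o, c⟩, ← Complex.re_ofReal_mul, Finset.mul_sum]
        congr 1
        refine Finset.sum_congr rfl fun k1 _ => ?_
        rw [Finset.mul_sum]
        refine Finset.sum_congr rfl fun k2 _ => ?_
        simp only [c, and_true]
        split_ifs <;> ring
      · simp [c]
    · unfold QE
      split_ifs with c
      · rw [QF_fin hB h8 κ x hT c.1, Finset.sum_eq_zero fun k1 h1 => Finset.sum_eq_zero fun k2 _ =>
          if_neg fun a => h (fD.mem_toFinset.2 ⟨c.1, k1, h1, a.1.1⟩)]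
        simp
      · rfl
  rw [e1, e2] at key
  have c0 : 0 ≤ ∏ p ∈ P, (if p ∣ m then 1 / 2 else 1 : ℝ) :=
    Finset.prod_nonneg fun p _ => by split_ifs <;> norm_num
  refine ⟨le_trans (by positivity) key, fun hm => ?_⟩
  have c1 : (1 / 2 : ℝ) ^ (pf m).card ≤ ∏ p ∈ P, (if p ∣ m then 1 / 2 else 1 : ℝ) := by
    rw [← Finset.prod_filter, Finset.prod_const]
    refine pow_le_pow_of_le_one (by norm_num) (by norm_num) (Finset.card_le_card fun p hp => ?_)
    obtain ⟨a, b⟩ := Finset.mem_filter.1 hp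
    exact (h8.mem m p hm).2 ⟨(p1 p a).1, (p1 p a).2.1, b⟩
  have c2 := (mul_le_mul_of_nonneg_right c1 (sq_nonneg _)).trans key
  rwa [one_div, inv_pow, inv_mul_le_iff₀ (by positivity)] at c2

lemma ev (x : O → ℂ) {k : O} (hk : OP k) :
    ∀ᶠ T : Finset O in atTop, xT (T.filter OP) x k = x k := by
  filter_upwards [eventually_ge_atTop {k}] with T hT
  exact if_pos (Finset.mem_filter.2 ⟨hT (Finset.mem_singleton_self k), hk⟩)

end PSDM

open PSDM VIM

theorem psdS (hB : Bas) (h8 : B8) (hK : KM) (hl : PSDLStmt) (hS : SCHStmt) (hE : EXPStmt) :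
    PSDStmt := by
  intro κ x hκ hx
  have sg := (hB.b3.summ 10 (by norm_num)).mul_left (AA x ^ 2)
  refine ⟨⟨_, sg, fun m E h => QF_le hB hK κ hx (fun _ => le_rfl) h m⟩, fun m => ?_⟩
  have l1 : ∀ E, OP E → Tendsto (fun T : Finset O => QF κ (xT (T.filter OP) x) E m) atTop
      (𝓝 (QF κ x E m)) := fun E o => by
    have h1 := (uu_sum hB hx (hB.b2.ne _ o.1)).1
    refine tendsto_tsum_of_dominated_convergence (h1.mul_of_nonneg h1 (uu0 x E) (uu0 x E))
      (fun k => ?_) (.of_forall fun T => qt_le hK κ (xT_le _ x) E m)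
    split_ifs with c
    · refine tendsto_const_nhds.congr' ?_
      filter_upwards [ev x (h8.op_mul _ _ o c.1), ev x (h8.op_mul _ _ o c.2.1)] with T a b
      rw [a, b]
    · exact tendsto_const_nhds
  have l2 : Tendsto (fun T : Finset O => ∑' E, QE κ (xT (T.filter OP) x) m E) atTop
      (𝓝 (∑' E, QE κ x m E)) := by
    refine tendsto_tsum_of_dominated_convergence sg (fun E => ?_) (.of_forall fun T E => ?_)
    · unfold QE
      split_ifs with c
      · exact ((Complex.continuous_re.tendsto _).comp (l1 E c.1)).const_mul _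
      · exact tendsto_const_nhds
    · unfold QE
      split_ifs with c
      · refine le_trans ?_ (QF_le hB hK κ hx (xT_le (T.filter OP) x) c.1 m)
        rw [norm_mul, Real.norm_of_nonneg (hK.cE_le κ E c.1).1]
        exact mul_le_mul_of_nonneg_left (Complex.abs_re_le_norm _) (hK.cE_le κ E c.1).1
      · have := N0 E
        rw [norm_zero]; positivity
  have l3 : Tendsto (fun T : Finset O => prim1 κ (xT (T.filter OP) x) m) atTop
      (𝓝 (prim1 κ x m)) := by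
    refine tendsto_tsum_of_dominated_convergence ((uu_sum hB hx one_ne_zero).1.mul_right (N 1))
      (fun k => ?_) (.of_forall fun T k => ?_)
    · split_ifs with c
      · refine tendsto_const_nhds.congr' ?_
        filter_upwards [ev x c.1] with T a
        rw [a]
      · exact tendsto_const_nhds
    · split_ifs with c
      · rw [norm_mul, uu, one_mul, mul_assoc]
        exact mul_le_mul (xT_le _ x k) (hK.Kn_le κ k 1 m c.1 ⟨hB.b2.one, isCoprime_one_left⟩)
          (norm_nonneg _) (norm_nonneg _)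
      · rw [norm_zero]; exact mul_nonneg (uu0 _ _ _) (N0 1)
  have f := fun T : Finset O => fin hB h8 hK hl hS hE hκ x (T := T.filter OP)
    (fun k hk => (Finset.mem_filter.1 hk).2) m
  exact ⟨ge_of_tendsto' l2 fun T => (f T).1, fun hm =>
    le_of_tendsto_of_tendsto' (l3.norm.pow 2) (l2.const_mul _) fun T => (f T).2 hm⟩

end Vale.Agent.P026
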