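import Vale.Agent.P026.Stm3

/-! P026: reduction of theta sums to squarefree sums. -/

noncomputable section
open Complex MeasureTheory Filter Topology
open scoped Classical ComplexConjugate

namespace Vale.Agent.P026

namespace REDM

lemma N0 (a : O) : 0 ≤ N a := Nat.cast_nonneg _

/-- Minkowski for an infinite sum of vectors -/
lemma mink {ι α : Type} (S : Finset α) (f : ι → α → ℂ) (b : ι → ℝ) (hb : Summable b)
    (b0 : ∀ i, 0 ≤ b i) (h : ∀ i, ∑ x ∈ S, ‖f i x‖ ^ 2 ≤ b i ^ 2) :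
    ∑ x ∈ S, ‖∑' i, f i x‖ ^ 2 ≤ (∑' i, b i) ^ 2 := by
  let V : ι → EuclideanSpace ℂ S := fun i => WithLp.toLp 2 fun x : S => f i x
  have hV : ∀ i, ‖V i‖ ≤ b i := fun i => by
    refine (pow_le_pow_iff_left₀ (norm_nonneg _) (b0 i) two_ne_zero).1 ?_
    rw [EuclideanSpace.norm_sq_eq]
    refine le_trans (le_of_eq ?_) (h i)
    exact Finset.sum_coe_sort S fun x => ‖f i x‖ ^ 2
  have sV : Summable V := Summable.of_norm_bounded hb hV
  have h1 : ‖∑' i, V i‖ ≤ ∑' i, b i := tsum_of_norm_bounded hb.hasSum hV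
  have h2 : ∀ x : S, (∑' i, V i) x = ∑' i, f i x := fun x =>
    (EuclideanSpace.proj (𝕜 := ℂ) x).map_tsum sV
  have h3 := pow_le_pow_left₀ (norm_nonneg _) h1 2
  rw [EuclideanSpace.norm_sq_eq] at h3
  refine le_trans (le_of_eq ?_) h3
  rw [← Finset.sum_coe_sort S fun x => ‖∑' i, f i x‖ ^ 2]
  exact Finset.sum_congr rfl fun x _ => by rw [h2]

lemma toC_ne (h1 : B1) {a : O} (ha : a ≠ 0) : toC a ≠ 0 := fun h => ha (h1.inj (by rw [h, map_zero]))

lemma norm_ang (j : ℤ) {z : ℂ} (hz : z ≠ 0) : ‖ang j z‖ = 1 := by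
  rw [ang, norm_zpow, norm_div, Complex.norm_real, norm_norm, div_self (norm_ne_zero_iff.2 hz),
    one_zpow]

lemma ang_mul (j : ℤ) (z w : ℂ) : ang j (z * w) = ang j z * ang j w := by
  rw [ang, ang, ang, ← mul_zpow, norm_mul, Complex.ofReal_mul, mul_div_mul_comm]

lemma norm_cp {x : ℝ} (hx : 0 < x) (t : ℝ) : ‖(x : ℂ) ^ (-(1 + t * I))‖ = x⁻¹ := by
  rw [Complex.norm_cpow_eq_rpow_re_of_pos hx, ← Real.rpow_neg_one]
  simp

/-- the summand of `TT` without the coefficient -/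
def ff (J : ℤ) (r : O) (ψ : O → ℂ) (Z t : ℝ) (k : O) : ℂ :=
  if (27 : O) ∣ k - r then ang J (toC k) * ψ k * (N k : ℂ) ^ (-(1 + t * I)) * VV Z (N k) else 0

lemma TT_eq (J : ℤ) (r : O) (ψ : O → ℂ) (Z t : ℝ) :
    TT J r ψ Z (1 / 2 + t * I) = ∑' k, bb k * ff J r ψ Z t k := by
  refine tsum_congr fun k => ?_
  rw [ff, show (1 / 2 : ℂ) + (1 / 2 + t * I) = 1 + t * I by ring]
  split_ifs <;> ring

lemma summ (hB : Bas) (hb : BB) (hL : LN) (J : ℤ) (r : O) {ψ : O → ℂ} (hψ : ∀ k, ‖ψ k‖ ≤ 1) {Z : ℝ}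
    (hZ : 0 < Z) (t : ℝ) : Summable fun k => bb k * ff J r ψ Z t k := by
  obtain ⟨C, hC⟩ := hL.sum (2 / 3)
  refine Summable.of_norm_bounded (hC Z hZ).1 fun k => ?_
  have h1 := hb.norm_le k
  by_cases hk : k = 0
  · rw [hk, hB.b1.N_zero, Real.zero_rpow (by norm_num)] at h1
    rw [if_pos hk, hk, norm_le_zero_iff.1 h1, zero_mul, norm_zero]
  · have n1 := hB.b1.N_one_le k hk
    have v0 : 0 ≤ VV Z (N k) := (Real.exp_pos _).le
    rw [if_neg hk, norm_mul]
    refine mul_le_mul h1 ?_ (norm_nonneg _) (Real.rpow_nonneg (N0 k) _)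
    unfold ff
    split_ifs
    · rw [norm_mul, norm_mul, norm_mul, norm_ang J (toC_ne hB.b1 hk), one_mul,
        norm_cp (lt_of_lt_of_le one_pos n1), Complex.norm_real, Real.norm_of_nonneg v0]
      exact mul_le_of_le_one_left v0 (mul_le_one₀ (hψ k) (inv_nonneg.2 (N0 k)) (inv_le_one_of_one_le₀ n1))
    · rwa [norm_zero]

lemma prim2 : Prim (-2) := ⟨-1, by norm_num⟩

/-- odd and even squarefree numbers -/
lemma split (hB : Bas) (g : O → ℂ) (hg : Summable fun n => if Prim n ∧ Squarefree n then g n else 0) :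
    ∑' n, (if Prim n ∧ Squarefree n then g n else 0) =
      ∑' n, (if OP n ∧ Squarefree n then g ((-2) ^ 0 * n) else 0) +
      ∑' n, (if OP n ∧ Squarefree n then g ((-2) ^ 1 * n) else 0) := by
  have p2 : Prime (-2 : O) := hB.b1.prime_two.neg
  have inj : Function.Injective fun n : O => -2 * n := fun a b h => mul_left_cancel₀ p2.ne_zero h
  have e2 : ∑' n, (if OP n ∧ Squarefree n then g ((-2) ^ 1 * n) else 0) =
      ∑' n, if ¬ IsCoprime n 2 then (if Prim n ∧ Squarefree n then g n else 0) else 0 := by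
    symm
    rw [← inj.tsum_eq]
    · refine tsum_congr fun n => ?_
      have nc : ¬ IsCoprime (-2 * n) 2 := fun h =>
        hB.b1.prime_two.not_isUnit (h.isUnit_of_dvd' ⟨-n, by ring⟩ dvd_rfl)
      have : (Prim (-2 * n) ∧ Squarefree (-2 * n)) ↔ (OP n ∧ Squarefree n) := by
        rw [squarefree_mul_iff, isRelPrime_iff_isCoprime]
        constructor
        · rintro ⟨h1, h2, -, h3⟩
          exact ⟨⟨hB.b2.cancel _ _ prim2 h1, (IsCoprime.neg_left_iff _ _).1 h2 |>.symm⟩, h3⟩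
        · rintro ⟨⟨h1, h2⟩, h3⟩
          exact ⟨hB.b2.mul _ _ prim2 h1, h2.symm.neg_left, p2.squarefree, h3⟩
      simp only [if_pos nc, this, pow_one]
    · intro n hn
      have h : ¬ IsCoprime n 2 := fun h => hn (if_neg (not_not.2 h))
      have : (2 : O) ∣ n := by
        by_contra h2
        exact h ((hB.b1.prime_two.irreducible.coprime_iff_not_dvd).2 h2).symm
      obtain ⟨m, rfl⟩ := this
      exact ⟨-m, by ring⟩
  have e1 : ∑' n, (if OP n ∧ Squarefree n then g ((-2) ^ 0 * n) else 0) =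
      ∑' n, if IsCoprime n 2 then (if Prim n ∧ Squarefree n then g n else 0) else 0 := by
    refine tsum_congr fun n => ?_
    by_cases h : IsCoprime n 2 <;> simp [OP, h]
  have bd : ∀ (P : O → Prop) [DecidablePred P], Summable fun n =>
      if P n then (if Prim n ∧ Squarefree n then g n else 0) else 0 := fun P _ =>
    Summable.of_norm_bounded hg.norm fun n => by
      by_cases h : P n
      · rw [if_pos h]
      · rw [if_neg h, norm_zero]; exact norm_nonneg _
  rw [e1, e2, ← (bd _).tsum_add (bd _)]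
  refine tsum_congr fun n => ?_
  by_cases h : IsCoprime n 2 <;> simp [h]

/-- one piece, as a multiple of a squarefree sum -/
lemma piece (hB : Bas) (hC : CRStmt) (hH : HD) (hX : SX) (hL : LN) {ε : O → O → ℂ}
    (e1 : ∀ a b, ‖ε a b‖ ≤ 1) (e2 : ∀ a a' b b', (4 : O) ∣ a - a' → (4 : O) ∣ b - b' → ε a b = ε a' b')
    (e3 : ∀ a b, OP a → OP b → sx a b = ε a b * sx b a) (κ : ℕ) (J : ℤ) {s : O} (hs : OP s) (r ρ : O)
    {φ : O → ℂ} (hφ : P8 φ) {Z : ℝ} (hZ : 0 < Z) (t : ℝ) {u : O} (hu : Prim u) {δ : ℕ} (hδ : δ ≤ 1) :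
    ∃ (r' : O) (φ' : O → ℂ) (Y : ℝ), P8 φ' ∧ 0 < Y ∧ Y ≤ Z / N u ∧ ∀ h, OP h → (4 : O) ∣ h - ρ → ∃ c : ℂ,
      ‖c‖ ≤ (N u)⁻¹ ∧ ∑' n, (if OP n ∧ Squarefree n then gs ((-2) ^ δ * n) * (N u : ℂ) ^ 2 *
        ff J r (tw κ h s φ) Z t ((-2) ^ δ * n * u ^ 3) else 0) =
        c * ∑' n, SQc J r' s φ' Y t n * sx h n ^ κ := by
  have h1 := hB.b1
  have pd : Prim ((-2) ^ δ) := hB.b2.pow _ _ prim2
  set v : O := (-2) ^ δ * u ^ 3 with hv
  have pv : Prim v := hB.b2.mul _ _ pd (hB.b2.pow _ _ hu)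
  have u1 := h1.N_one_le u (hB.b2.ne u hu)
  have d1 := h1.N_one_le _ (hB.b2.ne _ pd)
  have Nv : N v = N ((-2) ^ δ) * N u ^ 3 := by rw [hv, h1.N_mul, h1.N_pow u]
  have v0 : 0 < N v := by rw [Nv]; positivity
  obtain ⟨v', w, hw⟩ : IsCoprime v (3 ^ 3) := (hB.b2.cop v pv).pow_right
  have d8 : (-2 : O) ^ δ ∣ 8 := by
    refine (pow_dvd_pow _ hδ).trans ⟨-4, by norm_num⟩
  refine ⟨v' * r, fun n => φ (v * n) * cub n ((-2) ^ δ) * ε n ρ ^ κ, Z / N v, ⟨fun a m => ?_, fun n => ?_⟩,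
    by positivity, ?_, fun h hh hρ => ⟨gs ((-2) ^ δ) * (N u : ℂ) ^ 2 * ang J (toC v) * sx v h ^ κ *
      sx v s * (N v : ℂ) ^ (-(1 + t * I)), ?_, ?_⟩⟩
  · simp only
    rw [show v * (a + 8 * m) = v * a + 8 * (v * m) by ring, hφ.1,
      hB.b4.pe_congr _ _ (a + 8 * m) a (hB.b6.pe _) (by simpa using d8.mul_right m),
      e2 (a + 8 * m) a ρ ρ ⟨2 * m, by ring⟩ (by simp)]
  · rw [norm_mul, norm_mul, norm_pow]
    exact mul_le_one₀ (mul_le_one₀ (hφ.2 _) (norm_nonneg _) (hB.b6.norm_le _ _)) (by positivity)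
      (pow_le_one₀ (norm_nonneg _) (e1 _ _))
  · refine div_le_div_of_nonneg_left hZ.le (by positivity) ?_
    rw [Nv]
    nlinarith [le_self_pow₀ u1 (show 3 ≠ 0 by norm_num)]
  · have sq : Squarefree ((-2 : O) ^ δ) := by
      rcases Nat.le_one_iff_eq_zero_or_eq_one.1 hδ with rfl | rfl
      · simp
      · rw [pow_one]; exact h1.prime_two.neg.squarefree
    have a1 := hH.n3 _ (hB.b2.cop _ pd) sq
    have a2 : ‖gs ((-2) ^ δ)‖ ≤ N ((-2) ^ δ) := by nlinarith [norm_nonneg (gs ((-2) ^ δ))]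
    have a3 : ‖sx v h‖ ^ κ ≤ 1 := pow_le_one₀ (norm_nonneg _) (hX.norm_le _ _)
    have a4 := hX.norm_le v s
    rw [norm_mul, norm_mul, norm_mul, norm_mul, norm_mul, norm_cp v0, norm_pow, norm_pow,
      norm_ang J (toC_ne h1 (hB.b2.ne v pv)), Complex.norm_real, Real.norm_of_nonneg (N0 u)]
    calc _ ≤ N ((-2) ^ δ) * N u ^ 2 * 1 * 1 * 1 * (N v)⁻¹ := by gcongr
      _ = _ := by rw [Nv]; field_simp
  · rw [← tsum_mul_left]
    refine tsum_congr fun n => ?_
    have iff27 : (27 : O) ∣ v * n - r ↔ (27 : O) ∣ n - v' * r := by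
      constructor
      · rintro ⟨k, hk⟩
        exact ⟨v' * k + w * n, by linear_combination v' * hk - n * hw⟩
      · rintro ⟨k, hk⟩
        exact ⟨v * k - w * r, by linear_combination v * hk + r * hw⟩
    rw [show (-2) ^ δ * n * u ^ 3 = v * n by rw [hv]; ring, SQc, ff]
    by_cases hn : OP n ∧ Squarefree n
    · by_cases h27 : (27 : O) ∣ n - v' * r
      · have n0 : 0 < N n := lt_of_lt_of_le one_pos (h1.N_one_le n (hB.b2.ne n hn.1.1))
        rw [if_pos hn, if_pos (iff27.2 h27), if_pos ⟨h27, hn⟩, tw,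
          hH.mul3 _ _ pd hn.1.1 (hn.1.2.symm.neg_left.pow_left), hC _ _ pd hn.1.1, map_mul, ang_mul,
          hX.mul_l _ _ _ hh, hX.mul_l _ _ _ hs, e3 n h hn.1 hh, e2 n n h ρ (by simp) hρ, h1.N_mul,
          hL.scale _ _ _ hZ n0 v0, Complex.ofReal_mul, Complex.mul_cpow_ofReal_nonneg v0.le n0.le]
        ring
      · rw [if_pos hn, if_neg (fun h => h27 (iff27.1 h)), if_neg (fun h => h27 h.1)]
        ring
    · rw [if_neg hn, if_neg (fun h => hn h.2)]
      ring

lemma min_le {Z x ε η : ℝ} (hZ : 0 < Z) (hx : 1 ≤ x) (h0 : 0 < η) (h1 : η ≤ 1) (h2 : η ≤ ε) :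
    min 1 (Z / x) ≤ min 1 Z * (1 + Z) ^ ε * x ^ (-η) := by
  have x0 : 0 < x := lt_of_lt_of_le one_pos hx
  rcases le_total Z 1 with h | h
  · rw [min_eq_right h]
    have a1 : 1 ≤ (1 + Z) ^ ε := Real.one_le_rpow (by linarith) (by linarith)
    have a2 : x⁻¹ ≤ x ^ (-η) := by
      rw [← Real.rpow_neg_one]; exact Real.rpow_le_rpow_of_exponent_le hx (by linarith)
    calc _ ≤ Z * 1 * x⁻¹ := by rw [mul_one]; exact min_le_right _ _
      _ ≤ _ := by gcongr
  · rw [min_eq_left h, one_mul]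
    have a1 : min 1 (Z / x) ≤ (Z / x) ^ η := by
      rcases le_total (Z / x) 1 with g | g
      · refine (min_le_right _ _).trans ?_
        have := Real.rpow_le_rpow_of_exponent_ge (by positivity) g h1
        rwa [Real.rpow_one] at this
      · exact (min_le_left _ _).trans (Real.one_le_rpow g h0.le)
    refine a1.trans ?_
    rw [Real.div_rpow hZ.le x0.le, Real.rpow_neg x0.le, div_eq_mul_inv]
    gcongr
    exact (Real.rpow_le_rpow_of_exponent_le h h2).trans
      (Real.rpow_le_rpow hZ.le (by linarith) (by linarith))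

end REDM

open REDM in
theorem redS (hB : Bas) (hC : CRStmt) (hH : HD) (hb : BB) (hX : SX) (hL : LN) : REDStmt := by
  intro ε hε
  have h1 := hB.b1
  set η := min ε 1 with hη
  have η0 : 0 < η := lt_min hε one_pos
  have sS := hB.b3.summ (1 + η) (by linarith)
  set K := ∑' u : O, N u ^ (-(1 + η)) with hK
  have K0 : 0 ≤ K := tsum_nonneg fun u => Real.rpow_nonneg (N0 u) _
  obtain ⟨e, e1, e2, e3⟩ := hX.recip
  refine ⟨8 * K, by positivity, fun κ J s H t P R θ hs hP hR hθ _ hPB Z hZ r φ S hφ hS => ?_⟩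
  set B := min 1 Z * (1 + Z) ^ (2 * ε) * (P + R * Z ^ θ) with hBd
  have B0 : 0 ≤ B := by positivity
  have cls : ∀ (ρ : O) (T : Finset O), (∀ h ∈ T, h ∈ S ∧ (4 : O) ∣ h - ρ) →
      ∑ h ∈ T, ‖TT J r (tw κ h s φ) Z (1 / 2 + t * I)‖ ^ 2 ≤ (2 * B * K) ^ 2 := by
    intro ρ T hT
    let G : ℕ → O → O → ℂ := fun δ u h => if Prim u then ∑' n, (if OP n ∧ Squarefree n then
      gs ((-2) ^ δ * n) * (N u : ℂ) ^ 2 * ff J r (tw κ h s φ) Z t ((-2) ^ δ * n * u ^ 3) else 0) else 0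
    have eT : ∀ h, TT J r (tw κ h s φ) Z (1 / 2 + t * I) = ∑' u, (G 0 u h + G 1 u h) := fun h => by
      have bψ : ∀ k, ‖tw κ h s φ k‖ ≤ 1 := fun k => by
        rw [tw, norm_mul, norm_mul, norm_pow]
        exact mul_le_one₀ (mul_le_one₀ (pow_le_one₀ (norm_nonneg _) (hX.norm_le _ _)) (norm_nonneg _)
          (hX.norm_le _ _)) (norm_nonneg _) (hφ.2 k)
      have s1 := summ hB hb hL J r bψ hZ t
      rw [TT_eq, hb.tsum_eq _ s1]
      refine tsum_congr fun u => ?_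
      by_cases hu : Prim u
      · simp only [G, hu, true_and, if_true]
        refine split hB (fun n => gs n * (N u : ℂ) ^ 2 * ff J r (tw κ h s φ) Z t (n * u ^ 3)) ?_
        have inj : Function.Injective fun n : O => n * u ^ 3 := fun a b h =>
          mul_right_cancel₀ (pow_ne_zero 3 (hB.b2.ne u hu)) h
        refine Summable.of_norm_bounded (s1.comp_injective inj).norm fun n => ?_
        split_ifs with hn
        · rw [Function.comp_apply, hb.eq n u hn.1 hu hn.2]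
        · rw [norm_zero]; exact norm_nonneg _
      · simp [G, hu]
    have bG : ∀ δ ≤ 1, ∀ u, ∑ h ∈ T, ‖G δ u h‖ ^ 2 ≤ (B * N u ^ (-(1 + η))) ^ 2 := fun δ hδ u => by
      by_cases hu : Prim u
      · obtain ⟨r', φ', Y, p1, p2, p3, p4⟩ := piece hB hC hH hX hL e1 e2 e3 κ J hs r ρ hφ hZ t hu hδ
        have u1 := h1.N_one_le u (hB.b2.ne u hu)
        have u0 : 0 < N u := lt_of_lt_of_le one_pos u1
        have a1 := hPB Y p2 r' φ' T p1 fun h hh =>
          ⟨hB.b2.ne h (hS h (hT h hh).1).1.1.1, (hS h (hT h hh).1).2⟩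
        have YZ : Y ≤ Z := p3.trans (div_le_self hZ.le u1)
        have a2 : min 1 Y * (1 + Y) ^ ε * (P + R * Y ^ θ) ≤ B * N u ^ (-η) := by
          have := min_le hZ u1 η0 (min_le_right _ _) (min_le_left ε 1)
          calc _ ≤ min 1 Z * (1 + Z) ^ ε * N u ^ (-η) * (1 + Z) ^ ε * (P + R * Z ^ θ) := by
                gcongr
                exact (min_le_min_left 1 p3).trans this
            _ = _ := by rw [hBd, two_mul, Real.rpow_add (by positivity)]; ring
        calc _ ≤ ∑ h ∈ T, (N u)⁻¹ ^ 2 * ‖∑' n, SQc J r' s φ' Y t n * sx h n ^ κ‖ ^ 2 := by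
              refine Finset.sum_le_sum fun h hh => ?_
              obtain ⟨c, c1, c2⟩ := p4 h (hS h (hT h hh).1).1.1 (hT h hh).2
              simp only [G, if_pos hu]
              rw [c2, norm_mul, mul_pow]
              gcongr
          _ ≤ (N u)⁻¹ ^ 2 * (B * N u ^ (-η)) ^ 2 := by
              rw [← Finset.mul_sum]
              gcongr
              exact a1.trans (by gcongr)
          _ = _ := by
              rw [neg_add, Real.rpow_add u0, Real.rpow_neg_one]; ring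
      · simp only [G, if_neg hu, norm_zero]
        simp only [ne_eq, OfNat.ofNat_ne_zero, not_false_eq_true, zero_pow, Finset.sum_const_zero]
        positivity
    simp only [eT]
    have := mink T (fun u h => G 0 u h + G 1 u h) (fun u => 2 * B * N u ^ (-(1 + η)))
      (sS.mul_left _) (fun u => mul_nonneg (by positivity) (Real.rpow_nonneg (N0 u) _)) fun u => by
        calc _ ≤ ∑ h ∈ T, (2 * ‖G 0 u h‖ ^ 2 + 2 * ‖G 1 u h‖ ^ 2) := by
              refine Finset.sum_le_sum fun h _ => ?_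
              have := pow_le_pow_left₀ (norm_nonneg _) (norm_add_le (G 0 u h) (G 1 u h)) 2
              nlinarith [sq_nonneg (‖G 0 u h‖ - ‖G 1 u h‖)]
          _ ≤ _ := by
              rw [Finset.sum_add_distrib, ← Finset.mul_sum, ← Finset.mul_sum]
              nlinarith [bG 0 zero_le_one u, bG 1 le_rfl u]
    rwa [tsum_mul_left] at this
  have four : (4 : O) ≠ 0 := by
    rw [show (4 : O) = 2 * 2 by norm_num]
    exact mul_ne_zero h1.prime_two.ne_zero h1.prime_two.ne_zero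
  choose ρ hρ hρ' using fun h => hB.b4.ex 4 h four
  rw [← Finset.sum_fiberwise_of_maps_to (s := S) (t := Rs 4) (g := ρ) fun h _ => hρ h]
  refine (Finset.sum_le_card_nsmul _ _ ((2 * B * K) ^ 2) fun x _ => cls x _ fun h hh => ?_).trans ?_
  · obtain ⟨a1, a2⟩ := Finset.mem_filter.1 hh
    exact ⟨a1, a2 ▸ hρ' h⟩
  · have : (Nn 4 : ℝ) = 16 := by
      have := h1.N_int 4
      norm_num at this
      exact this
    rw [hB.b4.card 4 four, nsmul_eq_mul, this, hBd]
    exact le_of_eq (by ring)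

end Vale.Agent.P026
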