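import Vale.Agent.P026.Stm3

/-! P026 row SCH: the Schur product step. -/

noncomputable section
open Complex MeasureTheory Filter Topology
open scoped Classical ComplexConjugate ComplexOrder

namespace Vale.Agent.P026

namespace SCHM

theorem normsq {α : Type*} (T : Finset α) (x b : α → ℂ) :
    ((‖∑ f ∈ T, x f * b f‖ ^ 2 : ℝ) : ℂ) = ∑ f ∈ T, ∑ g ∈ T, x f * conj (x g) * (b f * conj (b g)) := by
  rw [← Complex.normSq_eq_norm_sq, ← Complex.mul_conj, map_sum, Finset.sum_mul_sum]
  refine Finset.sum_congr rfl fun f _ => Finset.sum_congr rfl fun g _ => ?_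
  rw [map_mul]; ring

theorem of_psd {α : Type*} {M : Matrix α α ℂ} (h : M.PosSemidef) (T : Finset α) (x : α → ℂ) :
    0 ≤ (∑ f ∈ T, ∑ g ∈ T, x f * conj (x g) * M f g).re := by
  let y : α →₀ ℂ := Finsupp.onFinset T (fun f => if f ∈ T then conj (x f) else 0) (by
    intro f hf
    by_contra h'
    exact hf (if_neg h'))
  have hy : y.support ⊆ T := Finsupp.support_onFinset_subset
  have h1 := h.2 y
  rw [Finsupp.sum_of_support_subset y hy _ (by intro i _; simp)] at h1
  have h2 : ∑ f ∈ T, (y.sum fun j xj => star (y f) * M f j * xj) =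
      ∑ f ∈ T, ∑ g ∈ T, x f * conj (x g) * M f g := by
    refine Finset.sum_congr rfl fun f hf => ?_
    rw [Finsupp.sum_of_support_subset y hy _ (by intro i _; simp)]
    refine Finset.sum_congr rfl fun g hg => ?_
    simp only [y, Finsupp.onFinset_apply, if_pos hf, if_pos hg, RCLike.star_def, Complex.conj_conj]
    ring
  rw [h2] at h1
  exact (Complex.nonneg_iff.1 h1).1

theorem to_psd {α : Type*} {M : Matrix α α ℂ} (h1 : ∀ i j, M j i = conj (M i j))
    (h2 : ∀ T : Finset α, ∃ T' : Finset α, T ⊆ T' ∧ ∀ x : α → ℂ,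
      0 ≤ (∑ f ∈ T', ∑ g ∈ T', x f * conj (x g) * M f g).re) : M.PosSemidef := by
  refine ⟨?_, fun y => ?_⟩
  · ext i j
    rw [Matrix.conjTranspose_apply, h1 j i]; rfl
  · obtain ⟨T, hT, h⟩ := h2 y.support
    rw [Finsupp.sum_of_support_subset y hT _ (by intro i _; simp)]
    have h3 : ∑ f ∈ T, (y.sum fun j xj => star (y f) * M f j * xj) =
        ∑ f ∈ T, ∑ g ∈ T, conj (y f) * conj (conj (y g)) * M f g := by
      refine Finset.sum_congr rfl fun f hf => ?_
      rw [Finsupp.sum_of_support_subset y hT _ (by intro i _; simp)]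
      refine Finset.sum_congr rfl fun g hg => ?_
      simp only [RCLike.star_def, Complex.conj_conj]
      ring
    rw [h3]
    refine Complex.nonneg_iff.2 ⟨h fun f => conj (y f), ?_⟩
    symm
    rw [← Complex.conj_eq_iff_im, map_sum, Finset.sum_comm]
    refine Finset.sum_congr rfl fun f _ => ?_
    rw [map_sum]
    refine Finset.sum_congr rfl fun g _ => ?_
    simp only [map_mul, Complex.conj_conj]
    rw [h1 f g]
    ring

theorem rank1 {α : Type*} (c : ℝ) (hc : 0 ≤ c) (b : α → ℂ) :
    (Matrix.of fun f g => (c : ℂ) * (b f * conj (b g))).PosSemidef := by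
  refine to_psd (fun i j => ?_) fun T => ⟨T, Finset.Subset.refl _, fun x => ?_⟩
  · simp only [Matrix.of_apply, map_mul, Complex.conj_conj, Complex.conj_ofReal]; ring
  · have : ∑ f ∈ T, ∑ g ∈ T, x f * conj (x g) * (Matrix.of fun f g => (c : ℂ) * (b f * conj (b g))) f g =
        ((c * ‖∑ f ∈ T, x f * b f‖ ^ 2 : ℝ) : ℂ) := by
      rw [Complex.ofReal_mul, normsq, Finset.mul_sum]
      refine Finset.sum_congr rfl fun f _ => ?_
      rw [Finset.mul_sum]
      refine Finset.sum_congr rfl fun g _ => ?_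
      simp only [Matrix.of_apply]; ring
    rw [this, Complex.ofReal_re]
    positivity

theorem split {α : Type*} (T : Finset α) (x b : α → ℂ) (c : ℝ) (K : α → α → ℂ) :
    (∑ f ∈ T, ∑ g ∈ T, x f * conj (x g) * (K f g - (c : ℂ) * (b f * conj (b g)))).re =
      (∑ f ∈ T, ∑ g ∈ T, x f * conj (x g) * K f g).re - c * ‖∑ f ∈ T, x f * b f‖ ^ 2 := by
  have : ∑ f ∈ T, ∑ g ∈ T, x f * conj (x g) * (K f g - (c : ℂ) * (b f * conj (b g))) =
      ∑ f ∈ T, ∑ g ∈ T, x f * conj (x g) * K f g - ((c * ‖∑ f ∈ T, x f * b f‖ ^ 2 : ℝ) : ℂ) := by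
    rw [Complex.ofReal_mul, normsq, Finset.mul_sum, ← Finset.sum_sub_distrib]
    refine Finset.sum_congr rfl fun f _ => ?_
    rw [Finset.mul_sum, ← Finset.sum_sub_distrib]
    refine Finset.sum_congr rfl fun g _ => ?_
    ring
  rw [this, Complex.sub_re, Complex.ofReal_re]

theorem congr_psd {α : Type*} {A B : Matrix α α ℂ} (h : A.PosSemidef) (e : B = A) : B.PosSemidef := e ▸ h

theorem main {ι α : Type*} (K : ι → ℕ → ℕ → ℂ) (a : ι → ℕ → ℂ) (c : ι → ℝ) (v : α → ι → ℕ) (P : Finset ι)
    (hc : ∀ p ∈ P, 0 ≤ c p)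
    (hD : ∀ p ∈ P, (Matrix.of fun i j => K p i j - (c p : ℂ) * (a p i * conj (a p j))).PosSemidef) :
    (Matrix.of fun f g => ∏ p ∈ P, K p (v f p) (v g p) - ((∏ p ∈ P, c p : ℝ) : ℂ) *
      ((∏ p ∈ P, a p (v f p)) * conj (∏ p ∈ P, a p (v g p)))).PosSemidef := by
  induction P using Finset.induction_on with
  | empty =>
    convert Matrix.PosSemidef.zero (n := α) (R := ℂ) using 1
    ext f g; simp
  | insert q P hq ih =>
    have ih' := ih (fun p hp => hc p (Finset.mem_insert_of_mem hp))
      fun p hp => hD p (Finset.mem_insert_of_mem hp)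
    have hq0 := hc q (Finset.mem_insert_self _ _)
    have hP0 : 0 ≤ ∏ p ∈ P, c p := Finset.prod_nonneg fun p hp => hc p (Finset.mem_insert_of_mem hp)
    have d1 := (hD q (Finset.mem_insert_self _ _)).submatrix fun f => v f q
    have r1 := rank1 (c q) hq0 fun f => a q (v f q)
    have r2 := rank1 (∏ p ∈ P, c p) hP0 fun f => ∏ p ∈ P, a p (v f p)
    have := (d1.hadamard (ih'.add r2)).add (r1.hadamard ih')
    refine congr_psd this ?_
    ext f g
    simp only [Matrix.of_apply, Matrix.add_apply, Matrix.hadamard_apply, Matrix.submatrix_apply,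
      Finset.prod_insert hq, map_mul, Complex.ofReal_mul]
    ring

end SCHM

theorem schS : SCHStmt := by
  intro ι α P K a c hc hK h T v x
  have hD : ∀ p ∈ P, (Matrix.of fun i j => K p i j - (c p : ℂ) * (a p i * conj (a p j))).PosSemidef := by
    intro p hp
    refine SCHM.to_psd (fun i j => ?_) fun S => ⟨Finset.range (S.sup id + 1), fun i hi => ?_, fun y => ?_⟩
    · simp only [Matrix.of_apply, map_sub, map_mul, Complex.conj_conj, Complex.conj_ofReal]
      rw [hK p hp i j]; ring
    · have := Finset.le_sup (f := id) hi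
      simp only [id] at this
      exact Finset.mem_range.2 (Nat.lt_succ_of_le this)
    · simp only [Matrix.of_apply]
      rw [SCHM.split]
      exact sub_nonneg.2 (h p hp _ y)
  have := SCHM.of_psd (SCHM.main K a c v P hc hD) T x
  simp only [Matrix.of_apply] at this
  rw [SCHM.split T x (fun f => ∏ p ∈ P, a p (v f p)) _ fun f g => ∏ p ∈ P, K p (v f p) (v g p)] at this
  exact sub_nonneg.1 this

end Vale.Agent.P026
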