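import Vale.Agent.P026.Stm3

/-! P026: splitting the dual variable. -/

noncomputable section
open scoped Classical

namespace Vale.Agent.P026

namespace SPLM

lemma prim_prod (hB : Bas) (P : Finset O) (f : O → ℕ) (hP : ∀ p ∈ P, Prime p ∧ Prim p) :
    Prim (∏ p ∈ P, p ^ f p) :=
  Finset.prod_induction _ Prim (fun a b ha hb => hB.b2.mul a b ha hb) hB.b2.one
    (fun p hp => hB.b2.pow p _ (hP p hp).2)

lemma split (hB : Bas) (h8 : B8) (s E k : O) (hk : OP k) :
    ∃ h' h0 : O, Fix s E h' ∧ Fm (s * E * h') h0 ∧ k = h' * h0 := by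
  have hk0 : k ≠ 0 := hB.b2.ne k hk.1
  set c : O → Prop := fun p => p ^ 2 ∣ k ∨ p ∣ s * E with hc
  have hP : ∀ p ∈ pf k, Prime p ∧ Prim p := fun p hp =>
    ⟨((h8.mem k p hk0).1 hp).1, ((h8.mem k p hk0).1 hp).2.1⟩
  have hP1 : ∀ p ∈ (pf k).filter c, Prime p ∧ Prim p := fun p hp => hP p (Finset.mem_filter.1 hp).1
  have hP0 : ∀ p ∈ (pf k).filter (fun p => ¬ c p), Prime p ∧ Prim p :=
    fun p hp => hP p (Finset.mem_filter.1 hp).1
  set h' : O := ∏ p ∈ (pf k).filter c, p ^ vl p k with hh'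
  set h0 : O := ∏ p ∈ (pf k).filter (fun p => ¬ c p), p ^ vl p k with hh0
  have e : k = h' * h0 := by
    rw [hh', hh0, Finset.prod_filter_mul_prod_filter_not]
    exact h8.prod k hk.1
  have p1 : Prim h' := prim_prod hB _ _ hP1
  have p0 : Prim h0 := prim_prod hB _ _ hP0
  have n1 : h' ≠ 0 := hB.b2.ne _ p1
  have n0 : h0 ≠ 0 := hB.b2.ne _ p0
  refine ⟨h', h0, ⟨h8.op_dvd _ _ hk p1 ⟨h0, e⟩, ?_⟩,
    ⟨h8.op_dvd _ _ hk p0 ⟨h', by rw [e]; ring⟩, ?_, ?_⟩, e⟩
  · intro p hp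
    obtain ⟨a1, a2, a3⟩ := (h8.mem h' p n1).1 hp
    have hv := h8.vl_prod _ (fun p => vl p k) p hP1 a1 a2
    have hz : vl p h' ≠ 0 := fun h => (h8.vl_zero p h' a1 n1).1 h a3
    rw [← hh'] at hv
    by_cases hm : p ∈ (pf k).filter c
    · rw [if_pos hm] at hv
      rcases (Finset.mem_filter.1 hm).2 with h | h
      · left
        rw [h8.vl_dvd p h' 2 a1 n1, hv]
        exact (h8.vl_dvd p k 2 a1 hk0).1 h
      · exact Or.inr h
    · rw [if_neg hm] at hv
      exact absurd hv hz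
  · rw [h8.sqf h0 p0]
    intro p hp
    obtain ⟨a1, a2, a3⟩ := (h8.mem h0 p n0).1 hp
    have hv := h8.vl_prod _ (fun p => vl p k) p hP0 a1 a2
    have hz : vl p h0 ≠ 0 := fun h => (h8.vl_zero p h0 a1 n0).1 h a3
    rw [← hh0] at hv
    by_cases hm : p ∈ (pf k).filter (fun p => ¬ c p)
    · rw [if_pos hm] at hv
      have h2 : ¬ 2 ≤ vl p k := fun h =>
        (Finset.mem_filter.1 hm).2 (Or.inl ((h8.vl_dvd p k 2 a1 hk0).2 h))
      omega
    · rw [if_neg hm] at hv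
      exact absurd hv hz
  · rw [hh0]
    refine IsCoprime.prod_left fun p hp => IsCoprime.pow_left ?_
    obtain ⟨a1, a2⟩ := hP0 p hp
    rw [a1.irreducible.coprime_iff_not_dvd]
    intro hd
    have hnc : ¬ c p := (Finset.mem_filter.1 hp).2
    rcases a1.dvd_or_dvd hd with h | h
    · exact hnc (Or.inr h)
    · have hv := h8.vl_prod _ (fun p => vl p k) p hP1 a1 a2
      rw [← hh', if_neg (fun hm => hnc (Finset.mem_filter.1 hm).2)] at hv
      exact (h8.vl_zero p h' a1 n1).1 hv h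

end SPLM

theorem splS (hB : Bas) (h8 : B8) : SPLStmt := by
  intro s E f _ _
  let g : O × ℕ × ℕ × O × O → O := fun x => x.1 * lam ^ x.2.1 * 2 ^ x.2.2.1 * x.2.2.2.1 * x.2.2.2.2
  let c : O × ℕ × ℕ × O × O → Prop := fun x =>
    x.1 ∈ U6 ∧ Fix s E x.2.2.2.1 ∧ Fm (s * E * x.2.2.2.1) x.2.2.2.2
  have hex : ∀ h : O, ∃ x, g x = h ∧ (h ≠ 0 → c x) := by
    intro h
    by_cases h0 : h = 0
    · exact ⟨(0, 0, 0, 0, 0), by simp [g, h0], fun h1 => absurd h0 h1⟩
    · obtain ⟨e, a, b, k, he, hk, rfl⟩ := h8.dec2 h h0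
      obtain ⟨h', h1, a1, a2, rfl⟩ := SPLM.split hB h8 s E k hk
      exact ⟨(e, a, b, h', h1), by simp only [g]; ring, fun _ => ⟨he, a1, a2⟩⟩
  choose σ h1 h2 using hex
  have hinj : Function.Injective σ := fun a b hab => by rw [← h1 a, ← h1 b, hab]
  let F : O × ℕ × ℕ × O × O → ENNReal := fun x => if c x then f (g x) else 0
  calc (∑' h : O, if h = 0 then 0 else f h) ≤ ∑' h : O, F (σ h) := by
        refine ENNReal.tsum_le_tsum fun h => ?_
        by_cases h0 : h = 0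
        · simp [h0]
        · simp only [F, if_neg h0, if_pos (h2 h h0), h1 h, le_refl]
    _ ≤ ∑' x, F x := ENNReal.tsum_comp_le_tsum_of_injective hinj F
    _ = ∑' e, ∑' a, ∑' b, ∑' h', ∑' h0, F (e, a, b, h', h0) := by
        simp only [ENNReal.tsum_prod']
    _ = ∑ e ∈ U6, ∑' a, ∑' b, ∑' h', ∑' h0, F (e, a, b, h', h0) := by
        refine tsum_eq_sum fun e he => ?_
        simp [F, c, he]
    _ = _ := by
        refine Finset.sum_congr rfl fun e he => tsum_congr fun a => tsum_congr fun b =>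
          tsum_congr fun h' => ?_
        by_cases hf : Fix s E h'
        · simp only [F, c, g, he, hf, true_and, if_true]
        · simp [F, c, hf]

end Vale.Agent.P026
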