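import Vale.Agent.P026.Stm3

/-! P026: the trivial large sieve by Poisson summation. -/

noncomputable section
open Complex MeasureTheory Filter Topology
open scoped Classical ComplexConjugate

namespace Vale.Agent.P026

namespace SS0M

lemma N0 (a : O) : 0 ≤ N a := Nat.cast_nonneg _

lemma exp_le (hB : Bas) {A : ℕ} {c : ℝ} (hc : 0 < c) {b : O} (hb : b ≠ 0) :
    Real.exp (-(c * N b)) ≤ A.factorial / c ^ A * N b ^ (-(A : ℝ)) := by
  have h1 : 0 < N b := lt_of_lt_of_le one_pos (hB.b1.N_one_le b hb)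
  have h2 := Real.pow_div_factorial_le_exp (c * N b) (by positivity) A
  have h3 : (0 : ℝ) < A.factorial := by exact_mod_cast A.factorial_pos
  rw [Real.exp_neg, Real.rpow_neg h1.le, Real.rpow_natCast]
  calc _ ≤ ((c * N b) ^ A / A.factorial)⁻¹ := inv_anti₀ (by positivity) h2
    _ = _ := by rw [mul_pow]; field_simp

lemma summ_exp (hB : Bas) {c : ℝ} (hc : 0 < c) : Summable fun b : O => Real.exp (-(c * N b)) := by
  have h := (hB.b3.summ ((2 : ℕ) : ℝ) (by norm_num)).mul_left ((Nat.factorial 2 : ℝ) / c ^ 2)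
  refine Summable.of_norm_bounded_eventually h ?_
  filter_upwards [(Set.finite_singleton (0 : O)).compl_mem_cofinite] with b hb
  rw [Real.norm_of_nonneg (Real.exp_pos _).le]
  exact exp_le hB hc hb

lemma cexp_norm (x : ℝ) : ‖cexp (-(x : ℂ))‖ = Real.exp (-x) := by
  rw [← Complex.ofReal_neg, ← Complex.ofReal_exp, Complex.norm_real,
    Real.norm_of_nonneg (Real.exp_pos _).le]

lemma sg1 : 1 ≤ sg := by
  unfold sg
  nlinarith [Real.pi_gt_three]

lemma gp (hB : Bas) (hG : GPOStmt) {A : ℕ} (hA : 2 ≤ A) : ∃ C : ℝ, 0 ≤ C ∧ ∀ (P : O → ℂ) (q : O) (M : ℝ),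
    q ≠ 0 → Pe q P → (∀ m, ‖P m‖ ≤ 1) → 0 < M →
    ‖∑' m : O, P m * cexp (-(N m / M : ℝ))‖ ≤
      C * M * (‖∑ r ∈ Rs q, P r‖ / N q + (N q / M) ^ A) := by
  have sA := hB.b3.summ (A : ℝ) (by exact_mod_cast hA)
  set Z := ∑' b : O, N b ^ (-(A : ℝ)) with hZ
  have Z0 : 0 ≤ Z := tsum_nonneg fun b => Real.rpow_nonneg (N0 b) _
  refine ⟨Real.pi / ‖kap‖ * (1 + A.factorial * Z), by positivity, fun P q M hq hP h1 hM => ?_⟩
  have q0 : 0 < N q := lt_of_lt_of_le one_pos (hB.b1.N_one_le q hq)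
  have s0 : 0 < sg := lt_of_lt_of_le one_pos sg1
  have c0 : 0 < sg * M / N q := by positivity
  have hs : HasSum (fun b : O => (if b = 0 then ‖∑ r ∈ Rs q, P r‖ else 0) +
      N q * ((N q / M) ^ A * A.factorial) * N b ^ (-(A : ℝ)))
      (‖∑ r ∈ Rs q, P r‖ + N q * ((N q / M) ^ A * A.factorial) * Z) :=
    (hasSum_ite_eq (0 : O) _).add (sA.hasSum.mul_left _)
  have hb := tsum_of_norm_bounded (f := fun b : O =>
      (∑ r ∈ Rs q, P r * eQ (r * b) q) * cexp (-(sg * M * N b / N q : ℝ))) hs (fun b => by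
    rw [norm_mul, cexp_norm]
    by_cases h0 : b = 0
    · rw [if_pos h0, h0, hB.b1.N_zero]
      simp only [mul_zero, hB.b1.eQ_dvd 0 q (dvd_zero q), mul_one, zero_div, neg_zero, Real.exp_zero]
      have : (0 : ℝ) ≤ 0 ^ (-(A : ℝ)) := Real.rpow_nonneg le_rfl _
      have : 0 ≤ N q * ((N q / M) ^ A * A.factorial) * 0 ^ (-(A : ℝ)) := by positivity
      linarith
    · rw [if_neg h0, zero_add]
      have a1 : ‖∑ r ∈ Rs q, P r * eQ (r * b) q‖ ≤ N q := by
        refine (norm_sum_le _ _).trans ((Finset.sum_le_card_nsmul _ _ 1 fun r _ => ?_).trans ?_)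
        · rw [norm_mul, eQ, hB.b1.norm_psi, mul_one]; exact h1 r
        · rw [hB.b4.card q hq, nsmul_eq_mul, mul_one, N]
      have a2 := exp_le hB (A := A) c0 h0
      have a3 : (A.factorial : ℝ) / (sg * M / N q) ^ A ≤ (N q / M) ^ A * A.factorial := by
        rw [div_eq_mul_inv, mul_comm, ← inv_pow]
        gcongr
        rw [inv_div]
        exact div_le_div_of_nonneg_left q0.le hM (le_mul_of_one_le_left hM.le sg1)
      have a4 : (0 : ℝ) ≤ N b ^ (-(A : ℝ)) := Real.rpow_nonneg (N0 b) _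
      rw [show sg * M * N b / N q = sg * M / N q * N b by ring, mul_assoc (N q)]
      gcongr
      exact a2.trans (by gcongr))
  rw [hG P q M hq hP hM, norm_mul, norm_div, norm_mul, Complex.norm_real, Complex.norm_real,
    Real.norm_of_nonneg q0.le, Real.norm_of_nonneg (by positivity)]
  have x0 := norm_nonneg (∑ r ∈ Rs q, P r)
  generalize ‖∑ r ∈ Rs q, P r‖ = x at *
  calc _ ≤ Real.pi * M / (‖kap‖ * N q) * (x + N q * ((N q / M) ^ A * A.factorial) * Z) := by gcongr
    _ = Real.pi / ‖kap‖ * M * (x / N q + (N q / M) ^ A * (A.factorial * Z)) := by field_simp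
    _ ≤ Real.pi / ‖kap‖ * M * ((1 + A.factorial * Z) * (x / N q + (N q / M) ^ A)) := by
        gcongr
        have : 0 ≤ A.factorial * Z * (x / N q) := by positivity
        have : 0 ≤ (N q / M) ^ A := by positivity
        nlinarith
    _ = _ := by ring

lemma prod_sum (hB : Bas) {c1 c2 : O} (h1 : c1 ≠ 0) (h2 : c2 ≠ 0) (hc : IsCoprime c1 c2)
    {F G : O → ℂ} (hF : Pe c1 F) (hG : Pe c2 G) :
    ∑ r ∈ Rs (c1 * c2), F r * G r = (∑ r ∈ Rs c1, F r) * ∑ r ∈ Rs c2, G r := by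
  rw [hB.b4.crt c1 c2 (fun r => F r * G r) h1 h2 hc (fun a m => by
      simp only
      rw [mul_assoc c1, hF, mul_comm c2 m, ← mul_assoc, mul_comm (c1 * m), hG]),
    ← hB.b4.affine c1 F c2 0 h1 hF hc.symm, ← hB.b4.affine c2 G c1 0 h2 hG hc, Finset.sum_mul_sum]
  refine Finset.sum_congr rfl fun r1 _ => Finset.sum_congr rfl fun r2 _ => ?_
  rw [hB.b4.pe_congr c1 F _ (c2 * r1 + 0) hF ⟨r2, by ring⟩,
    hB.b4.pe_congr c2 G _ (c1 * r2 + 0) hG ⟨r1, by ring⟩]

lemma pe_pair (hX : SX) (κ : ℕ) (n1 n2 : O) :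
    Pe (n1 * n2) fun r => sx r n1 ^ κ * conj (sx r n2 ^ κ) := fun a m => by
  have e1 := hX.pe n1 a (n2 * m)
  have e2 := hX.pe n2 a (n1 * m)
  simp only at e1 e2 ⊢
  rw [mul_assoc n1, e1, mul_left_comm n1, e2]

lemma zero1 (hB : Bas) (h8 : B8) (hX : SX) {κ : ℕ} (hκ : ¬ 6 ∣ κ) {n1 n2 p : O} (h1 : OP n1)
    (s1 : Squarefree n1) (h2 : OP n2) (hp : p ∈ pf n1) (hp' : p ∉ pf n2) :
    ∑ r ∈ Rs (n1 * n2), sx r n1 ^ κ * conj (sx r n2 ^ κ) = 0 := by
  have z1 := hB.b2.ne _ h1.1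
  have z2 := hB.b2.ne _ h2.1
  obtain ⟨pp, pr, hd⟩ := (h8.mem _ _ z1).1 hp
  have op := h8.op_dvd p n1 h1 pr hd
  have nd : ¬ p ∣ n2 := fun h => hp' ((h8.mem _ _ z2).2 ⟨pp, pr, h⟩)
  obtain ⟨n, rfl⟩ := hd
  have z3 : n ≠ 0 := right_ne_zero_of_mul z1
  have nd' : ¬ p ∣ n := fun h => pp.not_isUnit (s1 p (mul_dvd_mul_left p h))
  have cop : IsCoprime p (n * n2) := (pp.irreducible.coprime_iff_not_dvd).2 fun h =>
    (pp.dvd_or_dvd h).elim nd' nd
  have := prod_sum hB pp.ne_zero (mul_ne_zero z3 z2) cop (F := fun r => sx r p ^ κ)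
    (fun a m => by have := hX.pe p a m; simp only at this ⊢; rw [this]) (pe_pair hX κ n n2)
  rw [hX.sum_zero p κ pp op hκ, zero_mul] at this
  rw [mul_assoc, ← this]
  refine Finset.sum_congr rfl fun r _ => ?_
  rw [hX.mul_r _ _ _ pp.ne_zero z3]
  ring

lemma zero2 (hB : Bas) (h8 : B8) (hX : SX) {κ : ℕ} (hκ : ¬ 6 ∣ κ) {n1 n2 : O} (h1 : OP n1)
    (s1 : Squarefree n1) (h2 : OP n2) (s2 : Squarefree n2) (hne : n1 ≠ n2) :
    ∑ r ∈ Rs (n1 * n2), sx r n1 ^ κ * conj (sx r n2 ^ κ) = 0 := by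
  have e : ∀ n, OP n → Squarefree n → n = ∏ p ∈ pf n, p := fun n h s => by
    conv_lhs => rw [h8.prod n h.1]
    exact Finset.prod_congr rfl fun p hp => by rw [(h8.sqf n h.1).1 s p hp, pow_one]
  by_cases h : pf n1 ⊆ pf n2
  · by_cases h' : pf n2 ⊆ pf n1
    · exact absurd (by rw [e n1 h1 s1, e n2 h2 s2, Finset.Subset.antisymm h h']) hne
    · obtain ⟨p, hp, hp'⟩ := Finset.not_subset.1 h'
      have := congrArg conj (zero1 hB h8 hX hκ h2 s2 h1 hp hp')
      rw [map_sum, map_zero, mul_comm n2] at this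
      rw [← this]
      exact Finset.sum_congr rfl fun r _ => by rw [map_mul, conj_conj, mul_comm]
  · obtain ⟨p, hp, hp'⟩ := Finset.not_subset.1 h
    exact zero1 hB h8 hX hκ h1 s1 h2 hp hp'

end SS0M

open SS0M in
theorem ss0S (hB : Bas) (h8 : B8) (hX : SX) (hG : GPOStmt) : SS0Stmt := by
  intro A hA
  obtain ⟨C, C0, hC⟩ := gp hB hG hA
  refine ⟨Real.exp 1 * (2 * C), by positivity, fun κ a M S hκ hM ha hs hS => ?_⟩
  have M0 : 0 < M := lt_of_lt_of_le one_pos hM
  have sw : Summable fun m : O => Real.exp (-(N m / M)) := by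
    simpa only [div_eq_inv_mul] using summ_exp hB (inv_pos.2 M0)
  have N1 : N 1 = 1 := by rw [N, (hB.b1.unit_iff 1).1 isUnit_one, Nat.cast_one]
  have W : ∑' m : O, Real.exp (-(N m / M)) ≤ 2 * C * M := by
    have := hC (fun _ => 1) 1 M one_ne_zero (fun _ _ => rfl) (fun _ => by simp) M0
    simp only [one_mul, ← Complex.ofReal_neg, ← Complex.ofReal_exp] at this
    rw [← Complex.ofReal_tsum, Complex.norm_real,
      Real.norm_of_nonneg (tsum_nonneg fun _ => (Real.exp_pos _).le), Finset.sum_const,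
      hB.b4.card 1 one_ne_zero, (hB.b1.unit_iff 1).1 isUnit_one, N1] at this
    have h1 : (1 / M) ^ A ≤ 1 := pow_le_one₀ (by positivity) ((div_le_one M0).2 hM)
    simp only [one_smul, norm_one, div_one] at this
    nlinarith [mul_nonneg C0 M0.le]
  have sa : Summable fun n => ‖a n‖ := by
    refine Summable.of_nonneg_of_le (fun _ => norm_nonneg _) (fun n => ?_) hs
    by_cases h : a n = 0
    · simp [h]
    · exact le_mul_of_one_le_right (norm_nonneg _)
        (one_le_pow₀ (hB.b1.N_one_le n (hB.b2.ne n (ha n h).1.1)))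
  have sa2 : Summable fun n => ‖a n‖ ^ 2 :=
    Summable.of_nonneg_of_le (fun _ => by positivity) (fun n => by
      rw [pow_two]
      exact mul_le_mul_of_nonneg_right (sa.le_tsum n fun _ _ => norm_nonneg _) (norm_nonneg _))
      (sa.mul_left (∑' n, ‖a n‖))
  have bx : ∀ m n, ‖sx m n ^ κ‖ ≤ 1 := fun m n => by
    rw [norm_pow]; exact pow_le_one₀ (norm_nonneg _) (hX.norm_le m n)
  have bp : ∀ m n1 n2, ‖sx m n1 ^ κ * conj (sx m n2 ^ κ)‖ ≤ 1 := fun m n1 n2 => by
    rw [norm_mul, Complex.norm_conj]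
    exact mul_le_one₀ (bx _ _) (norm_nonneg _) (bx _ _)
  have st : ∀ m, Summable fun n => ‖a n * sx m n ^ κ‖ := fun m =>
    Summable.of_nonneg_of_le (fun _ => norm_nonneg _) (fun n => by
      rw [norm_mul]; exact mul_le_of_le_one_right (norm_nonneg _) (bx m n)) sa
  set F : O → ℂ := fun m => ∑' n, a n * sx m n ^ κ with hF
  set g : O → O × O → ℂ := fun m k => a k.1 * conj (a k.2) *
    (sx m k.1 ^ κ * conj (sx m k.2 ^ κ) * cexp (-(N m / M : ℝ))) with hg
  have e1 : ∀ m, ((Real.exp (-(N m / M)) * ‖F m‖ ^ 2 : ℝ) : ℂ) = ∑' k, g m k := fun m => by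
    rw [Complex.ofReal_mul, ← Complex.normSq_eq_norm_sq, ← Complex.mul_conj, hF]
    simp only
    rw [Complex.conj_tsum, tsum_mul_tsum_of_summable_norm (st m)
      (by simpa only [Complex.norm_conj] using st m), ← tsum_mul_left]
    refine tsum_congr fun k => ?_
    simp only [hg, map_mul, Complex.ofReal_exp, Complex.ofReal_neg]
    ring
  have sg' : Summable (Function.uncurry g) := by
    refine Summable.of_norm_bounded (sw.mul_of_nonneg (sa.mul_of_nonneg sa (fun _ => norm_nonneg _)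
      (fun _ => norm_nonneg _)) (fun _ => (Real.exp_pos _).le)
      (fun _ => mul_nonneg (norm_nonneg _) (norm_nonneg _))) fun q => ?_
    simp only [hg, Function.uncurry]
    rw [norm_mul, norm_mul, norm_mul _ (cexp _), Complex.norm_conj, cexp_norm, mul_comm]
    gcongr
    exact mul_le_of_le_one_left (Real.exp_pos _).le (bp _ _ _)
  have sF : Summable fun m => Real.exp (-(N m / M)) * ‖F m‖ ^ 2 := by
    have := sg'.prod
    simp only [Function.uncurry, ← e1] at this
    exact Complex.summable_ofReal.1 this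
  have hd : HasSum (fun k : O × O => if k.1 = k.2 then ‖a k.1‖ ^ 2 else 0) (∑' n, ‖a n‖ ^ 2) := by
    have inj : Function.Injective fun n : O => (n, n) := fun x y h => (Prod.ext_iff.1 h).1
    refine (inj.hasSum_iff fun k hk => if_neg fun h => hk ⟨k.1, Prod.ext rfl h⟩).1 ?_
    simpa only [Function.comp_def, if_true] using sa2.hasSum
  have n0 : ∀ n, 0 ≤ ‖a n‖ * N n ^ A := fun n => mul_nonneg (norm_nonneg _) (pow_nonneg (N0 n) _)
  have ho : HasSum (fun k : O × O => ‖a k.1‖ * N k.1 ^ A * (‖a k.2‖ * N k.2 ^ A))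
      ((∑' n, ‖a n‖ * N n ^ A) * ∑' n, ‖a n‖ * N n ^ A) :=
    hs.hasSum.mul hs.hasSum (hs.mul_of_nonneg hs n0 n0)
  have hb := tsum_of_norm_bounded (f := fun k : O × O => ∑' m, g m k)
    ((hd.mul_left (2 * C * M)).add (ho.mul_left (2 * C * (M / M ^ A)))) (fun k => by
      simp only [hg]
      rw [tsum_mul_left, norm_mul, norm_mul, Complex.norm_conj]
      have p2 : 0 ≤ 2 * C * (M / M ^ A) * (‖a k.1‖ * N k.1 ^ A * (‖a k.2‖ * N k.2 ^ A)) :=
        mul_nonneg (by positivity) (mul_nonneg (n0 _) (n0 _))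
      by_cases hk : k.1 = k.2
      · rw [if_pos hk]
        have := tsum_of_norm_bounded (f := fun m => sx m k.1 ^ κ * conj (sx m k.2 ^ κ) *
          cexp (-(N m / M : ℝ))) sw.hasSum (fun m => by
            rw [norm_mul _ (cexp _), cexp_norm]
            exact mul_le_of_le_one_left (Real.exp_pos _).le (bp _ _ _))
        refine le_trans ?_ (le_add_of_nonneg_right p2)
        rw [← hk] at this ⊢
        rw [← pow_two, mul_comm]
        gcongr
        exact this.trans W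
      · rw [if_neg hk, mul_zero, zero_add]
        by_cases a1 : a k.1 = 0
        · rw [a1] at p2 ⊢; simp
        by_cases a2 : a k.2 = 0
        · rw [a2] at p2 ⊢; simp
        obtain ⟨o1, s1⟩ := ha _ a1
        obtain ⟨o2, s2⟩ := ha _ a2
        have := hC _ (k.1 * k.2) M (mul_ne_zero (hB.b2.ne _ o1.1) (hB.b2.ne _ o2.1))
          (pe_pair hX κ k.1 k.2) (fun m => bp m _ _) M0
        rw [zero2 hB h8 hX hκ o1 s1 o2 s2 hk, norm_zero, zero_div, zero_add, hB.b1.N_mul] at this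
        have x1 := N0 k.1
        have x2 := N0 k.2
        calc _ ≤ ‖a k.1‖ * ‖a k.2‖ * (2 * C * M * (N k.1 * N k.2 / M) ^ A) := by
              gcongr
              refine this.trans ?_
              gcongr
              linarith
          _ = _ := by rw [div_pow, mul_pow]; ring)
  rw [sg'.tsum_comm] at hb
  simp only [← e1] at hb
  rw [← Complex.ofReal_tsum, Complex.norm_real] at hb
  have h1 : ∑ m ∈ S, ‖F m‖ ^ 2 ≤ Real.exp 1 * ∑' m, Real.exp (-(N m / M)) * ‖F m‖ ^ 2 := by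
    refine le_trans ?_ (mul_le_mul_of_nonneg_left (sF.sum_le_tsum S fun _ _ => by positivity)
      (Real.exp_pos 1).le)
    rw [Finset.mul_sum]
    refine Finset.sum_le_sum fun m hm => ?_
    rw [← mul_assoc, ← Real.exp_add]
    refine le_mul_of_one_le_left (by positivity) (Real.one_le_exp ?_)
    have := (div_le_one M0).2 (hS m hm)
    linarith
  refine h1.trans ?_
  rw [mul_assoc]
  gcongr
  refine (le_abs_self _).trans (hb.trans (le_of_eq ?_))
  ring

end Vale.Agent.P026
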