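import Vale.Agent.P026.Stm3

/-! P026: the diagonal Euler product. -/

noncomputable section
open Complex
open scoped Classical ComplexConjugate

namespace Vale.Agent.P026

namespace SUM0M

theorem N_prod (hB : Bas) (P : Finset O) (f : O → O) : N (∏ p ∈ P, f p) = ∏ p ∈ P, N (f p) := by
  induction P using Finset.induction_on with
  | empty => simpa using hB.b1.N_pow 1 0
  | insert a P h ih => rw [Finset.prod_insert h, Finset.prod_insert h, hB.b1.N_mul, ih]

theorem num {j f : ℕ} (h : 2 * j ≤ 3 * f + 6) : 2 * (10 / 3 : ℝ) ^ j ≤ 100 * 7 ^ f := by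
  refine le_of_pow_le_pow_left₀ (n := 3) (by norm_num) (by positivity) ?_
  calc (2 * (10 / 3 : ℝ) ^ j) ^ 3 = 8 * ((10 / 3) ^ 3) ^ j := by
        rw [mul_pow, ← pow_mul, mul_comm j, pow_mul]; norm_num
    _ ≤ 8 * (7 ^ 2) ^ j := by gcongr; norm_num
    _ = 8 * 7 ^ (2 * j) := by rw [pow_mul]
    _ ≤ 8 * 7 ^ (3 * f + 6) := by gcongr; norm_num
    _ = 8 * 7 ^ 6 * (7 ^ f) ^ 3 := by ring
    _ ≤ 100 ^ 3 * (7 ^ f) ^ 3 := by gcongr; norm_num
    _ = _ := by ring

theorem loc {x δ : ℝ} (hx : 7 ≤ x) (hδ : 0 < δ) {j e : ℕ} (hj : 3 ≤ j) (he : e ≤ j / 3) :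
    2 ^ (j + 1) * x ^ (j + e) / x ^ (j - 1) * (x ^ j) ^ (-1 - δ) ≤
      100 * (3 / 5) ^ j * x ^ (-(1 + δ)) := by
  have x0 : 0 < x := by linarith
  obtain ⟨f, hf⟩ : ∃ f, j = f + 2 + e := ⟨j - 2 - e, by omega⟩
  obtain ⟨i, rfl⟩ : ∃ i, j = i + 1 := ⟨j - 1, by omega⟩
  have a1 : (x ^ (i + 1)) ^ (-1 - δ) ≤ (x ^ i)⁻¹ * x ^ (-(1 + δ)) := by
    rw [pow_succ, Real.mul_rpow (by positivity) x0.le, ← Real.rpow_neg_one, ← neg_add']
    gcongr
    · exact one_le_pow₀ (by linarith)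
    · linarith
  have a2 := num (j := i + 1) (f := f) (by omega)
  have a3 : (7 : ℝ) ^ f ≤ x ^ f := by gcongr
  have a4 : 2 ^ (i + 1 + 1) * x ^ (i + 1 + e) / x ^ i * (x ^ i)⁻¹ ≤ 100 * (3 / 5) ^ (i + 1) := by
    have e1 : x ^ (i + 1 + e) * x ^ f = x ^ i * x ^ i := by
      rw [← pow_add, ← pow_add]; congr 1; omega
    have e2 : (2 : ℝ) ^ (i + 1 + 1) = 2 * (10 / 3) ^ (i + 1) * (3 / 5) ^ (i + 1) := by
      rw [mul_assoc, ← mul_pow]; norm_num; ring
    rw [← div_eq_mul_inv, div_div, ← e1, mul_div_assoc, div_mul_cancel_left₀ (by positivity), e2,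
      ← div_eq_mul_inv, div_le_iff₀ (by positivity)]
    calc _ ≤ 100 * x ^ f * (3 / 5) ^ (i + 1) :=
          mul_le_mul_of_nonneg_right (by linarith) (by positivity)
      _ = _ := by ring
  rw [Nat.add_sub_cancel]
  calc _ ≤ 2 ^ (i + 1 + 1) * x ^ (i + 1 + e) / x ^ i * ((x ^ i)⁻¹ * x ^ (-(1 + δ))) := by gcongr
    _ = 2 ^ (i + 1 + 1) * x ^ (i + 1 + e) / x ^ i * (x ^ i)⁻¹ * x ^ (-(1 + δ)) := by ring
    _ ≤ _ := by gcongr

end SUM0M

open SUM0M in
theorem sum0S (hB : Bas) (h8 : B8) (hE : EULStmt) : SUM0Stmt := by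
  intro δ hδ
  have N0 : ∀ p, 0 ≤ N p := fun p => Nat.cast_nonneg _
  refine ⟨Real.exp (∑' p : O, 250 * N p ^ (-(1 + δ))), fun κ T hT => ?_⟩
  have c0 : ∀ p j, 0 ≤ cl κ p j := fun p j => by
    have := N0 p
    unfold cl; split_ifs <;> positivity
  refine le_trans (le_of_eq ?_) (hE
    (fun p j v => if v = 0 then cl κ p j / N p ^ (j - 1) * (N p ^ j) ^ (-1 - δ) else 0)
    (fun p => 250 * N p ^ (-(1 + δ))) (T.map ⟨fun E => (E, 1), fun a b h => (Prod.ext_iff.1 h).1⟩)
    (fun p j v => ?_) (fun p => ?_) ((hB.b3.summ _ (by linarith)).mul_left _)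
    (fun p n hp ho => ?_) fun x hx => ?_)
  · rw [Finset.sum_map]
    refine Finset.sum_congr rfl fun E hE' => ?_
    have pE := (hT E hE').1
    have e1 : N E = ∏ p ∈ pf E, N p ^ vl p E := by
      conv_lhs => rw [h8.prod E pE]
      rw [N_prod hB]; simp only [hB.b1.N_pow]
    rw [e1, ← Real.finsetProd_rpow _ _ fun p _ => pow_nonneg (N0 p) _, cE, fl, N_prod hB,
      ← Finset.prod_div_distrib, ← Finset.prod_mul_distrib]
    show _ = ∏ p ∈ pf (E * 1), if vl p 1 = 0 then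
      cl κ p (vl p E) / N p ^ (vl p E - 1) * (N p ^ vl p E) ^ (-1 - δ) else 0
    rw [mul_one]
    refine Finset.prod_congr rfl fun p hp => ?_
    have := ((h8.mem E p (hB.b2.ne E pE)).1 hp).1
    rw [if_pos ((h8.vl_zero p 1 this one_ne_zero).2 this.not_dvd_one), hB.b1.N_pow]
  · have := N0 p
    have := c0 p j
    split_ifs <;> positivity
  · have := N0 p
    positivity
  · have x7 := h8.N7 p hp ho
    have x0 : 0 < N p := by linarith
    have key : ∀ j, j ≠ 0 → cl κ p j / N p ^ (j - 1) * (N p ^ j) ^ (-1 - δ) ≤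
        100 * (3 / 5) ^ j * N p ^ (-(1 + δ)) := by
      intro j hj
      unfold cl
      by_cases c1 : j = 1
      · subst c1
        rw [if_pos rfl, Nat.sub_self, pow_zero, pow_one, ← neg_add']
        gcongr
        norm_num
      by_cases c2 : j = 2
      · rw [if_neg c1, if_pos c2, zero_div, zero_mul]; positivity
      rw [if_neg c1, if_neg c2]
      exact loc x7 hδ (by omega) (by split_ifs <;> omega)
    calc _ ≤ ∑ j ∈ Finset.range n, ∑ v ∈ Finset.range n,
          (if v = 0 then 100 * (3 / 5) ^ j * N p ^ (-(1 + δ)) else 0) := by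
          refine Finset.sum_le_sum fun j _ => Finset.sum_le_sum fun v _ => ?_
          by_cases c : v = 0
          · by_cases c' : j = 0
            · rw [if_pos ⟨c', c⟩, if_pos c]; positivity
            · rw [if_neg fun d => c' d.1, if_pos c, if_pos c]; exact key j c'
          · simp [c]
      _ ≤ ∑ j ∈ Finset.range n, 100 * N p ^ (-(1 + δ)) * (3 / 5) ^ j := by
          refine Finset.sum_le_sum fun j _ => ?_
          rw [Finset.sum_ite_eq']
          split_ifs
          · exact le_of_eq (by ring)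
          · positivity
      _ ≤ 100 * N p ^ (-(1 + δ)) * (1 - 3 / 5)⁻¹ := by
          rw [← Finset.mul_sum]
          gcongr
          exact sum_le_hasSum _ (fun _ _ => by positivity)
            (hasSum_geometric_of_lt_one (by norm_num) (by norm_num))
      _ = _ := by ring
  · obtain ⟨E, hE', rfl⟩ := Finset.mem_map.1 hx
    exact ⟨hT E hE', hB.b2.one, isCoprime_one_left⟩

end Vale.Agent.P026
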