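import Vale.Agent.P026.Stm3

/-! P026: Euler product bounds for the weights of the Poisson step. -/

noncomputable section
open Complex MeasureTheory Filter Topology
open scoped Classical ComplexConjugate

namespace Vale.Agent.P026

namespace SUMM

def GG (κ : ℕ) (γ τ : ℝ) (a : ℕ → ℝ) (s E h : O) : ℝ :=
  cE κ E / N (fl E) * (N (fl E) / (N E ^ 2 * N h)) ^ γ * N E ^ τ * mw a (sE κ s E h) ^ 2

def idx (κ w j v : ℕ) : ℕ :=
  w + κ * (j - 1) + 6 * (if j = 0 then 0 else 1) + (if κ = 1 then 0 else 2 * j) + kd κ * v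

def ce (κ j : ℕ) : ℕ := if j ≤ 1 then 0 else j + if κ = 1 ∧ j = 3 then 0 else j / 3

def ex (κ : ℕ) (γ τ : ℝ) (a : ℕ → ℝ) (w j v : ℕ) : ℝ :=
  (ce κ j : ℝ) - (j - 1 : ℕ) + γ * ((j - 1 : ℕ) - 2 * j - v) + τ * j + 2 * a (idx κ w j v % 6)

def lc (κ : ℕ) (γ τ : ℝ) (a : ℕ → ℝ) (p : O) (w j v : ℕ) : ℝ :=
  (if j = 0 then 1 else cl κ p j) / N p ^ (j - 1) *
    (N p ^ (j - 1) / ((N p ^ j) ^ 2 * N p ^ v)) ^ γ * (N p ^ j) ^ τ * (N p ^ a (idx κ w j v % 6)) ^ 2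

theorem N_one (hB : Bas) : N 1 = 1 := by simpa using hB.b1.N_int 1

theorem N_prod (hB : Bas) (P : Finset O) (f : O → O) : N (∏ p ∈ P, f p) = ∏ p ∈ P, N (f p) := by
  induction P using Finset.induction_on with
  | empty => simpa using N_one hB
  | insert p P hp ih => rw [Finset.prod_insert hp, Finset.prod_insert hp, hB.b1.N_mul, ih]

theorem mem_pf (h8 : B8) {x p : O} (hx : x ≠ 0) : p ∈ pf x ↔ Prime p ∧ Prim p ∧ vl p x ≠ 0 := by
  rw [h8.mem x p hx]
  refine and_congr_right fun hp => and_congr_right fun _ => ?_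
  rw [Ne, h8.vl_zero p x hp hx, not_not]

theorem lc_le (κ : ℕ) (γ τ : ℝ) (a : ℕ → ℝ) {p : O} (hp : 0 < N p) (w j v : ℕ) :
    ∃ c : ℝ, 0 ≤ c ∧ c ≤ 2 ^ (j + 1) ∧ (j = 0 → c = 1) ∧ (j = 2 → c = 0) ∧
      lc κ γ τ a p w j v = c * N p ^ ex κ γ τ a w j v := by
  obtain ⟨c, h0, h1, h2, h3, h4⟩ : ∃ c : ℝ, 0 ≤ c ∧ c ≤ 2 ^ (j + 1) ∧ (j = 0 → c = 1) ∧
      (j = 2 → c = 0) ∧ (if j = 0 then 1 else cl κ p j) = c * N p ^ ce κ j := by
    have o : (1 : ℝ) ≤ 2 ^ (j + 1) := one_le_pow₀ (by norm_num)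
    by_cases a0 : j = 0
    · exact ⟨1, zero_le_one, o, fun _ => rfl, fun h => by omega, by simp [a0, ce]⟩
    by_cases a1 : j = 1
    · exact ⟨1, zero_le_one, o, fun _ => rfl, fun h => by omega, by simp [a1, ce, cl]⟩
    by_cases a2 : j = 2
    · exact ⟨0, le_rfl, by positivity, fun h => by omega, fun _ => rfl, by simp [a2, cl]⟩
    exact ⟨2 ^ (j + 1), by positivity, le_rfl, fun h => by omega, fun h => by omega, by
      rw [if_neg a0, cl, if_neg a1, if_neg a2, ce, if_neg (by omega : ¬ j ≤ 1)]⟩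
  refine ⟨c, h0, h1, h2, h3, ?_⟩
  rw [lc, h4, ex]
  obtain ⟨L, hL⟩ : ∃ L, N p = Real.exp L := ⟨_, (Real.exp_log hp).symm⟩
  rw [hL, mul_div_assoc, mul_assoc c, mul_assoc c, mul_assoc c]
  simp only [← Real.exp_nat_mul, ← Real.exp_add, ← Real.exp_sub, ← Real.exp_mul]
  congr 2
  push_cast
  ring

theorem fact (hB : Bas) (h8 : B8) {κ : ℕ} (hκ : κ = 1 ∨ κ = 3) (γ τ : ℝ) (a : ℕ → ℝ) {s E h : O}
    (hs : Prim s) (hE : Prim E) (hh : Prim h) :
    GG κ γ τ a s E h = ∏ p ∈ pf (s * (E * h)), lc κ γ τ a p (vl p s) (vl p E) (vl p h) := by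
  have s0 := hB.b2.ne s hs
  have E0 := hB.b2.ne E hE
  have h0 := hB.b2.ne h hh
  have Eh := mul_ne_zero E0 h0
  have x0 := mul_ne_zero s0 Eh
  set P := pf (s * (E * h)) with hP
  have pP : ∀ p ∈ P, Prime p ∧ Prim p := fun p hp =>
    ⟨((h8.mem _ p x0).1 hp).1, ((h8.mem _ p x0).1 hp).2.1⟩
  have PE : pf E ⊆ P := by
    rw [hP, h8.pf_mul _ _ s0 Eh, h8.pf_mul _ _ E0 h0]
    exact Finset.subset_union_left.trans Finset.subset_union_right
  have Ph : pf h ⊆ P := by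
    rw [hP, h8.pf_mul _ _ s0 Eh, h8.pf_mul _ _ E0 h0]
    exact Finset.subset_union_right.trans Finset.subset_union_right
  have out : ∀ p ∈ P, p ∉ pf E → vl p E = 0 := fun p hp hn => by
    by_contra k
    exact hn ((mem_pf h8 E0).2 ⟨(pP p hp).1, (pP p hp).2, k⟩)
  have e1 : N E = ∏ p ∈ P, N p ^ vl p E := by
    conv_lhs => rw [h8.prod' E P hE PE pP]
    simp only [N_prod hB, hB.b1.N_pow]
  have e2 : N h = ∏ p ∈ P, N p ^ vl p h := by
    conv_lhs => rw [h8.prod' h P hh Ph pP]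
    simp only [N_prod hB, hB.b1.N_pow]
  have e3 : N (fl E) = ∏ p ∈ P, N p ^ (vl p E - 1) := by
    simp only [fl, N_prod hB, hB.b1.N_pow]
    exact Finset.prod_subset PE fun p hp hn => by rw [out p hp hn]; simp
  have e4 : cE κ E = ∏ p ∈ P, if vl p E = 0 then 1 else cl κ p (vl p E) := by
    rw [cE, ← Finset.prod_subset PE fun p hp hn => by rw [if_pos (out p hp hn)]]
    exact Finset.prod_congr rfl fun p hp => by rw [if_neg ((mem_pf h8 E0).1 hp).2.2]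
  have f0 := hB.b2.ne _ (h8.fl_prim E)
  have r0 := hB.b2.ne _ (h8.rad_prim E)
  have i0 : (if κ = 1 then 1 else E ^ 2 : O) ≠ 0 := by
    split_ifs
    · exact one_ne_zero
    · exact pow_ne_zero _ E0
  have y1 := mul_ne_zero s0 (pow_ne_zero κ f0)
  have y2 := mul_ne_zero y1 (pow_ne_zero 6 r0)
  have y3 := mul_ne_zero y2 i0
  have y4 : sE κ s E h ≠ 0 := mul_ne_zero y3 (pow_ne_zero _ h0)
  have pE : ∀ p ∈ pf E, Prime p ∧ Prim p := fun p hp => pP p (PE hp)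
  have e5 : ∀ p, Prime p → Prim p → vl p (sE κ s E h) = idx κ (vl p s) (vl p E) (vl p h) := by
    intro p p1 p2
    have m : p ∈ pf E ↔ vl p E ≠ 0 := by rw [mem_pf h8 E0]; tauto
    have a1 : vl p (fl E) = vl p E - 1 := by
      rw [fl, h8.vl_prod _ (fun q => vl q E - 1) p pE p1 p2]
      split_ifs with k
      · rfl
      · rw [m, not_not] at k; omega
    have a2 : vl p (rad E) = if vl p E = 0 then 0 else 1 := by
      have := h8.vl_prod _ (fun _ => 1) p pE p1 p2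
      simp only [pow_one] at this
      rw [rad, this]
      simp only [m, ite_not]
    have a3 : vl p (if κ = 1 then 1 else E ^ 2 : O) = if κ = 1 then 0 else 2 * vl p E := by
      split_ifs
      · exact (h8.vl_zero p 1 p1 one_ne_zero).2 p1.not_dvd_one
      · exact h8.vl_pow p E 2 p1 E0
    rw [sE, h8.vl_mul _ _ _ p1 y3 (pow_ne_zero _ h0), h8.vl_mul _ _ _ p1 y2 i0,
      h8.vl_mul _ _ _ p1 y1 (pow_ne_zero _ r0), h8.vl_mul _ _ _ p1 s0 (pow_ne_zero _ f0),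
      h8.vl_pow _ _ _ p1 h0, h8.vl_pow _ _ _ p1 r0, h8.vl_pow _ _ _ p1 f0, a1, a2, a3, idx]
  have e6 : pf (sE κ s E h) = P := by
    ext p
    rw [hP, mem_pf h8 y4, mem_pf h8 x0]
    refine and_congr_right fun p1 => and_congr_right fun p2 => ?_
    rw [e5 p p1 p2, h8.vl_mul _ _ _ p1 s0 Eh, h8.vl_mul _ _ _ p1 E0 h0, idx, kd]
    rcases hκ with rfl | rfl <;> split_ifs <;> omega
  have e7 : mw a (sE κ s E h) = ∏ p ∈ P, N p ^ a (idx κ (vl p s) (vl p E) (vl p h) % 6) := by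
    rw [mw, e6]
    exact Finset.prod_congr rfl fun p hp => by rw [e5 p (pP p hp).1 (pP p hp).2]
  have nn : ∀ p : O, 0 ≤ N p := fun p => Nat.cast_nonneg _
  rw [GG, e7, e4, e3, e2, e1, ← Finset.prod_pow, ← Finset.prod_pow, ← Finset.prod_mul_distrib,
    ← Finset.prod_div_distrib, ← Finset.prod_div_distrib,
    ← Real.finsetProd_rpow _ _ (fun p _ => by have := nn p; positivity),
    ← Real.finsetProd_rpow _ _ (fun p _ => by have := nn p; positivity),
    ← Finset.prod_mul_distrib, ← Finset.prod_mul_distrib, ← Finset.prod_mul_distrib]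
  rfl

theorem seven {x e : ℝ} (hx : 7 ≤ x) (he : e ≤ 0) {K : ℝ} (j v : ℕ) (h : e ≤ K - 2 / 3 * j - v) :
    2 ^ j * x ^ e ≤ 7 ^ K * ((3 / 5) ^ j * (1 / 7) ^ v) := by
  have h1 : x ^ e ≤ 7 ^ e := Real.rpow_le_rpow_of_nonpos (by norm_num) hx he
  have h2 : (7 : ℝ) ^ e ≤ 7 ^ (K - 2 / 3 * j - v) := Real.rpow_le_rpow_of_exponent_le (by norm_num) h
  have h3 : (10 / 3 : ℝ) ≤ 7 ^ (2 / 3 : ℝ) := by
    rw [show (2 / 3 : ℝ) = 2 * (3 : ℝ)⁻¹ by norm_num, Real.rpow_mul (by norm_num),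
      Real.le_rpow_inv_iff_of_pos (by norm_num) (by positivity) (by norm_num)]
    norm_num
  rw [Real.rpow_sub (by norm_num), Real.rpow_sub (by norm_num), Real.rpow_mul (by norm_num),
    Real.rpow_natCast, Real.rpow_natCast] at h2
  have h4 : (10 / 3 : ℝ) ^ j ≤ (7 ^ (2 / 3 : ℝ)) ^ j := pow_le_pow_left₀ (by norm_num) h3 j
  calc 2 ^ j * x ^ e ≤ 2 ^ j * (7 ^ K / (10 / 3) ^ j / 7 ^ v) := by
        refine mul_le_mul_of_nonneg_left (h1.trans (h2.trans ?_)) (by positivity)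
        gcongr
    _ = _ := by
        rw [show (3 / 5 : ℝ) = 2 / (10 / 3) by norm_num, div_pow 2, div_pow 1, one_pow]
        ring

theorem geo (r : ℝ) (h0 : 0 ≤ r) (h1 : r < 1) (n : ℕ) : ∑ j ∈ Finset.range n, r ^ j ≤ (1 - r)⁻¹ :=
  (tsum_geometric_of_lt_one h0 h1) ▸ (summable_geometric_of_lt_one h0 h1).sum_le_tsum _
    fun _ _ => by positivity

theorem main (hB : Bas) (h8 : B8) (hE : EULStmt) {η : ℝ} (hη : 1 < η) (K : ℝ) : ∃ C : ℝ, 0 ≤ C ∧
    ∀ (κ : ℕ) (γ τ : ℝ) (a : ℕ → ℝ) (s : O), κ = 1 ∨ κ = 3 → OP s →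
    (∀ j v, (j = 0 → 2 ≤ v) → j ≠ 2 →
      ex κ γ τ a 0 j v + η ≤ 0 ∧ ex κ γ τ a 0 j v + η ≤ K - 2 / 3 * j - v) →
    (s ≠ 1 → ∀ w v, 1 ≤ v → ex κ γ τ a w 0 v ≤ 2 * a (w % 6) + (1 - v)) →
    SumB s (GG κ γ τ a s) (C * Real.exp 21 ^ (pf s).card * mw a s ^ 2) := by
  have nn : ∀ p : O, 0 ≤ N p := fun p => Nat.cast_nonneg _
  have sm := (hB.b3.summ η hη).mul_left (3 * (2 * 7 ^ K))
  refine ⟨Real.exp (∑' p : O, 3 * (2 * 7 ^ K) * N p ^ (-η)), by positivity,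
    fun κ γ τ a s hκ hs hA hS T hT => ?_⟩
  have s0 := hB.b2.ne s hs.1
  set B : O → ℝ := fun p => (if p ∈ pf s then 7 else 0) + 2 * 7 ^ K * N p ^ (-η) with hBd
  have B0 : ∀ p, 0 ≤ B p := fun p => by
    have := nn p
    simp only [hBd]
    split_ifs <;> positivity
  have s1 : HasSum (fun p => 3 * (if p ∈ pf s then 7 else 0 : ℝ)) (21 * (pf s).card) := by
    have := hasSum_sum_of_ne_finset_zero (L := SummationFilter.unconditional O)
      (f := fun p => 3 * (if p ∈ pf s then 7 else 0 : ℝ)) (s := pf s) fun p hp => by simp [hp]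
    convert this using 1
    rw [Finset.sum_congr rfl fun p hp => by rw [if_pos hp]]
    simp; ring
  have s2 := s1.add sm.hasSum
  have s3 : HasSum (fun p => 3 * B p) _ := HasSum.congr_fun s2 fun p => by simp only [hBd]; ring
  have key := hE (fun p j v => B p * ((3 / 5) ^ j * (1 / 7) ^ v)) (fun p => 3 * B p) T
    (fun p j v => mul_nonneg (B0 p) (by positivity)) (fun p => by linarith [B0 p]) s3.summable
    (fun p n _ _ => by
      calc _ ≤ ∑ j ∈ Finset.range n, ∑ v ∈ Finset.range n, B p * ((3 / 5) ^ j * (1 / 7) ^ v) := by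
            refine Finset.sum_le_sum fun j _ => Finset.sum_le_sum fun v _ => ?_
            split_ifs
            · exact mul_nonneg (B0 p) (by positivity)
            · exact le_rfl
        _ = B p * ((∑ j ∈ Finset.range n, (3 / 5 : ℝ) ^ j) * ∑ v ∈ Finset.range n, (1 / 7 : ℝ) ^ v) := by
            rw [Finset.sum_mul_sum, Finset.mul_sum]
            simp only [Finset.mul_sum]
        _ ≤ B p * ((1 - 3 / 5)⁻¹ * (1 - 1 / 7)⁻¹) := by
            refine mul_le_mul_of_nonneg_left (mul_le_mul (geo _ (by norm_num) (by norm_num) n)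
              (geo _ (by norm_num) (by norm_num) n) (by positivity) (by norm_num)) (B0 p)
        _ ≤ _ := by linarith [B0 p])
    (fun x hx => ⟨(hT x hx).1, (hT x hx).2.2.1⟩)
  rw [s3.tsum_eq, Real.exp_add, mul_comm (21 : ℝ), Real.exp_nat_mul, mul_comm] at key
  refine le_trans ?_ (mul_le_mul_of_nonneg_right key (sq_nonneg _))
  rw [Finset.sum_mul]
  refine Finset.sum_le_sum fun x hx => ?_
  obtain ⟨E, h⟩ := x
  obtain ⟨x1, x2, x3, x4⟩ := hT _ hx
  simp only at x1 x2 x3 x4 ⊢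
  have E0 := hB.b2.ne E x1.1
  have h0 := hB.b2.ne h x3.1
  have Eh := mul_ne_zero E0 h0
  have x0 := mul_ne_zero s0 Eh
  have u : pf (s * (E * h)) = pf s ∪ pf (E * h) := h8.pf_mul _ _ s0 Eh
  have r1 : ∏ p ∈ pf (E * h), B p * ((3 / 5) ^ vl p E * (1 / 7) ^ vl p h) =
      ∏ p ∈ pf (s * (E * h)), if p ∈ pf (E * h) then
        B p * ((3 / 5) ^ vl p E * (1 / 7) ^ vl p h) else 1 := by
    rw [Finset.prod_ite_mem, u, Finset.union_inter_cancel_right]
  have r2 : mw a s ^ 2 = ∏ p ∈ pf (s * (E * h)), if p ∈ pf s then N p ^ (2 * a (vl p s % 6)) else 1 := by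
    rw [Finset.prod_ite_mem, u, Finset.union_inter_cancel_left, mw, ← Finset.prod_pow]
    exact Finset.prod_congr rfl fun p _ => by rw [mul_comm, Real.rpow_mul (nn p), Real.rpow_two]
  rw [fact hB h8 hκ γ τ a hs.1 x1.1 x3.1, r1, r2, ← Finset.prod_mul_distrib]
  have lp : ∀ p ∈ pf (s * (E * h)), Prime p ∧ Prim p ∧ 7 ≤ N p := fun p hp => by
    obtain ⟨p1, p2, p3⟩ := (h8.mem _ p x0).1 hp
    exact ⟨p1, p2, h8.N7 p p1 (h8.op_dvd p _ (h8.op_mul _ _ hs (h8.op_mul _ _ x1 x3)) p2 p3)⟩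
  refine Finset.prod_le_prod (fun p hp => ?_) fun p hp => ?_
  · obtain ⟨c, c0, -, -, -, e⟩ := lc_le κ γ τ a (by linarith [(lp p hp).2.2] : 0 < N p)
      (vl p s) (vl p E) (vl p h)
    rw [e]
    exact mul_nonneg c0 (Real.rpow_nonneg (nn p) _)
  obtain ⟨p1, p2, p7⟩ := lp p hp
  have pp : 0 < N p := by linarith
  obtain ⟨c, c0, c1, c2, c3, e⟩ := lc_le κ γ τ a pp (vl p s) (vl p E) (vl p h)
  have m : p ∈ pf (E * h) ↔ vl p E + vl p h ≠ 0 := by
    rw [mem_pf h8 Eh, h8.vl_mul _ _ _ p1 E0 h0]; tauto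
  rw [e]
  by_cases k : p ∈ pf s
  · have ps := ((h8.mem s p s0).1 k).2.2
    have j0 : vl p E = 0 := (h8.vl_zero p E p1 E0).2 fun d => p1.not_isUnit (x2.isUnit_of_dvd' d ps)
    rw [if_pos k, c2 j0, j0, one_mul]
    by_cases v0 : vl p h = 0
    · rw [if_neg (by rw [m]; omega), v0, one_mul]
      simp [ex, ce, idx]
    rw [if_pos (m.2 (by omega))]
    have a1 := hS (by rintro rfl; exact p1.not_dvd_one ps) (vl p s) (vl p h) (by omega)
    have v1 : (1 : ℝ) ≤ vl p h := by exact_mod_cast Nat.pos_of_ne_zero v0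
    have a2 := seven p7 (e := 1 - vl p h) (by linarith) (K := 1) 0 (vl p h) (by simp)
    refine (Real.rpow_le_rpow_of_exponent_le (by linarith) a1).trans ?_
    rw [Real.rpow_add pp, mul_comm]
    refine mul_le_mul_of_nonneg_right ?_ (Real.rpow_nonneg (nn p) _)
    rw [pow_zero, one_mul, Real.rpow_one] at a2
    refine a2.trans (mul_le_mul_of_nonneg_right ?_ (by positivity))
    simp only [hBd, if_pos k]
    have : 0 ≤ 2 * 7 ^ K * N p ^ (-η) := by positivity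
    linarith
  have ps : ¬ p ∣ s := fun d => k ((h8.mem s p s0).2 ⟨p1, p2, d⟩)
  have k2 : p ∈ pf (E * h) := by
    rw [u, Finset.mem_union] at hp
    exact hp.resolve_left k
  rw [if_neg k, if_pos k2, mul_one, (h8.vl_zero p s p1 s0).2 ps]
  by_cases j2 : vl p E = 2
  · rw [c3 j2, zero_mul]
    exact mul_nonneg (B0 p) (by positivity)
  obtain ⟨a1, a2⟩ := hA (vl p E) (vl p h) (fun j0 => by
    have v0 : vl p h ≠ 0 := by have := m.1 k2; omega
    rcases x4 p ((mem_pf h8 h0).2 ⟨p1, p2, v0⟩) with d | d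
    · exact (h8.vl_dvd p h 2 p1 h0).1 d
    · exact absurd ((p1.dvd_or_dvd d).resolve_left ps) ((h8.vl_zero p E p1 E0).1 j0)) j2
  have a3 := seven p7 a1 _ _ a2
  have a4 : N p ^ ex κ γ τ a 0 (vl p E) (vl p h) =
      N p ^ (ex κ γ τ a 0 (vl p E) (vl p h) + η) * N p ^ (-η) := by
    rw [← Real.rpow_add pp]; congr 1; ring
  simp only [hBd, if_neg k, zero_add]
  rw [a4]
  calc _ ≤ 2 ^ (vl p E + 1) * (N p ^ (ex κ γ τ a 0 (vl p E) (vl p h) + η) * N p ^ (-η)) :=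
        mul_le_mul_of_nonneg_right c1 (by positivity)
    _ = 2 * N p ^ (-η) * (2 ^ vl p E * N p ^ (ex κ γ τ a 0 (vl p E) (vl p h) + η)) := by ring
    _ ≤ 2 * N p ^ (-η) * (7 ^ K * ((3 / 5) ^ vl p E * (1 / 7) ^ vl p h)) :=
        mul_le_mul_of_nonneg_left a3 (by positivity)
    _ = _ := by ring

theorem tb_le {a0 a2 a M : ℝ} (h0 : a0 ≤ M) (h2 : a2 ≤ M) (h : a ≤ M) (i : ℕ) : tb a0 a2 a i ≤ M := by
  unfold tb; split_ifs <;> assumption

theorem le_tb {a0 a2 a M : ℝ} (h0 : M ≤ a0) (h2 : M ≤ a2) (h : M ≤ a) (i : ℕ) : M ≤ tb a0 a2 a i := by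
  unfold tb; split_ifs <;> assumption

theorem G1_eq (κ : ℕ) (δ : ℝ) (a : ℕ → ℝ) (s : O) : G1 κ δ a s = GG κ (1 + δ) 0 a s := by
  ext E h; simp [G1, GG]

theorem G2_eq (κ : ℕ) (g θ : ℝ) (a : ℕ → ℝ) (s : O) : G2 κ g θ a s = GG κ g (2 * θ) a s := rfl

theorem ex0 (κ : ℕ) (γ τ : ℝ) (a : ℕ → ℝ) (w v : ℕ) :
    ex κ γ τ a w 0 v = -γ * v + 2 * a ((w + kd κ * v) % 6) := by
  simp [ex, ce, idx]

theorem ex1 (κ : ℕ) (γ τ : ℝ) (a : ℕ → ℝ) (v : ℕ) :
    ex κ γ τ a 0 1 v = -γ * (2 + v) + τ + 2 * a (idx κ 0 1 v % 6) := by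
  simp only [ex, ce]; simp; ring

theorem ex3 (κ : ℕ) (γ τ : ℝ) (a : ℕ → ℝ) {j : ℕ} (hj : 3 ≤ j) (v : ℕ) :
    ex κ γ τ a 0 j v ≤ (if κ = 1 ∧ j = 3 then 0 else (j : ℝ) / 3) + 1 - γ * (j + 1 + v) + τ * j +
      2 * a (idx κ 0 j v % 6) := by
  have : ((j / 3 : ℕ) : ℝ) ≤ j / 3 := Nat.cast_div_le
  simp only [ex, ce, if_neg (by omega : ¬ j ≤ 1), Nat.cast_sub (by omega : 1 ≤ j)]
  split_ifs <;> push_cast <;> nlinarith

theorem SumB_mono {s : O} {G : O → O → ℝ} {A A' : ℝ} (h : SumB s G A) (h' : A ≤ A') : SumB s G A' :=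
  fun T hT => (h T hT).trans h'

end SUMM

open SUMM

theorem sumaS (hB : Bas) (h8 : B8) (hE : EULStmt) : SUMAStmt := by
  obtain ⟨C, C0, h⟩ := main hB h8 hE (η := 22 / 21) (by norm_num) 3
  have o : OP 1 := ⟨hB.b2.one, isCoprime_one_left⟩
  have e : ∀ a, C * Real.exp 21 ^ (pf 1).card * mw a 1 ^ 2 = C := fun a => by
    simp [mw, h8.pf_one]
  refine ⟨C, C0, fun δ hδ => ⟨?_, ?_⟩⟩
  · rw [G1_eq, ← e]
    refine h 1 _ _ _ 1 (Or.inl rfl) o (fun j v h0 h2 => ?_) (fun k => absurd rfl k)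
    have b := tb_le (a0 := 1 / 14) (a2 := 11 / 14) (a := 3 / 7) (M := 11 / 14) (by norm_num) le_rfl
      (by norm_num)
    have v0 : (0 : ℝ) ≤ v := v.cast_nonneg
    have dv := mul_nonneg hδ v0
    rcases (by omega : j = 0 ∨ j = 1 ∨ j = 3 ∨ 4 ≤ j) with rfl | rfl | rfl | hj
    · rw [ex0]
      rcases (by have := h0 rfl; omega : v = 2 ∨ 3 ≤ v) with rfl | hv
      · simp only [kd, tb]; norm_num; constructor <;> linarith
      · have : (3 : ℝ) ≤ v := by exact_mod_cast hv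
        have := b ((0 + kd 1 * v) % 6)
        constructor <;> push_cast <;> nlinarith
    · rw [ex1]
      rcases (by omega : v = 0 ∨ 1 ≤ v) with rfl | hv
      · simp only [idx, kd, tb]; norm_num; constructor <;> linarith
      · have : (1 : ℝ) ≤ v := by exact_mod_cast hv
        have := b (idx 1 0 1 v % 6)
        constructor <;> push_cast <;> nlinarith
    · have := ex3 1 (1 + δ) 0 (tb (1 / 14) (11 / 14) (3 / 7)) le_rfl v
      have := b (idx 1 0 3 v % 6)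
      rw [if_pos ⟨rfl, rfl⟩] at *
      push_cast at *
      constructor <;> nlinarith
    · have := ex3 1 (1 + δ) 0 (tb (1 / 14) (11 / 14) (3 / 7)) (by omega : 3 ≤ j) v
      rw [if_neg (by omega)] at this
      have := b (idx 1 0 j v % 6)
      have j4 : (4 : ℝ) ≤ j := by exact_mod_cast hj
      have := mul_nonneg hδ (by linarith : (0 : ℝ) ≤ j)
      constructor <;> nlinarith
  · rw [G2_eq, ← e]
    refine h 1 _ _ _ 1 (Or.inl rfl) o (fun j v h0 h2 => ?_) (fun k => absurd rfl k)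
    have b := tb_le (a0 := 19 / 14) (a2 := 29 / 14) (a := 12 / 7) (M := 29 / 14) (by norm_num) le_rfl
      (by norm_num)
    have v0 : (0 : ℝ) ≤ v := v.cast_nonneg
    rcases (by omega : j = 0 ∨ j = 1 ∨ j = 3 ∨ 4 ≤ j) with rfl | rfl | rfl | hj
    · rw [ex0]
      rcases (by have := h0 rfl; omega : v = 2 ∨ 3 ≤ v) with rfl | hv
      · simp only [kd, tb]; norm_num
      · have : (3 : ℝ) ≤ v := by exact_mod_cast hv
        have := b ((0 + kd 1 * v) % 6)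
        constructor <;> push_cast <;> linarith
    · rw [ex1]
      rcases (by omega : v = 0 ∨ 1 ≤ v) with rfl | hv
      · simp only [idx, kd, tb]; norm_num
      · have : (1 : ℝ) ≤ v := by exact_mod_cast hv
        have := b (idx 1 0 1 v % 6)
        constructor <;> push_cast <;> linarith
    · have := ex3 1 (18 / 7) (2 * (9 / 14)) (tb (19 / 14) (29 / 14) (12 / 7)) le_rfl v
      have := b (idx 1 0 3 v % 6)
      rw [if_pos ⟨rfl, rfl⟩] at *
      push_cast at *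
      constructor <;> linarith
    · have := ex3 1 (18 / 7) (2 * (9 / 14)) (tb (19 / 14) (29 / 14) (12 / 7)) (by omega : 3 ≤ j) v
      rw [if_neg (by omega)] at this
      have := b (idx 1 0 j v % 6)
      have j4 : (4 : ℝ) ≤ j := by exact_mod_cast hj
      constructor <;> linarith

end Vale.Agent.P026
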