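import Vale.Agent.P026.M.SUMA

/-! P026: Euler product bounds, level two. -/

noncomputable section
open Complex MeasureTheory Filter Topology
open scoped Classical ComplexConjugate

namespace Vale.Agent.P026

open SUMM

theorem sumbS (hB : Bas) (h8 : B8) (hE : EULStmt) : SUMBStmt := by
  intro δ hδ
  obtain ⟨C1, c1, h1⟩ := main hB h8 hE (η := 1 + δ) (by linarith) 3
  obtain ⟨C2, c2, h2⟩ := main hB h8 hE (η := 3 / 2) (by norm_num) 3
  obtain ⟨D, hD⟩ := h8.ome (Real.exp 21) δ (Real.exp_pos _).le hδ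
  have fin : ∀ (C : ℝ) (s : O) (x : ℝ), 0 ≤ C → C ≤ C1 + C2 →
      C * Real.exp 21 ^ (pf s).card * x ^ 2 ≤ (C1 + C2) * |D| * rd s ^ δ * x ^ 2 := by
    intro C s x a1 a2
    have r : 0 ≤ rd s ^ δ := Real.rpow_nonneg (by linarith [h8.rd_ge s]) _
    refine mul_le_mul_of_nonneg_right ?_ (sq_nonneg _)
    rw [mul_assoc]
    exact mul_le_mul a2 ((hD s).trans (mul_le_mul_of_nonneg_right (le_abs_self D) r))
      (by positivity) (by linarith)
  refine ⟨(C1 + C2) * |D|, by positivity, fun s hs => ⟨?_, ?_⟩⟩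
  · rw [G1_eq]
    have b := tb_le (a0 := 0) (a2 := 1 / 2) (a := 0) (M := 1 / 2) (by norm_num) le_rfl (by norm_num)
    have b' := le_tb (a0 := 0) (a2 := 1 / 2) (a := 0) (M := 0) le_rfl (by norm_num) le_rfl
    refine SumB_mono (h1 3 _ _ _ s (Or.inr rfl) hs (fun j v h0 h2 => ?_) (fun _ w v hv => ?_))
      (fin _ _ _ c1 (by linarith))
    · have v0 : (0 : ℝ) ≤ v := v.cast_nonneg
      have dv := mul_nonneg hδ.le v0
      rcases (by omega : j = 0 ∨ j = 1 ∨ 3 ≤ j) with rfl | rfl | hj
      · rw [ex0]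
        have v2 : (2 : ℝ) ≤ v := by exact_mod_cast h0 rfl
        have := b ((0 + kd 3 * v) % 6)
        have := mul_nonneg hδ.le (by linarith : (0 : ℝ) ≤ v - 2)
        constructor <;> push_cast <;> nlinarith
      · rw [ex1]
        have := b (idx 3 0 1 v % 6)
        constructor <;> push_cast <;> nlinarith
      · have := ex3 3 (1 + δ) 0 (tb 0 (1 / 2) 0) hj v
        rw [if_neg (by omega)] at this
        have := b (idx 3 0 j v % 6)
        have j4 : (3 : ℝ) ≤ j := by exact_mod_cast hj
        have := mul_nonneg hδ.le (by linarith : (0 : ℝ) ≤ j)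
        constructor <;> nlinarith
    · rw [ex0]
      have := b ((w + kd 3 * v) % 6)
      have := b' (w % 6)
      have := mul_nonneg hδ.le (v.cast_nonneg : (0 : ℝ) ≤ v)
      nlinarith
  · rw [G2_eq]
    have b := tb_le (a0 := 1) (a2 := 2) (a := 3 / 2) (M := 2) (by norm_num) le_rfl (by norm_num)
    have b' := le_tb (a0 := 1) (a2 := 2) (a := 3 / 2) (M := 1) le_rfl (by norm_num) (by norm_num)
    refine SumB_mono (h2 3 _ _ _ s (Or.inr rfl) hs (fun j v h0 h2 => ?_) (fun _ w v hv => ?_))
      (fin _ _ _ c2 (by linarith))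
    · have v0 : (0 : ℝ) ≤ v := v.cast_nonneg
      rcases (by omega : j = 0 ∨ j = 1 ∨ 3 ≤ j) with rfl | rfl | hj
      · rw [ex0]
        have v2 : (2 : ℝ) ≤ v := by exact_mod_cast h0 rfl
        have := b ((0 + kd 3 * v) % 6)
        constructor <;> push_cast <;> linarith
      · rw [ex1]
        have := b (idx 3 0 1 v % 6)
        constructor <;> push_cast <;> linarith
      · have := ex3 3 (7 / 2) (2 * (3 / 4)) (tb 1 2 (3 / 2)) hj v
        rw [if_neg (by omega)] at this
        have := b (idx 3 0 j v % 6)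
        have j4 : (3 : ℝ) ≤ j := by exact_mod_cast hj
        constructor <;> linarith
    · rw [ex0]
      have := b ((w + kd 3 * v) % 6)
      have := b' (w % 6)
      have : (1 : ℝ) ≤ v := by exact_mod_cast hv
      linarith

end Vale.Agent.P026
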