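import Vale.Agent.P026.Stm3

/-! P026: the sextic symbol. -/

noncomputable section
open Complex
open scoped Classical ComplexConjugate

namespace Vale.Agent.P026

namespace SXM

lemma cop {D n n' : O} (h : IsCoprime n D) (h' : D ∣ n - n') : IsCoprime n' D := by
  obtain ⟨m, hm⟩ := h'
  rw [show n' = n + D * (-m) by linear_combination -hm]
  exact h.add_mul_left_left _

lemma gam_unit (hB : Bas) {u : O} (hu : IsUnit u) : gam u = 1 := by
  have h1 : Nn u = 1 := (hB.b1.unit_iff u).1 hu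
  have h2 : ∀ a, eQ a u = 1 := fun a => hB.b1.eQ_dvd _ _ hu.dvd
  simp [gam, Gq, h2, hB.b4.card u hu.ne_zero, h1, N]

lemma odd_unit (hB : Bas) {a : O} (ha : IsCoprime a 2) : ∃ u : O, IsUnit u ∧ (2 : O) ∣ a - u := by
  have hw : IsUnit wO := (hB.b1.units wO).2 (by simp)
  obtain ⟨x, hx⟩ := Int.even_or_odd' a.re
  obtain ⟨y, hy⟩ := Int.even_or_odd' a.im
  rcases hx with hx | hx <;> rcases hy with hy | hy
  · exfalso
    refine hB.b1.prime_two.not_isUnit (ha.isUnit_of_dvd' ⟨⟨x, y⟩, ?_⟩ dvd_rfl)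
    ext <;> simp [hx, hy, two_mul]
  · exact ⟨wO, hw, ⟨x, y⟩, by ext <;> simp [hx, hy, wO, two_mul]⟩
  · exact ⟨1, isUnit_one, ⟨x, y⟩, by
      ext <;> simp [hx, hy, two_mul, QuadraticAlgebra.re_one, QuadraticAlgebra.im_one]⟩
  · refine ⟨-wO ^ 2, (hw.pow 2).neg, ⟨x, y⟩, ?_⟩
    have : -wO ^ 2 = wO + 1 := by linear_combination -hB.b1.w3
    rw [this]
    ext <;> simp [hx, hy, wO, two_mul, QuadraticAlgebra.re_one, QuadraticAlgebra.im_one]

end SXM

open SXM in
theorem sxS (hB : Bas) (hC : CRStmt) (hQ : QR) (hG : GPStmt) (hq : QGStmt) : SX := by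
  have h6 := hB.b6
  have h7 := hB.b7
  have ml : ∀ a b c, OP c → sx (a * b) c = sx a c * sx b c := fun a b c hc => by
    simp only [sx, h7.mul_l a b c hc.2, h6.mul_l a b c (hB.b2.cop c hc.1), map_mul]; ring
  have ol : ∀ c, sx 1 c = 1 := fun c => by simp [sx, h7.one_l, h6.one_l]
  have zr : ∀ a c, c ≠ 0 → ¬ IsCoprime a c → sx a c = 0 := fun a c hc h => by
    simp [sx, h7.zero a c hc h]
  have c3 : ∀ a c, IsCoprime a c → conj (cub a c) ^ 3 = 1 := fun a c h => by
    rw [← map_pow, h6.cube a c h, map_one]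
  have c2 : ∀ a c, conj (cub a c) ^ 2 = cub a c := fun a c => by
    rw [← map_pow, ← h6.conj_eq, Complex.conj_conj]
  have d42 : ∀ {x : O}, (4 : O) ∣ x → (2 : O) ∣ x := fun h => Dvd.dvd.trans ⟨2, by norm_num⟩ h
  refine ⟨ml, fun a c k hc => ?_, fun a c c' hc hc' => ?_, fun a c k hc => ?_, ol, fun a => ?_,
    fun c a m => ?_, zr, fun a c h => ?_, fun a c => ?_, fun a c h => ?_, fun a c hc => ?_,
    fun a c hc => ?_, fun a c hc => ?_, fun p i hp ho hi => ?_, ?_, fun a b ha h => ?_,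
    fun n hn => ?_⟩
  · induction k with
    | zero => simp [ol]
    | succ k ih => rw [pow_succ, ml _ _ _ hc, ih, pow_succ]
  · simp only [sx, h7.mul_r a c c' hc hc', h6.mul_r a c c' hc hc', map_mul]; ring
  · simp only [sx, h7.pow_r a c k hc, h6.pow_r a c k hc, map_pow, mul_pow]
  · simp [sx, h7.unit_r a 1 isUnit_one, h6.unit_r a 1 isUnit_one]
  · have e1 := h7.pe c a m
    have e2 := h6.pe c a m
    simp only at e1 e2 ⊢
    rw [sx, sx, e1, e2]
  · rw [sx, norm_mul, Complex.norm_conj, h7.norm a c h, h6.norm a c h, one_mul]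
  · rw [sx, norm_mul, Complex.norm_conj]
    exact mul_le_one₀ (h7.norm_le a c) (norm_nonneg _) (h6.norm_le a c)
  · have e1 := h7.sq a c h
    have e2 := c3 a c h
    rw [sx, mul_pow, show 6 = 2 * 3 from rfl, pow_mul, e1, mul_comm 2 3, pow_mul, e2]; simp
  · by_cases h : IsCoprime a c
    · rw [sx, mul_pow, h7.sq a c h, c2, one_mul]
    · rw [zr a c hc h, h6.zero a c hc h]; simp
  · by_cases h : IsCoprime a c
    · rw [sx, mul_pow, c3 a c h, mul_one, pow_succ, h7.sq a c h, one_mul]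
    · rw [zr a c hc h, h7.zero a c hc h]; simp
  · by_cases h : IsCoprime a c
    · have e1 := h7.sq a c h
      have e2 := c3 a c h
      have e3 := c2 a c
      rw [sx, map_mul, h7.conj_eq, Complex.conj_conj]
      linear_combination (-(quad a c) * (quad a c ^ 2 + 1) * conj (cub a c) ^ 5) * e1 -
        quad a c * conj (cub a c) ^ 2 * e2 - quad a c * e3
    · rw [zr a c hc h]; simp
  · have := (hG p i hp (hB.b2.cop p ho.1) (Or.inl ho.2) hi).1 0
    have i0 : i ≠ 0 := by rintro rfl; exact hi (dvd_zero _)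
    rw [zr 0 p hp.ne_zero (fun h => hp.not_isUnit (isCoprime_zero_left.1 h)), zero_pow i0] at this
    simpa [hB.b1.eQ_dvd 0 p (dvd_zero p)] using this
  · refine ⟨fun a b => if IsCoprime a 2 ∧ IsCoprime b 2 then gam (a * b) / (gam a * gam b) else 0,
      fun a b => ?_, fun a a' b b' h1 h2 => ?_, fun a b ha hb => ?_⟩
    · beta_reduce
      split_ifs with h
      · rw [norm_div, norm_mul, hQ.norm _ h.1, hQ.norm _ h.2, hQ.norm _ (h.1.mul_left h.2)]; simp
      · simp
    · by_cases h : IsCoprime a 2 ∧ IsCoprime b 2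
      · have h' : IsCoprime a' 2 ∧ IsCoprime b' 2 := ⟨cop h.1 (d42 h1), cop h.2 (d42 h2)⟩
        have h3 : (4 : O) ∣ a * b - a' * b' := by
          rw [show a * b - a' * b' = (a - a') * b + a' * (b - b') by ring]
          exact (h1.mul_right _).add (h2.mul_left _)
        simp only [if_pos h, if_pos h']
        rw [hQ.per a a' h.1 h1, hQ.per b b' h.2 h2, hQ.per _ _ (h.1.mul_left h.2) h3]
      · have h' : ¬ (IsCoprime a' 2 ∧ IsCoprime b' 2) := fun k =>
          h ⟨cop k.1 (dvd_sub_comm.1 (d42 h1)), cop k.2 (dvd_sub_comm.1 (d42 h2))⟩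
        simp only [if_neg h, if_neg h']
    · by_cases h : IsCoprime a b
      · have e1 := hQ.recip a b ha.2 hb.2 h
        have e2 := h7.sq b a h.symm
        have n1 : gam a ≠ 0 := fun k => by have := hQ.norm a ha.2; rw [k] at this; simp at this
        have n2 : gam b ≠ 0 := fun k => by have := hQ.norm b hb.2; rw [k] at this; simp at this
        simp only [if_pos (And.intro ha.2 hb.2)]
        rw [sx, sx, hC a b ha.1 hb.1, ← e1]
        field_simp
        linear_combination (-(quad a b) * conj (cub b a)) * e2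
      · rw [zr a b (hB.b2.ne b hb.1) h, zr b a (hB.b2.ne a ha.1) fun k => h k.symm, mul_zero]
  · obtain ⟨u, hu, k, hk⟩ := odd_unit hB ha
    obtain ⟨l, hl⟩ := h
    have hb : IsCoprime b 2 := cop ha (d42 ⟨l, hl⟩)
    rw [hQ.per (a * b) (u ^ 2) (ha.mul_left hb) ⟨k * (u + k) - a * l, ?_⟩, gam_unit hB (hu.pow 2)]
    have ea : a = u + 2 * k := by linear_combination hk
    have eb : b = a - 4 * l := by linear_combination -hl
    rw [eb]
    linear_combination (a + u + 2 * k) * ea
  · have e := hq.2.1 (-1) n hn isCoprime_one_left.neg_left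
    have e2 : conj (Gq 1 n) = Gq (-1) n := by
      simp only [Gq, map_sum, ← hB.b1.eQ_neg, neg_mul]
    rw [gam, map_div₀, e2, e, Complex.conj_ofReal, mul_div_assoc]

end Vale.Agent.P026
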