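import Vale.Agent.P026.Stm2

/-! P026: tools for the Voronoi inequality. -/

noncomputable section
open Complex MeasureTheory Filter Topology
open scoped Classical ComplexConjugate

namespace Vale.Agent.P026

namespace VIM

lemma int_exp : Integrable fun t : ℝ => Real.exp (-|t|) := by
  refine (integrable_inv_one_add_sq.const_mul 2).mono' (by fun_prop) (.of_forall fun t => ?_)
  rw [Real.norm_eq_abs, abs_of_pos (Real.exp_pos _), Real.exp_neg, ← div_eq_mul_inv,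
    le_div_iff₀ (by positivity), inv_mul_le_iff₀ (Real.exp_pos _)]
  have := Real.quadratic_le_exp_of_nonneg (abs_nonneg t)
  nlinarith [sq_abs t, abs_nonneg t]

lemma integ {F : ℝ → ℂ} (hc : Continuous F) {u : ℝ} (h : ∀ t, ‖F t‖ ≤ u * Real.exp (-|t|)) :
    Integrable F :=
  (int_exp.const_mul u).mono' hc.aestronglyMeasurable (.of_forall h)

lemma swap {ι : Type} [Countable ι] {F : ι → ℝ → ℂ} (hc : ∀ i, Continuous (F i)) {u : ι → ℝ}
    (hu : Summable u) (h : ∀ i t, ‖F i t‖ ≤ u i * Real.exp (-|t|)) :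
    HasSum (fun i => ∫ t, F i t) (∫ t, ∑' i, F i t) :=
  hasSum_integral_of_dominated_convergence (fun i t => u i * Real.exp (-|t|))
    (fun i => (hc i).aestronglyMeasurable) (fun i => .of_forall (h i))
    (.of_forall fun _ => hu.mul_right _)
    (by simp only [tsum_mul_right]; exact int_exp.const_mul _)
    (.of_forall fun t => (Summable.of_norm_bounded (hu.mul_right _) fun i => h i t).hasSum)

lemma tele (A B : ℕ → ℂ) (θ : ℂ) (hθ : ‖θ‖ = 1) (h : ∀ i, A i = B i + θ * A (i + 1))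
    (hA : Tendsto A atTop (𝓝 0)) : ‖A 0‖ₑ ≤ ∑' i, ‖B i‖ₑ := by
  have h1 : ∀ n, ‖A 0‖ₑ ≤ ∑ i ∈ Finset.range n, ‖B i‖ₑ + ‖A n‖ₑ := fun n => by
    induction n with
    | zero => simp
    | succ n ih =>
      refine ih.trans ?_
      rw [Finset.sum_range_succ, add_assoc, h n]
      gcongr
      refine (enorm_add_le _ _).trans ?_
      rw [enorm_mul, ← ofReal_norm θ, hθ]
      simp
  have h2 : Tendsto (fun n => ∑' i, ‖B i‖ₑ + ‖A n‖ₑ) atTop (𝓝 (∑' i, ‖B i‖ₑ + 0)) :=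
    tendsto_const_nhds.add (by simpa using hA.enorm)
  rw [add_zero] at h2
  exact ge_of_tendsto' h2 fun n => (h1 n).trans (by gcongr; exact ENNReal.sum_le_tsum _)

lemma n3 (z : ℂ) : ‖(3 : ℂ) ^ z‖ = 3 ^ z.re := by
  exact_mod_cast Complex.norm_cpow_eq_rpow_re_of_pos (x := 3) (by norm_num) z

lemma norm_ang (J : ℤ) (z : ℂ) : ‖ang J z‖ ≤ 1 := by
  unfold ang
  by_cases hz : z = 0
  · by_cases hJ : J = 0 <;> simp [hz, hJ, zero_zpow]
  · rw [norm_zpow, norm_div, Complex.norm_real, norm_norm, div_self (norm_ne_zero_iff.2 hz)]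
    simp

def tm (J : ℤ) (r h a : O) (s : ℂ) (k : O) : ℂ :=
  if (27 : O) ∣ k - r then bb k * ang J (toC k) * eQ (a * k) h * (N k : ℂ) ^ (-(1 / 2 + s)) else 0

def DD (σ : ℝ) : ℝ := ∑' k, ‖bb k‖ * N k ^ (-(1 / 2 + σ))

lemma N0 (k : O) : 0 ≤ N k := Nat.cast_nonneg _

lemma tm_le (hB : Bas) (J : ℤ) (r h a : O) {s : ℂ} (hs : 1 < s.re) (k : O) :
    ‖tm J r h a s k‖ ≤ ‖bb k‖ * N k ^ (-(1 / 2 + s.re)) := by
  have := N0 k
  unfold tm
  split_ifs
  · rw [norm_mul, norm_mul, norm_mul, eQ, hB.b1.norm_psi, mul_one,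
      Complex.norm_cpow_eq_rpow_re_of_nonneg this (by simp; linarith)]
    have e : (-(1 / 2 + s)).re = -(1 / 2 + s.re) := by simp
    rw [e]
    exact mul_le_mul_of_nonneg_right (mul_le_of_le_one_right (norm_nonneg _) (norm_ang _ _))
      (by positivity)
  · rw [norm_zero]; positivity

lemma summ_DD (hb : BB) {σ : ℝ} (hs : 1 < σ) : Summable fun k => ‖bb k‖ * N k ^ (-(1 / 2 + σ)) :=
  hb.summ _ (by linarith)

lemma summ_tm (hB : Bas) (hb : BB) (J : ℤ) (r h a : O) {s : ℂ} (hs : 1 < s.re) :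
    Summable (tm J r h a s) :=
  .of_norm_bounded (summ_DD hb hs) (tm_le hB J r h a hs)

lemma Ds_le (hB : Bas) (hb : BB) (J : ℤ) (r h a : O) {s : ℂ} (hs : 1 < s.re) :
    ‖Ds J r h a s‖ ≤ DD s.re :=
  tsum_of_norm_bounded (summ_DD hb hs).hasSum (tm_le hB J r h a hs)

lemma DD0 (σ : ℝ) : 0 ≤ DD σ := tsum_nonneg fun k => by have := N0 k; positivity

lemma tm_cont (J : ℤ) (r h a : O) {σ : ℝ} (hs : 1 < σ) {g : ℝ → ℂ} (hg : Continuous g)
    (hre : ∀ t, (g t).re = σ) (k : O) : Continuous fun t => tm J r h a (g t) k := by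
  unfold tm
  split_ifs
  · refine continuous_const.mul (Continuous.const_cpow (by fun_prop) (Or.inr fun t e => ?_))
    have := congrArg Complex.re e
    simp [hre] at this
    linarith
  · exact continuous_const

lemma Ds_cont (hB : Bas) (hb : BB) (J : ℤ) (r h a : O) {σ : ℝ} (hs : 1 < σ) {g : ℝ → ℂ}
    (hg : Continuous g) (hre : ∀ t, (g t).re = σ) : Continuous fun t => Ds J r h a (g t) :=
  continuous_tsum (tm_cont J r h a hs hg hre) (summ_DD hb hs) fun k t => by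
    have := tm_le hB J r h a (s := g t) (by rw [hre]; exact hs) k
    rwa [hre] at this

lemma Ds_per (hB : Bas) (J : ℤ) (r : O) {h a a' : O} (hd : h ∣ a - a') (s : ℂ) :
    Ds J r h a s = Ds J r h a' s := by
  unfold Ds
  refine tsum_congr fun k => ?_
  have : eQ (a * k) h = eQ (a' * k) h := by
    have e : a * k = a' * k + (a - a') * k := by ring
    rw [e, hB.b1.eQ_add, hB.b1.eQ_dvd _ _ (hd.mul_right k), mul_one]
  rw [this]

lemma DP_le (hB : Bas) (hb : BB) (J : ℤ) (r h : O) (Ψ : O → ℂ) {s : ℂ} (hs : 1 < s.re) :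
    ‖DP J r h Ψ s‖ ≤ (∑ a ∈ Rs h, ‖Ψ a‖) * DD s.re := by
  rw [Finset.sum_mul]
  refine norm_sum_le_of_le _ fun a _ => ?_
  rw [norm_mul]
  exact mul_le_mul_of_nonneg_left (Ds_le hB hb J r h a hs) (norm_nonneg _)

lemma DP_cont (hB : Bas) (hb : BB) (J : ℤ) (r h : O) (Ψ : O → ℂ) {σ : ℝ} (hs : 1 < σ) {g : ℝ → ℂ}
    (hg : Continuous g) (hre : ∀ t, (g t).re = σ) : Continuous fun t => DP J r h Ψ (g t) :=
  continuous_finsetSum _ fun a _ => continuous_const.mul (Ds_cont hB hb J r h a hs hg hre)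

def EW (Y t0 : ℝ) (s : ℂ) : ℂ :=
  cexp ((s - (1 / 2 + t0 * I)) ^ 2 / 4) * (Y : ℂ) ^ (s - (1 / 2 + t0 * I))

lemma EW_diff {Y : ℝ} (hY : 0 < Y) (t0 : ℝ) : Differentiable ℂ (EW Y t0) := by
  unfold EW
  exact (Differentiable.cexp (by fun_prop)).mul
    (Differentiable.const_cpow (by fun_prop) (Or.inl (by exact_mod_cast hY.ne')))

lemma EW_le {Y : ℝ} (hY : 0 < Y) (t0 : ℝ) : ∃ C, 0 ≤ C ∧ ∀ s : ℂ, -1 / 2 ≤ s.re → s.re ≤ 5 / 4 →
    ‖EW Y t0 s‖ ≤ C * Real.exp (-(8 * |s.im|)) := by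
  refine ⟨Real.exp (65 + 8 * |t0| + |Real.log Y|), (Real.exp_pos _).le, fun s h1 h2 => ?_⟩
  rw [EW, norm_mul, Complex.norm_exp, Complex.norm_cpow_eq_rpow_re_of_pos hY,
    Real.rpow_def_of_pos hY, ← Real.exp_add, ← Real.exp_add]
  refine Real.exp_le_exp.2 ?_
  have e1 : ((s - (1 / 2 + t0 * I)) ^ 2 / 4).re = ((s.re - 1 / 2) ^ 2 - (s.im - t0) ^ 2) / 4 := by
    simp [sq]
  have e2 : (s - (1 / 2 + t0 * I)).re = s.re - 1 / 2 := by simp
  rw [e1, e2]
  have a1 : Real.log Y * (s.re - 1 / 2) ≤ |Real.log Y| := by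
    refine (le_abs_self _).trans ?_
    rw [abs_mul]
    exact mul_le_of_le_one_right (abs_nonneg _) (abs_le.2 ⟨by linarith, by linarith⟩)
  have a2 : |s.im| ≤ |s.im - t0| + |t0| := by simpa using abs_add_le (s.im - t0) t0
  nlinarith [sq_abs (s.im - t0), sq_nonneg (|s.im - t0| - 16)]

lemma cntO : Countable O :=
  Function.Injective.countable (f := fun a : O => (a.re, a.im)) fun a b h => by
    ext
    · exact congrArg Prod.fst h
    · exact congrArg Prod.snd h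

lemma bb0 (hB : Bas) (hb : BB) {k : O} (hk : ¬ Prim k) : bb k = 0 := by
  rcases hb.cases k with a | ⟨n, u, h1, h2, -, rfl⟩
  · exact a
  · exact absurd (hB.b2.mul _ _ h1 (hB.b2.pow _ _ h2)) hk

lemma mellin (hB : Bas) (hb : BB) (hL : LN) (J : ℤ) (r h : O) (Ψ : O → ℂ) {Y : ℝ} (hY : 0 < Y)
    (t0 : ℝ) : TT J r (fs h Ψ) Y (1 / 2 + t0 * I) = ((2 * Real.sqrt Real.pi : ℝ)⁻¹ : ℝ) *
      ∫ t : ℝ, EW Y t0 ((5 / 4 : ℝ) + t * I) * DP J r h Ψ ((5 / 4 : ℝ) + t * I) := by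
  obtain ⟨C, hC, hE⟩ := EW_le hY t0
  haveI := cntO
  have hre : ∀ t : ℝ, (((5 / 4 : ℝ) : ℂ) + t * I).re = 5 / 4 := fun t => by simp
  have hg : Continuous fun t : ℝ => ((5 / 4 : ℝ) : ℂ) + t * I := by fun_prop
  have := swap (F := fun (k : O) (t : ℝ) => EW Y t0 ((5 / 4 : ℝ) + t * I) *
      ∑ a ∈ Rs h, Ψ a * tm J r h a ((5 / 4 : ℝ) + t * I) k)
    (fun k => ((EW_diff hY t0).continuous.comp hg).mul (continuous_finsetSum _ fun a _ =>
      continuous_const.mul (tm_cont J r h a (by norm_num) hg hre k)))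
    ((summ_DD hb (σ := 5 / 4) (by norm_num)).mul_left (C * ∑ a ∈ Rs h, ‖Ψ a‖)) (fun k t => by
      have h1 := hE _ (by rw [hre t]; norm_num) (hre t).le
      have h2 : ‖∑ a ∈ Rs h, Ψ a * tm J r h a ((5 / 4 : ℝ) + t * I) k‖ ≤
          (∑ a ∈ Rs h, ‖Ψ a‖) * (‖bb k‖ * N k ^ (-(1 / 2 + 5 / 4 : ℝ))) := by
        rw [Finset.sum_mul]
        refine norm_sum_le_of_le _ fun a _ => ?_
        have := tm_le hB J r h a (s := (5 / 4 : ℝ) + t * I) (by rw [hre]; norm_num) k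
        rw [hre] at this
        rw [norm_mul]
        exact mul_le_mul_of_nonneg_left this (norm_nonneg _)
      have h3 : Real.exp (-(8 * |(((5 / 4 : ℝ) : ℂ) + t * I).im|)) ≤ Real.exp (-|t|) := by
        refine Real.exp_le_exp.2 ?_
        simp only [add_im, ofReal_im, mul_im, ofReal_re, I_im, mul_one, I_re, mul_zero, add_zero,
          zero_add]
        linarith [abs_nonneg t]
      rw [norm_mul]
      refine (mul_le_mul (h1.trans (mul_le_mul_of_nonneg_left h3 hC)) h2 (norm_nonneg _)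
        (by positivity)).trans (le_of_eq (by ring)))
  have e : ∀ t : ℝ, ∑' k : O, EW Y t0 ((5 / 4 : ℝ) + t * I) *
      ∑ a ∈ Rs h, Ψ a * tm J r h a ((5 / 4 : ℝ) + t * I) k =
      EW Y t0 ((5 / 4 : ℝ) + t * I) * DP J r h Ψ ((5 / 4 : ℝ) + t * I) := fun t => by
    rw [tsum_mul_left, Summable.tsum_finsetSum fun a _ =>
      (summ_tm hB hb J r h a (by rw [hre]; norm_num)).mul_left _]
    simp only [tsum_mul_left]
    rfl
  simp only [e] at this
  rw [← this.tsum_eq, ← tsum_mul_left, TT]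
  refine tsum_congr fun k => ?_
  unfold tm
  split_ifs with c
  swap
  · simp
  by_cases hk : k = 0
  · have : bb k = 0 := bb0 hB hb fun p => hB.b2.ne _ p hk
    simp [this]
  have hN : 0 < N k := lt_of_lt_of_le one_pos (hB.b1.N_one_le k hk)
  have hN' : (N k : ℂ) ≠ 0 := by exact_mod_cast hN.ne'
  have h1 := hL.mel Y (N k) (1 / 2 + t0 * I) (5 / 4) hY hN
  have h2 : ∀ s : ℂ, (N k : ℂ) ^ (-(1 / 2 + s)) = (N k : ℂ) ^ (-(1 / 2 : ℂ)) * (N k : ℂ) ^ (-s) :=
    fun s => by rw [neg_add, Complex.cpow_add _ _ hN']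
  rw [h2, mul_assoc, mul_assoc (_ ^ _), h1]
  have h3 : ∀ t : ℝ, EW Y t0 ((5 / 4 : ℝ) + t * I) * ∑ a ∈ Rs h, Ψ a * (bb k * ang J (toC k) *
      eQ (a * k) h * (N k : ℂ) ^ (-(1 / 2 + (((5 / 4 : ℝ) : ℂ) + t * I)))) =
      (bb k * ang J (toC k) * fs h Ψ k * (N k : ℂ) ^ (-(1 / 2 : ℂ))) *
      (EW Y t0 ((5 / 4 : ℝ) + t * I) * (N k : ℂ) ^ (-(((5 / 4 : ℝ) : ℂ) + t * I))) := fun t => by
    rw [h2, fs, Finset.mul_sum, Finset.mul_sum, Finset.sum_mul, Finset.sum_mul]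
    exact Finset.sum_congr rfl fun a _ => by ring
  simp only [h3, integral_const_mul]
  unfold EW
  push_cast
  ring

end VIM

end Vale.Agent.P026
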