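import Vale.Agent.P026.Stm3
import Vale.Agent.P026.M.VIa

/-! P026: the Voronoi step for families. -/

noncomputable section
open Complex MeasureTheory Filter Topology
open scoped Classical ComplexConjugate

namespace Vale.Agent.P026

namespace VSM

open VIM

def tt (J : ℤ) (r : O) (Y t : ℝ) (k : O) : ℂ :=
  if (27 : O) ∣ k - r then
    bb k * ang J (toC k) * (N k : ℂ) ^ (-(1 / 2 + (1 / 2 + t * I))) * VV Y (N k) else 0

lemma TT_eq (J : ℤ) (r : O) (φ : O → ℂ) (Y t : ℝ) :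
    TT J r φ Y (1 / 2 + t * I) = ∑' k, φ k * tt J r Y t k := by
  refine tsum_congr fun k => ?_
  unfold tt
  split_ifs
  · ring
  · simp

lemma summ_tt (hB : Bas) (hb : BB) (hL : LN) (J : ℤ) (r : O) {Y : ℝ} (hY : 0 < Y) (t : ℝ) :
    Summable fun k => ‖tt J r Y t k‖ := by
  refine Summable.of_nonneg_of_le (fun _ => norm_nonneg _) (fun k => ?_)
    ((hb.summ 2 (by norm_num)).mul_left (Real.exp (1 ^ 2 / 4) * Y))
  have h0 := N0 k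
  unfold tt
  split_ifs
  swap
  · rw [norm_zero]; positivity
  by_cases hk : k = 0
  · rw [bb0 hB hb fun p => hB.b2.ne _ p hk]; simp
  have hN : 0 < N k := lt_of_lt_of_le one_pos (hB.b1.N_one_le k hk)
  have h1 := hL.le 1 Y (N k) hY hN
  have e : (-(1 / 2 + (1 / 2 + (t : ℂ) * I))).re = -1 := by simp; norm_num
  have h2 : 0 ≤ VV Y (N k) := (Real.exp_pos _).le
  have h3 := norm_ang J (toC k)
  rw [norm_mul, norm_mul, norm_mul, Complex.norm_cpow_eq_rpow_re_of_pos hN, e, Complex.norm_real,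
    Real.norm_of_nonneg h2]
  calc _ ≤ ‖bb k‖ * 1 * N k ^ (-1 : ℝ) * (Real.exp (1 ^ 2 / 4) * (Y / N k) ^ (1 : ℝ)) := by gcongr
    _ = _ := by
      rw [Real.rpow_one, Real.rpow_neg h0, Real.rpow_neg h0, Real.rpow_one, Real.rpow_two]
      field_simp

lemma TT_sum (hB : Bas) (hb : BB) (hL : LN) (J : ℤ) (r : O) {Y : ℝ} (hY : 0 < Y) (t : ℝ) {ι : Type}
    (A : Finset ι) (f : ι → O → ℂ) (hf : ∀ i ∈ A, ∃ M, ∀ k, ‖f i k‖ ≤ M) {φ : O → ℂ}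
    (hφ : ∀ k, φ k = ∑ i ∈ A, f i k) :
    TT J r φ Y (1 / 2 + t * I) = ∑ i ∈ A, TT J r (f i) Y (1 / 2 + t * I) := by
  simp only [TT_eq, hφ, Finset.sum_mul]
  refine Summable.tsum_finsetSum fun i hi => ?_
  obtain ⟨M, hM⟩ := hf i hi
  refine .of_norm_bounded ((summ_tt hB hb hL J r hY t).mul_left M) fun k => ?_
  rw [norm_mul]
  exact mul_le_mul_of_nonneg_right (hM k) (norm_nonneg _)

lemma TT_mul (J : ℤ) (r : O) (Y t : ℝ) (z : ℂ) (φ : O → ℂ) :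
    TT J r (fun k => z * φ k) Y (1 / 2 + t * I) = z * TT J r φ Y (1 / 2 + t * I) := by
  simp only [TT_eq, mul_assoc, tsum_mul_left]

lemma mink {ι : Type} (S : Finset O) (A : Finset ι) (a : ι → O → ℂ) {B n : ℝ} (hB : 0 ≤ B)
    (hn : (A.card : ℝ) ≤ n) (h : ∀ i ∈ A, ∑ x ∈ S, ‖a i x‖ ^ 2 ≤ B ^ 2) :
    ∑ x ∈ S, ‖∑ i ∈ A, a i x‖ ^ 2 ≤ (n * B) ^ 2 := by
  have h1 : ∀ x ∈ S, ‖∑ i ∈ A, a i x‖ ^ 2 ≤ A.card * ∑ i ∈ A, ‖a i x‖ ^ 2 := fun x _ =>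
    (pow_le_pow_left₀ (norm_nonneg _) (norm_sum_le _ _) 2).trans sq_sum_le_card_mul_sum_sq
  refine (Finset.sum_le_sum h1).trans ?_
  rw [← Finset.mul_sum, Finset.sum_comm]
  have h2 := Finset.sum_le_card_nsmul _ _ _ h
  rw [nsmul_eq_mul] at h2
  calc _ ≤ (A.card : ℝ) * (A.card * B ^ 2) := by gcongr
    _ = (A.card * B) ^ 2 := by ring
    _ ≤ _ := by gcongr

lemma fs_le (hB : Bas) (h : O) (Ψ : O → ℂ) (k : O) : ‖fs h Ψ k‖ ≤ ∑ a ∈ Rs h, ‖Ψ a‖ :=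
  norm_sum_le_of_le _ fun a _ => by rw [norm_mul, eQ, hB.b1.norm_psi, mul_one]

lemma tw_le (hX : SX) (κ : ℕ) (h s : O) {φ : O → ℂ} (hφ : P8 φ) (k : O) : ‖tw κ h s φ k‖ ≤ 1 := by
  rw [tw, norm_mul, norm_mul, norm_pow]
  exact mul_le_one₀ (mul_le_one₀ (pow_le_one₀ (norm_nonneg _) (hX.norm_le _ _)) (norm_nonneg _)
    (hX.norm_le _ _)) (norm_nonneg _) (hφ.2 k)

lemma mw0 (a : ℕ → ℝ) (s : O) : 0 ≤ mw a s :=
  Finset.prod_nonneg fun p _ => Real.rpow_nonneg (N0 p) _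

lemma wq0 (s Q : O) : 0 ≤ wq s Q := Finset.prod_nonneg fun p _ => Real.rpow_nonneg (N0 p) _

lemma mw1 (hB : Bas) (h8 : B8) {q0 q2 q1 : ℝ} (h0 : 0 ≤ q0) (h2 : 0 ≤ q2) (h1 : 0 ≤ q1) {s : O}
    (hs : s ≠ 0) : 1 ≤ mw (tb q0 q2 q1) s := by
  refine Finset.prod_induction _ (1 ≤ ·) (fun _ _ => one_le_mul_of_one_le_of_one_le) le_rfl fun p hp => Real.one_le_rpow
    (hB.b1.N_one_le p ((h8.mem s p hs).1 hp).1.ne_zero) ?_
  unfold tb
  split_ifs <;> assumption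

lemma cop (hB : Bas) (h8 : B8) {s Q s' h : O} (hs : OP s) (hA : AdS s Q s') (hh : Fm s h) :
    Fm s' h := by
  refine ⟨hh.1, hh.2.1, ?_⟩
  rw [h8.prod s' hA.1.1]
  refine IsCoprime.prod_right fun p hp => IsCoprime.pow_right ?_
  exact hh.2.2.of_isCoprime_of_dvd_right ((h8.mem s p (hB.b2.ne _ hs.1)).1 (hA.2 p hp).1).2.2

lemma N_le (hB : Bas) {a b : O} (hb : b ≠ 0) (h : a ∣ b) : N a ≤ N b := by
  obtain ⟨c, rfl⟩ := h
  rw [hB.b1.N_mul]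
  exact le_mul_of_one_le_right (N0 a) (hB.b1.N_one_le c (right_ne_zero_of_mul hb))

lemma classes (hB : Bas) (S : Finset O) (f : O → ℝ) (hf : ∀ x, 0 ≤ f x) {B : ℝ}
    (h : ∀ ρ, ∑ x ∈ S.filter (fun x => (8 : O) ∣ x - ρ), f x ≤ B ^ 2) :
    ∑ x ∈ S, f x ≤ (8 * B) ^ 2 := by
  have h8 : (8 : O) ≠ 0 := fun e => by
    have := congrArg QuadraticAlgebra.re e
    exact absurd this (by decide)
  have h1 : ∑ x ∈ S, f x ≤ ∑ x ∈ S, ∑ ρ ∈ Rs 8, if (8 : O) ∣ x - ρ then f x else 0 := by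
    refine Finset.sum_le_sum fun x _ => ?_
    obtain ⟨ρ, a1, a2⟩ := hB.b4.ex 8 x h8
    refine le_trans ?_ (Finset.single_le_sum (f := fun ρ => if (8 : O) ∣ x - ρ then f x else 0)
      (fun ρ _ => by split_ifs; exacts [hf x, le_rfl]) a1)
    rw [if_pos a2]
  refine h1.trans ?_
  rw [Finset.sum_comm]
  simp only [← Finset.sum_filter]
  refine (Finset.sum_le_card_nsmul _ _ _ fun ρ _ => h ρ).trans ?_
  rw [hB.b4.card 8 h8, show Nn 8 = 64 by decide, nsmul_eq_mul]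
  push_cast
  exact le_of_eq (by ring)

lemma dualB (hB : Bas) (hb : BB) (h8 : B8) (hX : SX) (hL : LN) {κ : ℕ} {J : ℤ} {s Q : O}
    {H Z t ε θ P R A m : ℝ} {p : ℕ} {q : ℕ → ℝ} (hZ : 0 < Z) (hε : 0 < ε) (hR : 0 ≤ R) (hP : 0 ≤ P)
    (hA : 0 ≤ A) (hm : 0 ≤ m) (hs : OP s) {T' : Finset O} (hc : T'.card ≤ 2 ^ (pf s).card)
    (hT : ∀ s' ∈ T', AdS s Q s' ∧ rd s' ≤ rd s ∧ wq s Q ≤ A ∧ wq s Q * mw q s' ≤ m)
    (hF : ∀ s', OP s' → FB κ J s' H Z t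
      ((min 1 Z * (1 + Z) ^ ε * rd s' ^ ε * (P + R * mw q s' * Z ^ θ) * (1 + |t|) ^ p) ^ 2))
    (r : O) {φ : O → ℂ} (hφ : P8 φ) {S : Finset O} (hS : ∀ h ∈ S, Fm s h ∧ N h ≤ H)
    (g : O → O → ℂ) (hg : ∀ h ∈ S, ∃ z : O → ℂ, (∀ s', ‖z s'‖ ≤ 64 * wq s Q) ∧
      ∀ D, g h D = ∑ s' ∈ T', z s' * tw κ h s' φ D) :
    ∑ h ∈ S, ‖TT J r (g h) Z (1 / 2 + t * I)‖ ^ 2 ≤
      (min 1 Z * (1 + Z) ^ ε * (2 ^ (pf s).card * 64 * rd s ^ ε * (P * A) +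
        2 ^ (pf s).card * 64 * rd s ^ ε * (R * m) * Z ^ θ) * (1 + |t|) ^ p) ^ 2 := by
  choose! z z1 z2 using hg
  have r0 : ∀ x, 0 ≤ rd x := fun x => zero_le_one.trans (h8.rd_ge x)
  have hmin : 0 ≤ min 1 Z := le_min zero_le_one hZ.le
  have := r0 s
  have e : ∀ h ∈ S, ‖TT J r (g h) Z (1 / 2 + t * I)‖ ^ 2 =
      ‖∑ s' ∈ T', z h s' * TT J r (tw κ h s' φ) Z (1 / 2 + t * I)‖ ^ 2 := fun h hh => by
    rw [TT_sum hB hb hL J r hZ t T' (fun s' D => z h s' * tw κ h s' φ D) (fun s' _ =>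
      ⟨‖z h s'‖, fun k => by
        rw [norm_mul]; exact mul_le_of_le_one_right (norm_nonneg _) (tw_le hX κ h s' hφ k)⟩) (z2 h hh)]
    simp only [TT_mul]
  rw [Finset.sum_congr rfl e]
  refine (mink S T' _ (B := 64 * (min 1 Z * (1 + Z) ^ ε * rd s ^ ε * (P * A + R * m * Z ^ θ) *
    (1 + |t|) ^ p)) (n := 2 ^ (pf s).card) (by positivity) (by exact_mod_cast hc)
    fun s' hs' => ?_).trans (le_of_eq (by ring))
  obtain ⟨a1, a2, a3, a4⟩ := hT s' hs'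
  have b1 := hF s' a1.1 r φ S hφ fun h hh => ⟨cop hB h8 hs a1 (hS h hh).1, (hS h hh).2⟩
  have w0 := wq0 s Q
  have m0 := mw0 q s'
  have := r0 s'
  calc _ ≤ ∑ h ∈ S, (64 * wq s Q) ^ 2 * ‖TT J r (tw κ h s' φ) Z (1 / 2 + t * I)‖ ^ 2 := by
        refine Finset.sum_le_sum fun h hh => ?_
        rw [norm_mul, mul_pow]
        gcongr
        exact z1 h hh s'
    _ ≤ (64 * wq s Q) ^ 2 * (min 1 Z * (1 + Z) ^ ε * rd s' ^ ε * (P + R * mw q s' * Z ^ θ) *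
          (1 + |t|) ^ p) ^ 2 := by rw [← Finset.mul_sum]; gcongr
    _ = (64 * (min 1 Z * (1 + Z) ^ ε * rd s' ^ ε * (P * wq s Q + R * (wq s Q * mw q s') * Z ^ θ) *
          (1 + |t|) ^ p)) ^ 2 := by ring
    _ ≤ _ := by gcongr

lemma num {θ ε X nQ rs P R A Cc m K : ℝ} (h0 : 0 ≤ θ) (h1 : θ ≤ 1) (hε : 0 < ε) (hX : 0 < X)
    (hQ : 0 < nQ) (hr : nQ ≤ rs) (hr1 : 1 ≤ rs) (hR : 0 ≤ R) (hP : R ≤ P) (hA : 0 ≤ A) (hm : 0 ≤ m)
    (hC : 0 ≤ Cc) (hK : 0 ≤ K) (m1 : m ≤ A) (m2 : m * nQ ^ (2 * θ) ≤ Cc) :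
    (1 + 4096 * nQ ^ 2 * X) ^ (2 * ε) * (K * (P * A) + K * (R * m) * (1 + 4096 * nQ ^ 2 * X) ^ θ) ≤
      4096 ^ (2 * ε) * rs ^ (4 * ε) * (1 + X) ^ (2 * ε) *
        (K * (2 * 4096 ^ θ) * (P * A + R * Cc * X ^ θ)) := by
  have hP0 := hR.trans hP
  have a1 : (1 + 4096 * nQ ^ 2 * X) ^ (2 * ε) ≤ 4096 ^ (2 * ε) * rs ^ (4 * ε) * (1 + X) ^ (2 * ε) := by
    have e : rs ^ (4 * ε) = (rs ^ 2) ^ (2 * ε) := by
      rw [← Real.rpow_natCast, ← Real.rpow_mul (by positivity)]; congr 1; push_cast; ring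
    rw [e, ← Real.mul_rpow (by positivity) (by positivity),
      ← Real.mul_rpow (by positivity) (by positivity)]
    refine Real.rpow_le_rpow (by positivity) ?_ (by positivity)
    have b1 : nQ ^ 2 ≤ rs ^ 2 := by gcongr
    have b2 : 1 ≤ rs ^ 2 := one_le_pow₀ hr1
    nlinarith [mul_le_mul_of_nonneg_right b1 hX.le]
  have a2 : (1 + 4096 * nQ ^ 2 * X) ^ θ ≤ 1 + 4096 ^ θ * nQ ^ (2 * θ) * X ^ θ := by
    have := Real.rpow_add_le_add_rpow (a := 1) (b := 4096 * nQ ^ 2 * X) zero_le_one (by positivity)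
      h0 h1
    rw [Real.one_rpow, Real.mul_rpow (by positivity) hX.le,
      Real.mul_rpow (by positivity) (by positivity), ← Real.rpow_natCast nQ,
      ← Real.rpow_mul hQ.le] at this
    exact_mod_cast this
  have a3 : (1 : ℝ) ≤ 4096 ^ θ := Real.one_le_rpow (by norm_num) h0
  have a4 : P * A + R * m * (1 + 4096 * nQ ^ 2 * X) ^ θ ≤ 2 * 4096 ^ θ * (P * A + R * Cc * X ^ θ) := by
    have b1 : R * m ≤ P * A := mul_le_mul hP m1 hm hP0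
    have b2 : 0 ≤ P * A := by positivity
    have b3 : 0 ≤ R * Cc * X ^ θ := by positivity
    calc _ ≤ P * A + R * m * (1 + 4096 ^ θ * nQ ^ (2 * θ) * X ^ θ) := by gcongr
      _ = P * A + R * m + 4096 ^ θ * (R * (m * nQ ^ (2 * θ)) * X ^ θ) := by ring
      _ ≤ P * A + P * A + 4096 ^ θ * (R * Cc * X ^ θ) := by gcongr
      _ ≤ _ := by nlinarith [mul_le_mul_of_nonneg_right a3 b2, mul_le_mul_of_nonneg_right a3 b3]
  calc _ = (1 + 4096 * nQ ^ 2 * X) ^ (2 * ε) * (K * (P * A + R * m * (1 + 4096 * nQ ^ 2 * X) ^ θ)) := by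
        ring
    _ ≤ 4096 ^ (2 * ε) * rs ^ (4 * ε) * (1 + X) ^ (2 * ε) *
        (K * (2 * 4096 ^ θ * (P * A + R * Cc * X ^ θ))) := by gcongr
    _ = _ := by ring

end VSM

open VSM VIM

theorem vsS (hB : Bas) (hb : BB) (h8 : B8) (hX : SX) (hL : LN) (hF : FAMbStmt) (h1 : VS1Stmt)
    (hW : WQStmt) : VSStmt := by
  intro p θ ε h0 hε hθ
  obtain ⟨CF, cF, hF⟩ := hF p θ ε h0 hε hθ
  obtain ⟨Co, ho⟩ := h8.ome 2 ε (by norm_num) hε
  obtain ⟨Cd, hd⟩ := hB.b3.div ε hε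
  refine ⟨8 * (4 * |Cd|) * CF * 4096 ^ (2 * ε) * (|Co| * 64) * (2 * 4096 ^ θ), by positivity, ?_⟩
  intro κ J H P R q0 q2 q1 a0 a2 a1 c0 c2 c1 hκ hJ hH hR hP n0 n2 n1 na nc i1 i2 i3 i4 i5 i6 hD
    s Y t hs hY r φ S hφ hS
  have hP0 := hR.trans hP
  have r1 := h8.rd_ge s
  have mA := mw0 (tb a0 a2 a1) s
  have mC := mw0 (tb c0 c2 c1) s
  have hX0 : 0 < H ^ 2 / Y := by positivity
  set K : ℝ := 2 ^ (pf s).card * 64 * rd s ^ ε with hK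
  set B : ℝ := CF * (4096 ^ (2 * ε) * rd s ^ (4 * ε) * (1 + H ^ 2 / Y) ^ (2 * ε) *
    (K * (2 * 4096 ^ θ) * (P * mw (tb a0 a2 a1) s + R * mw (tb c0 c2 c1) s * (H ^ 2 / Y) ^ θ))) *
    (1 + |t|) ^ (p + 4) with hBd
  have B0 : 0 ≤ B := by positivity
  have main := classes hB S (fun h => ‖TT J r (tw κ h s φ) Y (1 / 2 + t * I)‖ ^ 2)
    (fun _ => by positivity) (B := 4 * (|Cd| * rd s ^ ε) * B) fun ρ => by
    obtain ⟨T, T', Ψ, v1, v2, v3⟩ := h1 κ s ρ φ hκ hs hφ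
    set S' := S.filter fun x => (8 : O) ∣ x - ρ with hS'
    have s1 : ∀ h ∈ S', Fm s h ∧ N h ≤ H := fun h hh => hS h (Finset.mem_filter.1 hh).1
    have e : ∀ h ∈ S', ‖TT J r (tw κ h s φ) Y (1 / 2 + t * I)‖ ^ 2 =
        ‖∑ i ∈ T ×ˢ Finset.range 4, TT J r (fs (h * (i.1 * (-2) ^ i.2)) (Ψ i.1 i.2 h)) Y
          (1 / 2 + t * I)‖ ^ 2 := fun h hh => by
      rw [TT_sum hB hb hL J r hY t (T ×ˢ Finset.range 4)
        (fun i => fs (h * (i.1 * (-2) ^ i.2)) (Ψ i.1 i.2 h)) (fun i _ => ⟨_, fs_le hB _ _⟩)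
        (fun k => by rw [(v2 h (s1 h hh).1).2 k, Finset.sum_product])]
    rw [Finset.sum_congr rfl e]
    have hr0 := hB.b2.ne _ (h8.rad_prim s)
    refine mink S' _ _ B0 ?_ ?_
    · have := hd (rad s) hr0 T fun Q hQ => (v1 Q hQ).2.1
      rw [h8.N_rad] at this
      rw [Finset.card_product, Finset.card_range, Nat.cast_mul, Nat.cast_ofNat, mul_comm]
      gcongr
      exact this.trans (by gcongr; exact le_abs_self _)
    rintro ⟨Q, b⟩ hi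
    obtain ⟨hQ, hb4⟩ := Finset.mem_product.1 hi
    have hb4 := Finset.mem_range.1 hb4
    obtain ⟨w1, w2, w3, w4⟩ := v1 Q hQ
    have nQ : 0 < N Q := lt_of_lt_of_le one_pos (hB.b1.N_one_le Q (hB.b2.ne _ w1))
    have nQ' : N Q ≤ rd s := h8.N_rad s ▸ N_le hB hr0 w2
    have pQ : 0 < N Q ^ (2 * θ) := Real.rpow_pos_of_pos nQ _
    set m := min (mw (tb a0 a2 a1) s) (mw (tb c0 c2 c1) s / N Q ^ (2 * θ)) with hm
    have m0 : 0 ≤ m := le_min mA (by positivity)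
    have := hF O S' J r (fun h => h * (Q * (-2) ^ b)) (Ψ Q b) Y (4096 * N Q ^ 2 * (H ^ 2 / Y))
      (K * (P * mw (tb a0 a2 a1) s)) (K * (R * m)) t hJ (fun h hh => ⟨(v2 h (s1 h hh).1).1 Q hQ b hb4, by
        have e1 : N (-2) = 4 := by
          have := hB.b1.N_int (-2)
          push_cast at this
          rw [this]; norm_num
        have e2 : (4 : ℝ) ^ b ≤ 4 ^ 3 := pow_le_pow_right₀ (by norm_num) (by omega)
        have := N0 h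
        have := (s1 h hh).2
        rw [hB.b1.N_mul, hB.b1.N_mul, hB.b1.N_pow, e1]
        calc _ ≤ (H * (N Q * 4 ^ 3)) ^ 2 := by gcongr
          _ = _ := by field_simp; norm_num⟩) hY (by positivity) (by positivity) (by positivity)
      (fun n e r' Z t' he hZ => by
        obtain ⟨φ', u1, u2⟩ := v3 Q hQ b hb4 e n he
        refine dualB hB hb h8 hX hL (Q := Q) (q := tb q0 q2 q1) hZ hε hR hP0 mA m0 hs w3
          (fun s' hs' => ?_) (fun s' o => hD s' Z t' o hZ) r' u1 s1 _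
          fun h hh => u2 h (s1 h hh).1 (Finset.mem_filter.1 hh).2
        have x1 := hW q0 q2 q1 a0 a2 a1 0 s Q s' n0 n2 n1 le_rfl na (by linarith) (by linarith)
          (by linarith) hs w1 w2 (w4 s' hs')
        have x2 := hW q0 q2 q1 c0 c2 c1 (2 * θ) s Q s' n0 n2 n1 (by positivity) nc i4 i5 i6 hs w1 w2
          (w4 s' hs')
        rw [Real.rpow_zero, mul_one] at x1
        refine ⟨w4 s' hs', x1.2.1, le_trans ?_ x1.1, le_min x1.1 ((le_div_iff₀ pQ).2 x2.1)⟩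
        exact le_mul_of_one_le_right (wq0 s Q) (mw1 hB h8 n0 n2 n1 (hB.b2.ne _ (w4 s' hs').1.1)))
    refine this.trans ?_
    have x3 := num (K := K) h0 (by linarith) hε hX0 nQ nQ' r1 hR hP mA m0 mC (by positivity)
      (min_le_left _ _) ((le_div_iff₀ pQ).1 (min_le_right _ _))
    rw [hBd, mul_assoc CF]
    gcongr
  refine main.trans ?_
  have k1 : K ≤ |Co| * rd s ^ ε * 64 * rd s ^ ε := by
    rw [hK]
    gcongr
    exact (ho s).trans (by gcongr; exact le_abs_self _)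
  have e7 : rd s ^ (7 * ε) = rd s ^ ε * rd s ^ (4 * ε) * rd s ^ ε * rd s ^ ε := by
    rw [← Real.rpow_add (by linarith), ← Real.rpow_add (by linarith), ← Real.rpow_add (by linarith)]
    congr 1; ring
  refine pow_le_pow_left₀ (by positivity) ?_ 2
  rw [hBd, e7]
  calc _ ≤ 8 * (4 * (|Cd| * rd s ^ ε) * (CF * (4096 ^ (2 * ε) * rd s ^ (4 * ε) *
        (1 + H ^ 2 / Y) ^ (2 * ε) * (|Co| * rd s ^ ε * 64 * rd s ^ ε * (2 * 4096 ^ θ) *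
        (P * mw (tb a0 a2 a1) s + R * mw (tb c0 c2 c1) s * (H ^ 2 / Y) ^ θ))) *
        (1 + |t|) ^ (p + 4))) := by gcongr
    _ = _ := by ring

end Vale.Agent.P026
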