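import Vale.Agent.P026.Stm3

/-! Dual of a squarefree family member. -/

noncomputable section
open Complex
open scoped Classical ComplexConjugate

namespace Vale.Agent.P026

namespace VS0M

theorem sx_one (hB : Bas) (a : O) : sx a 1 = 1 := by
  simp [sx, hB.b6.unit_r a 1 isUnit_one, hB.b7.unit_r a 1 isUnit_one]

theorem sx_mul (hB : Bas) (a : O) {c c' : O} (h : c ≠ 0) (h' : c' ≠ 0) :
    sx a (c * c') = sx a c * sx a c' := by
  simp only [sx, hB.b6.mul_r a c c' h h', hB.b7.mul_r a c c' h h', map_mul]; ring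

theorem card1 (hB : Bas) : (Rs 1).card = 1 := by
  rw [hB.b4.card 1 one_ne_zero, (hB.b1.unit_iff 1).1 isUnit_one]

end VS0M

open VS0M in
theorem vs0S (hB : Bas) (ha : VSaStmt) (hc : VScStmt) : VS0Stmt := fun κ h hκ ho => by
  have h6 : κ % 6 = κ := by omega
  revert ho
  suffices H : ∀ h, Prim h → IsCoprime h 2 → Squarefree h → ∃ Ψ, Cf h Ψ ∧
      (∀ k, fs h Ψ k = sx k h ^ κ) ∧ ∀ m n, IsCoprime m h → IsCoprime n h →
        ∃ z : ℂ, ‖z‖ ≤ 1 ∧ ∀ D, du h Ψ m n D = z * sx D h ^ (8 - κ) from fun ho => H h ho.1 ho.2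
  refine hB.b2.ind1 _ (fun _ _ => ⟨fun _ => 1, ⟨hB.b2.one, fun _ _ => rfl,
    fun a k => absurd isCoprime_one_right k⟩, fun k => ?_, fun m n _ _ => ⟨1, by simp, fun D => ?_⟩⟩)
    fun p a hp pp pa ih h2 hs => ?_
  · simp [fs, hB.b1.eQ_dvd, card1 hB, sx_one hB]
  · simp [du, hB.b1.eQ_dvd, card1 hB, sx_one hB, hB.b6.unit_r _ 1 isUnit_one]
  obtain ⟨Ψ2, c2, f2, d2⟩ := ih h2.of_mul_left_right hs.of_mul_right
  obtain ⟨Ψ1, c1, f1, d1⟩ := (hc p hp ⟨pp, h2.of_mul_left_left⟩).1 κ (by omega) (by omega)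
  have cp : IsCoprime p a := hp.coprime_iff_not_dvd.2 fun k =>
    hp.not_unit (hs p (mul_dvd_mul_left p k))
  obtain ⟨Ψ, c, f, d⟩ := ha.2 p a Ψ1 Ψ2 c1 c2 cp
  have sm := fun x => sx_mul hB x hp.ne_zero (hB.b2.ne a pa)
  refine ⟨Ψ, c, fun k => by rw [f, f1, f2, sm, mul_pow], fun m n hm hn => ?_⟩
  obtain ⟨z1, a1, b1⟩ := d1 m (n * a ^ 2) (hp.coprime_iff_not_dvd.1 hm.of_mul_right_left.symm)
    (hp.coprime_iff_not_dvd.1 (hn.of_mul_right_left.symm.mul_right cp.pow_right))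
  obtain ⟨z2, a2, b2⟩ := d2 m (n * p ^ 2) hm.of_mul_right_right
    (hn.of_mul_right_right.mul_left cp.pow_left)
  refine ⟨cub a p * cub p a * z1 * z2, ?_, fun D => by rw [d, b1, b2, sm, mul_pow, h6]; ring⟩
  simp only [norm_mul]
  exact mul_le_one₀ (mul_le_one₀ (mul_le_one₀ (hB.b6.norm_le _ _) (norm_nonneg _) (hB.b6.norm_le _ _))
    (norm_nonneg _) a1) (norm_nonneg _) a2

end Vale.Agent.P026
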