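import Vale.Agent.P026.Stm3

/-! Fourier data of a family and of its dual. -/

noncomputable section
open Complex
open scoped Classical ComplexConjugate

namespace Vale.Agent.P026

theorem vs1S (hB : Bas) (h8 : B8) (ha : VSaStmt) (h0 : VS0Stmt) (hd : VSdStmt) (hD : DECStmt) :
    VS1Stmt := fun κ s ρ φ hκ hs hφ => by
  obtain ⟨T, Ψs, T', f1, d1⟩ := hD s hs
  obtain ⟨Ψ2, c2, f2, d2⟩ := hd φ hφ
  have qs : ∀ Q ∈ T, Q ∣ s := fun Q hQ =>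
    (d1 Q hQ).2.1.trans (Dvd.intro_left _ (h8.fl_rad s hs.1))
  have q2 : ∀ Q ∈ T, IsCoprime Q 2 := fun Q hQ => hs.2.of_isCoprime_of_dvd_left (qs Q hQ)
  have t2 : ∀ {a : O} (b : ℕ), IsCoprime a 2 → IsCoprime a ((-2) ^ b) := fun b k => k.neg_right.pow_right
  have cl : ∀ {a : O}, Prim a → IsCoprime lam a := fun k =>
    ((hB.b2.cop _ k).neg_right.symm.of_isCoprime_of_dvd_left ⟨lam, by rw [← hB.b1.lam_sq, sq]⟩)
  have hc : ∀ Q ∈ T, ∀ (b : ℕ) h, Fm s h → IsCoprime h (Q * (-2) ^ b) := fun Q hQ b h hh =>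
    (hh.2.2.of_isCoprime_of_dvd_right (qs Q hQ)).mul_right (t2 b hh.1.2)
  have i0 : ∀ h, ∃ Ψ, Fm s h → Cf h Ψ ∧ (∀ k, fs h Ψ k = sx k h ^ κ) ∧ ∀ m n, IsCoprime m h →
      IsCoprime n h → ∃ z : ℂ, ‖z‖ ≤ 1 ∧ ∀ D, du h Ψ m n D = z * sx D h ^ (8 - κ) := fun h => by
    by_cases k : Fm s h
    · exact (h0 κ h hκ k.1 k.2.1).imp fun _ a _ => a
    · exact ⟨0, fun a => absurd a k⟩
  choose Ψ0 hΨ0 using i0
  have i1 : ∀ Q (b : ℕ) h, ∃ Ψ, Q ∈ T → Fm s h → Cf (h * (Q * (-2) ^ b)) Ψ ∧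
      (∀ k, fs (h * (Q * (-2) ^ b)) Ψ k = sx k h ^ κ * fs Q (Ψs Q) k * fs ((-2) ^ b) (Ψ2 b) k) ∧
      ∃ c : ℂ, ‖c‖ ≤ 1 ∧ ∀ m n D, du (h * (Q * (-2) ^ b)) Ψ m n D =
        c * du h (Ψ0 h) m (n * (Q * (-2) ^ b) ^ 2) D * du Q (Ψs Q) m (n * h ^ 2 * ((-2) ^ b) ^ 2) D *
          du ((-2) ^ b) (Ψ2 b) m (n * h ^ 2 * Q ^ 2) D := fun Q b h => by
    by_cases k : Q ∈ T ∧ Fm s h
    · obtain ⟨Ψ1, a1, a2, a3⟩ := ha.2 _ _ _ _ (d1 Q k.1).1 (c2 b) (t2 b (q2 Q k.1))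
      obtain ⟨Ψ, b1, b2, b3⟩ := ha.2 _ _ _ _ (hΨ0 h k.2).1 a1 (hc Q k.1 b h k.2)
      refine ⟨Ψ, fun _ _ => ⟨b1, fun x => by rw [b2, a2, (hΨ0 h k.2).2.1, mul_assoc],
        cub (Q * (-2) ^ b) h * cub h (Q * (-2) ^ b) * cub ((-2) ^ b) Q * cub Q ((-2) ^ b), ?_,
        fun m n D => by rw [b3, a3]; ring⟩⟩
      have := hB.b6.norm_le
      simp only [norm_mul]
      exact mul_le_one₀ (mul_le_one₀ (mul_le_one₀ (this _ _) (norm_nonneg _) (this _ _))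
        (norm_nonneg _) (this _ _)) (norm_nonneg _) (this _ _)
    · exact ⟨0, fun a b => absurd ⟨a, b⟩ k⟩
  choose Ψ hΨ using i1
  refine ⟨T, T', Ψ, fun Q hQ => ⟨(d1 Q hQ).1.1, (d1 Q hQ).2.1, (d1 Q hQ).2.2.1, (d1 Q hQ).2.2.2.1⟩,
    fun h hh => ⟨fun Q hQ b _ => (hΨ Q b h hQ hh).1, fun k => ?_⟩, fun Q hQ b hb e n he => ?_⟩
  · rw [tw, f1, Finset.mul_sum, Finset.sum_mul, f2]
    refine Finset.sum_congr rfl fun Q hQ => ?_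
    rw [Finset.mul_sum]
    exact Finset.sum_congr rfl fun b _ => ((hΨ Q b h hQ hh).2.1 k).symm
  by_cases hρ : ∃ h0, Fm s h0 ∧ (8 : O) ∣ h0 - ρ
  swap
  · exact ⟨0, ⟨fun _ _ => rfl, fun _ => by simp⟩, fun h a b => absurd ⟨h, a, b⟩ hρ⟩
  obtain ⟨g, hg, hg'⟩ := hρ
  have pQ := (d1 Q hQ).1.1
  have l2 : IsCoprime lam 2 := ⟨-lam, -1, by linear_combination -hB.b1.lam_sq⟩
  refine ⟨_, (d2 b hb).1 (e * lam ^ n) (lam ^ 18 * g ^ 2 * Q ^ 2)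
    ((l2.pow_left.mul_left hg.1.2.pow_left).mul_left (q2 Q hQ).pow_left), fun h hh h8' => ?_⟩
  have cm : ∀ {a : O}, Prim a → IsCoprime (e * lam ^ n) a := fun k =>
    (isCoprime_mul_unit_left_left he _ _).2 (cl k).pow_left
  obtain ⟨c, c1, c3⟩ := (hΨ Q b h hQ hh).2.2
  have k1 := hc Q hQ b h hh
  obtain ⟨z0, a1, a2⟩ := (hΨ0 h hh).2.2 (e * lam ^ n) (lam ^ 18 * (Q * (-2) ^ b) ^ 2) (cm hh.1.1)
    ((cl hh.1.1).pow_left.mul_left k1.symm.pow_left)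
  obtain ⟨z, b1, b2⟩ := (d1 Q hQ).2.2.2.2 (e * lam ^ n) (lam ^ 18 * h ^ 2 * ((-2) ^ b) ^ 2) (cm pQ)
    (((cl pQ).pow_left.mul_left k1.of_mul_right_left.pow_left).mul_left
      (t2 b (q2 Q hQ)).symm.pow_left)
  refine ⟨fun s' => 64 * (c * z0 * z s'), fun s' => ?_, fun D => ?_⟩
  · simp only [norm_mul]
    rw [show ‖(64 : ℂ)‖ = 64 by simp]
    exact mul_le_mul_of_nonneg_left ((mul_le_of_le_one_left (norm_nonneg _)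
      (mul_le_one₀ c1 (norm_nonneg _) a1)).trans (b1 s')) (by norm_num)
  · rw [ha.1, c3, a2, b2, (d2 b hb).2 _ _ (lam ^ 18 * g ^ 2 * Q ^ 2) D (by
      convert (h8'.sub hg').mul_right (lam ^ 18 * (h + g) * Q ^ 2) using 1; ring),
      Finset.mul_sum, Finset.sum_mul]
    exact Finset.sum_congr rfl fun s' _ => by simp only [tw]; ring

end Vale.Agent.P026
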