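import Vale.Agent.P026.Stm3
import Vale.Agent.P026.M.SE2

/-! P026: the part at `2` of the Voronoi step. -/

noncomputable section
open Complex
open scoped Classical ComplexConjugate

namespace Vale.Agent.P026
namespace VSdM

lemma eQ_pe (hB : Bas) (c a m : O) : eQ (a + c * m) c = eQ a c := by
  rw [hB.b1.eQ_add, hB.b1.eQ_dvd _ _ (Dvd.intro _ rfl), mul_one]

lemma norm_eQ (hB : Bas) (a c : O) : ‖eQ a c‖ = 1 := hB.b1.norm_psi _

lemma prim2 : Prim (-2) := ⟨-1, by norm_num⟩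

lemma ne2 (hB : Bas) : (-2 : O) ≠ 0 := neg_ne_zero.mpr hB.b1.prime_two.ne_zero

lemma cop_iff (hB : Bas) (a : O) (j : ℕ) : IsCoprime a ((-2) ^ (j + 1)) ↔ ¬ (-2 : O) ∣ a := by
  rw [IsCoprime.pow_right_iff (Nat.succ_pos j), isCoprime_comm]
  exact hB.b1.prime_two.neg.irreducible.coprime_iff_not_dvd

/-- coefficients at level `b` -/
def PS (j : ℕ) (c : O → ℂ) (b : ℕ) (a : O) : ℂ :=
  if IsCoprime a ((-2) ^ b) then c ((-2) ^ (j - b) * a) else 0

lemma dec (hB : Bas) (k : O) (j : ℕ) : ∀ c : O → ℂ, Pe ((-2) ^ j) c →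
    ∑ a ∈ Rs ((-2) ^ j), c a * eQ (a * k) ((-2) ^ j) =
      ∑ b ∈ Finset.range (j + 1), fs ((-2) ^ b) (PS j c b) k := by
  induction j with
  | zero => intro c _; simp [fs, PS, isCoprime_one_right]
  | succ j ih =>
    intro c hc
    have h2 := ne2 hB
    have hc' : Pe ((-2) ^ j) fun a => c (-2 * a) := fun a m => by
      have := hc (-2 * a) m
      beta_reduce
      rw [← this]; congr 1; ring
    rw [Finset.sum_range_succ]
    have e1 : ∑ b ∈ Finset.range (j + 1), fs ((-2) ^ b) (PS (j + 1) c b) k =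
        ∑ b ∈ Finset.range (j + 1), fs ((-2) ^ b) (PS j (fun a => c (-2 * a)) b) k := by
      refine Finset.sum_congr rfl fun b hb => ?_
      have : j + 1 - b = (j - b) + 1 := by have := Finset.mem_range.mp hb; omega
      congr 1
      funext a
      simp only [PS, this, pow_succ' (-2 : O) (j - b), mul_assoc]
    have e2 := SE2M.sum_dvd hB h2 (pow_ne_zero j h2)
      (F := fun a => c a * eQ (a * k) ((-2) ^ (j + 1))) (fun a m => by
        beta_reduce
        rw [← pow_succ', hc, add_mul, mul_assoc, eQ_pe hB])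
    rw [← pow_succ'] at e2
    rw [e1, ← ih _ hc']
    have e3 : ∑ a ∈ Rs ((-2) ^ j), c (-2 * a) * eQ (a * k) ((-2) ^ j) =
        ∑ a ∈ Rs ((-2) ^ j), c (-2 * a) * eQ (-2 * a * k) ((-2) ^ (j + 1)) := by
      refine Finset.sum_congr rfl fun a _ => ?_
      rw [pow_succ', mul_assoc, hB.b1.eQ_mul _ _ _ h2]
    rw [e3, ← e2, fs, ← Finset.sum_add_distrib]
    refine Finset.sum_congr rfl fun a _ => ?_
    simp only [PS, cop_iff hB, Nat.sub_self, pow_zero, one_mul]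
    split_ifs <;> simp

lemma cf (hB : Bas) (j b : ℕ) (c : O → ℂ) (hc : Pe ((-2) ^ j) c) : Cf ((-2) ^ b) (PS j c b) := by
  refine ⟨hB.b2.pow _ _ prim2, fun a m => ?_, fun a ha => if_neg ha⟩
  have h1 : (-2 : O) ^ j ∣ (-2) ^ (j - b) * (-2) ^ b := by
    rw [← pow_add]; exact pow_dvd_pow _ (by omega)
  obtain ⟨t, ht⟩ := h1
  unfold PS
  rw [IsCoprime.add_mul_left_left_iff, mul_add, ← mul_assoc, ht, mul_assoc, hc]

lemma du_le (hB : Bas) (h : O) (Ψ : O → ℂ) (m n D : O) (h0 : h ≠ 0) (hΨ : ∀ a, ‖Ψ a‖ ≤ 1)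
    (hz : ∀ a, ¬ IsCoprime a h → Ψ a = 0) (hn : IsCoprime n h) : ‖du h Ψ m n D‖ ≤ Nn h := by
  unfold du
  refine (norm_sum_le _ _).trans ?_
  rw [← hB.b4.card h h0, ← mul_one ((Rs h).card : ℝ), ← nsmul_eq_mul]
  refine Finset.sum_le_card_nsmul _ _ _ fun a _ => ?_
  by_cases ha : IsCoprime a h
  · by_cases hb : ∃ b ∈ Rs h, h ∣ n * a * b - m
    · obtain ⟨b, hb, hd⟩ := hb
      rw [Finset.sum_eq_single_of_mem b hb fun b' hb' hne => if_neg fun hd' => hne ?_, if_pos hd,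
        norm_mul, norm_mul, norm_eQ hB, mul_one]
      · exact mul_le_one₀ (hΨ a) (norm_nonneg _) (hB.b6.norm_le _ _)
      · refine hB.b4.uniq h b' b h0 hb' hb ((hn.mul_left ha).symm.dvd_of_dvd_mul_left ?_)
        have := dvd_sub hd' hd
        rwa [show n * a * b' - m - (n * a * b - m) = n * a * (b' - b) by ring] at this
    · rw [Finset.sum_eq_zero fun b hb' => if_neg fun hd => hb ⟨b, hb', hd⟩]; simp
  · simp [hz a ha]

lemma Nn_le (hB : Bas) (b : ℕ) (hb : b < 4) : (Nn ((-2) ^ b) : ℝ) ≤ 64 := by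
  have h1 : N ((-2) ^ b) = 4 ^ b := by
    rw [hB.b1.N_pow, show (-2 : O) = ((-2 : ℤ) : O) by norm_num, hB.b1.N_int]; norm_num
  have h2 : (4 : ℝ) ^ b ≤ 4 ^ 3 := pow_le_pow_right₀ (by norm_num) (by omega)
  unfold N at h1
  rw [h1]; linarith

lemma dvd8 (b : ℕ) (hb : b < 4) : (-2 : O) ^ b ∣ 8 :=
  (pow_dvd_pow (-2 : O) (show b ≤ 3 by omega)).trans ⟨-1, by norm_num⟩

end VSdM

open VSdM in
theorem vsdS (hB : Bas) : VSdStmt := by
  intro φ hφ
  have h0 : ((-2 : O) ^ 3) ≠ 0 := pow_ne_zero 3 (ne2 hB)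
  have hp : Pe ((-2) ^ 3) φ := fun a m => by
    rw [← hφ.1 a (-m)]; congr 1; ring
  set c : O → ℂ := fun a => (N ((-2) ^ 3) : ℂ)⁻¹ * ∑ r ∈ Rs ((-2) ^ 3), φ r * eQ (-(a * r)) ((-2) ^ 3) with hc
  have hcp : Pe ((-2) ^ 3) c := fun a m => by
    simp only [hc]
    congr 1
    refine Finset.sum_congr rfl fun r _ => ?_
    rw [show -((a + (-2) ^ 3 * m) * r) = -(a * r) + (-2) ^ 3 * (-(m * r)) by ring, eQ_pe hB]
  have hN : (0 : ℝ) < N ((-2) ^ 3) := lt_of_lt_of_le one_pos (hB.b1.N_one_le _ h0)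
  have hc1 : ∀ a, ‖c a‖ ≤ 1 := fun a => by
    simp only [hc]
    rw [norm_mul, norm_inv, norm_real, Real.norm_eq_abs, abs_of_pos hN, inv_mul_le_iff₀ hN, mul_one]
    refine (norm_sum_le _ _).trans ?_
    unfold N
    rw [← hB.b4.card _ h0, ← mul_one ((Rs _).card : ℝ), ← nsmul_eq_mul]
    refine Finset.sum_le_card_nsmul _ _ _ fun r _ => ?_
    rw [norm_mul, norm_eQ hB, mul_one]; exact hφ.2 r
  refine ⟨PS 3 c, fun b => cf hB 3 b c hcp, fun k => ?_, fun b hb => ⟨fun m n hn => ⟨fun D t => ?_, fun D => ?_⟩,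
    fun m n n' D hn => ?_⟩⟩
  · rw [← dec hB k 3 c hcp, hB.b4.finv _ φ k h0 hp, Finset.mul_sum]
    refine Finset.sum_congr rfl fun a _ => ?_
    simp only [hc]; ring
  · obtain ⟨u, hu⟩ := dvd8 b hb
    simp only [du]
    congr 1
    refine Finset.sum_congr rfl fun a _ => Finset.sum_congr rfl fun b' _ => ?_
    rw [show b' * (D + 8 * t) = b' * D + (-2) ^ b * (u * t * b') by rw [hu]; ring, eQ_pe hB]
  · have h1 := du_le hB ((-2) ^ b) (PS 3 c b) m n D (pow_ne_zero b (ne2 hB))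
      (fun a => by unfold PS; split_ifs; exacts [hc1 _, by simp]) (cf hB 3 b c hcp).2.2
      (IsCoprime.pow_right hn.neg_right)
    have h2 := Nn_le hB b hb
    rw [norm_div, div_le_one (by simp)]
    simpa using h1.trans h2
  · unfold du
    refine Finset.sum_congr rfl fun a _ => Finset.sum_congr rfl fun b' _ => ?_
    have : (-2 : O) ^ b ∣ n * a * b' - m ↔ (-2 : O) ^ b ∣ n' * a * b' - m := by
      rw [show n * a * b' - m = (n' * a * b' - m) + (n - n') * (a * b') by ring]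
      exact dvd_add_left (((dvd8 b hb).trans hn).mul_right _)
    simp only [this]

end Vale.Agent.P026
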