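import Vale.Agent.P026.Stm3

noncomputable section
open scoped Classical

namespace Vale.Agent.P026

namespace WQM

theorem N1 (hB : Bas) (h8 : B8) {s p : O} (hs : s ≠ 0) (hp : p ∈ pf s) : 1 ≤ N p :=
  hB.b1.N_one_le p ((h8.mem s p hs).1 hp).1.ne_zero

theorem sub_le {S T : Finset O} (h : S ⊆ T) {f : O → ℝ} (hf : ∀ p ∈ T, 1 ≤ f p) :
    ∏ p ∈ S, f p ≤ ∏ p ∈ T, f p :=
  Finset.prod_le_prod_of_subset_of_one_le h (fun p hp => zero_le_one.trans (hf p (h hp)))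
    fun p hp _ => hf p hp

theorem tb_nn {a b c : ℝ} (ha : 0 ≤ a) (hb : 0 ≤ b) (hc : 0 ≤ c) (i : ℕ) : 0 ≤ tb a b c i := by
  unfold tb; split_ifs <;> assumption

end WQM

open WQM in
theorem wqS (hB : Bas) (h8 : B8) : WQStmt := by
  intro q0 q2 q1 a0 a2 a1 γ s Q s' h0 h2 h1 hγ ha0 e0 e2 e1 hs hQ hd hA
  have s0 := hB.b2.ne s hs.1
  have Q0 := hB.b2.ne Q hQ
  have n1 : ∀ p ∈ pf s, 1 ≤ N p := fun p => N1 hB h8 s0
  have hpf : pf Q = (pf s).filter (· ∣ Q) := by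
    ext p
    rw [Finset.mem_filter, h8.mem _ _ Q0, h8.mem _ _ s0]
    exact ⟨fun h => ⟨⟨h.1, h.2.1, h.2.2.trans (hd.trans (Dvd.intro_left _ (h8.fl_rad s hs.1)))⟩,
      h.2.2⟩, fun h => ⟨h.1.1, h.1.2.1, h.2⟩⟩
  have hN : N Q = ∏ p ∈ (pf s).filter (· ∣ Q), N p := by
    have hq := (h8.sqf Q hQ).1 ((h8.rad_sqf s).squarefree_of_dvd hd)
    have : fl Q = 1 := Finset.prod_eq_one fun p hp => by rw [hq p hp]; simp
    rw [← hpf, ← rd, ← h8.N_rad]
    conv_lhs => rw [← h8.fl_rad Q hQ, this, one_mul]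
  have sb : pf s' ⊆ (pf s).filter (· ∣ Q) := fun p hp =>
    Finset.mem_filter.2 ⟨(hA.2 p hp).1, (hA.2 p hp).2.1⟩
  have n2 : ∀ p ∈ (pf s).filter (· ∣ Q), 1 ≤ N p := fun p hp => n1 p (Finset.mem_filter.1 hp).1
  refine ⟨?_, sub_le (sb.trans (Finset.filter_subset _ _)) n1,
    hN ▸ sub_le (Finset.filter_subset _ _) n1⟩
  have b1 : mw (tb q0 q2 q1) s' ≤
      ∏ p ∈ (pf s).filter (· ∣ Q), N p ^ tb q0 q2 q1 ((8 - vl p s % 6) % 6) := by
    refine le_trans (Finset.prod_congr rfl fun p hp => by rw [(hA.2 p hp).2.2]).le (sub_le sb ?_)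
    exact fun p hp => Real.one_le_rpow (n2 p hp) (tb_nn h0 h2 h1 _)
  have w0 : 0 ≤ wq s Q := Finset.prod_nonneg fun p hp => Real.rpow_nonneg (by linarith [n2 p hp]) _
  refine (mul_le_mul_of_nonneg_right (mul_le_mul_of_nonneg_left b1 w0)
    (Real.rpow_nonneg (by unfold N; positivity) _)).trans ?_
  rw [hN, ← Real.finset_prod_rpow _ _ (fun p hp => by linarith [n2 p hp]), wq,
    ← Finset.prod_mul_distrib, ← Finset.prod_mul_distrib]
  refine le_trans (Finset.prod_le_prod (fun p hp => ?_) fun p hp => ?_)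
    (sub_le (f := fun p => N p ^ tb a0 a2 a1 (vl p s % 6)) (Finset.filter_subset _ _) fun p hp =>
      Real.one_le_rpow (n1 p hp) (tb_nn ha0 (by linarith) (by linarith) _))
  · have := n2 p hp
    positivity
  · have := n2 p hp
    rw [← Real.rpow_add (by linarith), ← Real.rpow_add (by linarith)]
    refine Real.rpow_le_rpow_of_exponent_le this ?_
    have hi : vl p s % 6 < 6 := Nat.mod_lt _ (by norm_num)
    generalize vl p s % 6 = i at hi
    interval_cases i <;> simp [tb] <;> linarith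

end Vale.Agent.P026
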