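import Vale.Agent.P026.M.W2
import Vale.Agent.P026.M.B8
import Vale.Agent.P026.M.SX
import Vale.Agent.P026.M.RED
import Vale.Agent.P026.M.SS0
import Vale.Agent.P026.M.L3
import Vale.Agent.P026.M.VSa
import Vale.Agent.P026.M.VSc
import Vale.Agent.P026.M.VS0
import Vale.Agent.P026.M.VSd
import Vale.Agent.P026.M.DEC
import Vale.Agent.P026.M.VS1
import Vale.Agent.P026.M.WQ
import Vale.Agent.P026.M.VS
import Vale.Agent.P026.M.KM
import Vale.Agent.P026.M.LOC
import Vale.Agent.P026.M.PSDL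
import Vale.Agent.P026.M.SCH
import Vale.Agent.P026.M.EXP
import Vale.Agent.P026.M.PSD
import Vale.Agent.P026.M.PS2
import Vale.Agent.P026.M.PS3
import Vale.Agent.P026.M.SPL
import Vale.Agent.P026.M.EUL
import Vale.Agent.P026.M.SUM0
import Vale.Agent.P026.M.SUMA
import Vale.Agent.P026.M.SUMB
import Vale.Agent.P026.M.F3
import Vale.Agent.P026.M.L2
import Vale.Agent.P026.M.F5
import Vale.Agent.P026.M.L1
import Vale.Agent.P026.M.AMP
import Vale.Agent.P026.M.FIN

namespace Vale.Agent.P026.W3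
open W1 W2

theorem b8 : B8 := b8S bas
theorem sxx : SX := sxS bas cr qr gp qg
theorem red : REDStmt := redS bas cr hd W1.bb sxx ln
theorem ss0 : SS0Stmt := ss0S bas b8 sxx gpo
theorem l3 : L3Stmt := l3S bas hd sxx ln ss0
theorem vsa : VSaStmt := vsaS bas
theorem vsc : VScStmt := vscS bas sxx gp
theorem vs1 : VS1Stmt := vs1S bas b8 vsa (vs0S bas vsa vsc) (vsdS bas) (decS bas b8 sxx vsa vsc)
theorem vs : VSStmt := vsS bas W1.bb b8 sxx ln famb vs1 (wqS bas b8)
theorem km : KM := kmS bas cr qr hd W1.bb b8 sxx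
theorem loc : LOC := locS bas qr hd W1.bb sxx gp
theorem psd : PSDStmt := psdS bas b8 km (psdlS bas km loc) schS (expS bas b8 km)
theorem ps3 : PS3Stmt := ps3S bas cr p9 qr W1.bb b8 sxx ln
theorem spl : SPLStmt := splS bas b8
theorem eul : EULStmt := eulS bas b8
theorem sum0 : SUM0Stmt := sum0S bas b8 eul
theorem f3 : F3Stmt := f3S b8 l3 red vs
theorem ps2 (h1 : PS1Stmt) : PS2Stmt := ps2S bas W1.bb b8 sxx km psd h1
theorem l2 (hP : PSStmt) : L2Stmt := l2S bas qr hd W1.bb b8 sxx ln hP f3 (sumbS bas b8 eul) km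
theorem f5 (hP : PSStmt) : F5Stmt := f5S b8 (l2 hP) red vs
theorem l1 (hP : PSStmt) : L1Stmt := l1S bas cr qr b8 sxx hP (f5 hP) (sumaS bas b8 eul) km
theorem amp (hP : PSStmt) : AMPStmt := ampS bas sxx ln (l1 hP)

theorem zero_free (hP : PSStmt) (s : ℂ) (hs : 26 / 27 < s.re) : riemannZeta s ≠ 0 := by
  refine finS bas ln ((s.re - 1 / 2 + 25 / 54) / 2) (by linarith) (amp hP _ (by linarith)) s (by linarith)

end Vale.Agent.P026.W3
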