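import Vale.Agent.P026.M.PSb

/-! P026 row PS: the Poisson step. -/

noncomputable section
open Complex MeasureTheory Filter Topology
open scoped Classical ComplexConjugate

namespace Vale.Agent.P026
namespace PSM

/-- right side of PS4 -/
def R4 (C D ε α θ : ℝ) (p : ℕ) (a c : ℕ → ℝ) (s : O) (Z H t : ℝ) : ℝ :=
  C * D ^ 2 * Z⁻¹ * rd s ^ (2 * ε) * ((1 + H) * (1 + H ^ 2 / Z)) ^ (3 * ε) *
    min 1 H ^ (1 / 4 : ℝ) * (H * min 1 H * mw a s ^ 2 + H ^ (2 * α + 4 * θ) * Z ^ (-2 * θ) * mw c s ^ 2) *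
    (1 + |t|) ^ (2 * p)

/-- the statement of PS4 for a fixed constant -/
def P4 (C ε α θ : ℝ) (p : ℕ) : Prop :=
  ∀ (κ : ℕ) (J : ℤ) (D : ℝ) (a c : ℕ → ℝ) (s r : O) (φ : O → O → ℂ) (Z M H t : ℝ),
  FBH κ J p D ε α θ a c → OP s → P84 φ → 0 < Z → 0 < M → H = Z ^ 2 / M →
  (∑' h : O, if Fm s h then ∫⁻ u : ℝ, ‖Gamma ((if N h ≤ H then ε else 4 : ℝ) + u * I)‖ₑ *
      ENNReal.ofReal ((sg * M * N h) ^ (-(if N h ≤ H then ε else 4 : ℝ))) *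
      ENNReal.ofReal ((Z ^ ((if N h ≤ H then ε else 4 : ℝ) - 1 / 2) *
        Real.exp (((if N h ≤ H then ε else 4 : ℝ) - 1 / 2) ^ 2 / 4) *
        ‖TT J r (tw κ h s (φ h)) (Z * Real.exp (((if N h ≤ H then ε else 4 : ℝ) - 1 / 2) / 2))
          (1 / 2 + (t - u : ℝ) * I)‖) ^ 2) else 0) ≤ ENNReal.ofReal (R4 C D ε α θ p a c s Z H t)

lemma sq_le {S : ℂ} {n A B X : ℝ} (hn : 0 < n) (h : ‖S‖ ≤ n ^ (-1 / 2 : ℝ) * A * B * X) :
    ‖S‖ₑ ^ 2 ≤ ENNReal.ofReal n⁻¹ * ENNReal.ofReal ((A * B * X) ^ 2) := by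
  rw [← ofReal_norm, ← ENNReal.ofReal_pow (norm_nonneg _),
    ← ENNReal.ofReal_mul (by positivity)]
  refine ENNReal.ofReal_le_ofReal ?_
  have e : (n ^ (-1 / 2 : ℝ)) ^ 2 = n⁻¹ := by
    rw [← Real.rpow_natCast, ← Real.rpow_mul hn.le, ← Real.rpow_neg_one]; norm_num
  calc ‖S‖ ^ 2 ≤ (n ^ (-1 / 2 : ℝ) * A * B * X) ^ 2 := by gcongr
    _ = (n ^ (-1 / 2 : ℝ)) ^ 2 * (A * B * X) ^ 2 := by ring
    _ = _ := by rw [e]

lemma inner (hB : Bas) (h8 : B8) (h3 : PS3Stmt) {C ε α θ : ℝ} {p : ℕ} (h4 : P4 C ε α θ p)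
    (κ : ℕ) (J : ℤ) (D : ℝ) (a c : ℕ → ℝ) (r ρ s : O) (φ : O → ℂ) (Z M t : ℝ)
    (hκ : κ = 1 ∨ κ = 3) (hF : FBH (kd κ) J p D ε α θ a c) (hs : OP s) (hφ : P8 φ) (hZ : 1 ≤ Z)
    (hM : 1 ≤ M) (E e : O) (i j : ℕ) (h' : O) (hE : OP E) (he : IsUnit e) (hh : OP h') :
    (∑' h0 : O, if Fm (s * E * h') h0 then
      DU κ (yE κ (xx κ J r ρ s φ Z t) E) (M / N (fl E)) (sg0 ε Z M E (e * lam ^ i * 2 ^ j * h' * h0))
        (e * lam ^ i * 2 ^ j * h' * h0) else 0) ≤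
    ENNReal.ofReal ((N E)⁻¹ * R4 C D ε α θ p a c (sE κ s E h') (Z / N E)
      ((Z / N E) ^ 2 / (M / N (fl E) * (3 ^ i * 4 ^ j * N h'))) t) := by
  have nE : 0 < N E := zero_lt_one.trans_le (op_N hB hE)
  have nf : 0 < N (fl E) := zero_lt_one.trans_le (op_N hB (op_fl h8 hE))
  have nh : 0 < N h' := zero_lt_one.trans_le (op_N hB hh)
  have hZ0 : 0 < Z := by linarith
  have hM0 : 0 < M := by linarith
  obtain ⟨r', φ', hφ', H3⟩ := h3 κ J r ρ s φ Z t E e i j h' hκ hs hφ hZ0 hE he hh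
  set H := (Z / N E) ^ 2 / (M / N (fl E) * (3 ^ i * 4 ^ j * N h')) with hH
  have H4 := h4 (kd κ) J D a c (sE κ s E h') r' φ' (Z / N E) (M / N (fl E) * (3 ^ i * 4 ^ j * N h')) H t
    hF (op_sE hB h8 κ hs hE hh) hφ' (by positivity) (by positivity) hH
  rw [ENNReal.ofReal_mul (by positivity)]
  refine le_trans ?_ (mul_le_mul_right H4 _)
  rw [← ENNReal.tsum_mul_left]
  refine ENNReal.tsum_le_tsum fun h0 => ?_
  by_cases hf : Fm (s * E * h') h0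
  · rw [if_pos hf, if_pos (fm_sE h8 κ hE hf)]
    have hσ : sg0 ε Z M E (e * lam ^ i * 2 ^ j * h' * h0) = if N h0 ≤ H then ε else 4 := by
      unfold sg0
      refine if_congr ?_ rfl rfl
      rw [N_dec hB he, hH, le_div_iff₀ (by positivity), le_div_iff₀ (by positivity)]
      constructor <;> intro h <;> nlinarith [h]
    rw [hσ]
    generalize (if N h0 ≤ H then ε else 4 : ℝ) = σ
    unfold DU
    rw [← lintegral_const_mul' _ _ ENNReal.ofReal_ne_top]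
    refine lintegral_mono fun u => ?_
    have e1 : sg * (M / N (fl E)) * N (e * lam ^ i * 2 ^ j * h' * h0) =
        sg * (M / N (fl E) * (3 ^ i * 4 ^ j * N h')) * N h0 := by rw [N_dec hB he]; ring
    rw [e1]
    refine (mul_le_mul_right (sq_le nE (H3 h0 σ u hf.1)) _).trans (le_of_eq ?_)
    ring
  · rw [if_neg hf]; exact zero_le

/-- summand after the reduction -/
def gP (κ : ℕ) (ε g θ : ℝ) (a c : ℕ → ℝ) (s : O) (W Z X : ℝ) (x : O × O) : ENNReal :=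
  if OP x.1 ∧ IsCoprime x.1 s ∧ Fix s x.1 x.2 then
    ENNReal.ofReal (W * (Z * G1 κ ε a s x.1 x.2 + X * G2 κ g θ c s x.1 x.2)) else 0

lemma geo (f : ENNReal) : ∑ _e ∈ U6, ∑' i : ℕ, ∑' j : ℕ, (2⁻¹ : ENNReal) ^ i * (2⁻¹ ^ j * f) ≤ 24 * f := by
  simp only [ENNReal.tsum_mul_left, ENNReal.tsum_mul_right, ENNReal.tsum_geometric_two]
  rw [Finset.sum_const, nsmul_eq_mul]
  have : (U6.card : ENNReal) ≤ 6 := by exact_mod_cast (Finset.card_le_six : U6.card ≤ 6)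
  calc (U6.card : ENNReal) * (2 * (2 * f)) ≤ 6 * (2 * (2 * f)) := by gcongr
    _ = 24 * f := by ring

lemma offE (hB : Bas) (h8 : B8) (hX : SX) (h3 : PS3Stmt) (hS : SPLStmt) {C ε α θ : ℝ} {p : ℕ}
    (h4 : P4 C ε α θ p) (hC : 0 ≤ C) (hε : 0 < ε) (hε1 : ε ≤ 1 / 100) (hα : 0 ≤ α) (hθ : 1 / 4 ≤ θ)
    (κ : ℕ) (J : ℤ) (D : ℝ) (a c : ℕ → ℝ) (r ρ s : O) (φ : O → ℂ) (Z M t : ℝ)
    (hκ : κ = 1 ∨ κ = 3) (hF : FBH (kd κ) J p D ε α θ a c) (hs : OP s) (hφ : P8 φ) (hZ : 1 ≤ Z)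
    (hM : 1 ≤ M) (E : O) (hE : OP E) :
    ENNReal.ofReal (cE κ E * (M / N (fl E))) * (∑' h : O, if h = 0 then 0 else
      DU κ (yE κ (xx κ J r ρ s φ Z t) E) (M / N (fl E)) (sg0 ε Z M E h) h) ≤
    24 * ∑' h', gP κ ε (2 * α + 4 * θ) θ a c s
      (C * D ^ 2 * 4 * rd s ^ (2 * ε) * Z ^ (29 * ε) * (1 + |t|) ^ (2 * p)) Z
      (M / Z * (Z ^ 2 / M) ^ (2 * α + 4 * θ) * Z ^ (-2 * θ)) (E, h') := by
  by_cases hc : IsCoprime E s
  swap
  · have hy : ∀ k, yE κ (xx κ J r ρ s φ Z t) E k = 0 := by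
      intro k
      have : sx (E * k) s = 0 := hX.zero _ _ (op_ne hB hs) fun h => hc h.of_mul_left_left
      unfold yE xx
      simp [this]
    have : ∀ h, DU κ (yE κ (xx κ J r ρ s φ Z t) E) (M / N (fl E)) (sg0 ε Z M E h) h = 0 := by
      intro h; unfold DU; simp [hy]
    simp [this]
  refine (mul_le_mul_right (hS s E _ hs hE) _).trans (le_trans ?_ (geo _))
  rw [Finset.mul_sum]
  refine Finset.sum_le_sum fun e he => ?_
  have hu : IsUnit e := (hB.b1.units e).2 he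
  rw [← ENNReal.tsum_mul_left]
  refine ENNReal.tsum_le_tsum fun i => ?_
  rw [← ENNReal.tsum_mul_left]
  refine ENNReal.tsum_le_tsum fun j => ?_
  rw [← ENNReal.tsum_mul_left, ← ENNReal.tsum_mul_left, ← ENNReal.tsum_mul_left]
  refine ENNReal.tsum_le_tsum fun h' => ?_
  by_cases hf : Fix s E h'
  swap
  · rw [if_neg hf, mul_zero]; exact zero_le
  rw [if_pos hf]
  have nE := op_N hB hE
  have nf := op_N hB (op_fl h8 hE)
  have nh := op_N hB hf.1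
  have c0 := cE0 κ E
  refine (mul_le_mul_right (inner hB h8 h3 h4 κ J D a c r ρ s φ Z M t hκ hF hs hφ hZ hM E e i j h'
    hE hu hf.1) _).trans ?_
  rw [← ENNReal.ofReal_mul (by positivity)]
  have hτ : (1 : ℝ) ≤ 3 ^ i * 4 ^ j :=
    one_le_mul_of_one_le_of_one_le (one_le_pow₀ (by norm_num)) (one_le_pow₀ (by norm_num))
  have K := key ε (2 * α + 4 * θ) θ C D (rd (sE κ s E h')) (rd s) Z M (N E) (N (fl E)) (N h')
    (3 ^ i * 4 ^ j) ((1 + |t|) ^ (2 * p)) (mw a (sE κ s E h')) (mw c (sE κ s E h')) (cE κ E) _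
    hε hε1 (by linarith) hC c0 (by positivity) hZ hM nE nf (N_fl hB h8 hE).1 nh hτ (h8.rd_ge s)
    (zero_le_one.trans (h8.rd_ge _)) (rd_sE hB h8 κ hs hE hf.1) rfl
  refine (ENNReal.ofReal_le_ofReal K).trans ?_
  unfold gP
  rw [if_pos ⟨hE, hc, hf⟩, ENNReal.ofReal_mul (by positivity), ← mul_assoc ((2⁻¹ : ENNReal) ^ i)]
  refine mul_le_mul' ?_ le_rfl
  have e2 : (2⁻¹ : ENNReal) = ENNReal.ofReal 2⁻¹ := by
    rw [ENNReal.ofReal_inv_of_pos (by norm_num)]; norm_num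
  rw [e2, ← ENNReal.ofReal_pow (by norm_num), ← ENNReal.ofReal_pow (by norm_num),
    ← ENNReal.ofReal_mul (by positivity)]
  refine ENNReal.ofReal_le_ofReal ?_
  rw [mul_inv, ← inv_pow, ← inv_pow]
  gcongr <;> norm_num

lemma G10 (κ : ℕ) (δ : ℝ) (a : ℕ → ℝ) (s E h : O) : 0 ≤ G1 κ δ a s E h := by
  unfold G1
  have := cE0 κ E
  have := N0 E
  have := N0 h
  have := N0 (fl E)
  positivity

lemma G20 (κ : ℕ) (g θ : ℝ) (a : ℕ → ℝ) (s E h : O) : 0 ≤ G2 κ g θ a s E h := by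
  unfold G2
  have := cE0 κ E
  have := N0 E
  have := N0 h
  have := N0 (fl E)
  positivity

lemma gsum (κ : ℕ) (ε g θ : ℝ) (a c : ℕ → ℝ) (s : O) (W Z X A1 A2 : ℝ) (hW : 0 ≤ W) (hZ : 0 ≤ Z)
    (hX : 0 ≤ X) (h1 : SumB s (G1 κ ε a s) A1) (h2 : SumB s (G2 κ g θ c s) A2) :
    ∑' E, ∑' h', gP κ ε g θ a c s W Z X (E, h') ≤ ENNReal.ofReal (W * (Z * A1 + X * A2)) := by
  rw [← ENNReal.tsum_prod]
  refine tsum_le (fun x : O × O => OP x.1 ∧ IsCoprime x.1 s ∧ Fix s x.1 x.2) _ _ (fun x _ => ?_)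
    fun T hT => ?_
  · have := G10 κ ε a s x.1 x.2
    have := G20 κ g θ c s x.1 x.2
    positivity
  · rw [← Finset.mul_sum, Finset.sum_add_distrib, ← Finset.mul_sum, ← Finset.mul_sum]
    have := h1 T hT
    have := h2 T hT
    gcongr

lemma diagE (hB : Bas) (h8 : B8) (hX : SX) (hL : LN) (ε : ℝ) (κ : ℕ) (J : ℤ) (r ρ s : O) (φ : O → ℂ)
    (Z M t : ℝ) (hφ : P8 φ) (hZ : 1 ≤ Z) (hM : 1 ≤ M) (E : O) (hE : OP E) :
    ENNReal.ofReal (cE κ E * (M / N (fl E))) * ‖xx κ J r ρ s φ Z t E‖ₑ ^ 2 ≤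
      ENNReal.ofReal (M * Real.exp (ε ^ 2 / 4) * Z ^ ε * (cE κ E / N (fl E) * N E ^ (-1 - ε))) := by
  have nE : 0 < N E := zero_lt_one.trans_le (op_N hB hE)
  have nf : 0 < N (fl E) := zero_lt_one.trans_le (op_N hB (op_fl h8 hE))
  have c0 := cE0 κ E
  have hZ0 : 0 < Z := by linarith
  rw [← ofReal_norm, ← ENNReal.ofReal_pow (norm_nonneg _),
    ← ENNReal.ofReal_mul (by positivity)]
  refine ENNReal.ofReal_le_ofReal ?_
  have h1 := xx_le hB hX κ J r ρ s φ Z t hφ E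
  rw [if_neg (op_ne hB hE)] at h1
  have h2 := hL.le ε Z (N E) hZ0 nE
  have h3 : VV Z (N E) ≤ 1 := Real.exp_le_one_iff.2 (neg_nonpos.2 (sq_nonneg _))
  have h4 := VV0 Z (N E)
  have e : (N E ^ (-1 / 2 : ℝ)) ^ 2 = N E ^ (-1 : ℝ) := by
    rw [← Real.rpow_natCast, ← Real.rpow_mul nE.le]; norm_num
  have e2 : N E ^ (-1 - ε) = N E ^ (-1 : ℝ) / N E ^ ε := Real.rpow_sub nE _ _
  have h5 : ‖xx κ J r ρ s φ Z t E‖ ^ 2 ≤ N E ^ (-1 : ℝ) * (Real.exp (ε ^ 2 / 4) * (Z / N E) ^ ε) := by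
    calc _ ≤ (N E ^ (-1 / 2 : ℝ) * VV Z (N E)) ^ 2 := by gcongr
      _ = N E ^ (-1 : ℝ) * (VV Z (N E) * VV Z (N E)) := by rw [mul_pow, e]; ring
      _ ≤ N E ^ (-1 : ℝ) * (1 * (Real.exp (ε ^ 2 / 4) * (Z / N E) ^ ε)) := by gcongr
      _ = _ := by ring
  calc _ ≤ cE κ E * (M / N (fl E)) * (N E ^ (-1 : ℝ) * (Real.exp (ε ^ 2 / 4) * (Z / N E) ^ ε)) := by
        gcongr
    _ = _ := by rw [e2, Real.div_rpow hZ0.le nE.le]; ring

lemma fin_real (ε C2 C0 C4 c D rs M Z T A B : ℝ) (hε : 0 < ε) (h2 : 0 ≤ C2) (h0 : 0 ≤ C0) (h4 : 0 ≤ C4)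
    (hc : 0 ≤ c) (hD : 1 ≤ D) (hrs : 1 ≤ rs) (hM : 1 ≤ M) (hZ : 1 ≤ Z) (hT : 1 ≤ T) (hA : 0 ≤ A)
    (hB : 0 ≤ B) :
    C2 * M ^ ε * (M * c * Z ^ ε * C0 + 24 * (C4 * D ^ 2 * 4 * rs ^ (2 * ε) * Z ^ (29 * ε) * T * (A + B))) ≤
      C2 * (c * C0 + 96 * C4) * D ^ 2 * (rs * M * Z) ^ (40 * ε) * (M + A + B) * T := by
  have e : (rs * M * Z) ^ (40 * ε) = rs ^ (40 * ε) * M ^ (40 * ε) * Z ^ (40 * ε) := by
    rw [Real.mul_rpow (by positivity) (by positivity), Real.mul_rpow (by positivity) (by positivity)]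
  have a1 : M ^ ε ≤ M ^ (40 * ε) := Real.rpow_le_rpow_of_exponent_le hM (by linarith)
  have a2 : Z ^ ε ≤ Z ^ (40 * ε) := Real.rpow_le_rpow_of_exponent_le hZ (by linarith)
  have a3 : Z ^ (29 * ε) ≤ Z ^ (40 * ε) := Real.rpow_le_rpow_of_exponent_le hZ (by linarith)
  have a4 : rs ^ (2 * ε) ≤ rs ^ (40 * ε) := Real.rpow_le_rpow_of_exponent_le hrs (by linarith)
  have a5 : 1 ≤ rs ^ (40 * ε) := Real.one_le_rpow hrs (by positivity)
  have a6 : 1 ≤ D ^ 2 := one_le_pow₀ hD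
  have a7 : M ≤ M + A + B := by linarith
  have a8 : A + B ≤ M + A + B := by linarith
  rw [e]
  calc _ = C2 * (c * C0) * 1 * (1 * M ^ ε * Z ^ ε) * M * 1 +
        C2 * (96 * C4) * D ^ 2 * (rs ^ (2 * ε) * M ^ ε * Z ^ (29 * ε)) * (A + B) * T := by ring
    _ ≤ C2 * (c * C0) * D ^ 2 * (rs ^ (40 * ε) * M ^ (40 * ε) * Z ^ (40 * ε)) * (M + A + B) * T +
        C2 * (96 * C4) * D ^ 2 * (rs ^ (40 * ε) * M ^ (40 * ε) * Z ^ (40 * ε)) * (M + A + B) * T := by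
        gcongr
    _ = _ := by ring

end PSM

open PSM in
theorem psS (hB : Bas) (h8 : B8) (hX : SX) (hL : LN) (h2 : PS2Stmt) (h3 : PS3Stmt) (h4 : PS4Stmt)
    (hs : SPLStmt) (h0 : SUM0Stmt) : PSStmt := by
  intro p ε α θ hε hε1 hα hθ hg
  obtain ⟨C2, hC2, H2⟩ := h2 ε hε
  obtain ⟨C4, hC4, H4⟩ := h4 p ε α θ hε hε1 hα (by linarith) hg
  obtain ⟨C0, H0⟩ := h0 ε hε
  have hC0 : 0 ≤ C0 := by simpa using H0 0 ∅ (by simp)
  have H4' : P4 C4 ε α θ p := H4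
  refine ⟨C2 * (Real.exp (ε ^ 2 / 4) * C0 + 96 * C4), by positivity, ?_⟩
  intro κ J D a c r ρ s φ Z M t A1 A2 S hκ hF hos hφ hZ hM hD hA1 hA2 hS
  have hZ0 : 0 < Z := by linarith
  have hM0 : 0 < M := by linarith
  have A10 : 0 ≤ A1 := by simpa using hA1 ∅ (by simp)
  have A20 : 0 ≤ A2 := by simpa using hA2 ∅ (by simp)
  have rs1 := h8.rd_ge s
  have K := H2 κ (xx κ J r ρ s φ Z t) ρ M (sg0 ε Z M) S hκ hM
    (fun k hk => by
      by_contra h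
      exact hk (if_neg fun h' => h h'.2.1))
    (xx_summ hB hX hL κ J r ρ s φ Z t hφ hZ0)
    (fun E h => by
      unfold sg0
      split_ifs
      · exact ⟨hε, by linarith⟩
      · norm_num) hS
  set W := C4 * D ^ 2 * 4 * rd s ^ (2 * ε) * Z ^ (29 * ε) * (1 + |t|) ^ (2 * p) with hW
  set X := M / Z * (Z ^ 2 / M) ^ (2 * α + 4 * θ) * Z ^ (-2 * θ) with hXd
  have W0 : 0 ≤ W := by positivity
  have X0 : 0 ≤ X := by positivity
  have d1 : ∑' E, (if OP E then ENNReal.ofReal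
      (M * Real.exp (ε ^ 2 / 4) * Z ^ ε * (cE κ E / N (fl E) * N E ^ (-1 - ε))) else 0) ≤
      ENNReal.ofReal (M * Real.exp (ε ^ 2 / 4) * Z ^ ε * C0) := by
    refine tsum_le OP _ _ (fun E _ => ?_) fun T hT => ?_
    · have := cE0 κ E
      have := N0 E
      have := N0 (fl E)
      positivity
    · rw [← Finset.mul_sum]
      have := H0 κ T hT
      gcongr
  have d2 := gsum κ ε (2 * α + 4 * θ) θ a c s W Z X A1 A2 W0 hZ0.le X0 hA1 hA2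
  have d3 := K.trans (mul_le_mul_right (ENNReal.tsum_le_tsum (g := fun E =>
    (if OP E then ENNReal.ofReal
      (M * Real.exp (ε ^ 2 / 4) * Z ^ ε * (cE κ E / N (fl E) * N E ^ (-1 - ε))) else 0) +
      24 * ∑' h', gP κ ε (2 * α + 4 * θ) θ a c s W Z X (E, h')) fun E => by
        by_cases hE : OP E
        · rw [if_pos hE, if_pos hE, mul_add]
          exact add_le_add (diagE hB h8 hX hL ε κ J r ρ s φ Z M t hφ hZ hM E hE)
            (offE hB h8 hX h3 hs H4' hC4 hε hε1 hα hθ κ J D a c r ρ s φ Z M t hκ hF hos hφ hZ hM E hE)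
        · rw [if_neg hE]; exact zero_le) _)
  rw [ENNReal.tsum_add, ENNReal.tsum_mul_left] at d3
  have d4 := d3.trans (mul_le_mul_right (add_le_add d1 (mul_le_mul_right d2 24)) _)
  have e24 : (24 : ENNReal) = ENNReal.ofReal 24 := by norm_num
  rw [e24, ← ENNReal.ofReal_mul (by norm_num), ← ENNReal.ofReal_add (by positivity) (by positivity),
    ← ENNReal.ofReal_mul (by positivity), ENNReal.ofReal_le_ofReal_iff (by positivity)] at d4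
  refine d4.trans ?_
  have := fin_real ε C2 C0 C4 (Real.exp (ε ^ 2 / 4)) D (rd s) M Z ((1 + |t|) ^ (2 * p)) (Z * A1) (X * A2)
    hε hC2 hC0 hC4 (by positivity) hD rs1 hM hZ
    (one_le_pow₀ (by linarith [abs_nonneg t])) (by positivity) (by positivity)
  exact this

end Vale.Agent.P026
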