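import Vale.Agent.P026.Stm3

/-! P026 module PS4: dyadic summation of the dual family. -/

noncomputable section
open Complex MeasureTheory Filter Topology
open scoped Classical ComplexConjugate

namespace Vale.Agent.P026

namespace PS4M

lemma sum_lint {ι : Type} (S : Finset ι) (f : ι → ℝ → ENNReal) :
    ∑ i ∈ S, ∫⁻ u, f i u ≤ ∫⁻ u, ∑ i ∈ S, f i u := by
  induction S using Finset.induction_on with
  | empty => simp
  | insert i S hi ih =>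
    simp only [Finset.sum_insert hi]
    exact (add_le_add le_rfl ih).trans (le_lintegral_add _ _)

lemma gam_int (hΓ : GAM) {σ : ℝ} (hσ : 0 < σ) (k : ℕ) : ∃ G : ℝ, 0 ≤ G ∧
    ∫⁻ u : ℝ, ‖Gamma (σ + u * I)‖ₑ * ENNReal.ofReal ((1 + |u|) ^ k) ≤ ENNReal.ofReal G := by
  obtain ⟨C, hC⟩ := hΓ.dec σ (k + 2) hσ
  have hi := (integrable_inv_one_add_sq.const_mul C).lintegral_lt_top
  refine ⟨_, ENNReal.toReal_nonneg, le_trans (lintegral_mono fun u => ?_)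
    (ENNReal.ofReal_toReal hi.ne).ge⟩
  rw [← ofReal_norm, ← ENNReal.ofReal_mul (norm_nonneg _)]
  refine ENNReal.ofReal_le_ofReal ?_
  rw [← div_eq_mul_inv, le_div_iff₀ (by positivity)]
  refine le_trans ?_ (hC u)
  rw [pow_add, mul_assoc]
  gcongr
  nlinarith [sq_abs u, abs_nonneg u]

lemma classes (hB : Bas) {κ : ℕ} {J : ℤ} {s r : O} {H Y τ B : ℝ} {φ : O → O → ℂ}
    (hF : FB κ J s H Y τ B) (hφ : P84 φ) (T : Finset O) (hT : ∀ h ∈ T, Fm s h ∧ N h ≤ H) :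
    ∑ h ∈ T, ‖TT J r (tw κ h s (φ h)) Y (1 / 2 + τ * I)‖ ^ 2 ≤ 16 * B := by
  have h4 : (4 : O) ≠ 0 := fun c => by
    have := congrArg QuadraticAlgebra.re c
    simp [QuadraticAlgebra.re_ofNat] at this
  choose cls h1 h2 using fun a => hB.b4.ex 4 a h4
  rw [← Finset.sum_fiberwise_of_maps_to (g := cls) (t := Rs 4) fun h _ => h1 h]
  refine (Finset.sum_le_card_nsmul _ _ B fun ρ _ => ?_).trans ?_
  · refine le_trans (le_of_eq (Finset.sum_congr rfl fun h hh => ?_))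
      (hF r (φ ρ) (T.filter fun h => cls h = ρ) (hφ.1 ρ) fun h hh => hT h (Finset.mem_filter.1 hh).1)
    rw [hφ.2 h ρ ((Finset.mem_filter.1 hh).2 ▸ h2 h)]
  · have : Nn 4 = 16 := by
      simp [Nn, nz, QuadraticAlgebra.re_ofNat, QuadraticAlgebra.im_ofNat]
    rw [hB.b4.card 4 h4, this]
    simp

lemma blk (hB : Bas) {κ p : ℕ} {J : ℤ} {s r : O} {H Y t B σ w c G : ℝ} {φ : O → O → ℂ}
    (hF : ∀ τ, FB κ J s H Y τ ((B * (1 + |τ|) ^ p) ^ 2)) (hφ : P84 φ) (P : O → Prop)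
    [DecidablePred P] (W : O → ℝ)
    (hP : ∀ h, P h → (Fm s h ∧ N h ≤ H) ∧ W h ≤ w) (hw : 0 ≤ w)
    (hG : ∫⁻ u : ℝ, ‖Gamma (σ + u * I)‖ₑ * ENNReal.ofReal ((1 + |u|) ^ (2 * p)) ≤ ENNReal.ofReal G) :
    (∑' h : O, if P h then ∫⁻ u : ℝ, ‖Gamma (σ + u * I)‖ₑ * ENNReal.ofReal (W h) *
      ENNReal.ofReal ((c * ‖TT J r (tw κ h s (φ h)) Y (1 / 2 + (t - u : ℝ) * I)‖) ^ 2) else 0) ≤
      ENNReal.ofReal (16 * (w * c ^ 2 * B ^ 2) * (1 + |t|) ^ (2 * p) * G) := by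
  rw [ENNReal.tsum_eq_iSup_sum]
  refine iSup_le fun S => ?_
  rw [← Finset.sum_filter]
  refine (sum_lint _ _).trans ?_
  rw [ENNReal.ofReal_mul (by positivity)]
  refine le_trans ?_ (mul_le_mul_right hG _)
  rw [← lintegral_const_mul' _ _ ENNReal.ofReal_ne_top]
  refine lintegral_mono fun u => ?_
  have a := classes hB (r := r) (hF (t - u)) hφ (S.filter P)
    fun h hh => (hP h (Finset.mem_filter.1 hh).2).1
  have b : 1 + |t - u| ≤ (1 + |t|) * (1 + |u|) := by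
    nlinarith [abs_sub t u, mul_nonneg (abs_nonneg t) (abs_nonneg u)]
  calc _ ≤ ∑ h ∈ S.filter P, ‖Gamma (σ + u * I)‖ₑ * ENNReal.ofReal (w * c ^ 2 *
        ‖TT J r (tw κ h s (φ h)) Y (1 / 2 + (t - u : ℝ) * I)‖ ^ 2) := by
        refine Finset.sum_le_sum fun h hh => ?_
        rw [mul_assoc, mul_assoc w, ENNReal.ofReal_mul hw, mul_pow]
        gcongr
        exact (hP h (Finset.mem_filter.1 hh).2).2
    _ = ‖Gamma (σ + u * I)‖ₑ * ENNReal.ofReal (w * c ^ 2 * ∑ h ∈ S.filter P,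
        ‖TT J r (tw κ h s (φ h)) Y (1 / 2 + (t - u : ℝ) * I)‖ ^ 2) := by
        rw [← Finset.mul_sum, Finset.mul_sum _ _ (w * c ^ 2),
          ENNReal.ofReal_sum_of_nonneg fun _ _ => by positivity]
    _ ≤ _ := by
        rw [mul_left_comm (ENNReal.ofReal _), ← ENNReal.ofReal_mul (by positivity)]
        refine mul_le_mul_right (ENNReal.ofReal_le_ofReal ?_) _
        calc _ ≤ w * c ^ 2 * (16 * (B * (1 + |t - u|) ^ p) ^ 2) := by gcongr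
          _ = 16 * (w * c ^ 2 * B ^ 2) * (1 + |t - u|) ^ (2 * p) := by ring
          _ ≤ 16 * (w * c ^ 2 * B ^ 2) * ((1 + |t|) * (1 + |u|)) ^ (2 * p) := by gcongr
          _ = _ := by rw [mul_pow]; ring

lemma sqB {D ρ H Z Y T K ε α θ : ℝ} (a c : ℝ) (hρ : 0 ≤ ρ) (hH : 0 < H) (hZ : 0 < Z) (hY : 0 < Y)
    (hT : 1 ≤ T) (hK : 1 ≤ K) (hZY : Z ≤ K * Y) (hε : 0 ≤ ε) (hθ : 0 ≤ θ) :
    (D * (ρ * (T * H) * (1 + (T * H) ^ 2 / Y)) ^ ε *
      (Real.sqrt (T * H) * a + (T * H) ^ α * c * ((T * H) ^ 2 / Y) ^ θ)) ^ 2 ≤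
    2 * K ^ (2 * ε + 2 * θ) * (D ^ 2 * ρ ^ (2 * ε) * (H * (1 + H ^ 2 / Z)) ^ (2 * ε)) *
      (T ^ (6 * ε + 1) * (H * a ^ 2) +
        T ^ (6 * ε + (2 * α + 4 * θ)) * (H ^ (2 * α + 4 * θ) * Z ^ (-2 * θ) * c ^ 2)) := by
  have hT0 : 0 < T := by linarith
  have hK0 : 0 < K := by linarith
  have y : Y⁻¹ ≤ K * Z⁻¹ := by
    rw [← div_eq_mul_inv, inv_eq_one_div, div_le_div_iff₀ hY hZ]; linarith
  have i1 : ρ * (T * H) * (1 + (T * H) ^ 2 / Y) ≤ K * T ^ 3 * (ρ * (H * (1 + H ^ 2 / Z))) := by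
    have : 1 + (T * H) ^ 2 / Y ≤ K * T ^ 2 * (1 + H ^ 2 / Z) := by
      have a1 : 1 ≤ K * T ^ 2 := one_le_mul_of_one_le_of_one_le hK (one_le_pow₀ hT)
      have a2 : (T * H) ^ 2 * Y⁻¹ ≤ (T * H) ^ 2 * (K * Z⁻¹) := by gcongr
      simp only [div_eq_mul_inv]
      nlinarith
    calc _ ≤ ρ * (T * H) * (K * T ^ 2 * (1 + H ^ 2 / Z)) := by gcongr
      _ = _ := by ring
  have e1 : ((ρ * (T * H) * (1 + (T * H) ^ 2 / Y)) ^ ε) ^ 2 ≤
      K ^ (2 * ε) * T ^ (6 * ε) * (ρ ^ (2 * ε) * (H * (1 + H ^ 2 / Z)) ^ (2 * ε)) := by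
    rw [← Real.rpow_natCast, ← Real.rpow_mul (by positivity), show ε * (2 : ℕ) = 2 * ε by
      push_cast; ring]
    refine (Real.rpow_le_rpow (by positivity) i1 (by positivity)).trans (le_of_eq ?_)
    rw [Real.mul_rpow (by positivity) (by positivity), Real.mul_rpow (by positivity) (by positivity),
      Real.mul_rpow (by positivity) (by positivity), ← Real.rpow_natCast T,
      ← Real.rpow_mul hT0.le, show ((3 : ℕ) : ℝ) * (2 * ε) = 6 * ε by push_cast; ring]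
  have e2 : ((T * H) ^ α * ((T * H) ^ 2 / Y) ^ θ) ^ 2 ≤
      K ^ (2 * θ) * (T ^ (2 * α + 4 * θ) * (H ^ (2 * α + 4 * θ) * Z ^ (-2 * θ))) := by
    have : ((T * H) ^ 2 / Y) ^ θ ≤ ((T * H) ^ 2 * (K * Z⁻¹)) ^ θ :=
      Real.rpow_le_rpow (by positivity) (by rw [div_eq_mul_inv]; gcongr) hθ
    refine (pow_le_pow_left₀ (by positivity) (mul_le_mul_of_nonneg_left this (by positivity)) 2).trans
      (le_of_eq ?_)
    have hTH : 0 < T * H := by positivity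
    rw [Real.rpow_def_of_pos hTH, Real.rpow_def_of_pos (by positivity), Real.rpow_def_of_pos hK0,
      Real.rpow_def_of_pos hT0, Real.rpow_def_of_pos hH, Real.rpow_def_of_pos hZ,
      Real.log_mul (by positivity) (by positivity), Real.log_mul (by positivity) (by positivity),
      Real.log_mul (by positivity) (by positivity), Real.log_pow, Real.log_inv,
      Real.log_mul (by positivity) (by positivity), ← Real.exp_add, ← Real.exp_nat_mul,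
      ← Real.exp_add, ← Real.exp_add, ← Real.exp_add]
    congr 1
    push_cast
    ring
  have k1 : 1 ≤ K ^ (2 * θ) := Real.one_le_rpow hK (by positivity)
  have e3 : (Real.sqrt (T * H) * a + (T * H) ^ α * c * ((T * H) ^ 2 / Y) ^ θ) ^ 2 ≤
      2 * (K ^ (2 * θ) * (T * (H * a ^ 2) +
        T ^ (2 * α + 4 * θ) * (H ^ (2 * α + 4 * θ) * Z ^ (-2 * θ) * c ^ 2))) := by
    have s := Real.sq_sqrt (show 0 ≤ T * H by positivity)
    have a1 := mul_le_mul_of_nonneg_right e2 (sq_nonneg c)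
    have a2 : T * (H * a ^ 2) ≤ K ^ (2 * θ) * (T * (H * a ^ 2)) :=
      le_mul_of_one_le_left (by positivity) k1
    have a3 := sq_nonneg (Real.sqrt (T * H) * a - (T * H) ^ α * c * ((T * H) ^ 2 / Y) ^ θ)
    have a4 : (Real.sqrt (T * H) * a) ^ 2 = T * (H * a ^ 2) := by rw [mul_pow, s]; ring
    nlinarith
  rw [mul_pow, mul_pow, Real.rpow_add hK0, Real.rpow_add hT0, Real.rpow_add hT0 (6 * ε),
    Real.rpow_one]
  calc _ ≤ D ^ 2 * (K ^ (2 * ε) * T ^ (6 * ε) * (ρ ^ (2 * ε) * (H * (1 + H ^ 2 / Z)) ^ (2 * ε))) *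
      (2 * (K ^ (2 * θ) * (T * (H * a ^ 2) +
        T ^ (2 * α + 4 * θ) * (H ^ (2 * α + 4 * θ) * Z ^ (-2 * θ) * c ^ 2)))) := by gcongr
    _ = _ := by ring

lemma sg_ge : 1 ≤ sg := by
  unfold sg
  nlinarith [Real.pi_gt_three]

lemma tpow {T H x y : ℝ} (hT : 1 ≤ T) (hTH : 1 ≤ T * H) (hy : 0 ≤ y) (h : x ≤ -1 / 8 - y) :
    T ^ x ≤ T ^ (-1 / 8 : ℝ) * min 1 H ^ y := by
  have hT0 : 0 < T := by linarith
  have a : T⁻¹ ≤ min 1 H := le_min (inv_le_one_of_one_le₀ hT) (by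
    rw [inv_le_iff_one_le_mul₀' hT0]; exact hTH)
  calc T ^ x ≤ T ^ (-1 / 8 - y) := Real.rpow_le_rpow_of_exponent_le hT h
    _ = T ^ (-1 / 8 : ℝ) * T⁻¹ ^ y := by
        rw [sub_eq_add_neg, Real.rpow_add hT0, Real.inv_rpow hT0.le, Real.rpow_neg hT0.le y]
    _ ≤ _ := by gcongr

end PS4M

open PS4M in
theorem ps4S (hB : Bas) (hΓ : GAM) : PS4Stmt := by
  intro p ε α θ hε hε' hα hθ hγ
  obtain ⟨G0, hG0, g0⟩ := gam_int hΓ hε (2 * p)
  obtain ⟨G4, hG4, g4⟩ := gam_int hΓ (σ := 4) (by norm_num) (2 * p)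
  obtain ⟨q, hq⟩ : ∃ q : ℝ, q = 2 ^ (-1 / 8 : ℝ) := ⟨_, rfl⟩
  have q0 : 0 ≤ q := by rw [hq]; positivity
  have q1 : q < 1 := hq ▸ Real.rpow_lt_one_of_one_lt_of_neg one_lt_two (by norm_num)
  have q2 : 0 < 1 - q := sub_pos.2 q1
  obtain ⟨K, hK⟩ : ∃ K : ℝ, K = Real.exp (-((ε - 1 / 2) / 2)) := ⟨_, rfl⟩
  have K1 : 1 ≤ K := hK ▸ Real.one_le_exp (by linarith)
  obtain ⟨C0, hC0⟩ : ∃ C0 : ℝ,
    C0 = 32 * Real.exp ((ε - 1 / 2) ^ 2 / 4) ^ 2 * K ^ (2 * ε + 2 * θ) * G0 := ⟨_, rfl⟩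
  obtain ⟨C4, hC4⟩ : ∃ C4 : ℝ, C4 = 512 * Real.exp ((4 - 1 / 2) ^ 2 / 4) ^ 2 * G4 := ⟨_, rfl⟩
  have c0 : 0 ≤ C0 := by rw [hC0]; positivity
  have c4 : 0 ≤ C4 := by rw [hC4]; positivity
  refine ⟨C0 + C4 * (1 - q)⁻¹, by positivity, ?_⟩
  intro κ J D a c s r φ Z M H t hF hs hφ hZ hM hH
  have H0 : 0 < H := by rw [hH]; positivity
  have ρ0 : 0 ≤ rd s := Finset.prod_nonneg fun _ _ => Nat.cast_nonneg _
  have μ0 : 0 < min 1 H := lt_min one_pos H0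
  have N1 : ∀ h, Fm s h → 1 ≤ N h := fun h hh => hB.b1.N_one_le _ (hB.b2.ne _ hh.1.1)
  obtain ⟨R, hR⟩ : ∃ R : ℝ, R = D ^ 2 * Z⁻¹ * rd s ^ (2 * ε) * ((1 + H) * (1 + H ^ 2 / Z)) ^ (3 * ε) *
      min 1 H ^ (1 / 4 : ℝ) * (H * min 1 H * mw a s ^ 2 +
        H ^ (2 * α + 4 * θ) * Z ^ (-2 * θ) * mw c s ^ 2) * (1 + |t|) ^ (2 * p) := ⟨_, rfl⟩
  have R0 : 0 ≤ R := by rw [hR]; positivity
  have X1 : 1 ≤ 1 + H ^ 2 / Z := le_add_of_nonneg_right (by positivity)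
  have X2 : 1 ≤ (1 + H) * (1 + H ^ 2 / Z) := one_le_mul_of_one_le_of_one_le (by linarith) X1
  have X3 : (H * (1 + H ^ 2 / Z)) ^ (2 * ε) ≤ ((1 + H) * (1 + H ^ 2 / Z)) ^ (2 * ε) := by
    gcongr; linarith
  let F : ℝ → O → ENNReal := fun σ h => ∫⁻ u : ℝ, ‖Gamma (σ + u * I)‖ₑ *
    ENNReal.ofReal ((sg * M * N h) ^ (-σ)) *
    ENNReal.ofReal ((Z ^ (σ - 1 / 2) * Real.exp ((σ - 1 / 2) ^ 2 / 4) *
      ‖TT J r (tw κ h s (φ h)) (Z * Real.exp ((σ - 1 / 2) / 2)) (1 / 2 + (t - u : ℝ) * I)‖) ^ 2)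
  have wt : ∀ (σ x : ℝ) (h : O), 0 ≤ σ → 0 < x → x ≤ N h → (sg * M * N h) ^ (-σ) ≤ (M * x) ^ (-σ) := by
    intro σ x h hσ hx hh
    refine Real.rpow_le_rpow_of_nonpos (by positivity) ?_ (by linarith)
    calc M * x ≤ M * N h := by gcongr
      _ ≤ sg * (M * N h) := le_mul_of_one_le_left (mul_nonneg hM.le (hx.le.trans hh)) sg_ge
      _ = _ := by ring
  have b0 : (∑' h : O, if Fm s h ∧ N h ≤ H then F ε h else 0) ≤ ENNReal.ofReal (C0 * R) := by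
    by_cases h1 : 1 ≤ H
    swap
    · rw [ENNReal.tsum_eq_zero.2 fun h => if_neg fun d => h1 ((N1 h d.1).trans d.2)]
      exact zero_le
    have Y0 : 0 < Z * Real.exp ((ε - 1 / 2) / 2) := by positivity
    refine (blk hB (fun τ => hF s H _ τ hs h1 Y0) hφ (fun h => Fm s h ∧ N h ≤ H) _
      (fun h hh => ⟨hh, wt ε 1 h hε.le one_pos (N1 h hh.1)⟩) (by positivity) g0).trans
      (ENNReal.ofReal_le_ofReal ?_)
    have e := sqB (D := D) (α := α) (T := 1) (mw a s) (mw c s) ρ0 H0 hZ Y0 le_rfl K1 (by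
      rw [hK, mul_left_comm, ← Real.exp_add]; simp) hε.le hθ
    simp only [one_mul, Real.one_rpow] at e
    have w : (M * 1) ^ (-ε) * (Z ^ (ε - 1 / 2)) ^ 2 = H ^ ε * Z⁻¹ := by
      rw [mul_one, hH, Real.rpow_def_of_pos hM, Real.rpow_def_of_pos hZ,
        Real.rpow_def_of_pos (by positivity), Real.log_div (by positivity) hM.ne', Real.log_pow,
        ← Real.exp_log hZ, Real.log_exp, ← Real.exp_neg, ← Real.exp_nat_mul, ← Real.exp_add,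
        ← Real.exp_add]
      congr 1
      push_cast
      ring
    have x : H ^ ε * (H * (1 + H ^ 2 / Z)) ^ (2 * ε) ≤ ((1 + H) * (1 + H ^ 2 / Z)) ^ (3 * ε) := by
      rw [show 3 * ε = ε + 2 * ε by ring, Real.rpow_add (by positivity)]
      gcongr
      nlinarith
    rw [hC0, hR, min_eq_left h1, Real.one_rpow]
    calc _ ≤ 16 * ((M * 1) ^ (-ε) * (Z ^ (ε - 1 / 2) * Real.exp ((ε - 1 / 2) ^ 2 / 4)) ^ 2 *
          (2 * K ^ (2 * ε + 2 * θ) * (D ^ 2 * rd s ^ (2 * ε) * (H * (1 + H ^ 2 / Z)) ^ (2 * ε)) *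
          (H * mw a s ^ 2 + H ^ (2 * α + 4 * θ) * Z ^ (-2 * θ) * mw c s ^ 2))) *
          (1 + |t|) ^ (2 * p) * G0 := by gcongr
      _ = 32 * Real.exp ((ε - 1 / 2) ^ 2 / 4) ^ 2 * K ^ (2 * ε + 2 * θ) * G0 *
          (D ^ 2 * Z⁻¹ * rd s ^ (2 * ε) * (H ^ ε * (H * (1 + H ^ 2 / Z)) ^ (2 * ε)) * 1 *
          (H * 1 * mw a s ^ 2 + H ^ (2 * α + 4 * θ) * Z ^ (-2 * θ) * mw c s ^ 2) *
          (1 + |t|) ^ (2 * p)) := by
          linear_combination (32 * Real.exp ((ε - 1 / 2) ^ 2 / 4) ^ 2 * K ^ (2 * ε + 2 * θ) * G0 *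
            (D ^ 2 * rd s ^ (2 * ε) * (H * (1 + H ^ 2 / Z)) ^ (2 * ε) *
            (H * mw a s ^ 2 + H ^ (2 * α + 4 * θ) * Z ^ (-2 * θ) * mw c s ^ 2) *
            (1 + |t|) ^ (2 * p))) * w
      _ ≤ _ := by gcongr
  have bj : ∀ j : ℕ, (∑' h : O, if Fm s h ∧ 2 ^ j * H ≤ N h ∧ N h ≤ 2 ^ (j + 1) * H then F 4 h
      else 0) ≤ ENNReal.ofReal (C4 * R * q ^ j) := by
    intro j
    by_cases h1 : 1 ≤ 2 ^ (j + 1) * H
    swap
    · rw [ENNReal.tsum_eq_zero.2 fun h => if_neg fun d => h1 ((N1 h d.1).trans d.2.2)]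
      exact zero_le
    have Y0 : 0 < Z * Real.exp ((4 - 1 / 2) / 2) := by positivity
    have T1 : (1 : ℝ) ≤ 2 ^ (j + 1) := one_le_pow₀ one_le_two
    refine (blk hB (fun τ => hF s _ _ τ hs h1 Y0) hφ
      (fun h => Fm s h ∧ 2 ^ j * H ≤ N h ∧ N h ≤ 2 ^ (j + 1) * H) _
      (fun h hh => ⟨⟨hh.1, hh.2.2⟩, wt 4 _ h (by norm_num) (by positivity) hh.2.1⟩)
      (by positivity) g4).trans (ENNReal.ofReal_le_ofReal ?_)
    have e := sqB (D := D) (α := α) (mw a s) (mw c s) ρ0 H0 hZ Y0 T1 le_rfl (by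
      rw [one_mul]; exact le_mul_of_one_le_right hZ.le (Real.one_le_exp (by norm_num))) hε.le hθ
    have tq : ((2 : ℝ) ^ (j + 1)) ^ (-1 / 8 : ℝ) ≤ q ^ j := by
      rw [hq, ← Real.rpow_natCast, ← Real.rpow_natCast, ← Real.rpow_mul (by norm_num),
        ← Real.rpow_mul (by norm_num)]
      refine Real.rpow_le_rpow_of_exponent_le one_le_two ?_
      push_cast
      linarith
    have w : (M * (2 ^ j * H)) ^ (-(4 : ℝ)) * (Z ^ ((4 : ℝ) - 1 / 2)) ^ 2 =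
        16 * ((2 : ℝ) ^ (j + 1)) ^ (-4 : ℝ) * Z⁻¹ := by
      have e7 : (Z ^ ((4 : ℝ) - 1 / 2)) ^ 2 = Z ^ 7 := by
        rw [← Real.rpow_natCast, ← Real.rpow_mul hZ.le, ← Real.rpow_natCast]; norm_num
      rw [e7, hH, Real.rpow_neg (by positivity), Real.rpow_neg (by positivity)]
      norm_cast
      push_cast
      field_simp
      ring
    generalize (2 : ℝ) ^ (j + 1) = T at *
    have T0 : 0 < T := by linarith
    have t1 : T ^ (-4 : ℝ) * T ^ (6 * ε + 1) ≤ q ^ j * (min 1 H ^ (1 / 4 : ℝ) * min 1 H) := by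
      rw [← Real.rpow_add T0, ← Real.rpow_add_one μ0.ne']
      exact (tpow (y := 1 / 4 + 1) T1 h1 (by norm_num) (by linarith)).trans (by gcongr)
    have t2 : T ^ (-4 : ℝ) * T ^ (6 * ε + (2 * α + 4 * θ)) ≤ q ^ j * min 1 H ^ (1 / 4 : ℝ) := by
      rw [← Real.rpow_add T0]
      exact (tpow (y := 1 / 4) T1 h1 (by norm_num) (by linarith)).trans (by gcongr)
    have x : (H * (1 + H ^ 2 / Z)) ^ (2 * ε) ≤ ((1 + H) * (1 + H ^ 2 / Z)) ^ (3 * ε) :=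
      X3.trans (Real.rpow_le_rpow_of_exponent_le X2 (by linarith))
    rw [Real.one_rpow] at e
    rw [hC4, hR]
    calc _ ≤ 16 * ((M * (2 ^ j * H)) ^ (-(4 : ℝ)) *
          (Z ^ ((4 : ℝ) - 1 / 2) * Real.exp ((4 - 1 / 2) ^ 2 / 4)) ^ 2 *
          (2 * 1 * (D ^ 2 * rd s ^ (2 * ε) * (H * (1 + H ^ 2 / Z)) ^ (2 * ε)) *
          (T ^ (6 * ε + 1) * (H * mw a s ^ 2) + T ^ (6 * ε + (2 * α + 4 * θ)) *
            (H ^ (2 * α + 4 * θ) * Z ^ (-2 * θ) * mw c s ^ 2)))) * (1 + |t|) ^ (2 * p) * G4 := by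
          gcongr
      _ = 512 * Real.exp ((4 - 1 / 2) ^ 2 / 4) ^ 2 * G4 *
          (D ^ 2 * Z⁻¹ * rd s ^ (2 * ε) * (H * (1 + H ^ 2 / Z)) ^ (2 * ε) *
          (T ^ (-4 : ℝ) * T ^ (6 * ε + 1) * (H * mw a s ^ 2) +
            T ^ (-4 : ℝ) * T ^ (6 * ε + (2 * α + 4 * θ)) *
              (H ^ (2 * α + 4 * θ) * Z ^ (-2 * θ) * mw c s ^ 2)) * (1 + |t|) ^ (2 * p)) := by
          linear_combination (32 * Real.exp ((4 - 1 / 2) ^ 2 / 4) ^ 2 * G4 *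
            (D ^ 2 * rd s ^ (2 * ε) * (H * (1 + H ^ 2 / Z)) ^ (2 * ε) *
            (T ^ (6 * ε + 1) * (H * mw a s ^ 2) + T ^ (6 * ε + (2 * α + 4 * θ)) *
              (H ^ (2 * α + 4 * θ) * Z ^ (-2 * θ) * mw c s ^ 2)) * (1 + |t|) ^ (2 * p))) * w
      _ ≤ 512 * Real.exp ((4 - 1 / 2) ^ 2 / 4) ^ 2 * G4 *
          (D ^ 2 * Z⁻¹ * rd s ^ (2 * ε) * ((1 + H) * (1 + H ^ 2 / Z)) ^ (3 * ε) *
          (q ^ j * (min 1 H ^ (1 / 4 : ℝ) * min 1 H) * (H * mw a s ^ 2) +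
            q ^ j * min 1 H ^ (1 / 4 : ℝ) *
              (H ^ (2 * α + 4 * θ) * Z ^ (-2 * θ) * mw c s ^ 2)) * (1 + |t|) ^ (2 * p)) := by
          gcongr
      _ = _ := by ring
  have split : ∀ h : O, (if Fm s h then F (if N h ≤ H then ε else 4) h else 0) ≤
      (if Fm s h ∧ N h ≤ H then F ε h else 0) + ∑' j : ℕ,
        if Fm s h ∧ 2 ^ j * H ≤ N h ∧ N h ≤ 2 ^ (j + 1) * H then F 4 h else 0 := by
    intro h
    by_cases d : Fm s h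
    swap
    · rw [if_neg d]; exact zero_le
    by_cases d' : N h ≤ H
    · rw [if_pos d, if_pos d', if_pos ⟨d, d'⟩]; exact le_self_add
    · obtain ⟨j, j1, j2⟩ := exists_nat_pow_near ((one_le_div H0).2 (not_le.1 d').le) one_lt_two
      rw [if_pos d, if_neg d']
      refine le_add_left (le_trans ?_ (ENNReal.le_tsum j))
      rw [if_pos ⟨d, (le_div_iff₀ H0).1 j1, ((div_lt_iff₀ H0).1 j2).le⟩]
  refine (ENNReal.tsum_le_tsum split).trans ?_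
  rw [ENNReal.tsum_add, ENNReal.tsum_comm]
  refine (add_le_add b0 (ENNReal.tsum_le_tsum bj)).trans (le_of_eq ?_)
  rw [← ENNReal.ofReal_tsum_of_nonneg (fun j => by positivity)
    ((summable_geometric_of_lt_one q0 q1).mul_left _), tsum_mul_left,
    tsum_geometric_of_lt_one q0 q1, ← ENNReal.ofReal_add (by positivity) (by positivity), hR]
  congr 1
  ring

end Vale.Agent.P026
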