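import Vale.Agent.P026.Stm1

/-! P026, module B2: primary elements. -/

noncomputable section
open Complex
open scoped Classical ComplexConjugate

namespace Vale.Agent.P026

namespace B2M

theorem dvd3 (z : O) : (3 : O) ∣ z ↔ (3 : ℤ) ∣ z.re ∧ (3 : ℤ) ∣ z.im :=
  QuadraticAlgebra.algebraMap_dvd_iff (r := (3 : ℤ)) (z := z)

theorem prim_iff (z : O) : Prim z ↔ (3 : ℤ) ∣ z.re - 1 ∧ (3 : ℤ) ∣ z.im := by
  rw [Prim, dvd3]
  simp [QuadraticAlgebra.re_one, QuadraticAlgebra.im_one]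

theorem one : Prim 1 := by simp [Prim]

theorem mul (a b : O) (ha : Prim a) (hb : Prim b) : Prim (a * b) := by
  obtain ⟨x, hx⟩ := ha
  obtain ⟨y, hy⟩ := hb
  exact ⟨x * b + y, by linear_combination b * hx + hy⟩

theorem pow (a : O) (k : ℕ) (ha : Prim a) : Prim (a ^ k) := by
  induction k with
  | zero => simpa using one
  | succ k ih => rw [pow_succ]; exact mul _ _ ih ha

theorem cancel (a b : O) (ha : Prim a) (hb : Prim (a * b)) : Prim b := by
  obtain ⟨x, hx⟩ := ha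
  obtain ⟨y, hy⟩ := hb
  exact ⟨y - x * b, by linear_combination hy - b * hx⟩

theorem ne (a : O) (ha : Prim a) : a ≠ 0 := by
  rintro rfl
  rw [prim_iff] at ha
  simp at ha

theorem cop (a : O) (ha : Prim a) : IsCoprime a 3 := by
  obtain ⟨x, hx⟩ := ha
  exact ⟨1, -x, by linear_combination hx⟩

theorem cop_iff (h1 : B1) (a : O) : IsCoprime a 3 ↔ ¬ lam ∣ a := by
  rw [← IsCoprime.neg_right_iff, ← h1.lam_sq, IsCoprime.pow_right_iff two_pos, isCoprime_comm,
    h1.prime_lam.coprime_iff_not_dvd]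

theorem lam_dvd (a : O) (h : (3 : ℤ) ∣ a.re + a.im) : lam ∣ a := by
  obtain ⟨k, hk⟩ := h
  refine ⟨⟨a.im - k, a.im - 2 * k⟩, ?_⟩
  ext <;> simp [lam] <;> omega

theorem ex (h1 : B1) (a : O) (ha : IsCoprime a 3) : ∃ u, IsUnit u ∧ Prim (u * a) := by
  have h : ¬ (3 : ℤ) ∣ a.re + a.im := fun h => (cop_iff h1 a).1 ha (lam_dvd a h)
  have hu : ∀ x y : ℤ, x ^ 2 - x * y + y ^ 2 = 1 → (3 : ℤ) ∣ x * a.re - y * a.im - 1 →
      (3 : ℤ) ∣ x * a.im + y * a.re - y * a.im → ∃ u, IsUnit u ∧ Prim (u * a) :=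
    fun x y h0 h2 h3 => ⟨⟨x, y⟩, (h1.unit_iff _).2 (by simp [Nn, nz, h0]), by
      rw [prim_iff]
      refine ⟨by convert h2 using 1; simp; ring, by convert h3 using 1; simp; ring⟩⟩
  have h2 : a.re % 3 = 0 ∨ a.re % 3 = 1 ∨ a.re % 3 = 2 := by omega
  have h3 : a.im % 3 = 0 ∨ a.im % 3 = 1 ∨ a.im % 3 = 2 := by omega
  rcases h2 with h2 | h2 | h2 <;> rcases h3 with h3 | h3 | h3 <;>
    first
    | (exfalso; omega)
    | exact hu 1 0 (by norm_num) (by omega) (by omega)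
    | exact hu (-1) 0 (by norm_num) (by omega) (by omega)
    | exact hu 0 1 (by norm_num) (by omega) (by omega)
    | exact hu 0 (-1) (by norm_num) (by omega) (by omega)
    | exact hu 1 1 (by norm_num) (by omega) (by omega)
    | exact hu (-1) (-1) (by norm_num) (by omega) (by omega)

theorem unit_one (h1 : B1) (u : O) (hu : IsUnit u) (h : Prim u) : u = 1 := by
  rw [h1.units] at hu
  simp only [Finset.mem_insert, Finset.mem_singleton] at hu
  rw [prim_iff] at h
  rcases hu with rfl | rfl | rfl | rfl | rfl | rfl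
  · rfl
  all_goals
    exfalso
    simp [wO, pow_two, QuadraticAlgebra.re_one, QuadraticAlgebra.im_one] at h
    try omega

theorem uniq (h1 : B1) (a b : O) (ha : Prim a) (hb : Prim b) (h : Associated a b) : a = b := by
  obtain ⟨u, rfl⟩ := h
  rw [unit_one h1 u u.isUnit (cancel _ _ ha hb), mul_one]

theorem dec (h1 : B1) (a : O) (ha : a ≠ 0) :
    ∃ (e : O) (v : ℕ) (D : O), IsUnit e ∧ Prim D ∧ a = e * lam ^ v * D := by
  obtain ⟨v, b, hb, rfl⟩ := WfDvdMonoid.max_power_factor ha h1.prime_lam.irreducible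
  obtain ⟨_, ⟨u, rfl⟩, hu⟩ := ex h1 b ((cop_iff h1 b).2 hb)
  refine ⟨↑u⁻¹, v, u * b, Units.isUnit _, hu, ?_⟩
  linear_combination (-lam ^ v * b) * u.inv_mul

theorem dec_uniq (h1 : B1) (e e' : O) (v v' : ℕ) (D D' : O) (he : IsUnit e) (he' : IsUnit e')
    (hD : Prim D) (hD' : Prim D') (h : e * lam ^ v * D = e' * lam ^ v' * D') :
    e = e' ∧ v = v' ∧ D = D' := by
  have key : ∀ (e e' : O) (v k : ℕ) (D D' : O), IsUnit e → Prim D →
      e * lam ^ v * D ≠ e' * lam ^ (v + k + 1) * D' := fun e e' v k D D' he hD h => by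
    have h2 : e * D = lam * (e' * lam ^ k * D') :=
      mul_left_cancel₀ (pow_ne_zero v h1.prime_lam.ne_zero) (by linear_combination h)
    exact (cop_iff h1 D).1 (cop D hD) (he.dvd_mul_left.1 ⟨_, h2⟩)
  obtain rfl : v = v' := by
    rcases lt_trichotomy v v' with h2 | h2 | h2
    · obtain ⟨k, rfl⟩ := Nat.exists_eq_add_of_lt h2
      exact absurd h (key _ _ _ _ _ _ he hD)
    · exact h2
    · obtain ⟨k, rfl⟩ := Nat.exists_eq_add_of_lt h2
      exact absurd h.symm (key _ _ _ _ _ _ he' hD')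
  have h2 : e * D = e' * D' :=
    mul_left_cancel₀ (pow_ne_zero v h1.prime_lam.ne_zero) (by linear_combination h)
  obtain rfl : D = D' := uniq h1 _ _ hD hD'
    ((associated_unit_mul_right D e he).trans (h2 ▸ associated_unit_mul_left D' e' he'))
  exact ⟨mul_right_cancel₀ (ne D hD) h2, rfl, rfl⟩

theorem split (h1 : B1) {x y u : O} (hu : IsUnit u) (h : Prim (u * (x * y))) :
    ∃ u1 u2, IsUnit u1 ∧ IsUnit u2 ∧ Prim (u1 * x) ∧ Prim (u2 * y) ∧
      u * (x * y) = u1 * x * (u2 * y) := by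
  have hc := (cop _ h).of_mul_left_right
  obtain ⟨u1, hu1, h2⟩ := ex h1 x hc.of_mul_left_left
  obtain ⟨u2, hu2, h3⟩ := ex h1 y hc.of_mul_left_right
  refine ⟨u1, u2, hu1, hu2, h2, h3, uniq h1 _ _ h (mul _ _ h2 h3) ?_⟩
  exact (associated_unit_mul_left _ _ hu).trans
    ((associated_unit_mul_right x u1 hu1).mul_mul (associated_unit_mul_right y u2 hu2))

theorem ind1 (h1 : B1) (P : O → Prop) (h0 : P 1)
    (hs : ∀ p a, Prime p → Prim p → Prim a → P a → P (p * a)) (c : O) (hc : Prim c) : P c := by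
  have key : ∀ c u, IsUnit u → Prim (u * c) → P (u * c) := fun c => by
    refine UniqueFactorizationMonoid.induction_on_prime c (fun u _ h => ?_) (fun x hx u hu h => ?_)
      fun a p _ hp ih u hu h => ?_
    · exact absurd (mul_zero u) (ne _ h)
    · rwa [unit_one h1 _ (hu.mul hx) h]
    · obtain ⟨u1, u2, hu1, hu2, h2, h3, h4⟩ := split h1 hu h
      rw [h4]
      exact hs _ _ ((associated_unit_mul_right p u1 hu1).prime hp) h2 h3 (ih u2 hu2 h3)
  simpa using key c 1 isUnit_one (by simpa using hc)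

theorem ind (h1 : B1) (P : O → Prop) (h0 : P 1)
    (hp : ∀ p (k : ℕ), Prime p → Prim p → P (p ^ k))
    (hm : ∀ a b, Prim a → Prim b → IsCoprime a b → P a → P b → P (a * b)) (c : O) (hc : Prim c) :
    P c := by
  have key : ∀ c u, IsUnit u → Prim (u * c) → P (u * c) := fun c => by
    refine UniqueFactorizationMonoid.induction_on_coprime
      (P := fun c => ∀ u, IsUnit u → Prim (u * c) → P (u * c)) c (fun u _ h => ?_)
      (fun hx u hu h => ?_) (fun {p} i hp' u hu h => ?_) fun {x y} hxy ihx ihy u hu h => ?_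
    · exact absurd (mul_zero u) (ne _ h)
    · rwa [unit_one h1 _ (hu.mul hx) h]
    · rcases i with _ | i
      · rwa [unit_one h1 _ (hu.mul (by simp)) h]
      obtain ⟨u1, hu1, h2⟩ := ex h1 p
        ((IsCoprime.pow_left_iff i.succ_pos).1 (cop _ h).of_mul_left_right)
      rw [uniq h1 _ _ h (pow _ (i + 1) h2) ((associated_unit_mul_left _ _ hu).trans
        ((associated_unit_mul_right p u1 hu1).pow_pow))]
      exact hp _ _ ((associated_unit_mul_right p u1 hu1).prime hp') h2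
    · obtain ⟨u1, u2, hu1, hu2, h2, h3, h4⟩ := split h1 hu h
      rw [h4]
      refine hm _ _ h2 h3 ?_ (ihx u1 hu1 h2) (ihy u2 hu2 h3)
      exact (isCoprime_mul_units_left hu1 hu2 x y).2 hxy.isCoprime
  simpa using key c 1 isUnit_one (by simpa using hc)

theorem gcd (h1 : B1) (c d : O) (hc : Prim c) :
    ∃ g c1 d1, Prim g ∧ Prim c1 ∧ c = g * c1 ∧ d = g * d1 ∧ IsCoprime c1 d1 := by
  obtain ⟨a, b, g, hab, rfl, rfl⟩ := UniqueFactorizationMonoid.exists_reduced_factors c (ne c hc) d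
  obtain ⟨_, ⟨u, rfl⟩, hu⟩ := ex h1 g (cop _ hc).of_mul_left_left
  have e : ∀ z : O, g * z = u * g * (↑u⁻¹ * z) := fun z => by
    linear_combination (-g * z) * u.mul_inv
  exact ⟨u * g, ↑u⁻¹ * a, ↑u⁻¹ * b, hu, cancel _ _ hu (e a ▸ hc), e a, e b,
    (isCoprime_mul_units_left (Units.isUnit _) (Units.isUnit _) a b).2 hab.isCoprime⟩

theorem N_mod (c : O) (hc : Prim c) : Nn c % 3 = 1 := by
  obtain ⟨⟨x, hx⟩, y, hy⟩ := (prim_iff c).1 hc
  have h : nz c = 3 * (3 * x ^ 2 + 2 * x - 3 * x * y - y + 3 * y ^ 2) + 1 := by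
    rw [nz, hy, show c.re = 3 * x + 1 by omega]
    ring
  have h2 := nz_nonneg c
  rw [Nn]
  omega

theorem tsum_dec (h1 : B1) (f : O → ℂ) (hf : Summable f) : ∑' a, f a = f 0 +
    ∑ e ∈ ({1, -1, wO, -wO, wO ^ 2, -wO ^ 2} : Finset O), ∑' v : ℕ, ∑' D : O,
      if Prim D then f (e * lam ^ v * D) else 0 := by
  generalize hU : ({1, -1, wO, -wO, wO ^ 2, -wO ^ 2} : Finset O) = U
  have hu : ∀ u, IsUnit u ↔ u ∈ U := fun u => hU ▸ h1.units u
  let g : {e // e ∈ U} × ℕ × {D // Prim D} → O := fun x => x.1 * lam ^ x.2.1 * x.2.2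
  have hg : Function.Injective g := by
    rintro ⟨⟨e, he⟩, v, D, hD⟩ ⟨⟨e', he'⟩, v', D', hD'⟩ h
    obtain ⟨rfl, rfl, rfl⟩ := dec_uniq h1 e e' v v' D D' ((hu _).2 he) ((hu _).2 he') hD hD' h
    rfl
  have hs := hf.comp_injective hg
  have h2 : ∑' x, f (g x) = ∑' a, if a = 0 then 0 else f a := by
    rw [← hg.tsum_eq (f := fun a => if a = 0 then 0 else f a)]
    · refine tsum_congr fun x => (if_neg ?_).symm
      exact mul_ne_zero (mul_ne_zero ((hu _).2 x.1.2).ne_zero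
        (pow_ne_zero _ h1.prime_lam.ne_zero)) (ne _ x.2.2.2)
    · intro a ha
      obtain ⟨e, v, D, he, hD, rfl⟩ := dec h1 a fun h => ha (if_pos h)
      exact ⟨(⟨e, (hu _).1 he⟩, v, ⟨D, hD⟩), rfl⟩
  rw [hf.tsum_eq_add_tsum_ite 0, ← h2, ← Finset.tsum_subtype U fun e => ∑' v : ℕ, ∑' D : O,
    if Prim D then f (e * lam ^ v * D) else 0]
  congr 1
  refine hs.tsum_prod.trans (tsum_congr fun e => ?_)
  refine (hs.prod_factor e).tsum_prod.trans (tsum_congr fun v => ?_)
  refine (tsum_subtype {D | Prim D} fun D => f (e * lam ^ v * D)).trans (tsum_congr fun D => ?_)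
  rw [Set.indicator_apply]
  rfl

end B2M

open B2M in
theorem b2S (h1 : B1) : B2 where
  one := one
  mul := mul
  pow := pow
  cancel := cancel
  ne := ne
  cop := cop
  cop_iff := cop_iff h1
  ex := ex h1
  uniq := uniq h1
  dec := dec h1
  dec_uniq := dec_uniq h1
  ind := ind h1
  ind1 := ind1 h1
  gcd := gcd h1
  N_mod := N_mod
  tsum_dec := tsum_dec h1

end Vale.Agent.P026
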