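import Vale.Agent.P026.Stm1

/-! Counting in the Eisenstein integers. -/

noncomputable section
open Complex Finset
open scoped Classical ComplexConjugate

namespace Vale.Agent.P026

namespace B3M

theorem N_cast (a : O) : N a = (a.re : ℝ) ^ 2 - a.re * a.im + (a.im : ℝ) ^ 2 := by
  rw [N, Nn, ← Int.cast_natCast, Int.natAbs_of_nonneg (nz_nonneg a), nz]
  push_cast
  ring

theorem re_le (a : O) : 3 * (a.re : ℝ) ^ 2 ≤ 4 * N a := by
  rw [N_cast]; nlinarith [sq_nonneg ((a.re : ℝ) - 2 * a.im)]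

theorem im_le (a : O) : 3 * (a.im : ℝ) ^ 2 ≤ 4 * N a := by
  rw [N_cast]; nlinarith [sq_nonneg (2 * (a.re : ℝ) - a.im)]

theorem N_nonneg (a : O) : 0 ≤ N a := Nat.cast_nonneg _

def box (m : ℕ) : Finset O :=
  (Icc (-(m : ℤ)) m ×ˢ Icc (-(m : ℤ)) m).image fun p => ⟨p.1, p.2⟩

theorem card_box (m : ℕ) : (box m).card ≤ (2 * m + 1) ^ 2 := by
  refine card_image_le.trans ?_
  rw [card_product, Int.card_Icc, sq]
  have : ((m : ℤ) + 1 - -(m : ℤ)).toNat = 2 * m + 1 := by omega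
  rw [this]

theorem abs_le_of {x : ℤ} {R : ℝ} (h : 3 * (x : ℝ) ^ 2 ≤ 4 * R) :
    x ∈ Icc (-(Nat.sqrt ⌊4 * R / 3⌋₊ : ℤ)) (Nat.sqrt ⌊4 * R / 3⌋₊) := by
  have a : x.natAbs ≤ Nat.sqrt ⌊4 * R / 3⌋₊ := by
    rw [Nat.le_sqrt']
    refine Nat.le_floor ?_
    push_cast
    rw [Nat.cast_natAbs, Int.cast_abs, sq_abs]
    linarith
  rw [mem_Icc]
  omega

theorem mem_box {a : O} {R : ℝ} (h : N a ≤ R) : a ∈ box (Nat.sqrt ⌊4 * R / 3⌋₊) :=
  mem_image.2 ⟨(a.re, a.im), mem_product.2 ⟨abs_le_of (by linarith [re_le a]),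
    abs_le_of (by linarith [im_le a])⟩, rfl⟩

theorem fin (R : ℝ) : {a : O | N a ≤ R}.Finite :=
  (box _).finite_toSet.subset fun _ h => mem_coe.2 (mem_box h)

theorem card_le (h1 : B1) (R : ℝ) (s : Finset O) (h0 : 0 ≤ R) (h : ∀ a ∈ s, a ≠ 0 ∧ N a ≤ R) :
    (s.card : ℝ) ≤ 16 * R := by
  rcases s.eq_empty_or_nonempty with rfl | ⟨a, ha⟩
  · simpa using h0
  have r1 : 1 ≤ R := (h1.N_one_le a (h a ha).1).trans (h a ha).2
  set m := Nat.sqrt ⌊4 * R / 3⌋₊ with hm
  have c1 : s.card ≤ (2 * m + 1) ^ 2 :=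
    (card_le_card fun b hb => mem_box (h b hb).2).trans (card_box m)
  have c2 : ((m ^ 2 : ℕ) : ℝ) ≤ 4 * R / 3 :=
    (Nat.cast_le.2 (Nat.sqrt_le' _)).trans (Nat.floor_le (by linarith))
  have c3 : (s.card : ℝ) ≤ (2 * m + 1) ^ 2 := by exact_mod_cast c1
  push_cast at c2
  nlinarith [sq_nonneg ((m : ℝ) - 1)]

theorem card_ge (R : ℝ) (h : 1 ≤ R) : ∃ s : Finset O, (∀ a ∈ s, (6 : O) ∣ a - 1 ∧ N a ≤ R) ∧
    R / 200 ≤ s.card := by
  set k := Nat.sqrt ⌊R⌋₊ with hk
  have k1 : 1 ≤ k := by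
    rw [hk, Nat.le_sqrt']
    exact Nat.le_floor (by simpa using h)
  have k2 : ((k ^ 2 : ℕ) : ℝ) ≤ R :=
    (Nat.cast_le.2 (Nat.sqrt_le' _)).trans (Nat.floor_le (by linarith))
  have k3 : R < (((k + 1) ^ 2 : ℕ) : ℝ) :=
    (Nat.lt_floor_add_one R).trans_le (by exact_mod_cast Nat.lt_succ_sqrt' ⌊R⌋₊)
  obtain ⟨m, m1, m2⟩ : ∃ m : ℕ, 6 * m ≤ k + 5 ∧ k ≤ 6 * m := ⟨(k + 5) / 6, by omega, by omega⟩
  refine ⟨(range m ×ˢ range m).image fun p => (⟨1 + 6 * p.1, 6 * p.2⟩ : O), fun a ha => ?_, ?_⟩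
  · obtain ⟨⟨u, v⟩, hp, rfl⟩ := mem_image.1 ha
    simp only [mem_product, mem_range] at hp
    refine ⟨⟨⟨u, v⟩, ?_⟩, ?_⟩
    · have : (6 : O) = ⟨6, 0⟩ := rfl
      ext <;> simp [this, QuadraticAlgebra.re_one, QuadraticAlgebra.im_one]
    · rw [N_cast]
      have u1 : 1 + 6 * (u : ℝ) ≤ k := by exact_mod_cast (by omega : 1 + 6 * u ≤ k)
      have v1 : 6 * (v : ℝ) ≤ k := by exact_mod_cast (by omega : 6 * v ≤ k)
      have u0 : (0 : ℝ) ≤ u := Nat.cast_nonneg _
      have v0 : (0 : ℝ) ≤ v := Nat.cast_nonneg _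
      push_cast at k2 ⊢
      rcases le_total (1 + 6 * (u : ℝ)) (6 * v) with c | c <;> nlinarith
  · rw [card_image_of_injective _ fun p q hpq => ?_]
    · have a1 : (k : ℝ) + 1 ≤ 7 * m := by exact_mod_cast (by omega : k + 1 ≤ 7 * m)
      have a0 : (0 : ℝ) ≤ k := Nat.cast_nonneg _
      simp only [card_product, card_range]
      push_cast at k3 ⊢
      nlinarith
    · have a1 := congrArg QuadraticAlgebra.re hpq
      have a2 := congrArg QuadraticAlgebra.im hpq
      simp only at a1 a2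
      exact Prod.ext (by omega) (by omega)

theorem summ (s : ℝ) (hs : 1 < s) : Summable fun a : O => N a ^ (-s) := by
  have hi : Function.Injective fun a : O => (![a.re, a.im] : Fin 2 → ℤ) := fun a b h => by
    ext
    · exact congrFun h 0
    · exact congrFun h 1
  have := ((EisensteinSeries.summable_one_div_norm_rpow (k := 2 * s) (by linarith)).comp_injective
    hi).mul_left ((3 / 4 : ℝ) ^ (-s))
  refine this.of_nonneg_of_le (fun a => Real.rpow_nonneg (N_nonneg a) _) fun a => ?_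
  simp only [Function.comp]
  by_cases ha : a = 0
  · subst ha
    rw [show N 0 = 0 by simp [N, Nn, nz], Real.zero_rpow (by linarith)]
    positivity
  have p : 0 < ‖(![a.re, a.im] : Fin 2 → ℤ)‖ := norm_pos_iff.2 fun h => ha (hi (by
    simp only [h]; ext i; fin_cases i <;> simp))
  rw [show -(2 * s) = (2 : ℕ) * (-s) by push_cast; ring, Real.rpow_natCast_mul p.le,
    ← Real.mul_rpow (by norm_num) (by positivity)]
  refine Real.rpow_le_rpow_of_nonpos (by positivity) ?_ (by linarith)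
  rw [EisensteinSeries.norm_eq_max_natAbs]
  have a1 := re_le a
  have a2 := im_le a
  simp only [Matrix.cons_val_zero, Matrix.cons_val_one, Nat.cast_max, Nat.cast_natAbs,
    Int.cast_abs]
  rcases le_total |(a.re : ℝ)| |(a.im : ℝ)| with c | c
  · rw [max_eq_right c, sq_abs]; linarith
  · rw [max_eq_left c, sq_abs]; linarith

theorem summ' (h1 : B1) (s : ℝ) (hs : 2 < s) : Summable fun a : O => (1 + ‖toC a‖) ^ (-s) := by
  refine ((summ (s / 2) (by linarith)).add (summable_of_ne_finset_zero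
    (f := fun a : O => if a = 0 then (1 : ℝ) else 0) (s := {0})
    fun a ha => if_neg (by simpa using ha))).of_nonneg_of_le (fun a => by positivity) fun a => ?_
  by_cases ha : a = 0
  · subst ha
    have := Real.rpow_nonneg (N_nonneg 0) (-(s / 2))
    simpa using this
  have p : 0 < ‖toC a‖ := norm_pos_iff.2 fun h => ha (h1.inj (by simpa using h))
  rw [if_neg ha, add_zero, h1.N_eq, ← Real.rpow_natCast_mul p.le,
    show ((2 : ℕ) : ℝ) * -(s / 2) = -s by push_cast; ring]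
  exact Real.rpow_le_rpow_of_nonpos p (by linarith) (by linarith)

theorem scale (h1 : B1) (s : ℝ) (hs : 2 < s) : ∃ C, ∀ T : ℝ, 1 ≤ T →
    ∑' a : O, (1 + ‖toC a‖ / T) ^ (-s) ≤ C * T ^ 2 := by
  have hS := summ' h1 s hs
  refine ⟨4 * ((1 / 2 : ℝ) ^ (-s) * ∑' a : O, (1 + ‖toC a‖) ^ (-s)), fun T hT => ?_⟩
  set n : ℕ := ⌈T⌉₊ with hn
  have n1 : T ≤ n := Nat.le_ceil T
  have n2 : (n : ℝ) ≤ 2 * T := by linarith [Nat.ceil_lt_add_one (by linarith : 0 ≤ T)]
  have n0 : (0 : ℝ) < n := by linarith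
  have n0' : (0 : ℤ) < n := by exact_mod_cast n0
  set q : O → O := fun a => ⟨a.re / n, a.im / n⟩ with hq
  set g : O → ℝ := fun a => (1 / 2 : ℝ) ^ (-s) * (1 + ‖toC a‖) ^ (-s) with hg
  have g0 : ∀ a, 0 ≤ g a := fun a => by positivity
  have key : ∀ a : O, (1 + ‖toC a‖ / T) ^ (-s) ≤ g (q a) := fun a => by
    simp only [hg]
    rw [← Real.mul_rpow (by norm_num) (by positivity)]
    refine Real.rpow_le_rpow_of_nonpos (by positivity) ?_ (by linarith)
    have e : (n : O) * q a = a - ⟨a.re % n, a.im % n⟩ := by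
      have : (n : O) = ⟨n, 0⟩ := by ext <;> simp
      rw [this]
      ext <;> simp [hq, Int.emod_def]
    have r : ‖toC ⟨a.re % n, a.im % n⟩‖ ≤ n := by
      refine (sq_le_sq₀ (norm_nonneg _) n0.le).1 ?_
      rw [← h1.N_eq, N_cast]
      have b1 : ((a.re % n : ℤ) : ℝ) ≤ n := by exact_mod_cast (Int.emod_lt_of_pos a.re n0').le
      have b2 : ((a.im % n : ℤ) : ℝ) ≤ n := by exact_mod_cast (Int.emod_lt_of_pos a.im n0').le
      have b3 : (0 : ℝ) ≤ (a.re % n : ℤ) := by exact_mod_cast Int.emod_nonneg a.re n0'.ne'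
      have b4 : (0 : ℝ) ≤ (a.im % n : ℤ) := by exact_mod_cast Int.emod_nonneg a.im n0'.ne'
      rcases le_total ((a.re % n : ℤ) : ℝ) (a.im % n : ℤ) with c | c <;> nlinarith
    have e2 : (n : ℝ) * ‖toC (q a)‖ ≤ ‖toC a‖ + n := by
      have := congrArg (fun z => ‖toC z‖) e
      simp only [map_mul, map_sub, map_natCast, norm_mul, Complex.norm_natCast] at this
      rw [this]
      exact (norm_sub_le _ _).trans (by linarith)
    have e3 : ‖toC a‖ / n ≤ ‖toC a‖ / T := div_le_div_of_nonneg_left (norm_nonneg _) (by linarith) n1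
    have e4 : ‖toC (q a)‖ ≤ ‖toC a‖ / n + 1 := by
      rw [div_add_one n0.ne', le_div_iff₀ n0]; linarith
    have e5 : 0 ≤ ‖toC a‖ / T := by positivity
    linarith
  refine Real.tsum_le_of_sum_le (fun a => by positivity) fun u => ?_
  refine (sum_le_sum fun a _ => key a).trans ?_
  rw [sum_comp g q]
  have fib : ∀ b, ((u.filter fun a => q a = b).card : ℝ) ≤ (n : ℝ) ^ 2 := fun b => by
    have : (u.filter fun a => q a = b).card ≤ (Ico (0 : ℤ) n ×ˢ Ico (0 : ℤ) n).card := by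
      refine card_le_card_of_injOn (fun a => (a.re % n, a.im % n)) (fun a _ => ?_)
        fun a ha a' ha' e => ?_
      · simp only [coe_product, coe_Ico, Set.mem_prod, Set.mem_Ico]
        exact ⟨⟨Int.emod_nonneg _ n0'.ne', Int.emod_lt_of_pos _ n0'⟩,
          Int.emod_nonneg _ n0'.ne', Int.emod_lt_of_pos _ n0'⟩
      · have c := (mem_filter.1 ha).2.trans (mem_filter.1 ha').2.symm
        have c1 : a.re / n = a'.re / n := congrArg QuadraticAlgebra.re c
        have c2 : a.im / n = a'.im / n := congrArg QuadraticAlgebra.im c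
        have c3 : a.re % n = a'.re % n := congrArg Prod.fst e
        have c4 : a.im % n = a'.im % n := congrArg Prod.snd e
        ext
        · rw [← Int.mul_ediv_add_emod a.re n, c1, c3, Int.mul_ediv_add_emod]
        · rw [← Int.mul_ediv_add_emod a.im n, c2, c4, Int.mul_ediv_add_emod]
    rw [card_product, Int.card_Ico] at this
    simp only [sub_zero, Int.toNat_natCast] at this
    rw [sq]
    exact_mod_cast this
  refine (sum_le_sum fun b _ => (nsmul_eq_mul _ _).le.trans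
    (mul_le_mul_of_nonneg_right (fib b) (g0 b))).trans ?_
  rw [← mul_sum, ← tsum_mul_left]
  have a1 := (hS.mul_left ((1 / 2 : ℝ) ^ (-s))).sum_le_tsum (u.image q) fun b _ => g0 b
  have a2 : 0 ≤ ∑ b ∈ u.image q, g b := sum_nonneg fun b _ => g0 b
  have a3 : (n : ℝ) ^ 2 ≤ 4 * T ^ 2 := by nlinarith
  calc (n : ℝ) ^ 2 * ∑ b ∈ u.image q, g b ≤ 4 * T ^ 2 * ∑' b, g b :=
        mul_le_mul a3 a1 a2 (by positivity)
    _ = _ := by ring

theorem div (h1 : B1) (ε : ℝ) (hε : 0 < ε) : ∃ C, ∀ a, a ≠ 0 → ∀ s : Finset O, (∀ d ∈ s, d ∣ a) →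
    (s.card : ℝ) ≤ C * N a ^ ε := by
  set S := (fin ((2 : ℝ) ^ (1 / ε))).toFinset with hS
  have l2 : 0 < Real.log 2 := Real.log_pos one_lt_two
  set c : ℝ := 1 + 1 / (ε * Real.log 2) with hc
  have c1 : 1 ≤ c := by rw [hc]; exact le_add_of_nonneg_right (by positivity)
  have main : ∀ (k : ℕ) (a : O), Nn a = k → a ≠ 0 → ∀ s : Finset O, (∀ d ∈ s, d ∣ a) →
      (s.card : ℝ) ≤ 6 * c ^ (S.filter (· ∣ a)).card * N a ^ ε := by
    intro k
    induction k using Nat.strong_induction_on with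
    | _ k ih =>
    intro a hk ha s hs
    by_cases hu : IsUnit a
    · have a1 : s.card ≤ 6 := (card_le_card fun d hd =>
        (h1.units d).1 (isUnit_of_dvd_unit (hs d hd) hu)).trans card_le_six
      have a2 : (s.card : ℝ) ≤ 6 := by exact_mod_cast a1
      have a3 := one_le_pow₀ (n := (S.filter (· ∣ a)).card) c1
      have a4 := Real.one_le_rpow (h1.N_one_le a ha) hε.le
      nlinarith [mul_le_mul a3 a4 zero_le_one (by linarith)]
    obtain ⟨p, hp, hpa⟩ := WfDvdMonoid.exists_irreducible_factor hu ha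
    obtain ⟨n, b, hb, rfl⟩ := WfDvdMonoid.max_power_factor ha hp
    have b0 : b ≠ 0 := right_ne_zero_of_mul ha
    have n0 : n ≠ 0 := by rintro rfl; exact hb (by simpa using hpa)
    have p2 : (2 : ℝ) ≤ N p := by
      have a1 : 1 ≤ Nn p := by have := h1.N_one_le p hp.ne_zero; rw [N] at this; exact_mod_cast this
      have a2 : Nn p ≠ 1 := fun h => hp.not_isUnit ((h1.unit_iff p).2 h)
      rw [N]; exact_mod_cast (by omega : 2 ≤ Nn p)
    have nb := h1.N_one_le b b0
    have lt : Nn b < k := by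
      have : N b < N (p ^ n * b) := by
        rw [h1.N_mul, h1.N_pow]
        have := one_lt_pow₀ (by linarith : 1 < N p) n0
        nlinarith
      rw [N, N, hk] at this
      exact_mod_cast this
    set t := (fin (N b)).toFinset.filter (· ∣ b) with ht
    have i1 := ih _ lt b rfl b0 t fun d hd => (mem_filter.1 hd).2
    have i2 : s.card ≤ (n + 1) * t.card := by
      rw [← card_range (n + 1), ← card_product]
      refine le_trans (card_le_card fun d hd => ?_)
        (card_image_le (f := fun x : ℕ × O => p ^ x.1 * x.2))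
      obtain ⟨d1, d2, e1, e2, rfl⟩ := exists_dvd_and_dvd_of_dvd_mul (hs d hd)
      obtain ⟨i, hi, u, e3⟩ := (dvd_prime_pow hp.prime n).1 e1
      have e4 : (↑u⁻¹ : O) * d2 ∣ b := (Units.isUnit _).mul_left_dvd.2 e2
      refine mem_image.2 ⟨(i, ↑u⁻¹ * d2), mem_product.2 ⟨mem_range.2 (by omega),
        mem_filter.2 ⟨?_, e4⟩⟩, ?_⟩
      · obtain ⟨w, hw⟩ := e4
        have w0 : w ≠ 0 := by rintro rfl; exact b0 (by simpa using hw)
        rw [Set.Finite.mem_toFinset, Set.mem_ofPred_eq, hw, h1.N_mul _ w]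
        nlinarith [h1.N_one_le w w0, N_nonneg (↑u⁻¹ * d2)]
      · show p ^ i * (↑u⁻¹ * d2) = d1 * d2
        rw [← e3, mul_assoc, Units.mul_inv_cancel_left]
    have i3 : (s.card : ℝ) ≤ (n + 1) * t.card := by exact_mod_cast i2
    have sub : S.filter (· ∣ b) ⊆ S.filter (· ∣ p ^ n * b) := fun d hd =>
      mem_filter.2 ⟨(mem_filter.1 hd).1, (mem_filter.1 hd).2.mul_left _⟩
    have i4 : (n + 1) * c ^ (S.filter (· ∣ b)).card ≤
        c ^ (S.filter (· ∣ p ^ n * b)).card * (N p ^ n) ^ ε := by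
      rw [← Real.rpow_natCast_mul (by linarith), mul_comm (n : ℝ) ε]
      by_cases hpS : p ∈ S
      · have a1 : (S.filter (· ∣ b)).card + 1 ≤ (S.filter (· ∣ p ^ n * b)).card :=
          card_lt_card ⟨sub, fun h => hb (mem_filter.1 (h (mem_filter.2 ⟨hpS, hpa⟩))).2⟩
        have a2 : (n : ℝ) + 1 ≤ c * N p ^ (ε * n) := by
          have a3 : (2 : ℝ) ^ (ε * n) ≤ N p ^ (ε * n) :=
            Real.rpow_le_rpow zero_le_two p2 (by positivity)
          have a4 : Real.log 2 * (ε * n) + 1 ≤ (2 : ℝ) ^ (ε * n) := by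
            rw [Real.rpow_def_of_pos two_pos]; exact Real.add_one_le_exp _
          have a5 : c * (Real.log 2 * (ε * n) + 1) =
              n + 1 + (Real.log 2 * (ε * n) + 1 / (ε * Real.log 2)) := by
            rw [hc]; field_simp; ring
          have a6 : 0 ≤ Real.log 2 * (ε * n) + 1 / (ε * Real.log 2) := by positivity
          nlinarith [mul_le_mul_of_nonneg_left (a4.trans a3) (by linarith : 0 ≤ c)]
        calc _ ≤ c * N p ^ (ε * n) * c ^ (S.filter (· ∣ b)).card := by gcongr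
          _ = c ^ ((S.filter (· ∣ b)).card + 1) * N p ^ (ε * n) := by ring
          _ ≤ _ := by gcongr
      · have a1 : (2 : ℝ) ^ (1 / ε) ≤ N p := le_of_not_ge fun h => hpS (by simpa [hS] using h)
        have a2 : (2 : ℝ) ≤ N p ^ ε := by
          have := Real.rpow_le_rpow (by positivity) a1 hε.le
          rwa [← Real.rpow_mul zero_le_two, one_div_mul_cancel hε.ne', Real.rpow_one] at this
        have a3 : (n : ℝ) + 1 ≤ N p ^ (ε * n) := by
          rw [Real.rpow_mul_natCast (by linarith)]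
          refine le_trans ?_ (pow_le_pow_left₀ zero_le_two a2 n)
          exact_mod_cast Nat.lt_two_pow_self
        rw [mul_comm]
        exact mul_le_mul (pow_le_pow_right₀ c1 (card_le_card sub)) a3 (by positivity)
          (by positivity)
    rw [h1.N_mul, h1.N_pow, Real.mul_rpow (by positivity) (by linarith)]
    calc (s.card : ℝ) ≤ (n + 1) * (6 * c ^ (S.filter (· ∣ b)).card * N b ^ ε) :=
          i3.trans (by gcongr)
      _ = 6 * ((n + 1) * c ^ (S.filter (· ∣ b)).card) * N b ^ ε := by ring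
      _ ≤ 6 * (c ^ (S.filter (· ∣ p ^ n * b)).card * (N p ^ n) ^ ε) * N b ^ ε := by gcongr
      _ = _ := by ring
  refine ⟨6 * c ^ S.card, fun a ha s hs => (main _ a rfl ha s hs).trans ?_⟩
  have := Real.rpow_nonneg (N_nonneg a) ε
  gcongr
  exact filter_subset _ _

end B3M

theorem b3S (h1 : B1) : B3 :=
  ⟨B3M.fin, B3M.card_le h1, B3M.card_ge, B3M.summ, B3M.summ' h1, B3M.scale h1, B3M.div h1⟩

end Vale.Agent.P026
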