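import Vale.Agent.P026.Stm1

/-! P026, module B4: residue systems. -/

noncomputable section
open Complex
open scoped Classical ComplexConjugate

namespace Vale.Agent.P026

namespace B4M

theorem card_q (c : O) : Nat.card (O ⧸ Ideal.span {c}) = Nn c := by
  rw [← Submodule.cardQuot_apply, ← Ideal.absNorm_apply, Ideal.absNorm_span_singleton,
    Algebra.norm_apply]
  have h := QuadraticAlgebra.det_toLinearMap_eq_norm c
  have e : Algebra.lmul ℤ O c = DistribSMul.toLinearMap ℤ O c := LinearMap.ext fun _ => rfl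
  rw [e, h, QuadraticAlgebra.norm_def, Nn, nz]
  congr 1
  ring

theorem fin_q {c : O} (hc : c ≠ 0) : Finite (O ⧸ Ideal.span {c}) :=
  Nat.finite_of_card_ne_zero (by
    rw [card_q, Nn, Int.natAbs_ne_zero]
    exact fun h => hc (nz_eq_zero h))

theorem fin_r {c : O} (hc : c ≠ 0) :
    (Set.range (fun q : O ⧸ Ideal.span {c} => Quotient.out q)).Finite :=
  have := fin_q hc
  Set.finite_range _

theorem mem_Rs {c r : O} (hc : c ≠ 0) :
    r ∈ Rs c ↔ ∃ q : O ⧸ Ideal.span {c}, Quotient.out q = r := by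
  rw [Rs, dif_pos (fin_r hc), Set.Finite.mem_toFinset]
  rfl

theorem card {c : O} (hc : c ≠ 0) : (Rs c).card = Nn c := by
  rw [Rs, dif_pos (fin_r hc), ← card_q, ← Set.ncard_eq_toFinset_card _ (fin_r hc),
    ← Set.image_univ, ← Set.ncard_univ]
  exact Set.ncard_image_of_injective _ Quotient.out_injective

theorem mk_eq {c a b : O} :
    Ideal.Quotient.mk (Ideal.span {c}) a = Ideal.Quotient.mk _ b ↔ c ∣ a - b := by
  rw [Ideal.Quotient.eq, Ideal.mem_span_singleton]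

theorem ex (c a : O) (hc : c ≠ 0) : ∃ r ∈ Rs c, c ∣ a - r :=
  ⟨_, (mem_Rs hc).2 ⟨Ideal.Quotient.mk _ a, rfl⟩, mk_eq.1 (Ideal.Quotient.mk_out _).symm⟩

theorem uniq (c r r' : O) (hc : c ≠ 0) (h : r ∈ Rs c) (h' : r' ∈ Rs c) (hd : c ∣ r - r') :
    r = r' := by
  obtain ⟨q, rfl⟩ := (mem_Rs hc).1 h
  obtain ⟨q', rfl⟩ := (mem_Rs hc).1 h'
  have := mk_eq.2 hd
  rw [Ideal.Quotient.mk_out, Ideal.Quotient.mk_out] at this
  rw [this]

theorem pe_congr (c : O) (F : O → ℂ) (a b : O) (hF : Pe c F) (h : c ∣ a - b) : F a = F b := by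
  obtain ⟨m, hm⟩ := h
  rw [← hF b m, ← hm, add_sub_cancel]

theorem sum_eq (c : O) (F : O → ℂ) {ι : Type} (s : Finset ι) (f : ι → O) (hc : c ≠ 0)
    (hF : Pe c F) (h1 : ∀ a, ∃ i ∈ s, c ∣ a - f i)
    (h2 : ∀ i ∈ s, ∀ j ∈ s, c ∣ f i - f j → i = j) :
    ∑ i ∈ s, F (f i) = ∑ r ∈ Rs c, F r := by
  choose ρ hρ hρ' using fun a => ex c a hc
  refine Finset.sum_bij (fun i _ => ρ (f i)) (fun i _ => hρ _) (fun i hi j hj h => ?_)
    (fun r hr => ?_) fun i _ => pe_congr c F _ _ hF (hρ' _)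
  · refine h2 i hi j hj ?_
    have := dvd_sub (hρ' (f i)) (hρ' (f j))
    rwa [h, sub_sub_sub_cancel_right] at this
  · obtain ⟨i, hi, h⟩ := h1 r
    refine ⟨i, hi, (uniq c _ _ hc hr (hρ _) ?_).symm⟩
    simpa using dvd_add h (hρ' (f i))

theorem affine (c : O) (F : O → ℂ) (u a : O) (hc : c ≠ 0) (hF : Pe c F) (hu : IsCoprime u c) :
    ∑ r ∈ Rs c, F (u * r + a) = ∑ r ∈ Rs c, F r := by
  refine sum_eq c F (Rs c) (fun r => u * r + a) hc hF (fun b => ?_) fun i hi j hj h => ?_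
  · obtain ⟨x, y, hxy⟩ := hu
    obtain ⟨r, hr, m, hm⟩ := ex c (x * (b - a)) hc
    exact ⟨r, hr, u * m + y * (b - a), by linear_combination u * hm - (b - a) * hxy⟩
  · refine uniq c i j hc hi hj (hu.symm.dvd_of_dvd_mul_left ?_)
    convert h using 1
    ring

theorem lift (c1 c2 : O) (F : O → ℂ) (h1 : c1 ≠ 0) (h2 : c2 ≠ 0) (hF : Pe (c1 * c2) F) :
    ∑ r ∈ Rs (c1 * c2), F r = ∑ r1 ∈ Rs c1, ∑ r2 ∈ Rs c2, F (r1 + c1 * r2) := by
  rw [← Finset.sum_product' (f := fun r1 r2 => F (r1 + c1 * r2))]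
  refine (sum_eq (c1 * c2) F (Rs c1 ×ˢ Rs c2) (fun x => x.1 + c1 * x.2) (mul_ne_zero h1 h2) hF
    (fun a => ?_) ?_).symm
  · obtain ⟨r, hr, m, hm⟩ := ex c1 a h1
    obtain ⟨r', hr', m', hm'⟩ := ex c2 m h2
    exact ⟨(r, r'), Finset.mem_product.2 ⟨hr, hr'⟩, m', by linear_combination hm + c1 * hm'⟩
  · rintro ⟨i, i'⟩ hi ⟨j, j'⟩ hj ⟨m, hm⟩
    rw [Finset.mem_product] at hi hj
    obtain rfl : i = j := uniq c1 i j h1 hi.1 hj.1 ⟨c2 * m - i' + j', by linear_combination hm⟩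
    obtain rfl : i' = j' := uniq c2 i' j' h2 hi.2 hj.2
      ⟨m, mul_left_cancel₀ h1 (by linear_combination hm)⟩
    rfl

theorem crt (c1 c2 : O) (F : O → ℂ) (h1 : c1 ≠ 0) (h2 : c2 ≠ 0) (h : IsCoprime c1 c2)
    (hF : Pe (c1 * c2) F) :
    ∑ r ∈ Rs (c1 * c2), F r = ∑ r1 ∈ Rs c1, ∑ r2 ∈ Rs c2, F (r1 * c2 + r2 * c1) := by
  rw [← Finset.sum_product' (f := fun r1 r2 => F (r1 * c2 + r2 * c1))]
  refine (sum_eq (c1 * c2) F (Rs c1 ×ˢ Rs c2) (fun x => x.1 * c2 + x.2 * c1) (mul_ne_zero h1 h2)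
    hF (fun a => ?_) ?_).symm
  · obtain ⟨x, y, hxy⟩ := h
    obtain ⟨r, hr, m, hm⟩ := ex c1 (a * y) h1
    obtain ⟨r', hr', m', hm'⟩ := ex c2 (a * x) h2
    exact ⟨(r, r'), Finset.mem_product.2 ⟨hr, hr'⟩, m + m', by
      linear_combination c2 * hm + c1 * hm' - a * hxy⟩
  · rintro ⟨i, i'⟩ hi ⟨j, j'⟩ hj ⟨m, hm⟩
    rw [Finset.mem_product] at hi hj
    obtain rfl : i = j := uniq c1 i j h1 hi.1 hj.1 (h.dvd_of_dvd_mul_right
      ⟨c2 * m - i' + j', by linear_combination hm⟩)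
    obtain rfl : i' = j' := uniq c2 i' j' h2 hi.2 hj.2
      ⟨m, mul_left_cancel₀ h1 (by linear_combination hm)⟩
    rfl

theorem cardC {c : O} (hc : c ≠ 0) : ((Rs c).card : ℂ) = (N c : ℂ) := by
  rw [card hc, N]
  norm_cast

theorem orth (h1 : B1) (c a : O) (hc : c ≠ 0) :
    ∑ r ∈ Rs c, eQ (a * r) c = if c ∣ a then (N c : ℂ) else 0 := by
  split_ifs with h
  · rw [Finset.sum_congr rfl fun r _ => h1.eQ_dvd _ c (h.mul_right r), Finset.sum_const,
      nsmul_eq_mul, mul_one, cardC hc]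
  · obtain ⟨m, hm⟩ := not_forall.1 fun h' => h (h1.eQ_triv a c hc h')
    have h2 := affine c (fun r => eQ (a * r) c) 1 m hc (fun x y => by
      show eQ (a * (x + c * y)) c = eQ (a * x) c
      rw [mul_add, h1.eQ_add, h1.eQ_dvd (a * (c * y)) c ⟨a * y, by ring⟩, mul_one])
      isCoprime_one_left
    simp only [one_mul, mul_add, h1.eQ_add, ← Finset.sum_mul] at h2
    by_contra h3
    exact hm (mul_left_cancel₀ h3 (h2.trans (mul_one _).symm))

theorem finv (h1 : B1) (c : O) (F : O → ℂ) (k : O) (hc : c ≠ 0) (hF : Pe c F) :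
    F k = (N c : ℂ)⁻¹ * ∑ a ∈ Rs c, (∑ r ∈ Rs c, F r * eQ (-(a * r)) c) * eQ (a * k) c := by
  have hN : (N c : ℂ) ≠ 0 := by
    have := h1.N_one_le c hc
    exact_mod_cast (by linarith : N c ≠ 0)
  obtain ⟨r0, hr0, hk⟩ := ex c k hc
  have h2 : ∀ r, ∑ a ∈ Rs c, F r * eQ (-(a * r)) c * eQ (a * k) c =
      F r * if c ∣ k - r then (N c : ℂ) else 0 := fun r => by
    rw [← orth h1 c _ hc, Finset.mul_sum]
    refine Finset.sum_congr rfl fun a _ => ?_
    rw [mul_assoc, ← h1.eQ_add]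
    congr 2
    ring
  simp only [Finset.sum_mul]
  rw [Finset.sum_comm, Finset.sum_congr rfl fun r _ => h2 r, Finset.sum_eq_single r0, if_pos hk,
    pe_congr c F k r0 hF hk]
  · field_simp
  · intro r hr hne
    rw [if_neg fun h => hne (uniq c r r0 hc hr hr0 (by simpa using dvd_sub hk h)), mul_zero]
  · exact fun h => absurd hr0 h

theorem tsum_cls (c : O) (f : O → ℂ) (hc : c ≠ 0) (hf : Summable f) :
    ∑' a, f a = ∑ r ∈ Rs c, ∑' m, f (r + c * m) := by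
  let g : {r // r ∈ Rs c} × O → O := fun x => x.1 + c * x.2
  have hg : Function.Bijective g := by
    refine ⟨?_, fun a => ?_⟩
    · rintro ⟨⟨i, hi⟩, m⟩ ⟨⟨j, hj⟩, m'⟩ h
      have h' : i + c * m = j + c * m' := h
      obtain rfl : i = j := uniq c i j hc hi hj ⟨m' - m, by linear_combination h'⟩
      obtain rfl : m = m' := mul_left_cancel₀ hc (add_left_cancel h')
      rfl
    · obtain ⟨r, hr, m, hm⟩ := ex c a hc
      exact ⟨(⟨r, hr⟩, m), by show r + c * m = a; linear_combination -hm⟩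
  let e := Equiv.ofBijective g hg
  rw [← e.tsum_eq f, ← Finset.tsum_subtype (Rs c) fun r => ∑' m, f (r + c * m)]
  exact ((e.summable_iff (f := f)).2 hf).tsum_prod

end B4M

open B4M in
theorem b4S (h1 : B1) : B4 where
  card _ hc := card hc
  ex := ex
  uniq := uniq
  pe_congr := pe_congr
  sum_eq := sum_eq
  affine := affine
  assoc c c' F hc h hF := sum_eq c F (Rs c') id hc hF
    (fun a => (ex c' a (h.ne_zero_iff.1 hc)).imp fun _ hr => ⟨hr.1, h.dvd.trans hr.2⟩)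
    fun i hi j hj hd => uniq c' i j (h.ne_zero_iff.1 hc) hi hj (h.symm.dvd.trans hd)
  crt := crt
  lift := lift
  lift' c1 c2 F hc1 hc2 hF := by
    rw [lift c1 c2 F hc1 hc2 fun a m => by rw [mul_assoc]; exact hF _ _, Finset.mul_sum]
    refine Finset.sum_congr rfl fun r _ => ?_
    rw [Finset.sum_congr rfl fun r2 _ => hF r r2, Finset.sum_const, nsmul_eq_mul, cardC hc2]
  orth := orth h1
  finv := finv h1
  tsum_cls := tsum_cls

end Vale.Agent.P026
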