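import Vale.Agent.P026.Stm1

/-! The residue field of a prime of the Eisenstein integers. -/

noncomputable section
open Complex
open scoped Classical ComplexConjugate

namespace Vale.Agent.P026

namespace B5M

theorem out_inj (c : O) : Function.Injective fun q : O ⧸ Ideal.span {c} => Quotient.out q :=
  fun _ _ h => Quotient.out_injective h

theorem rs_eq (c : O) [Fintype (O ⧸ Ideal.span {c})] :
    Rs c = Finset.univ.image fun q : O ⧸ Ideal.span {c} => Quotient.out q := by
  rw [Rs, dif_pos (Set.finite_range _)]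
  ext x
  simp

theorem fin (h1 : B1) (h4 : B4) {c : O} (hc : c ≠ 0) : Finite (O ⧸ Ideal.span {c}) := by
  by_cases h : (Set.range (fun q : O ⧸ Ideal.span {c} => Quotient.out q)).Finite
  · exact Set.finite_univ_iff.1 (Set.Finite.of_finite_image (by rwa [Set.image_univ])
      (out_inj c).injOn)
  · have a := h4.card c hc
    have b := h1.N_one_le c hc
    rw [Rs, dif_neg h, Finset.card_empty] at a
    rw [N, ← a] at b
    norm_num at b

theorem card (h1 : B1) (h4 : B4) {c : O} (hc : c ≠ 0) :
    Nat.card (O ⧸ Ideal.span {c}) = Nn c := by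
  have := fin h1 h4 hc
  have := Fintype.ofFinite (O ⧸ Ideal.span {c})
  rw [← h4.card c hc, rs_eq, Finset.card_image_of_injective _ (out_inj c), Nat.card_eq_fintype_card,
    Finset.card_univ]

theorem mk0 {c a : O} : Ideal.Quotient.mk (Ideal.span {c}) a = 0 ↔ c ∣ a := by
  rw [Ideal.Quotient.eq_zero_iff_mem, Ideal.mem_span_singleton]

theorem mkeq {c a b : O} :
    Ideal.Quotient.mk (Ideal.span {c}) a = Ideal.Quotient.mk (Ideal.span {c}) b ↔ c ∣ a - b := by
  rw [Ideal.Quotient.eq, Ideal.mem_span_singleton]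

theorem Nn_nat (l : ℕ) : Nn (l : O) = l ^ 2 := by
  have : nz (l : O) = ((l ^ 2 : ℕ) : ℤ) := by simp [nz]
  rw [Nn, this, Int.natAbs_natCast]

end B5M

open B5M in
theorem b5S (h1 : B1) (h4 : B4) : B5 where
  fermat p a hp ha := by
    have := PrincipalIdealRing.isMaximal_of_irreducible hp.irreducible
    have := fin h1 h4 hp.ne_zero
    have := Fintype.ofFinite (O ⧸ Ideal.span {p})
    let := Ideal.Quotient.field (Ideal.span {p})
    rw [← mkeq, map_pow, map_one, ← card h1 h4 hp.ne_zero, Nat.card_eq_fintype_card]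
    exact FiniteField.pow_card_sub_one_eq_one _ (mt mk0.1 ha)
  char p hp := by
    have := PrincipalIdealRing.isMaximal_of_irreducible hp.irreducible
    have := fin h1 h4 hp.ne_zero
    let := Ideal.Quotient.field (Ideal.span {p})
    have hl := CharP.char_is_prime (O ⧸ Ideal.span {p}) (ringChar (O ⧸ Ideal.span {p}))
    set l := ringChar (O ⧸ Ideal.span {p})
    have hd : p ∣ (l : O) := by
      rw [← mk0, map_natCast]
      exact CharP.cast_eq_zero _ _
    refine ⟨l, hl, hd, ?_⟩
    obtain ⟨q, hq⟩ := hd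
    have e : l ^ 2 = Nn p * Nn q := by rw [← h1.Nn_mul, ← hq, Nn_nat]
    obtain ⟨i, hi, e2⟩ := (Nat.dvd_prime_pow hl).1 (Dvd.intro _ e.symm)
    have hu : Nn p ≠ 1 := fun h => hp.not_isUnit ((h1.unit_iff p).2 h)
    interval_cases i
    · exact absurd e2 hu
    · exact Or.inl (by simpa using e2)
    · refine Or.inr ⟨e2, ?_⟩
      rw [e2] at e
      have : Nn q = 1 := by
        have := Nat.pow_pos (n := 2) hl.pos
        nlinarith
      rw [hq]
      exact associated_mul_unit_right _ _ ((h1.unit_iff q).2 this)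
  gen p hp := by
    have := PrincipalIdealRing.isMaximal_of_irreducible hp.irreducible
    have := fin h1 h4 hp.ne_zero
    let := Ideal.Quotient.field (Ideal.span {p})
    obtain ⟨g, hg⟩ := IsCyclic.exists_generator (α := (O ⧸ Ideal.span {p})ˣ)
    obtain ⟨x, hx⟩ := Ideal.Quotient.mk_surjective (g : O ⧸ Ideal.span {p})
    refine ⟨x, fun h => g.ne_zero (hx ▸ mk0.2 h), fun a ha => ?_, fun k hk => ?_⟩
    · obtain ⟨k, hk⟩ := (Submonoid.mem_powers_iff _ _).1
        (mem_powers_iff_mem_zpowers.2 (hg (Units.mk0 _ (mt mk0.1 ha))))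
      refine ⟨k, ?_⟩
      rw [← mkeq, map_pow, hx, ← Units.val_pow_eq_pow_val, hk, Units.val_mk0]
    · rw [← mkeq, map_pow, hx, map_one, ← Units.val_pow_eq_pow_val, Units.val_eq_one] at hk
      rw [← card h1 h4 hp.ne_zero, ← Nat.card_units,
        ← orderOf_eq_card_of_forall_mem_zpowers hg]
      exact orderOf_dvd_of_pow_eq_one hk
  card p hp := card h1 h4 hp.ne_zero
  sum_q c _ G _ := by
    rw [rs_eq, Finset.sum_image fun x _ y _ h => out_inj c h]
    exact Finset.sum_congr rfl fun x _ => by rw [Ideal.Quotient.mk_out]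

end Vale.Agent.P026
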