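import Vale.Agent.P026.Stm1

/-! P026, module B6: the cubic residue symbol. -/

noncomputable section
open Complex UniqueFactorizationMonoid
open scoped Classical ComplexConjugate

namespace Vale.Agent.P026

namespace B6M

theorem om3 : om ^ 3 = 1 := by linear_combination (om - 1) * om_sq

theorem om_ne : om ≠ 1 := fun h => by
  have := congrArg Complex.re h
  norm_num [om] at this

theorem om2_ne : om ^ 2 ≠ 1 := fun h => om_ne (by linear_combination om3 - om * h)

theorem w3 (h1 : B1) : wO ^ 3 = 1 := by linear_combination (wO - 1) * h1.w3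

theorem wmod (h1 : B1) (k : ℕ) : wO ^ k = wO ^ (k % 3) := by
  conv_lhs => rw [← Nat.div_add_mod k 3, pow_add, pow_mul, w3 h1, one_pow, one_mul]

theorem ommod (k : ℕ) : om ^ k = om ^ (k % 3) := by
  conv_lhs => rw [← Nat.div_add_mod k 3, pow_add, pow_mul, om3, one_pow, one_mul]

theorem Nn_assoc (h1 : B1) {p q : O} (h : Associated p q) : Nn p = Nn q := by
  obtain ⟨u, rfl⟩ := h
  rw [h1.Nn_mul, (h1.unit_iff _).1 u.isUnit, mul_one]

theorem nn (h1 : B1) (h2 : B2) {p : O} (hp : Prime p) (h3 : IsCoprime p 3) :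
    3 * ((Nn p - 1) / 3) = Nn p - 1 ∧ (Nn p - 1) / 3 ≠ 0 := by
  obtain ⟨u, hu, h⟩ := h2.ex p h3
  have h4 := h2.N_mod _ h
  rw [Nn_assoc h1 (associated_unit_mul_left p u hu)] at h4
  have h5 : Nn p ≠ 1 := fun h => hp.not_unit ((h1.unit_iff p).2 h)
  omega

theorem nd (h1 : B1) {p : O} (hp : Prime p) (h3 : IsCoprime p 3) :
    ¬ p ∣ 1 - wO ∧ ¬ p ∣ 1 - wO ^ 2 ∧ ¬ p ∣ wO - wO ^ 2 := by
  have h4 : ¬ p ∣ 3 := hp.coprime_iff_not_dvd.1 h3
  have e : (3 : O) = (1 - wO) * (1 - wO ^ 2) := by linear_combination (2 - wO) * h1.w3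
  have e' : (3 : O) = (wO - wO ^ 2) * (wO ^ 2 - wO) := by
    linear_combination (wO ^ 2 - 3 * wO + 3) * h1.w3
  exact ⟨fun h => h4 (e ▸ h.mul_right _), fun h => h4 (e ▸ h.mul_left _),
    fun h => h4 (e' ▸ h.mul_right _)⟩

theorem congrP {a b p : O} (h : p ∣ a - b) : cubP a p = cubP b p := by
  have h2 : ∀ (n : ℕ) (z : O), p ∣ a ^ n - z ↔ p ∣ b ^ n - z := fun n z =>
    dvd_iff_dvd_of_dvd_sub (by simpa using h.trans (sub_dvd_pow_sub_pow a b n))
  simp only [cubP, h2, dvd_iff_dvd_of_dvd_sub h]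

theorem assocP (h1 : B1) (a : O) {p q : O} (h : Associated p q) : cubP a p = cubP a q := by
  simp only [cubP, Nn_assoc h1 h, h.dvd_iff_dvd_left]

theorem rel (h1 : B1) (a : O) {s t : Multiset O} (h : Multiset.Rel Associated s t) :
    (s.map (cubP a)).prod = (t.map (cubP a)).prod := by
  induction h with
  | zero => rfl
  | cons h _ ih => simp only [Multiset.map_cons, Multiset.prod_cons, ih, assocP h1 a h]

theorem prime (h1 : B1) (a p : O) (hp : Prime p) : cub a p = cubP a p := by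
  obtain ⟨q, hq, h⟩ := factors_eq_singleton_of_irreducible hp.irreducible
  rw [cub, h, Multiset.map_singleton, Multiset.prod_singleton, assocP h1 a hq]

theorem mul_r (h1 : B1) (a c c' : O) (hc : c ≠ 0) (hc' : c' ≠ 0) :
    cub a (c * c') = cub a c * cub a c' := by
  rw [cub, rel h1 a (factors_mul hc hc'), Multiset.map_add, Multiset.prod_add, cub, cub]

theorem unit_r (a u : O) (hu : IsUnit u) : cub a u = 1 := by
  rw [cub, factors_of_isUnit hu, Multiset.map_zero, Multiset.prod_zero]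

theorem specP (h1 : B1) (h2 : B2) {a p : O} (k : ℕ) (hp : Prime p) (h3 : IsCoprime p 3)
    (h : p ∣ a ^ ((Nn p - 1) / 3) - wO ^ k) : cubP a p = om ^ k := by
  obtain ⟨n1, n2, n3⟩ := nd h1 hp h3
  have ha : ¬ p ∣ a := fun ha => by
    have h4 := hp.dvd_of_dvd_pow ((dvd_iff_dvd_of_dvd_sub h).1 (dvd_pow ha (nn h1 h2 hp h3).2))
    exact hp.not_dvd_one (w3 h1 ▸ dvd_pow h4 three_ne_zero)
  have key : ∀ z, p ∣ a ^ ((Nn p - 1) / 3) - z ↔ p ∣ wO ^ (k % 3) - z := fun z =>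
    dvd_iff_dvd_of_dvd_sub (by simpa [← wmod h1 k] using h)
  rw [cubP, if_neg ha, key, key, ommod k]
  have h4 : k % 3 = 0 ∨ k % 3 = 1 ∨ k % 3 = 2 := by omega
  rcases h4 with h4 | h4 | h4 <;> rw [h4]
  · simp
  · rw [pow_one, if_neg (fun h => n1 (dvd_sub_comm.1 h)), if_pos (by simp), pow_one]
  · rw [if_neg (fun h => n2 (dvd_sub_comm.1 h)), if_neg (fun h => n3 (dvd_sub_comm.1 h))]

theorem exK (h1 : B1) (h2 : B2) (h5 : B5) {a p : O} (hp : Prime p) (h3 : IsCoprime p 3)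
    (ha : ¬ p ∣ a) : ∃ k < 3, p ∣ a ^ ((Nn p - 1) / 3) - wO ^ k := by
  have h := h5.fermat p a hp ha
  rw [← (nn h1 h2 hp h3).1, mul_comm, pow_mul] at h
  generalize a ^ ((Nn p - 1) / 3) = x at h
  have e : x ^ 3 - 1 = (x - wO ^ 0) * (x - wO ^ 1) * (x - wO ^ 2) := by
    linear_combination (x ^ 2 - x * wO + wO - 1) * h1.w3
  rw [e, hp.dvd_mul, hp.dvd_mul] at h
  rcases h with (h | h) | h
  exacts [⟨0, by omega, h⟩, ⟨1, by omega, h⟩, ⟨2, by omega, h⟩]

theorem mulP (h1 : B1) (h2 : B2) (h5 : B5) (a b : O) {p : O} (hp : Prime p)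
    (h3 : IsCoprime p 3) : cubP (a * b) p = cubP a p * cubP b p := by
  by_cases ha : p ∣ a
  · simp [cubP, ha, ha.mul_right b]
  by_cases hb : p ∣ b
  · simp [cubP, hb, hb.mul_left a]
  obtain ⟨i, -, hi⟩ := exK h1 h2 h5 hp h3 ha
  obtain ⟨j, -, hj⟩ := exK h1 h2 h5 hp h3 hb
  rw [specP h1 h2 i hp h3 hi, specP h1 h2 j hp h3 hj, ← pow_add]
  refine specP h1 h2 _ hp h3 ?_
  convert dvd_add (hi.mul_right (b ^ ((Nn p - 1) / 3))) (hj.mul_left (wO ^ i)) using 1
  ring

theorem mul_l (h1 : B1) (h2 : B2) (h5 : B5) (a b c : O) (hc : IsCoprime c 3) :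
    cub (a * b) c = cub a c * cub b c := by
  rw [cub, cub, cub, ← Multiset.prod_map_mul]
  exact congrArg _ (Multiset.map_congr rfl fun p hp => mulP h1 h2 h5 a b (prime_of_factor p hp)
    (hc.of_isCoprime_of_dvd_left (dvd_of_mem_factors hp)))

theorem one_l (c : O) : cub 1 c = 1 := by
  refine Multiset.prod_eq_one fun z hz => ?_
  obtain ⟨p, hp, rfl⟩ := Multiset.mem_map.1 hz
  simp [cubP, (prime_of_factor p hp).not_dvd_one]

theorem pow_l (h1 : B1) (h2 : B2) (h5 : B5) (a c : O) (k : ℕ) (hc : IsCoprime c 3) :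
    cub (a ^ k) c = cub a c ^ k := by
  induction k with
  | zero => rw [pow_zero, pow_zero, one_l]
  | succ k ih => rw [pow_succ, pow_succ, mul_l h1 h2 h5 _ _ _ hc, ih]

theorem congr {a b c : O} (h : c ∣ a - b) : cub a c = cub b c :=
  congrArg _ (Multiset.map_congr rfl fun _ hp => congrP ((dvd_of_mem_factors hp).trans h))

theorem zero (a c : O) (hc : c ≠ 0) (h : ¬ IsCoprime a c) : cub a c = 0 := by
  rw [isCoprime_comm, ← isRelPrime_iff_isCoprime, isRelPrime_iff_no_prime_factors hc] at h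
  push Not at h
  obtain ⟨p, h1, h2, hp⟩ := h
  obtain ⟨q, hq, h3⟩ := exists_mem_factors_of_dvd hc hp.irreducible h1
  exact Multiset.prod_eq_zero (Multiset.mem_map.2 ⟨q, hq, if_pos (h3.symm.dvd.trans h2)⟩)

theorem cube (a c : O) (h : IsCoprime a c) : cub a c ^ 3 = 1 := by
  rw [cub, ← Multiset.prod_map_pow]
  refine Multiset.prod_eq_one fun z hz => ?_
  obtain ⟨p, hp, rfl⟩ := Multiset.mem_map.1 hz
  have h2 : ¬ p ∣ a := fun h2 =>
    (prime_of_factor p hp).not_unit (h.isUnit_of_dvd' h2 (dvd_of_mem_factors hp))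
  rw [cubP, if_neg h2]
  split_ifs
  · simp
  · exact om3
  · rw [← pow_mul, mul_comm, pow_mul, om3, one_pow]

theorem norm3 {z : ℂ} (h : z ^ 3 = 1) : ‖z‖ = 1 :=
  (pow_eq_one_iff_of_nonneg (norm_nonneg z) three_ne_zero).1 (by rw [← norm_pow, h, norm_one])

theorem cases (a c : O) : cub a c = 0 ∨ cub a c ^ 3 = 1 := by
  by_cases hc : c = 0
  · right
    simp [cub, hc]
  by_cases h : IsCoprime a c
  exacts [Or.inr (cube a c h), Or.inl (zero a c hc h)]

theorem conj_eq (a c : O) : conj (cub a c) = cub a c ^ 2 := by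
  rcases cases a c with h | h
  · simp [h]
  · have h2 := Complex.mul_conj' (cub a c)
    rw [norm3 h, ofReal_one] at h2
    linear_combination cub a c ^ 2 * h2 - (conj (cub a c)) * h

theorem val (a p : O) (hp : ¬ p ∣ a) : (p ∣ a ^ ((Nn p - 1) / 3) - 1 ∧ cubP a p = 1) ∨
    cubP a p = om ∨ cubP a p = om ^ 2 := by
  rw [cubP, if_neg hp]
  split_ifs with h
  exacts [Or.inl ⟨h, rfl⟩, Or.inr (Or.inl rfl), Or.inr (Or.inr rfl)]

theorem eq_one (h1 : B1) (h2 : B2) (h5 : B5) (a p : O) (hp : Prime p) (h3 : IsCoprime p 3)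
    (ha : ¬ p ∣ a) : cub a p = 1 ↔ ∃ y, p ∣ y ^ 3 - a := by
  refine ⟨fun h => ?_, fun ⟨y, hy⟩ => ?_⟩
  · rw [prime h1 a p hp] at h
    obtain ⟨g, -, hg, hg'⟩ := h5.gen p hp
    obtain ⟨k, hk⟩ := hg a ha
    obtain ⟨e1, e2⟩ := nn h1 h2 hp h3
    rcases val a p ha with h4 | h4 | h4
    · have h6 := hg' (k * ((Nn p - 1) / 3)) (by
        rw [pow_mul]
        exact (dvd_iff_dvd_of_dvd_sub (by
          simpa using hk.trans (sub_dvd_pow_sub_pow _ _ _))).1 h4.1)
      generalize (Nn p - 1) / 3 = n at e1 e2 h6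
      rw [← e1] at h6
      obtain ⟨j, rfl⟩ := Nat.dvd_of_mul_dvd_mul_right (Nat.pos_of_ne_zero e2) h6
      exact ⟨g ^ j, by rw [← pow_mul, mul_comm]; exact dvd_sub_comm.1 hk⟩
    · exact absurd (h4.symm.trans h) om_ne
    · exact absurd (h4.symm.trans h) om2_ne
  · rw [← congr hy, pow_l h1 h2 h5 _ _ _ h3]
    refine cube _ _ (hp.coprime_iff_not_dvd.2 fun h => ha ?_).symm
    exact (dvd_iff_dvd_of_dvd_sub hy).1 (dvd_pow h three_ne_zero)

theorem nontriv (h1 : B1) (h2 : B2) (h5 : B5) (p : O) (hp : Prime p) (h3 : IsCoprime p 3) :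
    ∃ a, cub a p = om := by
  obtain ⟨g, hg, -, hg'⟩ := h5.gen p hp
  obtain ⟨e1, e2⟩ := nn h1 h2 hp h3
  rcases val g p hg with h4 | h4 | h4
  · have := Nat.le_of_dvd (Nat.pos_of_ne_zero e2) (hg' _ h4.1)
    omega
  · exact ⟨g, (prime h1 g p hp).trans h4⟩
  · refine ⟨g ^ 2, ?_⟩
    rw [pow_l h1 h2 h5 _ _ _ h3, prime h1 g p hp, h4]
    linear_combination om * om3

theorem pe (c : O) : Pe c fun a => cub a c := fun a m => congr ⟨m, by ring⟩

theorem sum_zero (h1 : B1) (h2 : B2) (h4 : B4) (h5 : B5) (p : O) (hp : Prime p)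
    (h3 : IsCoprime p 3) : ∑ r ∈ Rs p, cub r p = 0 := by
  obtain ⟨a, ha⟩ := nontriv h1 h2 h5 p hp h3
  have hc : IsCoprime a p := by
    by_contra h
    have := om3
    rw [← ha, zero a p hp.ne_zero h] at this
    simp at this
  have h := h4.affine p _ a 0 hp.ne_zero (pe p) hc
  simp only [add_zero, mul_l h1 h2 h5 _ _ _ h3, ha, ← Finset.mul_sum] at h
  by_contra h6
  exact om_ne (mul_right_cancel₀ h6 (h.trans (one_mul _).symm))

theorem count (h1 : B1) (h2 : B2) (h4 : B4) (h5 : B5) (p a : O) (hp : Prime p)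
    (h3 : IsCoprime p 3) (ha : ¬ p ∣ a) :
    (((Rs p).filter fun y => p ∣ y ^ 3 - a).card : ℂ) = 1 + cub a p + conj (cub a p) := by
  by_cases h : ∃ y, p ∣ y ^ 3 - a
  · rw [(eq_one h1 h2 h5 a p hp h3 ha).2 h, map_one]
    obtain ⟨y, hy⟩ := h
    obtain ⟨n1, n2, n3⟩ := nd h1 hp h3
    have hy' : ¬ p ∣ y := fun h => ha ((dvd_iff_dvd_of_dvd_sub hy).1 (dvd_pow h three_ne_zero))
    have one : ∀ b, ∑ r ∈ Rs p, (if p ∣ r - b then 1 else 0 : ℂ) = 1 := fun b => by
      obtain ⟨r, hr, hb⟩ := h4.ex p b hp.ne_zero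
      rw [Finset.sum_eq_single r, if_pos (dvd_sub_comm.1 hb)]
      · exact fun r' hr' hne => if_neg fun h =>
          hne (h4.uniq p r' r hp.ne_zero hr' hr (by simpa using dvd_add h hb))
      · exact fun h => absurd hr h
    have two : ∀ r u v, ¬ p ∣ u - v → p ∣ r - u * y → ¬ p ∣ r - v * y := fun r u v h a b =>
      (hp.dvd_or_dvd (a := u - v) (b := y) (by convert dvd_sub b a using 1; ring)).elim h hy'
    have e : ∀ r : O, p ∣ r ^ 3 - a ↔ (p ∣ r - 1 * y ∨ p ∣ r - wO * y) ∨ p ∣ r - wO ^ 2 * y :=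
      fun r => by
        rw [← hp.dvd_mul, ← hp.dvd_mul]
        refine dvd_iff_dvd_of_dvd_sub ?_
        convert hy using 1
        linear_combination (r ^ 2 * y - r * y ^ 2 * wO + y ^ 3 * (wO - 1)) * h1.w3
    have h6 := congrArg₂ (· + ·) (congrArg₂ (· + ·) (one (1 * y)) (one (wO * y))) (one (wO ^ 2 * y))
    simp only [← Finset.sum_add_distrib] at h6
    rw [Finset.card_filter, ← h6]
    push_cast
    refine Finset.sum_congr rfl fun r _ => ?_
    have t1 := two r _ _ n1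
    have t2 := two r _ _ n2
    have t3 := two r _ _ n3
    simp only [e r]
    by_cases c1 : p ∣ r - 1 * y <;> by_cases c2 : p ∣ r - wO * y <;>
      by_cases c3 : p ∣ r - wO ^ 2 * y <;> simp_all
  · push Not at h
    rw [Finset.filter_false_of_mem fun y _ => h y, conj_eq]
    have h6 := mt (eq_one h1 h2 h5 a p hp h3 ha).1 (not_exists.2 h)
    have h7 := cube a p (hp.coprime_iff_not_dvd.2 ha).symm
    refine mul_left_cancel₀ (sub_ne_zero.2 h6) ?_
    simp only [Finset.card_empty, Nat.cast_zero]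
    linear_combination -h7

theorem cj_eq (a : O) : cj a = star a := by
  ext <;> simp [cj, sub_eq_add_neg]

theorem cj_cj (h1 : B1) (h2 : B2) (h5 : B5) (a c : O) (hc : IsCoprime c 3) :
    cub (cj a) (cj c) = conj (cub a c) := by
  simp only [cj_eq]
  induction c using induction_on_prime with
  | h₁ => simp [cub]
  | h₂ u hu => rw [unit_r _ _ hu, unit_r _ _ hu.star, map_one]
  | h₃ c p hc0 hp ih =>
    have hp' : Prime (star p) := (MulEquiv.prime_iff (starRingAut (R := O))).2 hp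
    have h3 := hc.of_mul_left_left
    rw [star_mul', mul_r h1 _ _ _ hp'.ne_zero (star_ne_zero.2 hc0), mul_r h1 _ _ _ hp.ne_zero hc0,
      map_mul, ih hc.of_mul_left_right, prime h1 _ _ hp, prime h1 _ _ hp']
    congr 1
    by_cases ha : p ∣ a
    · rw [cubP, cubP, if_pos ha,
        if_pos (show star p ∣ star a from map_dvd (starRingEnd O) ha), map_zero]
    obtain ⟨k, -, hk⟩ := exK h1 h2 h5 hp h3 ha
    have e : star wO = wO ^ 2 := by ext <;> simp [wO, pow_two]
    have e2 : conj om = om ^ 2 := by rw [← h1.toC_w, ← h1.toC_cj, cj_eq, e, map_pow]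
    have e3 : Nn (star p) = Nn p := by
      rw [← cj_eq, Nn, Nn, nz, nz, cj]
      congr 1
      ring
    rw [specP h1 h2 k hp h3 hk, map_pow, e2, ← pow_mul]
    refine specP h1 h2 _ hp' (map_ofNat (starRingEnd O) 3 ▸ h3.map (starRingEnd O)) ?_
    have h6 := map_dvd (starRingEnd O) hk
    rw [map_sub, map_pow, map_pow, starRingEnd_apply, starRingEnd_apply, starRingEnd_apply, e,
      ← pow_mul] at h6
    rwa [e3]

end B6M

open B6M in
theorem b6S (h1 : B1) (h2 : B2) (h4 : B4) (h5 : B5) : B6 where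
  prime := prime h1
  mul_r := mul_r h1
  pow_r a c k hc := by
    induction k with
    | zero => rw [pow_zero, pow_zero, unit_r _ _ isUnit_one]
    | succ k ih => rw [pow_succ, pow_succ, mul_r h1 _ _ _ (pow_ne_zero _ hc) hc, ih]
  unit_r := unit_r
  mul_l := mul_l h1 h2 h5
  pow_l := pow_l h1 h2 h5
  one_l := one_l
  neg_l a c hc := by
    rw [show -a = (-1) ^ 3 * a by ring, mul_l h1 h2 h5 _ _ _ hc, pow_l h1 h2 h5 _ _ _ hc,
      cube _ _ isCoprime_one_left.neg_left, one_mul]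
  pe := pe
  zero := zero
  cube := cube
  norm a c h := norm3 (cube a c h)
  norm_le a c := (cases a c).elim (fun h => by simp [h]) fun h => (norm3 h).le
  conj_eq := conj_eq
  spec a p hp h3 := by
    rw [prime h1 a p hp]
    by_cases ha : p ∣ a
    · exact ⟨0, by simp [cubP, ha], by simpa using dvd_pow ha (nn h1 h2 hp h3).2, Or.inl rfl⟩
    obtain ⟨k, hk, h⟩ := exK h1 h2 h5 hp h3 ha
    refine ⟨wO ^ k, by rw [specP h1 h2 k hp h3 h, map_pow, h1.toC_w], h, ?_⟩
    interval_cases k <;> simp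
  spec' a p k hp h3 h := (prime h1 a p hp).trans (specP h1 h2 k hp h3 h)
  eq_one := eq_one h1 h2 h5
  nontriv := nontriv h1 h2 h5
  sum_zero := sum_zero h1 h2 h4 h5
  count := count h1 h2 h4 h5
  cj_cj := cj_cj h1 h2 h5

end Vale.Agent.P026
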