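import Vale.Agent.P026.Stm1

/-! P026, module B7: the quadratic symbol. -/

noncomputable section
open Complex
open scoped Classical ComplexConjugate

namespace Vale.Agent.P026

namespace B7M

open UniqueFactorizationMonoid

theorem mk_eq {c a b : O} :
    Ideal.Quotient.mk (Ideal.span {c}) a = Ideal.Quotient.mk _ b ↔ c ∣ a - b := by
  rw [Ideal.Quotient.eq, Ideal.mem_span_singleton]

theorem quadP_assoc (a : O) {p q : O} (h : Associated p q) : quadP a p = quadP a q := by
  simp only [quadP, h.dvd_iff_dvd_left]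

theorem rel (a : O) {s t : Multiset O} (h : Multiset.Rel Associated s t) :
    s.map (quadP a) = t.map (quadP a) :=
  Multiset.rel_eq.1 (Multiset.rel_map.2 (h.mono fun _ _ _ _ h => quadP_assoc a h))

theorem prime (a p : O) (hp : Prime p) : quad a p = quadP a p := by
  obtain ⟨b, hb, e⟩ := factors_eq_singleton_of_irreducible hp.irreducible
  rw [quad, e, Multiset.map_singleton, Multiset.prod_singleton, quadP_assoc a hb]

theorem mul_r (a c c' : O) (hc : c ≠ 0) (hc' : c' ≠ 0) : quad a (c * c') = quad a c * quad a c' := by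
  rw [quad, rel a (factors_mul hc hc'), Multiset.map_add, Multiset.prod_add, quad, quad]

theorem unit_r (a u : O) (hu : IsUnit u) : quad a u = 1 := by
  rw [quad, factors_of_isUnit hu, Multiset.map_zero, Multiset.prod_zero]

theorem pow_r (a c : O) (k : ℕ) (hc : c ≠ 0) : quad a (c ^ k) = quad a c ^ k := by
  induction k with
  | zero => rw [pow_zero, pow_zero, unit_r a 1 isUnit_one]
  | succ k ih => rw [pow_succ, mul_r a _ _ (pow_ne_zero _ hc) hc, ih, pow_succ]

theorem key (h1 : B1) (h5 : B5) (p : O) (hp : Prime p) :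
    (∀ a b, quadP (a * b) p = quadP a p * quadP b p) ∧
    (IsCoprime p 2 → (∑ r ∈ Rs p, quadP r p = 0) ∧
      ∀ a, (((Rs p).filter fun y => p ∣ y ^ 2 - a).card : ℂ) = 1 + quadP a p) := by
  have hm : (Ideal.span {p}).IsMaximal := PrincipalIdealRing.isMaximal_of_irreducible hp.irreducible
  have hfin : Finite (O ⧸ Ideal.span {p}) := Nat.finite_of_card_ne_zero (by
    rw [h5.card p hp]
    intro h
    have h2 := h1.N_one_le p hp.ne_zero
    rw [N, h] at h2
    norm_num at h2)
  let _ : Field (O ⧸ Ideal.span {p}) := Ideal.Quotient.field _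
  let _ : Fintype (O ⧸ Ideal.span {p}) := Fintype.ofFinite _
  have hz : ∀ a, Ideal.Quotient.mk (Ideal.span {p}) a = 0 ↔ p ∣ a := fun a => by
    rw [Ideal.Quotient.eq_zero_iff_mem, Ideal.mem_span_singleton]
  have hs : ∀ y a, p ∣ y ^ 2 - a ↔
      Ideal.Quotient.mk (Ideal.span {p}) y ^ 2 = Ideal.Quotient.mk (Ideal.span {p}) a :=
    fun y a => by rw [← map_pow, mk_eq]
  have e : ∀ a, quadP a p =
      ((quadraticChar (O ⧸ Ideal.span {p}) (Ideal.Quotient.mk _ a) : ℤ) : ℂ) := by
    intro a
    unfold quadP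
    split_ifs with h h'
    · rw [(hz a).2 h, quadraticChar_zero, Int.cast_zero]
    · obtain ⟨y, hy⟩ := h'
      rw [(quadraticChar_one_iff_isSquare (mt (hz a).1 h)).2
        ⟨Ideal.Quotient.mk _ y, by rw [← (hs y a).1 hy, sq]⟩, Int.cast_one]
    · rw [quadraticChar_neg_one_iff_not_isSquare.2, Int.cast_neg, Int.cast_one]
      rintro ⟨x, hx⟩
      obtain ⟨y, rfl⟩ := Ideal.Quotient.mk_surjective x
      exact h' ⟨y, (hs y a).2 (by rw [hx, sq])⟩
  refine ⟨fun a b => by rw [e, e, e, map_mul, map_mul, Int.cast_mul], fun h2 => ?_⟩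
  have hc : ringChar (O ⧸ Ideal.span {p}) ≠ 2 := by
    intro h
    have h3 : ((2 : ℕ) : O ⧸ Ideal.span {p}) = 0 := by
      rw [← h]
      exact ringChar.Nat.cast_ringChar
    have h4 : p ∣ 2 := (hz 2).1 (by rw [map_ofNat]; exact_mod_cast h3)
    exact hp.not_isUnit (h2.isUnit_of_dvd' dvd_rfl h4)
  constructor
  · simp only [e]
    rw [h5.sum_q p (fun x => ((quadraticChar (O ⧸ Ideal.span {p}) x : ℤ) : ℂ)) hp.ne_zero,
      ← Int.cast_sum, quadraticChar_sum_zero hc, Int.cast_zero]
  · intro a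
    have h3 := quadraticChar_card_sqrts hc (Ideal.Quotient.mk (Ideal.span {p}) a)
    rw [Set.toFinset_ofPred, Finset.card_filter] at h3
    rw [e, Finset.card_filter, add_comm, ← Int.cast_one (R := ℂ), ← Int.cast_add, ← h3]
    push_cast
    simp only [hs]
    exact h5.sum_q p (fun x => if x ^ 2 = Ideal.Quotient.mk (Ideal.span {p}) a then 1 else 0)
      hp.ne_zero

theorem quadP_cases (a p : O) : quadP a p = 0 ∨ quadP a p = 1 ∨ quadP a p = -1 := by
  unfold quadP
  split_ifs <;> simp

theorem cases (a c : O) : quad a c = 0 ∨ quad a c = 1 ∨ quad a c = -1 := by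
  refine Multiset.prod_induction (fun z : ℂ => z = 0 ∨ z = 1 ∨ z = -1) _ ?_ (by simp) ?_
  · rintro x y (rfl | rfl | rfl) (rfl | rfl | rfl) <;> simp
  · intro x hx
    obtain ⟨p, _, rfl⟩ := Multiset.mem_map.1 hx
    exact quadP_cases a p

theorem ne_zero (a c : O) (h : IsCoprime a c) : quad a c ≠ 0 := by
  refine Multiset.prod_ne_zero fun h0 => ?_
  obtain ⟨p, hp, e⟩ := Multiset.mem_map.1 h0
  have h2 : ¬ p ∣ a := fun h3 =>
    (prime_of_factor p hp).not_isUnit (h.isUnit_of_dvd' h3 (dvd_of_mem_factors hp))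
  rw [quadP, if_neg h2] at e
  split_ifs at e <;> simp at e

theorem one_l (c : O) : quad 1 c = 1 := by
  refine Multiset.prod_eq_one fun x hx => ?_
  obtain ⟨p, hp, rfl⟩ := Multiset.mem_map.1 hx
  rw [quadP, if_neg (prime_of_factor p hp).not_dvd_one, if_pos ⟨1, by simp⟩]

theorem pe (c : O) : Pe c (fun a => quad a c) := by
  intro a m
  refine congrArg Multiset.prod (Multiset.map_congr rfl fun p hp => ?_)
  have h : p ∣ c * m := (dvd_of_mem_factors hp).mul_right m
  have h2 : ∀ y, p ∣ y ^ 2 - (a + c * m) ↔ p ∣ y ^ 2 - a := fun y => by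
    rw [← sub_sub, dvd_sub_left h]
  simp only [quadP, dvd_add_left h, h2]

theorem zero (a c : O) (hc : c ≠ 0) (h : ¬ IsCoprime a c) : quad a c = 0 := by
  by_contra h0
  refine h (isCoprime_of_prime_dvd (fun h => hc h.2) fun p hp ha hpc => h0 ?_)
  obtain ⟨q, hq, e⟩ := exists_mem_factors_of_dvd hc hp.irreducible hpc
  refine Multiset.prod_eq_zero (Multiset.mem_map.2 ⟨q, hq, ?_⟩)
  rw [← quadP_assoc a e, quadP, if_pos ha]

end B7M

open B7M UniqueFactorizationMonoid in
theorem b7S (h1 : B1) (_h2 : B2) (_h4 : B4) (h5 : B5) : B7 := by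
  have ml : ∀ a b c, quad (a * b) c = quad a c * quad b c := fun a b c => by
    rw [quad, quad, quad, ← Multiset.prod_map_mul]
    exact congrArg Multiset.prod (Multiset.map_congr rfl fun p hp =>
      (key h1 h5 p (prime_of_factor p hp)).1 a b)
  refine ⟨prime, mul_r, pow_r, unit_r, fun a b c _ => ml a b c, fun a c k _ => ?_, one_l, pe, zero,
    fun a c h => ?_, fun a c h => ?_, fun a c => ?_, fun a c => ?_, fun p hp h => ?_,
    fun p a hp h => ?_⟩
  · induction k with
    | zero => rw [pow_zero, pow_zero, one_l]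
    | succ k ih => rw [pow_succ, ml, ih, pow_succ]
  · rcases cases a c with e | e | e
    · exact absurd e (ne_zero a c h)
    · rw [e, one_pow]
    · rw [e, neg_one_sq]
  · rcases cases a c with e | e | e
    · exact absurd e (ne_zero a c h)
    · rw [e, norm_one]
    · rw [e, norm_neg, norm_one]
  · rcases cases a c with e | e | e <;> simp [e]
  · rcases cases a c with e | e | e <;> simp [e]
  · simp only [prime _ p hp]
    exact ((key h1 h5 p hp).2 h).1
  · rw [prime _ p hp]
    exact ((key h1 h5 p hp).2 h).2 a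

end Vale.Agent.P026
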