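import Vale.Agent.P026.Stm1

noncomputable section
open Complex
open scoped Classical ComplexConjugate

namespace Vale.Agent.P026

namespace CRM

theorem cj_mul (a b : O) : cj (a * b) = cj a * cj b := by
  ext <;> simp [cj] <;> ring

theorem cj_add (a b : O) : cj (a + b) = cj a + cj b := by
  ext <;> simp [cj] <;> ring

theorem cj_cj (a : O) : cj (cj a) = a := by
  ext <;> simp [cj]

/-- conjugation as a ring automorphism -/
def cjE : O ≃+* O := ⟨⟨cj, cj, cj_cj, cj_cj⟩, cj_mul, cj_add⟩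

theorem cj_prime {p : O} (h : Prime p) : Prime (cj p) := (MulEquiv.prime_iff cjE).2 h

theorem cj_prim {p : O} (h : Prim p) : Prim (cj p) := by
  have := map_dvd cjE h
  rwa [map_sub, map_one, map_ofNat] at this

variable (hB : Bas) (h0 : CR0Stmt)
include hB

theorem cop {p q : O} (hp : Prime p) (h : Prim p) (hq : Prime q) (h' : Prim q) (n : q ≠ p) :
    IsCoprime q p := hq.coprime_iff_not_dvd.2 fun d =>
  n (hB.b2.uniq q p h' h (hq.associated_of_dvd hp d))

include h0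

theorem gen {p q : O} (hp : Prime p) (h : Prim p) (hq : Prime q) (h' : Prim q) (n : q ≠ p)
    (n' : q ≠ cj p) : cub q p = cub p q := by
  have c1 := cop hB hp h hq h' n
  have c2 := cop hB (cj_prime hp) (cj_prim h) hq h' n'
  have c3 := cop hB (cj_prime hq) (cj_prim h') hp h fun e => n' (by rw [e, cj_cj])
  have e1 := h0 p q hp h hq h' (c1.mul_right c2)
  have e2 := h0 q p hq h' hp h (c1.symm.mul_right c3)
  rw [hB.b6.conj_eq, pow_two p, hB.b6.mul_l _ _ _ (hB.b2.cop p h),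
    hB.b6.mul_l _ _ _ (hB.b2.cop q h'), hB.b6.mul_l _ _ _ (hB.b2.cop q h')] at e1
  rw [hB.b6.conj_eq, pow_two q, hB.b6.mul_l _ _ _ (hB.b2.cop q h'),
    hB.b6.mul_l _ _ _ (hB.b2.cop p h), hB.b6.mul_l _ _ _ (hB.b2.cop p h)] at e2
  have k1 := hB.b6.cube _ _ c1
  have k2 := hB.b6.cube _ _ c1.symm
  have k3 := hB.b6.cube _ _ c2.symm
  have k4 := hB.b6.cube _ _ c3.symm
  generalize cub q p = a at *
  generalize cub p q = b at *
  generalize cub (cj q) p = a' at *
  generalize cub (cj p) q = b' at *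
  have f1 : a * a' * (b * b * b') = 1 := by
    rw [← e1]
    linear_combination a' ^ 3 * k1 + k4
  have f2 : b * b' * (a * a * a') = 1 := by
    rw [← e2]
    linear_combination b' ^ 3 * k2 + k3
  linear_combination b * f2 - a * f1

theorem gen2 {p : O} (hp : Prime p) (h : Prim p) : ∀ t, Prim t → ¬ cj p ∣ t → cub t p = cub p t := by
  refine hB.b2.ind1 _ (fun _ => ?_) fun q a hq h' ha ih d => ?_
  · rw [hB.b6.one_l, hB.b6.unit_r _ _ isUnit_one]
  · rw [hB.b6.mul_l _ _ _ (hB.b2.cop p h), hB.b6.mul_r _ _ _ hq.ne_zero (hB.b2.ne a ha),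
      ih fun e => d (e.mul_left q)]
    by_cases n : q = p
    · rw [n]
    · rw [gen hB h0 hp h hq h' n fun e => d (e ▸ dvd_mul_right q a)]

theorem self {p : O} (hp : Prime p) (h : Prim p) (n : p ≠ cj p) : cub (cj p) p = 1 := by
  have c := cop hB (cj_prime hp) (cj_prim h) hp h n
  have ht : Prim (-(p + cj p)) := by
    obtain ⟨u, hu⟩ := h
    obtain ⟨v, hv⟩ := cj_prim ⟨u, hu⟩
    exact ⟨-1 - u - v, by linear_combination -hu - hv⟩
  have h3 := hB.b2.cop _ ht
  have e1 : cub (cj p) p = cub (-(p + cj p)) p := by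
    rw [← hB.b6.neg_l _ _ (hB.b2.cop p h)]
    exact hB.b4.pe_congr p _ _ _ (hB.b6.pe p) ⟨1, by ring⟩
  have e2 : cub (cj p) (-(p + cj p)) = cub p (-(p + cj p)) := by
    rw [← hB.b6.neg_l _ _ h3]
    exact hB.b4.pe_congr _ _ _ _ (hB.b6.pe _) ⟨1, by ring⟩
  have e3 := hB.b6.cj_cj p _ h3
  have e4 : cj (-(p + cj p)) = -(p + cj p) := by ext <;> simp [cj]
  have c' : IsCoprime p (-(p + cj p)) := by
    obtain ⟨u, v, e⟩ := c
    exact ⟨u - v, -v, by linear_combination e⟩
  have e5 := hB.b6.cube _ _ c'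
  rw [e4, e2, hB.b6.conj_eq] at e3
  rw [e1, gen2 hB h0 hp h _ ht fun d => (cj_prime hp).coprime_iff_not_dvd.1 c.symm
    (by simpa using d.neg_right.sub (dvd_refl (cj p)))]
  linear_combination e5 + (cub p (-(p + cj p)) + 1) * e3

theorem primes {p q : O} (hp : Prime p) (h : Prim p) (hq : Prime q) (h' : Prim q) :
    cub q p = cub p q := by
  by_cases n : q = p
  · rw [n]
  by_cases n' : q = cj p
  · have e := self hB h0 hq h' (by rw [n', cj_cj, ← n']; exact n)
    rw [n', cj_cj] at e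
    rw [n', e, self hB h0 hp h (by rw [← n']; exact Ne.symm n)]
  · exact gen hB h0 hp h hq h' n n'

end CRM

theorem crS (hB : Bas) (h0 : CR0Stmt) : CRStmt := by
  intro a b ha hb
  revert a
  refine hB.b2.ind1 _ ?_ fun p a hp h ha ih => ?_
  · rw [hB.b6.one_l, hB.b6.unit_r _ _ isUnit_one]
  rw [hB.b6.mul_l _ _ _ (hB.b2.cop b hb), hB.b6.mul_r _ _ _ hp.ne_zero (hB.b2.ne a ha), ih]
  congr 1
  clear ih
  revert b
  refine hB.b2.ind1 _ ?_ fun q b hq h' hb ih => ?_
  · rw [hB.b6.one_l, hB.b6.unit_r _ _ isUnit_one]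
  rw [hB.b6.mul_l _ _ _ (hB.b2.cop p h), hB.b6.mul_r _ _ _ hq.ne_zero (hB.b2.ne b hb), ih,
    CRM.primes hB h0 hp h hq h']

end Vale.Agent.P026
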