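import Vale.Agent.P026.M.J

noncomputable section
open Complex
open scoped Classical ComplexConjugate

namespace Vale.Agent.P026

open MulChar AddChar RF

theorem cr0S (hB : Bas) (_hG : GPStmt) (_hJ : JStmt) : CR0Stmt := by
  intro p q hp h hq h' hc
  have := Fact.mk hp
  have := Fact.mk hq
  obtain ⟨χ, h1, h2, h3⟩ := exists_cub hB p (hB.b2.cop p h)
  obtain ⟨χ', h1', h2', h3'⟩ := exists_cub hB q (hB.b2.cop q h')
  have hch : ringChar (K q) ≠ ringChar (K p) := by
    intro e
    obtain ⟨n, -, hn⟩ := FiniteField.card (K p) (ringChar (K p))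
    refine hq.coprime_iff_not_dvd.1 hc (mk_eq_zero.1 ?_)
    rw [hB.b1.cj_mul, ← card_eq hB, map_natCast, hn, ← e, Nat.cast_pow, ringChar.Nat.cast_ringChar,
      zero_pow n.ne_zero]
  have e := congrArg toC (CubH.rel (mk q) (CubH.ne_one (mk p) (three_dvd hB p h) h2) h3
    (JM.jac hB p h h2 h3) (three_dvd hB q h') h2' h3' hch)
  rw [map_mul, h1', ← map_natCast (mk p), h1, map_one, card_eq hB, card_eq hB, ← hB.b1.cj_mul,
    ← hB.b1.cj_mul, ← mul_assoc, ← pow_two] at e
  have e3 : cub (q * cj q) p ^ 3 = 1 := hB.b6.cube _ _ (by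
    by_contra hn
    rw [hB.b6.zero _ _ hp.ne_zero hn, zero_mul] at e
    exact zero_ne_one e)
  rw [hB.b6.conj_eq]
  linear_combination cub (p ^ 2 * cj p) q * e3 - cub (q * cj q) p ^ 2 * e

end Vale.Agent.P026
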