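import Vale.Agent.P026.Stm1

noncomputable section
open Complex
open scoped Classical ComplexConjugate

namespace Vale.Agent.P026

namespace CardM

open Finset

variable {F : Type} [Field F] [Fintype F]

def rt (x α : F) : Finset F := univ.filter fun u => u ^ 2 - x * u - α = 0

def cu (α c : F) : Finset F := univ.filter fun x => x ^ 3 + 3 * α * x = c

lemma mem_rt {x α u : F} : u ∈ rt x α ↔ u ^ 2 - x * u - α = 0 := by simp [rt]

lemma mem_cu {x α c : F} : x ∈ cu α c ↔ x ^ 3 + 3 * α * x = c := by simp [cu]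

lemma rt_le (x α : F) : (rt x α).card ≤ 2 := by
  rcases (rt x α).eq_empty_or_nonempty with h | ⟨u0, h0⟩
  · simp [h]
  · refine (card_le_card (t := {u0, x - u0}) fun u hu => ?_).trans card_le_two
    rw [mem_rt] at h0 hu
    have : (u - u0) * (u - (x - u0)) = 0 := by linear_combination hu - h0
    rcases mul_eq_zero.1 this with h | h
    · simp [sub_eq_zero.1 h]
    · simp [sub_eq_zero.1 h]

lemma rt_of_two {x α u v : F} (hu : u ∈ rt x α) (hv : v ∈ rt x α) (h : u ≠ v) :
    (rt x α).card = 2 :=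
  le_antisymm (rt_le x α) (Finset.one_lt_card.2 ⟨u, hu, v, hv, h⟩)

lemma sum_rt {α : F} (hα : α ≠ 0) :
    ∑ x, (rt x α).card = ∑ u : F, if u = 0 then 0 else 1 := by
  simp only [rt, card_filter]
  rw [sum_comm]
  refine sum_congr rfl fun u _ => ?_
  by_cases hu : u = 0
  · simp [hu, hα]
  · rw [if_neg hu, sum_eq_single (u - α / u)]
    · rw [if_pos (by field_simp; ring)]
    · intro x _ hx
      rw [if_neg]
      intro h
      apply hx
      field_simp
      linear_combination -h
    · simp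

lemma rt_eq {x α c : F} (hc : x ∈ cu α c) (hk : x ^ 2 + α ≠ 0) :
    (rt x α).card = (rt c (α ^ 3)).card := by
  rw [mem_cu] at hc
  subst hc
  refine card_bij' (fun u _ => (x ^ 2 + α) * u + x * α) (fun U _ => (U - x * α) / (x ^ 2 + α))
    ?_ ?_ ?_ ?_
  · intro u hu
    rw [mem_rt] at hu ⊢
    linear_combination (x ^ 2 + α) ^ 2 * hu
  · intro U hU
    rw [mem_rt] at hU ⊢
    field_simp
    linear_combination hU
  · intro u _
    field_simp
    ring
  · intro U _
    field_simp
    ring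

lemma w_ne {w : F} (hw : w ^ 2 + w + 1 = 0) (h3 : (3 : F) ≠ 0) : w - w ^ 2 ≠ 0 := by
  intro h
  apply h3
  linear_combination (3 - 2 * w) * hw - (2 * w + 1) * h

lemma rt_two {x α w : F} (hw : w ^ 2 + w + 1 = 0) (h3 : (3 : F) ≠ 0) (hα : α ≠ 0)
    (hk : x ^ 2 + α = 0) : (rt x α).card = 2 := by
  have hx : x ≠ 0 := by
    rintro rfl
    exact hα (by simpa using hk)
  refine rt_of_two (u := -(w * x)) (v := -(w ^ 2 * x)) ?_ ?_ ?_
  · rw [mem_rt]
    linear_combination x ^ 2 * hw - hk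
  · rw [mem_rt]
    linear_combination x ^ 2 * (w ^ 2 - w + 1) * hw - hk
  · intro h
    exact mul_ne_zero (w_ne hw h3) hx (by linear_combination -h)

lemma two_simple {x y α c w : F} (hw : w ^ 2 + w + 1 = 0) (h3 : (3 : F) ≠ 0)
    (hx : x ∈ cu α c) (hy : y ∈ cu α c) (hxy : x ≠ y) (hk : y ^ 2 + α ≠ 0) :
    (rt x α).card = 2 := by
  rw [mem_cu] at hx hy
  have h1 : x ^ 2 + x * y + y ^ 2 + 3 * α = 0 := by
    apply mul_left_cancel₀ (sub_ne_zero.2 hxy)
    linear_combination hx - hy
  refine rt_of_two (u := (2 * x + y + w * (x + 2 * y)) / 3)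
    (v := (x - y - w * (x + 2 * y)) / 3) ?_ ?_ ?_
  · rw [mem_rt]
    field_simp
    linear_combination (x + 2 * y) ^ 2 * hw - 3 * h1
  · rw [mem_rt]
    field_simp
    linear_combination (x + 2 * y) ^ 2 * hw - 3 * h1
  · intro h
    have h2 : (1 + 2 * w) * (x + 2 * y) = 0 := by
      field_simp at h
      linear_combination h
    have h5 : 1 + 2 * w ≠ 0 := fun h5 => h3 (by linear_combination 4 * hw - (1 + 2 * w) * h5)
    have h4 : x = -2 * y := by
      have := (mul_eq_zero.1 h2).resolve_left h5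
      linear_combination this
    apply hk
    apply mul_left_cancel₀ h3
    rw [h4] at h1
    linear_combination h1

lemma ineq {α c w : F} (hw : w ^ 2 + w + 1 = 0) (h3 : (3 : F) ≠ 0) (hα : α ≠ 0) :
    ∑ x ∈ cu α c, ((2 : ℤ) - (rt x α).card) ≤ 2 - (rt c (α ^ 3)).card := by
  have hR : ((rt c (α ^ 3)).card : ℤ) ≤ 2 := by exact_mod_cast rt_le _ _
  rw [← sum_filter_add_sum_filter_not (cu α c) (fun x => x ^ 2 + α = 0),
    sum_eq_zero (s := (cu α c).filter fun x => x ^ 2 + α = 0) (fun x hx => by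
      rw [rt_two hw h3 hα (mem_filter.1 hx).2]; simp), zero_add,
    sum_congr rfl (g := fun _ => (2 : ℤ) - (rt c (α ^ 3)).card) (fun x hx => by
      rw [rt_eq (mem_filter.1 hx).1 (mem_filter.1 hx).2]), sum_const, nsmul_eq_mul]
  by_cases h2 : (rt c (α ^ 3)).card = 2
  · simp [h2]
  · have h1 : ((cu α c).filter fun x => ¬x ^ 2 + α = 0).card ≤ 1 := by
      rw [card_le_one]
      intro x hx y hy
      by_contra hxy
      apply h2
      rw [← rt_eq (mem_filter.1 hx).1 (mem_filter.1 hx).2]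
      exact two_simple hw h3 (mem_filter.1 hx).1 (mem_filter.1 hy).1 hxy (mem_filter.1 hy).2
    have h1' : (((cu α c).filter fun x => ¬x ^ 2 + α = 0).card : ℤ) ≤ 1 := by exact_mod_cast h1
    nlinarith

lemma eqA {α w : F} (hw : w ^ 2 + w + 1 = 0) (h3 : (3 : F) ≠ 0) (hα : α ≠ 0) (c : F) :
    ∑ x ∈ cu α c, ((2 : ℤ) - (rt x α).card) = 2 - (rt c (α ^ 3)).card := by
  refine (sum_eq_sum_iff_of_le (s := univ) fun c _ => ineq (c := c) hw h3 hα).1 ?_ c (mem_univ _)
  have h1 := sum_fiberwise (s := (univ : Finset F)) (g := fun x => x ^ 3 + 3 * α * x)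
    (f := fun x => (2 : ℤ) - (rt x α).card)
  unfold cu
  rw [h1, sum_sub_distrib, sum_sub_distrib, ← Nat.cast_sum, ← Nat.cast_sum, sum_rt hα,
    sum_rt (pow_ne_zero 3 hα)]

lemma eqB {α : F} (hα : α ≠ 0) (c : F) :
    ∑ x ∈ cu α c, (rt x α).card =
      ∑ U ∈ rt c (α ^ 3), (univ.filter fun u : F => u ^ 3 = U).card := by
  have h0 : ∀ u ∈ univ.filter (fun u : F => u ^ 3 ∈ rt c (α ^ 3)), u ≠ 0 := by
    rintro u hu rfl
    rw [mem_filter, mem_rt] at hu
    exact pow_ne_zero 3 hα (by simpa using hu.2)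
  have h1 := card_eq_sum_card_fiberwise (s := univ.filter fun u : F => u ^ 3 ∈ rt c (α ^ 3))
    (t := rt c (α ^ 3)) (f := fun u => u ^ 3) fun u hu => (mem_filter.1 hu).2
  have h2 := card_eq_sum_card_fiberwise (s := univ.filter fun u : F => u ^ 3 ∈ rt c (α ^ 3))
    (t := cu α c) (f := fun u => u - α / u) fun u hu => by
      have hu0 := h0 u hu
      have hu1 := mem_rt.1 (mem_filter.1 hu).2
      rw [mem_coe, mem_cu]
      field_simp
      linear_combination hu1
  refine Eq.trans (sum_congr rfl fun x hx => ?_) ((h2.symm.trans h1).trans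
    (sum_congr rfl fun U hU => ?_))
  · congr 1
    ext u
    rw [mem_cu] at hx
    rw [mem_filter, mem_filter, mem_rt, mem_rt]
    constructor
    · intro hu
      have hu0 : u ≠ 0 := by
        rintro rfl
        exact hα (by simpa using hu)
      refine ⟨⟨mem_univ _, ?_⟩, ?_⟩
      · rw [← hx]
        linear_combination (u ^ 4 + x * u ^ 3 + (x ^ 2 + α) * u ^ 2 - x * α * u + α ^ 2) * hu
      · field_simp
        linear_combination hu
    · rintro ⟨hu, h⟩
      have hu0 := h0 u (mem_filter.2 ⟨hu.1, mem_rt.2 hu.2⟩)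
      rw [← h]
      field_simp
      ring
  · congr 1
    ext u
    simp only [mem_filter, mem_univ, true_and]
    exact ⟨fun h => h.2, fun h => ⟨h ▸ hU, h⟩⟩

lemma main {α w : F} (hw : w ^ 2 + w + 1 = 0) (h3 : (3 : F) ≠ 0) (hα : α ≠ 0) (χ : F → ℂ)
    (h1 : ∀ U, U ≠ 0 → ((univ.filter fun u : F => u ^ 3 = U).card : ℂ) = 1 + χ U + conj (χ U))
    (h2 : ∀ U V, U * V = -α ^ 3 → χ V = conj (χ U)) (c : F) :
    ((cu α c).card : ℂ) = 1 + ∑ U ∈ rt c (α ^ 3), χ U := by
  have h0 : ∀ U ∈ rt c (α ^ 3), U ≠ 0 := by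
    rintro U hU rfl
    exact pow_ne_zero 3 hα (by simpa using mem_rt.1 hU)
  have hA := eqA hw h3 hα c
  rw [sum_sub_distrib, sum_const, nsmul_eq_mul, ← Nat.cast_sum, eqB hα c] at hA
  have hA' : ((cu α c).card : ℂ) * 2 -
      ∑ U ∈ rt c (α ^ 3), ((univ.filter fun u : F => u ^ 3 = U).card : ℂ) =
        2 - (rt c (α ^ 3)).card := by exact_mod_cast hA
  rw [sum_congr rfl fun U hU => h1 U (h0 U hU), sum_add_distrib, sum_add_distrib, sum_const,
    nsmul_eq_mul, mul_one] at hA'
  have hc : ∑ U ∈ rt c (α ^ 3), conj (χ U) = ∑ U ∈ rt c (α ^ 3), χ U := by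
    refine sum_bij' (fun U _ => c - U) (fun U _ => c - U) ?_ ?_ ?_ ?_ ?_
    · intro U hU
      rw [mem_rt] at hU ⊢
      linear_combination hU
    · intro U hU
      rw [mem_rt] at hU ⊢
      linear_combination hU
    · intro U _
      ring
    · intro U _
      ring
    · intro U hU
      exact (h2 U (c - U) (by linear_combination -mem_rt.1 hU)).symm
  rw [hc] at hA'
  linear_combination hA' / 2

end CardM

open Finset CardM in
theorem cardS (hB : Bas) : CardStmt := by
  intro p d b B y hp hP hd hb hB27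
  have hp0 := hp.ne_zero
  have hc3 : IsCoprime p 3 := hB.b2.cop p hP
  have hmax : (Ideal.span {p}).IsMaximal := PrincipalIdealRing.isMaximal_of_irreducible hp.irreducible
  letI := Ideal.Quotient.field (Ideal.span {p})
  have hfin : Finite (O ⧸ Ideal.span {p}) := by
    apply Nat.finite_of_card_ne_zero
    rw [hB.b5.card p hp]
    have := hB.b1.N_one_le p hp0
    unfold N at this
    intro h
    rw [h] at this
    norm_num at this
  letI := Fintype.ofFinite (O ⧸ Ideal.span {p})
  set π := Ideal.Quotient.mk (Ideal.span {p}) with hπ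
  have hz : ∀ a, π a = 0 ↔ p ∣ a := fun a => by
    rw [hπ, Ideal.Quotient.eq_zero_iff_mem, Ideal.mem_span_singleton]
  have h3 : (3 : O ⧸ Ideal.span {p}) ≠ 0 := by
    intro h
    have : p ∣ 3 := (hz 3).1 (by rw [map_ofNat]; exact h)
    exact hp.not_isUnit (hc3.isUnit_of_dvd' dvd_rfl this)
  have hw : π wO ^ 2 + π wO + 1 = 0 := by
    rw [← map_pow, ← map_add, ← map_one π, ← map_add, hB.b1.w3, map_zero]
  have hd' : π d ≠ 0 := fun h => hd ((hz d).1 h)
  have hb' : π b ≠ 0 := fun h => hb ((hz b).1 h)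
  have hB' : 27 * π B = π d * π b ^ 3 := by
    have := (hz _).2 hB27
    rw [map_sub, map_mul, map_mul, map_pow, map_ofNat] at this
    linear_combination this
  set χ : O ⧸ Ideal.span {p} → ℂ := fun z => cub (Quotient.out z) p with hχ
  have hχπ : ∀ a, χ (π a) = cub a p := fun a =>
    hB.b4.pe_congr p _ _ _ (hB.b6.pe p) ((hz _).1 (by
      rw [map_sub, hπ, Ideal.Quotient.mk_out, sub_self]))
  have hcard : ∀ (P : O → Prop) (Q : O ⧸ Ideal.span {p} → Prop), (∀ a, P a ↔ Q (π a)) →
      (((Rs p).filter P).card : ℂ) = (univ.filter Q).card := by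
    intro P Q h
    have := hB.b5.sum_q p (fun z => if Q z then 1 else 0) hp0
    simp only [card_filter]
    push_cast
    rw [← this]
    exact sum_congr rfl fun a _ => if_congr (h a) rfl rfl
  set α := π d * π b / 3 with hα
  have hα0 : α ≠ 0 := div_ne_zero (mul_ne_zero hd' hb') h3
  have hm := main hw h3 hα0 χ (fun U hU => by
    obtain ⟨a, rfl⟩ := Ideal.Quotient.mk_surjective U
    rw [← hπ, hχπ, ← hB.b6.count p a hp hc3 fun h => hU ((hz a).2 h)]
    refine (hcard _ _ fun r => ?_).symm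
    rw [← hz, map_sub, map_pow, sub_eq_zero]) (fun U V h => by
    obtain ⟨a, rfl⟩ := Ideal.Quotient.mk_surjective U
    obtain ⟨a', rfl⟩ := Ideal.Quotient.mk_surjective V
    obtain ⟨e, he⟩ := Ideal.Quotient.mk_surjective α
    rw [← hπ] at he h ⊢
    have hcop : ∀ z, π z ≠ 0 → IsCoprime z p := fun z hz' =>
      ((hp.irreducible.coprime_iff_not_dvd).2 fun h => hz' ((hz z).2 h)).symm
    have ha0 : π a ≠ 0 := by
      intro h0
      rw [h0, zero_mul] at h
      exact pow_ne_zero 3 hα0 (by linear_combination h)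
    have e1 : cub a p * cub a' p = 1 := by
      rw [← hB.b6.mul_l a a' p hc3, ← hχπ, map_mul, h, ← he, ← map_pow, ← map_neg, hχπ,
        hB.b6.neg_l _ p hc3, hB.b6.pow_l _ p 3 hc3, hB.b6.cube e p (hcop e (he ▸ hα0))]
    have e2 := hB.b6.cube a p (hcop a ha0)
    rw [hχπ, hχπ, hB.b6.conj_eq]
    linear_combination (cub a p) ^ 2 * e1 - cub a' p * e2) (π d * π y)
  rw [hcard _ (fun x => x ^ 3 + 3 * α * x = π d * π y) fun x => by
    rw [← hz, map_sub, map_add, map_pow, map_mul, map_mul, map_mul, sub_eq_zero, hα,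
      mul_div_cancel₀ _ h3]]
  refine hm.trans ?_
  congr 1
  have h4 := hB.b5.sum_q p
    (fun z => if z ^ 2 - π y * z - π B = 0 then χ (π d * z) else 0) hp0
  rw [sum_filter, sum_congr rfl (g := fun r =>
    if π r ^ 2 - π y * π r - π B = 0 then χ (π d * π r) else 0) (fun r _ => by
      rw [← map_mul π d r, hχπ]
      refine if_congr ?_ rfl rfl
      rw [← hz, map_sub, map_sub, map_pow, map_mul]), h4, ← sum_filter]
  symm
  refine sum_bij' (fun t _ => π d * t) (fun U _ => U / π d) ?_ ?_ ?_ ?_ ?_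
  · intro t ht
    rw [mem_rt, hα]
    have := (mem_filter.1 ht).2
    field_simp
    linear_combination 27 * π d ^ 2 * this + π d ^ 2 * hB'
  · intro U hU
    rw [mem_rt, hα] at hU
    rw [mem_filter]
    refine ⟨mem_univ _, ?_⟩
    field_simp at hU ⊢
    apply mul_left_cancel₀ (pow_ne_zero 3 h3)
    linear_combination hU - π d ^ 2 * hB'
  · intro t _
    field_simp
  · intro U _
    field_simp
  · intro t _
    rfl

end Vale.Agent.P026
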