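import Vale.Agent.P026.M.RF

noncomputable section
open Complex
open scoped Classical ComplexConjugate

namespace Vale.Agent.P026

open MulChar AddChar RF

namespace GPM

theorem om_pow {k : ℕ} (h : om ^ k = 1) : 3 ∣ k := by
  have h3 : om ^ 3 = 1 := by linear_combination (om - 1) * om_sq
  have h1 : om ≠ 1 := fun h => by
    have := om_sq
    rw [h] at this
    norm_num at this
  have : Fact (Nat.Prime 3) := ⟨by norm_num⟩
  rw [← orderOf_eq_prime h3 h1]
  exact orderOf_dvd_of_pow_eq_one h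

end GPM

theorem gpS (hB : Bas) : GPStmt := by
  intro p i hp h3 h2 h6
  have := Fact.mk hp
  have hi : i ≠ 0 := fun h => h6 (h ▸ dvd_zero 6)
  have hc : ∀ a, ¬ p ∣ a → IsCoprime a p := fun a h => (hp.coprime_iff_not_dvd.2 h).symm
  have hn : ∀ a, p ∣ a → ¬ IsCoprime a p := fun a h h' => hp.coprime_iff_not_dvd.1 h'.symm h
  have hq : ∀ a b, quad (a * b) p ^ i = quad a p ^ i * quad b p ^ i := fun a b => by
    rcases h2 with h2 | ⟨j, hj⟩
    · rw [hB.b7.mul_l a b p h2, mul_pow]
    · by_cases ha : p ∣ a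
      · rw [hB.b7.zero _ _ hp.ne_zero (hn _ ha), hB.b7.zero _ _ hp.ne_zero (hn _ (ha.mul_right b)),
          zero_pow hi, zero_mul]
      by_cases hb : p ∣ b
      · rw [hB.b7.zero b _ hp.ne_zero (hn _ hb), hB.b7.zero _ _ hp.ne_zero (hn _ (hb.mul_left a)),
          zero_pow hi, mul_zero]
      rw [hj, pow_mul, pow_mul, pow_mul, hB.b7.sq _ _ (hc _ ha), hB.b7.sq _ _ (hc _ hb),
        hB.b7.sq _ _ ((hc _ ha).mul_left (hc _ hb)), one_pow, one_mul]
  obtain ⟨χ, hχ⟩ := exists_char hB p (f := fun a => sx a p ^ i)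
    (fun a m => by
      have e1 := hB.b7.pe p a m
      have e2 := hB.b6.pe p a m
      simp only [sx] at e1 e2 ⊢
      rw [e1, e2])
    (fun a b => by simp only [sx, mul_pow, hq, hB.b6.mul_l a b p h3, map_mul]; ring)
    (by simp [sx, hB.b6.one_l, hB.b7.one_l])
    (by simp [sx, hB.b7.zero 0 p hp.ne_zero (hn _ (dvd_zero p)), hi])
  obtain ⟨ψ, hψ, hψ'⟩ := exists_add hB p
  have h1 : χ ≠ 1 := by
    intro h
    by_cases c : 3 ∣ i
    · have h2' : ¬ 2 ∣ i := by omega
      have h4 := hB.b7.sum_zero p hp (h2.resolve_right h2')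
      have h5 : ∀ a, quad a p = χ (mk p a) := fun a => by
        rw [hχ]
        by_cases ha : p ∣ a
        · simp [sx, hB.b7.zero a p hp.ne_zero (hn _ ha), hi]
        obtain ⟨k, rfl⟩ : ∃ k, i = 6 * k + 3 := ⟨i / 6, by omega⟩
        have e1 := hB.b7.sq _ _ (hc _ ha)
        have e2 := hB.b6.cube _ _ (hc _ ha)
        rw [sx, mul_pow, ← map_pow, show 6 * k + 3 = 3 * (2 * k + 1) by ring, pow_mul (cub a p), e2,
          show 3 * (2 * k + 1) = 2 * (3 * k + 1) + 1 by ring, pow_succ, pow_mul, e1]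
        simp
      simp only [h5] at h4
      rw [sum_eq hB p, h, sum_one_eq_card_units] at h4
      exact Fintype.card_ne_zero (Nat.cast_eq_zero.1 h4)
    · obtain ⟨a, ha⟩ := hB.b6.nontriv p hp h3
      have h4 : ¬ p ∣ a := fun h5 => by
        rw [hB.b6.zero a p hp.ne_zero (hn _ h5)] at ha
        have := om_sq
        rw [← ha] at this
        norm_num at this
      have h5 : sx a p ^ i = 1 := by
        rw [← hχ, h, MulChar.one_apply (isUnit_iff_ne_zero.2 (mt mk_eq_zero.1 h4))]
      have h7 : om ^ (4 * i) = 1 := by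
        have e1 := hB.b7.sq _ _ (hc _ h4)
        rw [sx, hB.b6.conj_eq, ha] at h5
        calc om ^ (4 * i) = ((quad a p * om ^ 2) ^ i) ^ 2 := by
              rw [← pow_mul, mul_comm i, pow_mul _ 2, mul_pow, e1, one_mul, ← pow_mul, ← pow_mul]
              congr 1
              ring
          _ = 1 := by rw [h5, one_pow]
      have := GPM.om_pow h7
      omega
  rw [gauss_eq hB p hχ hψ]
  refine ⟨fun h => ?_, ?_⟩
  · rw [gauss_eq hB p hχ (ψ := ψ.mulShift (mk p h)) (e := fun r => eQ (r * h) p)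
      (fun a => by rw [mulShift_apply, ← map_mul, hψ, mul_comm]), ← hχ]
    by_cases c : mk p h = 0
    · rw [c, mulShift_zero, gaussSum_one_right h1, MulChar.map_zero, map_zero, zero_mul]
    · have := gaussSum_mulShift_eq χ ψ (Units.mk0 _ c)
      rwa [Units.val_mk0, ← star_apply'] at this
  · have := gauss_norm p h1 hψ'
    rw [mul_conj, normSq_eq_norm_sq, card_eq hB] at this
    exact_mod_cast this

end Vale.Agent.P026
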