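import Vale.Agent.P026.Stm1

/-! P026: Gauss sums of squarefree moduli and the duplication formula. -/

noncomputable section
open Complex
open scoped Classical ComplexConjugate

namespace Vale.Agent.P026

namespace HDM

/-- twisted Gauss sum -/
def S (X : O → O → ℂ) (c h : O) : ℂ := ∑ r ∈ Rs c, X r c * eQ (r * h) c

/-- a residue symbol on the moduli satisfying `gd` -/
structure Sy (X : O → O → ℂ) (gd : O → Prop) : Prop where
  mul_r : ∀ a c c', c ≠ 0 → c' ≠ 0 → X a (c * c') = X a c * X a c'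
  mul_l : ∀ a b c, gd c → X (a * b) c = X a c * X b c
  pe : ∀ c, Pe c (fun a => X a c)
  unit_r : ∀ a u, IsUnit u → X a u = 1
  norm : ∀ a c, IsCoprime a c → ‖X a c‖ = 1
  gl : ∀ a b, gd (a * b) → gd a
  pr : ∀ p, Prime p → gd p → (∀ h, S X p h = conj (X h p) * S X p 1) ∧ ‖S X p 1‖ ^ 2 = N p

theorem S_mul (hB : Bas) {X : O → O → ℂ} {gd : O → Prop} (h : Sy X gd) {a b : O} (ha : a ≠ 0)
    (hb : b ≠ 0) (hab : IsCoprime a b) (ga : gd a) (gb : gd b) (t : O) :
    S X (a * b) t = X b a * X a b * S X a t * S X b t := by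
  unfold S
  rw [hB.b4.crt a b _ ha hb hab, mul_assoc, Finset.sum_mul_sum, Finset.mul_sum]
  · refine Finset.sum_congr rfl fun r1 _ => ?_
    rw [Finset.mul_sum]
    refine Finset.sum_congr rfl fun r2 _ => ?_
    have e1 : X (r1 * b + r2 * a) a = X r1 a * X b a := by
      rw [← h.mul_l _ _ _ ga, mul_comm r2 a]; exact h.pe a _ _
    have e2 : X (r1 * b + r2 * a) b = X r2 b * X a b := by
      rw [← h.mul_l _ _ _ gb, add_comm, mul_comm r1 b]; exact h.pe b _ _
    have e3 : eQ ((r1 * b + r2 * a) * t) (a * b) = eQ (r1 * t) a * eQ (r2 * t) b := by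
      rw [show (r1 * b + r2 * a) * t = b * (r1 * t) + a * (r2 * t) by ring, hB.b1.eQ_add,
        hB.b1.eQ_mul a _ _ ha, mul_comm a b, hB.b1.eQ_mul b _ _ hb]
    rw [h.mul_r _ _ _ ha hb, e1, e2, e3]
    ring
  · intro x m
    have e1 := h.pe (a * b) x m
    dsimp only at e1 ⊢
    rw [e1, add_mul, hB.b1.eQ_add, hB.b1.eQ_dvd (a * b * m * t) (a * b) ⟨m * t, by ring⟩, mul_one]

theorem S_unit (hB : Bas) {X : O → O → ℂ} {gd : O → Prop} (h : Sy X gd) {u : O} (hu : IsUnit u)
    (t : O) : S X u t = 1 := by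
  unfold S
  rw [Finset.sum_congr rfl fun r _ => by
    rw [h.unit_r r u hu, hB.b1.eQ_dvd _ _ hu.dvd, mul_one], Finset.sum_const,
    hB.b4.card u hu.ne_zero, (hB.b1.unit_iff u).1 hu]
  simp

theorem sqf {p a : O} (hp : Prime p) (h : Squarefree (p * a)) : IsCoprime p a ∧ Squarefree a := by
  refine ⟨(hp.irreducible.coprime_iff_not_dvd).2 fun c => hp.not_unit (h p ?_), h.of_mul_right⟩
  exact mul_dvd_mul_left p c

theorem S_sqf (hB : Bas) {X : O → O → ℂ} {gd : O → Prop} (h : Sy X gd) (n : O) :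
    gd n → Squarefree n → (∀ t, S X n t = conj (X t n) * S X n 1) ∧ ‖S X n 1‖ ^ 2 = N n := by
  induction n using UniqueFactorizationMonoid.induction_on_prime with
  | h₁ => exact fun _ c => absurd c not_squarefree_zero
  | h₂ u hu =>
    intro _ _
    refine ⟨fun t => by rw [S_unit hB h hu, S_unit hB h hu, h.unit_r t u hu]; simp, ?_⟩
    rw [S_unit hB h hu, N, (hB.b1.unit_iff u).1 hu]
    simp
  | h₃ a p ha hp ih =>
    intro g hs
    obtain ⟨c1, c2⟩ := sqf hp hs
    have gp := h.gl _ _ g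
    have ga := h.gl a p (by rwa [mul_comm])
    obtain ⟨i1, i2⟩ := ih ga c2
    obtain ⟨p1, p2⟩ := h.pr p hp gp
    refine ⟨fun t => ?_, ?_⟩
    · rw [S_mul hB h hp.ne_zero ha c1 gp ga t, S_mul hB h hp.ne_zero ha c1 gp ga 1, i1 t, p1 t,
        h.mul_r _ _ _ hp.ne_zero ha, map_mul]
      ring
    · rw [S_mul hB h hp.ne_zero ha c1 gp ga 1, norm_mul, norm_mul, norm_mul, h.norm _ _ c1,
        h.norm _ _ c1.symm, one_mul, one_mul, mul_pow, i2, p2, hB.b1.N_mul]

theorem sx4 (hB : Bas) (a : O) {p : O} (hp : p ≠ 0) : sx a p ^ 4 = conj (cub a p) := by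
  by_cases c : IsCoprime a p
  · have e1 := hB.b7.sq a p c
    have e2 := congrArg conj (hB.b6.cube a p c)
    rw [map_pow, map_one] at e2
    unfold sx
    linear_combination (quad a p ^ 2 + 1) * conj (cub a p) ^ 4 * e1 + conj (cub a p) * e2
  · simp [sx, hB.b6.zero a p hp c]

theorem sx3 (hB : Bas) (a : O) {p : O} (hp : p ≠ 0) : sx a p ^ 3 = quad a p := by
  by_cases c : IsCoprime a p
  · have e1 := hB.b7.sq a p c
    have e2 := congrArg conj (hB.b6.cube a p c)
    rw [map_pow, map_one] at e2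
    unfold sx
    linear_combination quad a p * conj (cub a p) ^ 3 * e1 + quad a p * e2
  · simp [sx, hB.b7.zero a p hp c]

theorem sy6 (hB : Bas) (hG : GPStmt) : Sy sx fun c => IsCoprime c 3 ∧ IsCoprime c 2 where
  mul_r a c c' h h' := by
    simp only [sx, hB.b6.mul_r a c c' h h', hB.b7.mul_r a c c' h h', map_mul]; ring
  mul_l a b c h := by
    simp only [sx, hB.b6.mul_l a b c h.1, hB.b7.mul_l a b c h.2, map_mul]; ring
  pe c a m := by
    have e1 := hB.b6.pe c a m
    have e2 := hB.b7.pe c a m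
    dsimp only at e1 e2 ⊢
    rw [sx, sx, e1, e2]
  unit_r a u h := by simp [sx, hB.b6.unit_r a u h, hB.b7.unit_r a u h]
  norm a c h := by
    rw [sx, norm_mul, hB.b7.norm a c h, RCLike.norm_conj, hB.b6.norm a c h, one_mul]
  gl a b h := ⟨h.1.of_mul_left_left, h.2.of_mul_left_left⟩
  pr p hp h := by
    simpa only [S, pow_one, mul_one] using hG p 1 hp h.1 (Or.inl h.2) (by decide)

theorem sy3 (hB : Bas) (hG : GPStmt) : Sy (fun a c => conj (cub a c)) fun c => IsCoprime c 3 where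
  mul_r a c c' h h' := by simp only [hB.b6.mul_r a c c' h h', map_mul]
  mul_l a b c h := by simp only [hB.b6.mul_l a b c h, map_mul]
  pe c a m := by
    have e1 := hB.b6.pe c a m
    dsimp only at e1 ⊢
    rw [e1]
  unit_r a u h := by simp [hB.b6.unit_r a u h]
  norm a c h := by rw [RCLike.norm_conj, hB.b6.norm a c h]
  gl a b h := h.of_mul_left_left
  pr p hp h := by
    simpa only [S, sx4 hB _ hp.ne_zero, mul_one] using
      hG p 4 hp h (Or.inr (by decide)) (by decide)

theorem sy2 (hB : Bas) (hG : GPStmt) : Sy quad fun c => IsCoprime c 3 ∧ IsCoprime c 2 where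
  mul_r := hB.b7.mul_r
  mul_l a b c h := hB.b7.mul_l a b c h.2
  pe := hB.b7.pe
  unit_r := hB.b7.unit_r
  norm := hB.b7.norm
  gl a b h := ⟨h.1.of_mul_left_left, h.2.of_mul_left_left⟩
  pr p hp h := by
    simpa only [S, sx3 hB _ hp.ne_zero, mul_one] using hG p 3 hp h.1 (Or.inl h.2) (by decide)

theorem g6_eq (c : O) : g6 c = S sx c 1 := by simp only [g6, S, mul_one]

theorem gs_eq (c : O) : gs c = S (fun a c => conj (cub a c)) c 1 := by simp only [gs, S, mul_one]

theorem g2_eq (c : O) : g2 c = S quad c 1 := by simp only [g2, S, mul_one]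

theorem cub_two (hB : Bas) (hC : CRStmt) {a b : O} (ha : Prim a) (hb : Prim b)
    (hab : IsCoprime a b) : conj (cub b a) * conj (cub a b) = cub a b := by
  have e := hB.b6.cube a b hab
  rw [hC b a hb ha, hB.b6.conj_eq]
  linear_combination cub a b * e

theorem mu_mul {p a : O} (hp : Prime p) (ha : a ≠ 0) (h : Squarefree (p * a)) :
    mu (p * a) = -mu a := by
  have e1 := Multiset.card_eq_card_of_rel (UniqueFactorizationMonoid.factors_mul hp.ne_zero ha)
  have e2 : (UniqueFactorizationMonoid.factors p).card = 1 := by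
    have := UniqueFactorizationMonoid.factors_unique (f := UniqueFactorizationMonoid.factors p)
      (g := {p}) (fun x hx => UniqueFactorizationMonoid.irreducible_of_factor x hx)
      (fun x hx => by rw [Multiset.mem_singleton.1 hx]; exact hp.irreducible)
      (by simpa using UniqueFactorizationMonoid.factors_prod hp.ne_zero)
    simpa using Multiset.card_eq_card_of_rel this
  rw [mu, mu, if_pos h, if_pos h.of_mul_right, e1, Multiset.card_add, e2, pow_add]
  ring

theorem ang_mul (a b : O) : ang 1 (toC (a * b)) = ang 1 (toC a) * ang 1 (toC b) := by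
  simp only [ang, zpow_one, map_mul, norm_mul, ofReal_mul]
  rw [mul_div_mul_comm]

theorem dup_prime (hB : Bas) (h0 : HD0Stmt) (hQ : QR) {p : O} (hp : Prime p) (h1 : Prim p)
    (h2 : IsCoprime p 2) : -g6 p = conj (cub 2 p) * gam p * ang 1 (toC p) * gs p := by
  have e := h0 p hp h1 h2
  have n1 := hB.b1.N_one_le p hp.ne_zero
  have n2 : Real.sqrt (N p) = ‖toC p‖ := by
    rw [hB.b1.N_eq, Real.sqrt_sq (norm_nonneg _)]
  have n3 : (‖toC p‖ : ℂ) ≠ 0 := by
    rw [← n2]; exact_mod_cast (Real.sqrt_pos.2 (by linarith)).ne'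
  have n4 : (N p : ℂ) = (‖toC p‖ : ℂ) ^ 2 := by rw [hB.b1.N_eq]; push_cast; rfl
  rw [hQ.g2_eq p h2 hp.squarefree, n2, n4] at e
  rw [ang, zpow_one]
  field_simp
  refine mul_right_cancel₀ n3 ?_
  linear_combination e

end HDM

open HDM in
theorem hdS (hB : Bas) (hG : GPStmt) (hC : CRStmt) (h0 : HD0Stmt) (hQ : QR) : HD := by
  have m3 : ∀ a b, Prim a → Prim b → IsCoprime a b → gs (a * b) = gs a * gs b * cub a b := by
    intro a b ha hb hab
    rw [gs_eq, gs_eq, gs_eq, S_mul hB (sy3 hB hG) (hB.b2.ne a ha) (hB.b2.ne b hb) hab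
      (hB.b2.cop a ha) (hB.b2.cop b hb), cub_two hB hC ha hb hab]
    ring
  refine ⟨fun n h h1 h2 h3 => ?_, fun n h h1 h2 => ?_, fun n h h1 h2 h3 => ?_,
    fun n h1 h2 h3 => ?_, fun n h1 h2 => ?_, m3, fun n h1 => ?_⟩
  · rw [g6_eq]; exact (S_sqf hB (sy6 hB hG) n ⟨hB.b2.cop n h1, h2⟩ h3).1 h
  · have := (S_sqf hB (sy3 hB hG) n h1 h2).1 h
    rw [conj_conj] at this
    rw [gs_eq]; exact this
  · have := (S_sqf hB (sy2 hB hG) n ⟨h2, h1⟩ h3).1 h
    rw [hB.b7.conj_eq] at this
    rw [g2_eq]; exact this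
  · rw [g6_eq]; exact (S_sqf hB (sy6 hB hG) n ⟨hB.b2.cop n h1, h2⟩ h3).2
  · rw [gs_eq]; exact (S_sqf hB (sy3 hB hG) n h1 h2).2
  · refine hB.b2.ind1 (fun n => IsCoprime n 2 → Squarefree n →
      mu n * g6 n = conj (cub 2 n) * gam n * ang 1 (toC n) * gs n) ?_ ?_ n h1
    · intro _ _
      have e1 : Gq 1 1 = 1 := by
        unfold Gq
        rw [Finset.sum_congr rfl fun r _ => hB.b1.eQ_dvd _ _ (one_dvd _), Finset.sum_const,
          hB.b4.card 1 one_ne_zero, (hB.b1.unit_iff 1).1 isUnit_one]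
        simp
      have e2 : N 1 = 1 := by rw [N, (hB.b1.unit_iff 1).1 isUnit_one]; simp
      rw [g6_eq, gs_eq, S_unit hB (sy6 hB hG) isUnit_one, S_unit hB (sy3 hB hG) isUnit_one,
        hB.b6.unit_r 2 1 isUnit_one, gam, e1, e2]
      simp [mu, ang]
    · intro p a hp p1 a1 ih h2 h3
      obtain ⟨c1, c2⟩ := sqf hp h3
      have ha := hB.b2.ne a a1
      have p2 : IsCoprime p 2 := h2.of_mul_left_left
      have a2 : IsCoprime a 2 := h2.of_mul_left_right
      have i1 := ih a2 c2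
      have i2 := dup_prime hB h0 hQ hp p1 p2
      have i3 := cub_two hB hC p1 a1 c1
      rw [mu_mul hp ha h3, g6_eq, S_mul hB (sy6 hB hG) hp.ne_zero ha c1 ⟨hB.b2.cop p p1, p2⟩
        ⟨hB.b2.cop a a1, a2⟩, ← g6_eq, ← g6_eq, m3 p a p1 a1 c1, ang_mul,
        ← hQ.recip p a p2 a2 c1, hB.b6.mul_r 2 p a hp.ne_zero ha, map_mul, sx, sx]
      linear_combination (quad a p * quad p a * cub p a * (mu a * g6 a)) * i2 +
        (quad a p * quad p a * cub p a * (conj (cub 2 p) * gam p * ang 1 (toC p) * gs p)) * i1 -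
        (quad a p * quad p a * mu a * g6 p * g6 a) * i3

end Vale.Agent.P026
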