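import Vale.Agent.P026.M.QG

noncomputable section
open Complex
open scoped Classical ComplexConjugate

namespace Vale.Agent.P026

theorem hd0S (hB : Bas) (hG : GPStmt) (hJ : JStmt) : HD0Stmt := by
  intro p hp hP h2
  have p0 := hp.ne_zero
  have h3 := hB.b2.cop p hP
  have cop : ∀ a, ¬ p ∣ a → IsCoprime a p := fun a h => (hp.coprime_iff_not_dvd.2 h).symm
  have pc : ∀ a b, p ∣ a - b → cub a p = cub b p := fun a b h =>
    hB.b4.pe_congr p _ a b (hB.b6.pe p) h
  have pq : ∀ a b, p ∣ a - b → quad a p = quad b p := fun a b h =>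
    hB.b4.pe_congr p _ a b (hB.b7.pe p) h
  have q0 : ∀ a, p ∣ a → quad a p = 0 := fun a h =>
    hB.b7.zero a p p0 fun c => hp.not_isUnit (c.symm.isUnit_of_dvd h)
  have s0 : ∑ a ∈ Rs p, sx a p = 0 := by
    have := (hG p 1 hp h3 (Or.inl h2) (by norm_num)).1 0
    simpa [sx, q0 0 (dvd_zero p), hB.b1.eQ_dvd 0 p (dvd_zero p)] using this
  set J := ∑ a ∈ Rs p, conj (cub a p) * quad (1 - a) p with hJ'
  have k1 : ∀ c, ∑ a ∈ Rs p, conj (cub a p) * quad (c - a) p = sx c p * J := by
    intro c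
    by_cases d : p ∣ c
    · rw [sx, q0 c d, zero_mul, zero_mul, ← mul_zero (quad (-1) p), ← s0, Finset.mul_sum]
      refine Finset.sum_congr rfl fun a _ => ?_
      rw [pq (c - a) (-1 * a) (by simpa using d), hB.b7.mul_l _ _ _ h2, sx]
      ring
    · have hF : Pe p fun a => conj (cub a p) * quad (c - a) p := fun x m => by
        simp only
        rw [pc _ x ⟨m, by ring⟩, pq _ (c - x) ⟨-m, by ring⟩]
      rw [← hB.b4.affine p _ c 0 p0 hF (cop c d), hJ', Finset.mul_sum]
      refine Finset.sum_congr rfl fun a _ => ?_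
      rw [add_zero, show c - c * a = c * (1 - a) by ring, hB.b7.mul_l _ _ _ h2,
        hB.b6.mul_l _ _ _ h3, sx, map_mul]
      ring
  have k2 : gs p * g2 p = J * g6 p := by
    have : ∀ a, conj (cub a p) * eQ a p * g2 p =
        ∑ c ∈ Rs p, conj (cub a p) * quad (c - a) p * eQ c p := fun a => by
      rw [g2, ← hB.b4.affine p _ 1 (-a) p0 (QGM.pe_g2 hB p) isCoprime_one_left, Finset.mul_sum]
      refine Finset.sum_congr rfl fun c _ => ?_
      have := hB.b1.eQ_add a (c - a) p
      rw [add_sub_cancel] at this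
      rw [one_mul, ← sub_eq_add_neg, this]
      ring
    rw [gs, Finset.sum_mul]
    simp only [this]
    rw [Finset.sum_comm, g6, Finset.mul_sum]
    refine Finset.sum_congr rfl fun c _ => ?_
    rw [← Finset.sum_mul, k1]
    ring
  have hF : Pe p fun t => conj (cub (1 - t) p) := fun x m => by
    simp only
    rw [pc _ (1 - x) ⟨-m, by ring⟩]
  have hF2 : Pe p fun t => conj (cub (1 - t ^ 2) p) := fun x m => by
    simp only
    rw [pc _ (1 - x ^ 2) ⟨-(2 * x * m + p * m ^ 2), by ring⟩]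
  have hF3 : Pe p fun t => (1 + quad t p) * conj (cub (1 - t) p) := fun x m => by
    simp only
    rw [pc _ (1 - x) ⟨-m, by ring⟩, pq _ x ⟨m, by ring⟩]
  have k3 : conj (cub 2 p) ^ 2 * conj (-toC p) = J := by
    have a1 := QGM.sqsum hB hp h2 hF
    have a2 := hB.b4.affine p _ (-2) 1 p0 hF2 h2.symm.neg_left
    have a3 := hB.b4.affine p _ (-1) 1 p0 hF3 isCoprime_one_left.neg_left
    have a4 := congrArg conj (hB.b6.sum_zero p hp h3)
    rw [map_sum, map_zero] at a4
    rw [← (hJ p hp hP).1, map_sum, Finset.mul_sum, ← zero_add J, ← a4, hJ',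
      ← Finset.sum_add_distrib]
    refine Eq.trans ?_ ((a2.trans (a1.trans a3.symm)).trans ?_) <;>
      refine Finset.sum_congr rfl fun a _ => ?_
    · rw [show 1 - (-2 * a + 1) ^ 2 = 2 * (2 * (a * (1 - a))) by ring, hB.b6.mul_l _ _ _ h3,
        hB.b6.mul_l _ _ _ h3, hB.b6.mul_l _ _ _ h3]
      simp only [map_mul]
      ring
    · rw [show 1 - (-1 * a + 1) = a by ring, show -1 * a + 1 = 1 - a by ring]
      ring
  have k4 := congrArg conj (hB.b6.cube 2 p h2.symm)
  rw [map_pow, map_one] at k4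
  have k5 : (N p : ℂ) = toC p * conj (toC p) := by
    rw [hB.b1.N_eq, mul_conj, normSq_eq_norm_sq]
  rw [map_neg] at k3
  rw [k5]
  linear_combination (-(conj (cub 2 p) * toC p)) * k2 + (conj (cub 2 p) * toC p * g6 p) * k3 +
    (toC p * conj (toC p) * g6 p) * k4

end Vale.Agent.P026
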