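import Mathlib

/-! Cubic characters of finite fields. -/

namespace Vale.Agent.P026.CubH

open Finset MulChar AddChar

theorem frob_iter {R R' : Type*} [CommRing R] [Fintype R] [CommRing R'] (p : ℕ) [fp : Fact p.Prime]
    [CharP R' p] (χ : MulChar R R') (ψ : AddChar R R') (n : ℕ) :
    gaussSum χ ψ ^ p ^ n = gaussSum (χ ^ p ^ n) (ψ ^ p ^ n) := by
  induction n with
  | zero => simp
  | succ n ih => rw [pow_succ, pow_mul, ih, gaussSum_frob, ← pow_mul, ← pow_mul]

/-- the Frobenius relation for a character of order `n` -/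
theorem frob_rel {F F' : Type*} [Field F] [Fintype F] [Field F'] [Fintype F']
    {χ : MulChar F F'} (h2 : 2 ≤ orderOf χ) (hd : orderOf χ ∣ Fintype.card F' - 1)
    (hch : ringChar F' ≠ ringChar F) :
    χ (Fintype.card F') * (χ (-1) * Fintype.card F *
      ∏ i ∈ Ico 1 (orderOf χ - 1), jacobiSum χ (χ ^ i)) ^ ((Fintype.card F' - 1) / orderOf χ)
      = 1 := by
  obtain ⟨n, hp, hc⟩ := FiniteField.card F (ringChar F)
  obtain ⟨n', hp', hc'⟩ := FiniteField.card F' (ringChar F')
  let ψ := FiniteField.primitiveChar F F' hch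
  let K := CyclotomicField ψ.n F'
  have hchar := Algebra.ringChar_eq F' K
  have hinj := (algebraMap F' K).injective
  let χ' := χ.ringHomComp (algebraMap F' K)
  have ho : orderOf χ' = orderOf χ :=
    orderOf_injective (MulChar.ringHomCompHom (algebraMap F' K))
      (MulChar.injective_ringHomComp hinj) χ
  have hg := gaussSum_pow_eq_prod_jacobiSum (χ := χ') (ψ := ψ.char) (ho ▸ h2) ψ.prim
  have h1 : χ' ≠ 1 := fun h => by
    rw [h, orderOf_one] at ho
    omega
  have hq : (Fintype.card F : K) ≠ 0 := by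
    rw [hc, Nat.cast_pow]
    refine pow_ne_zero _ fun h => hch ?_
    have := (ringChar.spec K _).1 h
    rw [← hchar] at this
    exact (Nat.prime_dvd_prime_iff_eq hp' hp).1 this
  have hg0 : gaussSum χ' ψ.char ≠ 0 := gaussSum_ne_zero_of_nontrivial hq h1 ψ.prim
  have hu : IsUnit ((Fintype.card F' : ℕ) : F) := by
    rw [hc', Nat.cast_pow]
    refine IsUnit.pow _ (isUnit_iff_ne_zero.2 fun h => hch ?_)
    exact ((Nat.prime_dvd_prime_iff_eq hp hp').1 ((ringChar.spec F _).1 h)).symm
  have := Fact.mk hp'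
  have : CharP K (ringChar F') := hchar ▸ ringChar.charP K
  have hf := frob_iter (ringChar F') χ' ψ.char n'
  obtain ⟨m, hm⟩ := hd
  have hm' : Fintype.card F' = orderOf χ * m + 1 := by
    have := Fintype.card_pos (α := F')
    omega
  rw [← hc', pow_mulShift] at hf
  have h3 : χ' ^ Fintype.card F' = χ' := by
    rw [hm', pow_succ, pow_mul, ← ho, pow_orderOf_eq_one, one_pow, one_mul]
  have h4 := gaussSum_mulShift χ' ψ.char hu.unit
  rw [h3] at hf
  rw [hu.unit_spec, ← hf] at h4
  apply hinj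
  rw [hm, Nat.mul_div_cancel_left _ (by omega), map_one, map_mul, map_pow, map_mul, map_mul,
    map_natCast (algebraMap F' K), map_prod]
  simp only [← MulChar.ringHomComp_apply, ← jacobiSum_ringHomComp, ← MulChar.ringHomComp_pow]
  rw [ho] at hg
  rw [← hg, ← pow_mul]
  apply mul_right_cancel₀ hg0
  rw [one_mul, mul_assoc, ← pow_succ, ← hm']
  exact h4

theorem conj_w {w : ℂ} (h : w ^ 2 + w + 1 = 0) : (starRingEnd ℂ) w = w ^ 2 := by
  have h3 : w ^ 3 = 1 := by linear_combination (w - 1) * h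
  have h1 : ‖w‖ = 1 := by
    have := congrArg norm h3
    rw [norm_pow, norm_one] at this
    exact (pow_eq_one_iff_of_nonneg (norm_nonneg w) (by norm_num)).1 this
  have h2 : w * (starRingEnd ℂ) w = 1 := by
    rw [Complex.mul_conj, Complex.normSq_eq_norm_sq, h1]
    norm_num
  linear_combination w ^ 2 * h2 - (starRingEnd ℂ) w * h3

section

variable {R : Type*} [CommRing R] [IsDomain R] {ω : R} (hω : ω ^ 2 + ω + 1 = 0)
  (hs : ∀ x : R, ∃ a b : ℤ, x = a + b * ω) (ι : R →+* ℂ) (hι : Function.Injective ι)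

omit [IsDomain R] in
include hω hs in
theorem unit_eq {u v : R} (hu : ι u * (starRingEnd ℂ) (ι u) = 1) (hv : u = -1 + 3 * v) :
    u = -1 := by
  obtain ⟨c, d, rfl⟩ := hs v
  have h1 : ι ω ^ 2 + ι ω + 1 = 0 := by simpa using congrArg ι hω
  have h2 : (((3 * c - 1) ^ 2 - (3 * c - 1) * (3 * d) + (3 * d) ^ 2 : ℤ) : ℂ) = (1 : ℤ) := by
    rw [hv] at hu
    simp only [map_add, map_mul, map_neg, map_one, map_ofNat, map_intCast, conj_w h1] at hu
    push_cast
    linear_combination hu - ((3 * c - 1) * (3 * d) + 9 * d ^ 2 * (ι ω - 1)) * h1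
  have h3 := Int.cast_injective h2
  have hd : d = 0 := by
    by_contra h
    have := Int.one_le_abs h
    nlinarith [sq_nonneg (2 * (3 * c - 1) - 3 * d), sq_abs d]
  subst hd
  have hc : c = 0 := by
    have : (3 * c - 1 - 1) * (3 * c) = 0 := by linarith
    rcases mul_eq_zero.1 this with h | h <;> omega
  subst hc
  simp [hv]

variable {F : Type*} [Field F] [Fintype F] (φ : R →+* F) {χ : MulChar F R}

omit [IsDomain R] in
theorem ne_one (hd : 3 ∣ Fintype.card F - 1)
    (hχ : ∀ x, φ (χ x) = x ^ ((Fintype.card F - 1) / 3)) : χ ≠ 1 := by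
  intro h
  have h1 : ∀ x : Fˣ, x ^ ((Fintype.card F - 1) / 3) = 1 := fun x => by
    ext
    rw [Units.val_pow_eq_pow_val, ← hχ, h, one_apply_coe, map_one, Units.val_one]
  have h2 := (FiniteField.forall_pow_eq_one_iff F _).1 h1
  have h3 := Fintype.one_lt_card (α := F)
  have h4 := Nat.le_of_dvd (by omega) h2
  omega

omit [IsDomain R] in
theorem map_jac (hd : 3 ∣ Fintype.card F - 1)
    (hχ : ∀ x, φ (χ x) = x ^ ((Fintype.card F - 1) / 3)) : φ (jacobiSum χ χ) = 0 := by
  have h3 := Fintype.one_lt_card (α := F)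
  rw [jacobiSum, map_sum]
  simp only [map_mul, hχ, sub_pow, mul_sum]
  rw [sum_comm]
  refine sum_eq_zero fun i hi => ?_
  have h4 := mem_range.1 hi
  have h5 := FiniteField.sum_pow_lt_card_sub_one F
    ((Fintype.card F - 1) / 3 + ((Fintype.card F - 1) / 3 - i)) (by omega)
  have h6 : ∀ x : F, x ^ ((Fintype.card F - 1) / 3) * ((-1) ^ (i + (Fintype.card F - 1) / 3) *
      1 ^ i * x ^ ((Fintype.card F - 1) / 3 - i) * (((Fintype.card F - 1) / 3).choose i : F)) =
      ((-1) ^ (i + (Fintype.card F - 1) / 3) * (((Fintype.card F - 1) / 3).choose i : F)) *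
        x ^ ((Fintype.card F - 1) / 3 + ((Fintype.card F - 1) / 3 - i)) := fun x => by ring
  simp only [h6]
  rw [← mul_sum, h5, mul_zero]

include hω hs hι in
/-- the cubic Jacobi sum of a primary prime -/
theorem jac_eq {π : R} (hk : ∀ x, φ x = 0 → π ∣ x) (hd : 3 ∣ Fintype.card F - 1)
    (hχ : ∀ x, φ (χ x) = x ^ ((Fintype.card F - 1) / 3)) (h3 : χ ^ 3 = 1)
    (hN : ι π * (starRingEnd ℂ) (ι π) = Fintype.card F) (hp : (3 : R) ∣ π - 1) :
    jacobiSum χ χ = -π := by
  have hω3 : IsPrimitiveRoot ω 3 := by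
    refine (IsPrimitiveRoot.iff (by norm_num)).2 ⟨by linear_combination (ω - 1) * hω, ?_⟩
    have h0 : (3 : R) ≠ 0 := fun h => by
      have := congrArg ι h
      rw [map_ofNat, map_zero] at this
      norm_num at this
    intro l h1 h2 h
    interval_cases l
    · exact h0 (by linear_combination hω - (ω + 2) * h)
    · exact h0 (by linear_combination (2 - ω) * hω + (ω - 1) * h)
  obtain ⟨z, -, hz⟩ := exists_jacobiSum_eq_neg_one_add (by norm_num) h3 h3 hd hω3
  obtain ⟨u, hu⟩ := hk _ (map_jac φ hd hχ)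
  obtain ⟨t, ht⟩ := hp
  have h1 := ne_one φ hd hχ
  let χ' := χ.ringHomComp ι
  have h1' : χ' ≠ 1 := (ringHomComp_ne_one_iff hι).2 h1
  have h2' : χ' * χ' ≠ 1 := fun h => h1' (by
    have : χ' ^ 3 = 1 := by rw [ringHomComp_pow, h3, ringHomComp_one]
    rwa [pow_succ, pow_two, h, one_mul] at this)
  have hc : ringChar ℂ ≠ ringChar F := by
    rw [ringChar.eq_zero]
    exact (CharP.ringChar_ne_zero_of_finite F).symm
  have hJ := jacobiSum_mul_jacobiSum_inv hc h1' h1' h2'
  have hb : jacobiSum χ'⁻¹ χ'⁻¹ = (starRingEnd ℂ) (jacobiSum χ' χ') := by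
    simp only [jacobiSum, map_sum, map_mul, ← star_apply', RCLike.star_def]
  rw [hb, jacobiSum_ringHomComp, hu, map_mul, map_mul, ← hN] at hJ
  have hq : ι π * (starRingEnd ℂ) (ι π) ≠ 0 := by
    rw [hN]
    exact Nat.cast_ne_zero.2 Fintype.card_ne_zero
  have h5 : ι u * (starRingEnd ℂ) (ι u) = 1 := mul_left_cancel₀ hq (by linear_combination hJ)
  have h6 := unit_eq hω hs ι (v := -(z * ω) - t * u) h5
    (by linear_combination hz - hu - u * ht + z * hω)
  rw [hu, h6, mul_neg, mul_one]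

theorem eq_one (hd : 3 ∣ Fintype.card F - 1) {y : R} (h3 : y ^ 3 = 1) (h : φ y = 1) : y = 1 := by
  have h1 : (y - 1) * (y ^ 2 + y + 1) = 0 := by linear_combination h3
  rcases mul_eq_zero.1 h1 with h2 | h2
  · exact sub_eq_zero.1 h2
  · exfalso
    have h4 := congrArg φ h2
    simp only [map_add, map_pow, h, map_one, map_zero] at h4
    obtain ⟨m, hm⟩ := hd
    have h5 : Fintype.card F = 3 * m + 1 := by
      have := Fintype.card_pos (α := F)
      omega
    have h6 := FiniteField.cast_card_eq_zero F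
    rw [h5] at h6
    push_cast at h6
    exact one_ne_zero (by linear_combination h6 - (m : F) * h4 : (1 : F) = 0)

omit [IsDomain R] [Fintype F] in
theorem cube (h3 : χ ^ 3 = 1) {x : F} (hx : χ x ≠ 0) : χ x ^ 3 = 1 := by
  have hu : IsUnit x := by
    by_contra h
    exact hx (map_nonunit χ h)
  rw [← pow_apply' _ (by norm_num), h3, MulChar.one_apply hu]

omit [Fintype F] in
theorem neg_one (h : χ ^ 3 = 1) : χ (-1) = 1 := by
  have h4 := cube h (x := -1) (isUnit_one.neg.map χ).ne_zero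
  have h5 : χ (-1) * χ (-1) = 1 := by rw [← map_mul]; simp
  linear_combination h4 - χ (-1) * h5

variable {F' : Type*} [Field F'] [Fintype F'] (φ' : R →+* F') {χ' : MulChar F' R}

theorem rel {π : R} (h1 : χ ≠ 1) (h3 : χ ^ 3 = 1) (hJ : jacobiSum χ χ = -π)
    (hd' : 3 ∣ Fintype.card F' - 1)
    (hχ' : ∀ x, φ' (χ' x) = x ^ ((Fintype.card F' - 1) / 3)) (h3' : χ' ^ 3 = 1)
    (hch : ringChar F' ≠ ringChar F) :
    χ (Fintype.card F') * χ' (φ' (π * Fintype.card F)) = 1 := by
  let ψ := χ.ringHomComp φ'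
  have hψ3 : ψ ^ 3 = 1 := by rw [ringHomComp_pow, h3, ringHomComp_one]
  have hψ1 : ψ ≠ 1 := fun h => h1 (by
    ext x
    rw [one_apply_coe]
    refine eq_one φ' hd' (cube h3 (x.isUnit.map χ).ne_zero) ?_
    rw [← ringHomComp_apply, show χ.ringHomComp φ' = 1 from h, one_apply_coe])
  have ho : orderOf ψ = 3 := orderOf_eq_prime hψ3 hψ1
  have h := frob_rel (χ := ψ) (by omega) (ho ▸ hd') hch
  rw [ho] at h
  simp only [Nat.add_one_sub_one, Nat.Ico_succ_singleton, prod_singleton, pow_one] at h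
  rw [jacobiSum_ringHomComp, hJ, ringHomComp_apply, ringHomComp_apply, neg_one h3, map_one, one_mul,
    ← hχ', ← map_mul] at h
  have h7 : (Fintype.card F : F') * φ' (-π) = -1 * φ' (π * Fintype.card F) := by
    simp only [map_neg, map_mul, map_natCast]
    ring
  rw [h7, map_mul χ', neg_one h3', one_mul] at h
  have h8 : χ (Fintype.card F') * χ' (φ' (π * Fintype.card F)) ≠ 0 := fun h9 => by
    rw [h9, map_zero] at h
    exact zero_ne_one h
  refine eq_one φ' hd' ?_ h
  rw [mul_pow, cube h3 (left_ne_zero_of_mul h8), cube h3' (right_ne_zero_of_mul h8), one_mul]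

end

end Vale.Agent.P026.CubH
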