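import Vale.Agent.P026.M.RF
import Vale.Agent.P026.M.Cub

noncomputable section
open Complex
open scoped Classical ComplexConjugate

namespace Vale.Agent.P026

open MulChar AddChar RF

namespace JM

theorem span (x : O) : ∃ a b : ℤ, x = a + b * wO :=
  ⟨x.re, x.im, by ext <;> simp [wO]⟩

theorem jac (hB : Bas) (p : O) [Fact (Prime p)] (h : Prim p) {χ : MulChar (K p) O}
    (h2 : ∀ x, mk p (χ x) = x ^ ((Fintype.card (K p) - 1) / 3)) (h3 : χ ^ 3 = 1) :
    jacobiSum χ χ = -p :=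
  CubH.jac_eq hB.b1.w3 span toC hB.b1.inj (mk p) (fun _ => mk_eq_zero.1) (three_dvd hB p h) h2 h3
    (by rw [← hB.b1.toC_cj, ← map_mul, hB.b1.cj_mul, card_eq hB, map_natCast]) h

end JM

theorem jS (hB : Bas) (_hG : GPStmt) : JStmt := by
  intro p hp h
  have := Fact.mk hp
  obtain ⟨χ, h1, h2, h3⟩ := exists_cub hB p (hB.b2.cop p h)
  obtain ⟨ψ, hψ, hψ'⟩ := exists_add hB p
  let χ' := χ.ringHomComp toC
  have e1 : ∀ a, χ' (mk p a) = cub a p := h1
  have hJ : jacobiSum χ' χ' = -toC p := by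
    rw [jacobiSum_ringHomComp, JM.jac hB p h h2 h3, map_neg]
  have n1 : χ' ≠ 1 := (ringHomComp_ne_one_iff hB.b1.inj).2
    (CubH.ne_one (mk p) (three_dvd hB p h) h2)
  have c3 : χ' ^ 3 = 1 := by rw [ringHomComp_pow, h3, ringHomComp_one]
  have e2 : χ' * χ' = χ'⁻¹ := eq_inv_of_mul_eq_one_left (by rw [← c3, pow_succ, pow_two])
  have n2 : χ'⁻¹ ≠ 1 := inv_ne_one.2 n1
  have e3 : gs p = gaussSum χ'⁻¹ ψ := gauss_eq hB p
    (fun a => by rw [← star_apply', e1, RCLike.star_def]) hψ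
  have e4 : conj (gs p) = gaussSum χ' ψ := by
    rw [e3, ← RCLike.star_def, star_gaussSum_eq, inv_inv, ← mul_gaussSum_inv_eq_gaussSum χ' ψ,
      CubH.neg_one c3, one_mul]
  refine ⟨?_, ?_, ?_⟩
  · rw [← hJ, jacobiSum, ← sum_eq hB p]
    simp only [← e1, map_sub, map_one]
  · rw [e4, e3, pow_two, ← jacobiSum_mul_nontrivial (e2 ▸ n2), hJ, e2, mul_comm]
  · rw [e3, gauss_norm p n2 hψ', card_eq hB]
    simp [N]

end Vale.Agent.P026
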