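import Mathlib

/-! P026: one dimensional reciprocity for quadratic exponential sums. -/

noncomputable section
open Complex Filter Topology
open scoped Real

namespace Vale.Agent.P026

namespace LSM

def ee (x : ℝ) : ℂ := cexp (2 * π * I * x)

lemma ee_add (x y : ℝ) : ee (x + y) = ee x * ee y := by
  unfold ee; rw [← Complex.exp_add]; congr 1; push_cast; ring

lemma ee_int (n : ℤ) : ee n = 1 := by
  unfold ee
  rw [show 2 * (π : ℂ) * I * ((n : ℝ) : ℂ) = n * (2 * π * I) by push_cast; ring]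
  exact Complex.exp_int_mul_two_pi_mul_I _

lemma norm_ee (x : ℝ) : ‖ee x‖ = 1 := by
  unfold ee
  rw [show 2 * (π : ℂ) * I * x = ((2 * π * x : ℝ) : ℂ) * I by push_cast; ring]
  exact Complex.norm_exp_ofReal_mul_I _

lemma ee_congr {x y : ℝ} (n : ℤ) (h : x = y + n) : ee x = ee y := by
  rw [h, ee_add, ee_int, mul_one]

lemma cpow_real_mul {r : ℝ} (hr : 0 < r) {x : ℂ} (hx : x ≠ 0) (c : ℂ) :
    ((r : ℂ) * x) ^ c = (r : ℂ) ^ c * x ^ c := by
  have hr' : (r : ℂ) ≠ 0 := ofReal_ne_zero.2 hr.ne'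
  rw [cpow_def_of_ne_zero (mul_ne_zero hr' hx), log_ofReal_mul hr hx, ofReal_log hr.le,
    add_mul, Complex.exp_add, cpow_def_of_ne_zero hr', cpow_def_of_ne_zero hx]

lemma sq_half {r : ℝ} (hr : 0 ≤ r) : (((r ^ 2 : ℝ)) : ℂ) ^ (1 / 2 : ℂ) = r := by
  rw [show (1 / 2 : ℂ) = ((1 / 2 : ℝ) : ℂ) by push_cast; ring, ← ofReal_cpow (sq_nonneg r),
    ← Real.sqrt_eq_rpow, Real.sqrt_sq hr]

lemma summ {s : ℂ} (hs : 0 < s.re) (b : ℝ) :
    Summable fun n : ℤ => cexp (-π * s * ((n : ℂ) - b) ^ 2) := by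
  have := ((summable_jacobiTheta₂_term_iff (-I * s * b) (I * s)).2 (by simpa using hs)).mul_right
    (cexp (-π * s * (b : ℂ) ^ 2))
  refine this.congr fun n => ?_
  rw [jacobiTheta₂_term, ← Complex.exp_add]
  congr 1
  linear_combination (-2 * π * n * s * b + π * n ^ 2 * s) * I_sq

lemma theta_lim {α : Type*} {l : Filter α} {σ : α → ℂ} (h : Tendsto (fun t => (σ t).re) l atTop)
    (x : ℝ) : Tendsto (fun t => ∑' k : ℤ, cexp (-π * σ t * (k : ℂ) ^ 2) * ee (k * x)) l (𝓝 1) := by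
  have nm : ∀ (z : ℂ) (k : ℤ), ‖cexp (-π * z * (k : ℂ) ^ 2) * ee (k * x)‖ =
      Real.exp (-π * z.re * (k : ℝ) ^ 2) := by
    intro z k
    rw [norm_mul, norm_ee, mul_one, Complex.norm_exp]
    congr 1
    rw [show -(π : ℂ) * z * (k : ℂ) ^ 2 = ((-π * (k : ℝ) ^ 2 : ℝ) : ℂ) * z by push_cast; ring,
      re_ofReal_mul]
    ring
  have hs : Summable fun k : ℤ => Real.exp (-π * (k : ℝ) ^ 2) := by
    have := (summ (s := 1) (by simp) 0).norm
    refine this.congr fun k => ?_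
    have := nm 1 k
    rw [norm_mul, norm_ee, mul_one] at this
    simpa using this
  have := tendsto_tsum_of_dominated_convergence (𝓕 := l)
    (f := fun t (k : ℤ) => cexp (-π * σ t * (k : ℂ) ^ 2) * ee (k * x))
    (g := fun k : ℤ => if k = 0 then (1 : ℂ) else 0) hs (fun k => ?_) ?_
  · simpa using this
  · by_cases hk : k = 0
    · subst hk
      simpa [ee] using tendsto_const_nhds
    · rw [if_neg hk, tendsto_zero_iff_norm_tendsto_zero]
      simp only [nm]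
      have hk' : (0 : ℝ) < π * (k : ℝ) ^ 2 := by
        have : (k : ℝ) ≠ 0 := by exact_mod_cast hk
        positivity
      have := Real.tendsto_exp_neg_atTop_nhds_zero.comp (h.const_mul_atTop hk')
      refine this.congr fun t => ?_
      simp only [Function.comp]
      congr 1
      ring
  · filter_upwards [h.eventually_ge_atTop 1] with t ht k
    rw [nm]
    apply Real.exp_le_exp.2
    nlinarith [mul_nonneg Real.pi_pos.le (sq_nonneg (k : ℝ))]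

lemma class_lim {α : Type*} {l : Filter α} {s : α → ℂ} (hs : ∀ᶠ t in l, 0 < (s t).re)
    (h : Tendsto (fun t => (s t)⁻¹.re) l atTop) {D : ℝ} (hD : 0 < D) (ρ : ℝ) :
    Tendsto (fun t => s t ^ (1 / 2 : ℂ) * ∑' q : ℤ, cexp (-π * s t * ((q : ℂ) * D + ρ) ^ 2)) l
      (𝓝 (D : ℂ)⁻¹) := by
  have hD' : (D : ℂ) ≠ 0 := ofReal_ne_zero.2 hD.ne'
  have h1 : Tendsto (fun t => ((((D ^ 2)⁻¹ : ℝ) : ℂ) * (s t)⁻¹).re) l atTop := by
    simp only [re_ofReal_mul]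
    exact h.const_mul_atTop (by positivity)
  have h2 := (theta_lim h1 (ρ / D)).const_mul (D : ℂ)⁻¹
  rw [mul_one] at h2
  refine h2.congr' ?_
  filter_upwards [hs] with t ht
  have hs0 : s t ≠ 0 := fun c => by simp [c] at ht
  have ha : 0 < (((D ^ 2 : ℝ) : ℂ) * s t).re := by rw [re_ofReal_mul]; positivity
  have key := Complex.tsum_exp_neg_quadratic ha (-(s t * D * ρ))
  have e1 : ∀ q : ℤ, cexp (-π * s t * ((q : ℂ) * D + ρ) ^ 2) =
      cexp (-π * (((D ^ 2 : ℝ) : ℂ) * s t) * (q : ℂ) ^ 2 + 2 * π * (-(s t * D * ρ)) * q) *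
        cexp (-π * s t * (ρ : ℂ) ^ 2) := by
    intro q
    rw [← Complex.exp_add]; congr 1; push_cast; ring
  have e2 : ∀ k : ℤ, cexp (-π * ((((D ^ 2)⁻¹ : ℝ) : ℂ) * (s t)⁻¹) * (k : ℂ) ^ 2) * ee (k * (ρ / D)) =
      cexp (-π / (((D ^ 2 : ℝ) : ℂ) * s t) * ((k : ℂ) + I * (-(s t * D * ρ))) ^ 2) *
        cexp (-π * s t * (ρ : ℂ) ^ 2) := by
    intro k
    rw [ee, ← Complex.exp_add, ← Complex.exp_add]; congr 1; push_cast; field_simp
    linear_combination (s t ^ 2 * D ^ 2 * ρ ^ 2) * I_sq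
  simp only [e1, e2, tsum_mul_right]
  rw [key, cpow_real_mul (by positivity) hs0, sq_half hD.le]
  have : s t ^ (1 / 2 : ℂ) ≠ 0 := cpow_ne_zero_iff.2 (Or.inl hs0)
  field_simp

lemma mean_lim {α : Type*} {l : Filter α} {s : α → ℂ} (hs : ∀ᶠ t in l, 0 < (s t).re)
    (h : Tendsto (fun t => (s t)⁻¹.re) l atTop) {D : ℕ} (hD : 0 < D) (b : ℝ) {F : ℤ → ℂ}
    (hF : ∀ n, ‖F n‖ ≤ 1) (hp : ∀ n, F (n + D) = F n) :
    Tendsto (fun t => s t ^ (1 / 2 : ℂ) * ∑' n : ℤ, F n * cexp (-π * s t * ((n : ℂ) - b) ^ 2)) l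
      (𝓝 ((D : ℂ)⁻¹ * ∑ r : Fin D, F r)) := by
  have : NeZero D := ⟨hD.ne'⟩
  have hp' : ∀ q n : ℤ, F (q * D + n) = F n := fun q n => by
    have : Function.Periodic F (D : ℤ) := hp
    rw [add_comm]
    exact this.int_mul q n
  have h1 := tendsto_finsetSum Finset.univ fun (r : Fin D) _ =>
    (class_lim hs h (D := D) (by exact_mod_cast hD) ((r : ℕ) - b)).const_mul (F r)
  rw [← Finset.sum_mul, mul_comm] at h1
  refine h1.congr' ?_
  filter_upwards [hs] with t ht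
  have sm : Summable fun n : ℤ => F n * cexp (-π * s t * ((n : ℂ) - b) ^ 2) :=
    (summ ht b).norm.of_norm_bounded fun n => by
      rw [norm_mul]; exact mul_le_of_le_one_left (norm_nonneg _) (hF n)
  have sm2 := ((Equiv.prodComm (Fin D) ℤ).trans (Int.divModEquiv D).symm).summable_iff.2 sm
  have e := sm2.tsum_prod
  simp only [Function.comp] at e
  rw [← ((Equiv.prodComm (Fin D) ℤ).trans (Int.divModEquiv D).symm).tsum_eq, e,
    tsum_fintype, Finset.mul_sum]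
  refine Finset.sum_congr rfl fun r _ => ?_
  rw [mul_left_comm, ← tsum_mul_left]
  congr 1
  refine tsum_congr fun q => ?_
  show _ = F (q * D + r) * cexp (-π * s t * (((q * D + r : ℤ) : ℂ) - b) ^ 2)
  rw [hp']
  congr 3
  push_cast
  ring

def kap (A : ℝ) : ℂ := ((-2 * I * A) ^ (1 / 2 : ℂ) * (((4 * A ^ 2 : ℝ) : ℂ)⁻¹) ^ (1 / 2 : ℂ))⁻¹

theorem recip {A : ℝ} (hA : A ≠ 0) (b : ℝ) {D : ℕ} (hD : 0 < D)
    (h1 : ∀ n : ℤ, ee (A * ((n + D : ℤ) : ℝ) ^ 2 + b * (n + D : ℤ)) = ee (A * (n : ℝ) ^ 2 + b * n))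
    (h2 : ∀ n : ℤ, ee (-(((n + D : ℤ) : ℝ) - b) ^ 2 / (4 * A)) = ee (-((n : ℝ) - b) ^ 2 / (4 * A))) :
    ∑ r : Fin D, ee (A * ((r : ℕ) : ℝ) ^ 2 + b * (r : ℕ)) =
      kap A * ∑ r : Fin D, ee (-(((r : ℕ) : ℝ) - b) ^ 2 / (4 * A)) := by
  have hA' : (A : ℂ) ≠ 0 := ofReal_ne_zero.2 hA
  have hA2 : 0 < 4 * A ^ 2 := by positivity
  have pos : ∀ᶠ t : ℝ in 𝓝[>] 0, 0 < t := self_mem_nhdsWithin
  have L1 := mean_lim (l := 𝓝[>] (0 : ℝ)) (s := fun t : ℝ => (t : ℂ)) (by simpa using pos)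
    (by simpa only [← ofReal_inv, ofReal_re] using tendsto_inv_nhdsGT_zero) hD 0
    (F := fun n : ℤ => ee (A * (n : ℝ) ^ 2 + b * n)) (fun n => (norm_ee _).le) h1
  have inv : ∀ t : ℝ, 0 < t → ((t : ℂ) * (((4 * A ^ 2 : ℝ) : ℂ) + 2 * I * A * t)⁻¹)⁻¹.re =
      4 * A ^ 2 * t⁻¹ := by
    intro t ht
    have : (t : ℂ) ≠ 0 := ofReal_ne_zero.2 ht.ne'
    rw [show ((t : ℂ) * (((4 * A ^ 2 : ℝ) : ℂ) + 2 * I * A * t)⁻¹)⁻¹ =
      ((4 * A ^ 2 * t⁻¹ : ℝ) : ℂ) + ((2 * A : ℝ) : ℂ) * I by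
        rw [mul_inv, inv_inv]; push_cast; field_simp]
    simp [-ofReal_pow, -ofReal_inv]
  have L2 := mean_lim (l := 𝓝[>] (0 : ℝ))
    (s := fun t : ℝ => (t : ℂ) * (((4 * A ^ 2 : ℝ) : ℂ) + 2 * I * A * t)⁻¹) ?_ ?_ hD b
    (F := fun n : ℤ => ee (-((n : ℝ) - b) ^ 2 / (4 * A))) (fun n => (norm_ee _).le) h2
  rotate_left
  · filter_upwards [pos] with t ht
    have := inv t ht
    have p : 0 < 4 * A ^ 2 * t⁻¹ := by positivity
    rw [← this, inv_re] at p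
    exact (div_pos_iff_of_pos_right (lt_of_le_of_ne (normSq_nonneg _) fun c => by
      rw [← c] at p; simp at p)).1 p
  · refine (tendsto_inv_nhdsGT_zero.const_mul_atTop hA2).congr' ?_
    filter_upwards [pos] with t ht
    exact (inv t ht).symm
  have c1 : Tendsto (fun t : ℝ => ((t : ℂ) - 2 * I * A) ^ (1 / 2 : ℂ)) (𝓝[>] 0)
      (𝓝 ((-2 * I * A) ^ (1 / 2 : ℂ))) := by
    refine Tendsto.cpow ?_ tendsto_const_nhds (Or.inr (by simpa using hA))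
    have : Continuous fun t : ℝ => (t : ℂ) - 2 * I * A := by fun_prop
    simpa using (this.tendsto 0).mono_left nhdsWithin_le_nhds
  have ne4 : ((4 * A ^ 2 : ℝ) : ℂ) ≠ 0 := ofReal_ne_zero.2 hA2.ne'
  have c2 : Tendsto (fun t : ℝ => ((((4 * A ^ 2 : ℝ) : ℂ) + 2 * I * A * t)⁻¹) ^ (1 / 2 : ℂ)) (𝓝[>] 0)
      (𝓝 ((((4 * A ^ 2 : ℝ) : ℂ)⁻¹) ^ (1 / 2 : ℂ))) := by
    refine Tendsto.cpow (Tendsto.inv₀ ?_ ne4) tendsto_const_nhds ?_
    · have : Continuous fun t : ℝ => ((4 * A ^ 2 : ℝ) : ℂ) + 2 * I * A * t := by fun_prop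
      simpa using (this.tendsto 0).mono_left nhdsWithin_le_nhds
    · rw [← ofReal_inv]
      exact ofReal_mem_slitPlane.2 (inv_pos.2 hA2)
  have nz : (-2 * I * A) ^ (1 / 2 : ℂ) * (((4 * A ^ 2 : ℝ) : ℂ)⁻¹) ^ (1 / 2 : ℂ) ≠ 0 :=
    mul_ne_zero (cpow_ne_zero_iff.2 (Or.inl (by simp [hA'])))
      (cpow_ne_zero_iff.2 (Or.inl (inv_ne_zero ne4)))
  have L3 := ((c1.mul c2).inv₀ nz).mul L2
  have := tendsto_nhds_unique L1 (L3.congr' ?_)
  · have hD' : (D : ℂ)⁻¹ ≠ 0 := inv_ne_zero (by exact_mod_cast hD.ne')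
    apply mul_left_cancel₀ hD'
    rw [mul_left_comm]
    simpa [kap] using this
  · filter_upwards [pos] with t ht
    have ht' : (t : ℂ) ≠ 0 := ofReal_ne_zero.2 ht.ne'
    have ha : 0 < ((t : ℂ) - 2 * I * A).re := by simpa using ht
    have ha0 : (t : ℂ) - 2 * I * A ≠ 0 := fun c => by rw [c] at ha; simp at ha
    have e0 : ((4 * A ^ 2 : ℝ) : ℂ) + 2 * I * A * t = 2 * I * A * ((t : ℂ) - 2 * I * A) := by
      push_cast
      linear_combination (4 * (A : ℂ) ^ 2) * I_sq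
    have hb0 : ((4 * A ^ 2 : ℝ) : ℂ) + 2 * I * A * t ≠ 0 := by
      rw [e0]; exact mul_ne_zero (by simp [hA']) ha0
    have key := Complex.tsum_exp_neg_quadratic ha (I * b)
    have e1 : ∀ n : ℤ, ee (A * (n : ℝ) ^ 2 + b * n) * cexp (-π * t * ((n : ℂ) - (0 : ℝ)) ^ 2) =
        cexp (-π * ((t : ℂ) - 2 * I * A) * (n : ℂ) ^ 2 + 2 * π * (I * b) * n) := by
      intro n
      rw [ee, ← Complex.exp_add]; congr 1; push_cast; ring
    have e2 : ∀ n : ℤ, ee (-((n : ℝ) - b) ^ 2 / (4 * A)) *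
        cexp (-π * ((t : ℂ) * (((4 * A ^ 2 : ℝ) : ℂ) + 2 * I * A * t)⁻¹) * ((n : ℂ) - b) ^ 2) =
        cexp (-π / ((t : ℂ) - 2 * I * A) * ((n : ℂ) + I * (I * b)) ^ 2) := by
      intro n
      rw [ee, ← Complex.exp_add, e0, ← mul_assoc I I, I_mul_I]; congr 1; push_cast
      have := I_ne_zero
      field_simp
      linear_combination (-4 * ((n : ℂ) - b) ^ 2 * ((t : ℂ) - 2 * I * A)) * I_sq
    simp only [e1, e2]
    rw [key, cpow_real_mul ht (inv_ne_zero hb0)]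
    have : (((4 * A ^ 2 : ℝ) : ℂ) + 2 * I * A * t)⁻¹ ^ (1 / 2 : ℂ) ≠ 0 :=
      cpow_ne_zero_iff.2 (Or.inl (inv_ne_zero hb0))
    generalize (((4 * A ^ 2 : ℝ) : ℂ) + 2 * I * A * t)⁻¹ ^ (1 / 2 : ℂ) = Y at *
    generalize ∑' n : ℤ, cexp (-π / ((t : ℂ) - 2 * I * A) * ((n : ℂ) + I * (I * b)) ^ 2) = Z
    field_simp

lemma half_I : I ^ (1 / 2 : ℂ) * (-I) ^ (1 / 2 : ℂ) = 1 := by
  rw [cpow_def_of_ne_zero I_ne_zero, cpow_def_of_ne_zero (neg_ne_zero.2 I_ne_zero), log_I,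
    log_neg_I, ← Complex.exp_add]
  simp

lemma kap_mul {x y : ℝ} (hx : 0 < x) (hy : 0 < y) :
    kap x * kap (-y) = (2 * Real.sqrt (x * y) : ℝ) := by
  have q : ∀ z : ℝ, 0 < z → (((4 * z ^ 2 : ℝ) : ℂ)⁻¹) ^ (1 / 2 : ℂ) = ((2 * z)⁻¹ : ℝ) := by
    intro z hz
    rw [← sq_half (r := (2 * z)⁻¹) (by positivity), ← ofReal_inv]
    congr 2
    field_simp
    ring
  have r : ∀ z : ℝ, 0 < z → ((2 * z : ℝ) : ℂ) ^ (1 / 2 : ℂ) = (Real.sqrt (2 * z) : ℝ) := by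
    intro z hz
    rw [← sq_half (Real.sqrt_nonneg (2 * z)), Real.sq_sqrt (by positivity)]
  unfold kap
  rw [neg_sq, q x hx, q y hy, show -2 * I * (x : ℂ) = ((2 * x : ℝ) : ℂ) * (-I) by push_cast; ring,
    show -2 * I * ((-y : ℝ) : ℂ) = ((2 * y : ℝ) : ℂ) * I by push_cast; ring,
    cpow_real_mul (by positivity) (neg_ne_zero.2 I_ne_zero),
    cpow_real_mul (by positivity) I_ne_zero, r x hx, r y hy, ← mul_inv]
  have e : (Real.sqrt (2 * x) * (2 * x)⁻¹ * (Real.sqrt (2 * y) * (2 * y)⁻¹))⁻¹ =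
      2 * Real.sqrt (x * y) := by
    have a1 := Real.mul_self_sqrt (show 0 ≤ 2 * x by positivity)
    have a2 := Real.mul_self_sqrt (show 0 ≤ 2 * y by positivity)
    have a3 : Real.sqrt (2 * x) * Real.sqrt (2 * y) = 2 * Real.sqrt (x * y) := by
      rw [← Real.sqrt_mul (by positivity), show 2 * x * (2 * y) = 2 ^ 2 * (x * y) by ring,
        Real.sqrt_mul (by positivity), Real.sqrt_sq (by norm_num)]
    have a4 : 0 < Real.sqrt (2 * x) := Real.sqrt_pos.2 (by positivity)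
    have a5 : 0 < Real.sqrt (2 * y) := Real.sqrt_pos.2 (by positivity)
    rw [← a3]
    generalize Real.sqrt (2 * x) = X at *
    generalize Real.sqrt (2 * y) = Y at *
    rw [← a1, ← a2]
    field_simp
  rw [← e]
  push_cast
  congr 1
  linear_combination ((Real.sqrt (2 * x) : ℂ) * (2 * x)⁻¹ * (Real.sqrt (2 * y) * (2 * y)⁻¹)) * half_I

end LSM

end Vale.Agent.P026
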