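import Vale.Agent.P026.Stm1
import Vale.Agent.P026.M.LS1

/-! P026 module LS: the Landsberg-Schaar evaluation over the Eisenstein integers. -/

noncomputable section
open Complex
open scoped Classical ComplexConjugate

namespace Vale.Agent.P026

namespace LSM

lemma kap_val {α M : ℝ} (hα : α ≠ 0) (hM : 0 < M) :
    kap (α / (4 * M)) * kap (-1 / (4 * α)) = ((2 * Real.sqrt M)⁻¹ : ℝ) := by
  have e : 2 * Real.sqrt (1 / (16 * M)) = (2 * Real.sqrt M)⁻¹ := by
    have : 0 < Real.sqrt M := Real.sqrt_pos.2 hM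
    rw [show 1 / (16 * M) = ((4 * Real.sqrt M)⁻¹) ^ 2 by
      rw [inv_pow, mul_pow, Real.sq_sqrt hM.le]; norm_num, Real.sqrt_sq (by positivity)]
    field_simp
    norm_num
  rw [← e]
  rcases lt_or_gt_of_ne hα with h | h
  · have h' : 0 < -α := neg_pos.2 h
    have := kap_mul (x := 1 / (4 * -α)) (y := -α / (4 * M)) (by positivity) (by positivity)
    rw [show 1 / (4 * -α) * (-α / (4 * M)) = 1 / (16 * M) by field_simp; norm_num] at this
    rw [← this, mul_comm]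
    congr 2
    · field_simp
    · field_simp
  · have := kap_mul (x := α / (4 * M)) (y := 1 / (4 * α)) (by positivity) (by positivity)
    rw [show α / (4 * M) * (1 / (4 * α)) = 1 / (16 * M) by field_simp; norm_num] at this
    rw [← this]
    congr 2
    field_simp

lemma two (α γ δ : ℤ) (hα : α ≠ 0) {M : ℕ} (hM : 0 < M) (h : (M : ℤ) = γ ^ 2 - α * δ)
    {D : ℕ} (hD : D = 4 * M * α.natAbs) :
    ∑ n : Fin D, ∑ m : Fin D, ee ((α * ((m : ℕ) : ℝ) ^ 2 + 2 * γ * (m : ℕ) * (n : ℕ) +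
      δ * ((n : ℕ) : ℝ) ^ 2) / (4 * M)) = (D : ℂ) ^ 2 * ((2 * Real.sqrt M)⁻¹ : ℝ) := by
  have hα' : (α : ℝ) ≠ 0 := by exact_mod_cast hα
  have hM' : (0 : ℝ) < M := by exact_mod_cast hM
  have hD0 : 0 < D := by rw [hD]; have := Int.natAbs_pos.2 hα; positivity
  have hD' : (D : ℝ) = 4 * M * (α.sign * α) := by
    have : (D : ℤ) = 4 * M * (α.sign * α) := by rw [hD, Int.sign_mul_self_eq_natAbs]; simp
    exact_mod_cast this
  have hδ : (δ : ℝ) = (γ ^ 2 - M) / α := by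
    have : (M : ℝ) = γ ^ 2 - α * δ := by exact_mod_cast h
    rw [this]; field_simp; ring
  have s1 : ∀ n : ℕ, ∑ m : Fin D, ee ((α * ((m : ℕ) : ℝ) ^ 2 + 2 * γ * (m : ℕ) * n +
      δ * (n : ℝ) ^ 2) / (4 * M)) = kap (α / (4 * M)) * ∑ k : Fin D,
        ee (-1 / (4 * α) * (n : ℝ) ^ 2 + γ * (k : ℕ) / α * n) * ee (-M * ((k : ℕ) : ℝ) ^ 2 / α) := by
    intro n
    have := recip (A := α / (4 * M)) (by positivity) (γ * n / (2 * M)) hD0
      (fun x => ee_congr (α * (α.sign * α) * (2 * x + D) + 2 * γ * n * (α.sign * α)) (by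
        push_cast; rw [hD']; field_simp; ring))
      (fun x => ee_congr (-4 * M ^ 2 * α.sign * (2 * x + D) + 4 * M * α.sign * γ * n) (by
        push_cast; rw [hD']; field_simp; ring))
    have e := congrArg (· * ee (δ * (n : ℝ) ^ 2 / (4 * M))) this
    simp only [Finset.sum_mul, mul_assoc, ← ee_add] at e ⊢
    convert e using 3
    · field_simp; ring
    · congr 1
      rw [hδ]; field_simp; ring
  have s2 : ∀ k : ℕ, ∑ n : Fin D, ee (-1 / (4 * α) * ((n : ℕ) : ℝ) ^ 2 + γ * k / α * (n : ℕ)) *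
      ee (-M * (k : ℝ) ^ 2 / α) = kap (-1 / (4 * α)) * D := by
    intro k
    have := recip (A := -1 / (4 * α)) (by simpa using hα) (γ * k / α) hD0
      (fun x => ee_congr (-M * α.sign * (2 * x + D) + 4 * M * α.sign * γ * k) (by
        push_cast; rw [hD']; field_simp; ring))
      (fun x => ee_congr (α * D * (2 * x + D) - 2 * γ * k * D) (by
        push_cast; field_simp; ring))
    rw [← Finset.sum_mul, this, mul_assoc, Finset.sum_mul]
    congr 1
    rw [Finset.sum_congr rfl (g := fun _ => 1)]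
    · simp
    · intro l _
      rw [← ee_add, ← ee_int (α * (l : ℕ) ^ 2 - 2 * γ * (l : ℕ) * k + δ * k ^ 2)]
      congr 1
      push_cast
      rw [hδ]; field_simp; ring
  simp only [s1]
  rw [← Finset.mul_sum, Finset.sum_comm]
  simp only [s2]
  rw [← kap_val hα' hM']
  simp
  ring

lemma dvd_iff (D : ℕ) (z : O) : (D : O) ∣ z ↔ (D : ℤ) ∣ z.re ∧ (D : ℤ) ∣ z.im := by
  constructor
  · rintro ⟨y, rfl⟩
    simp
  · rintro ⟨⟨x, hx⟩, ⟨y, hy⟩⟩
    exact ⟨⟨x, y⟩, by ext <;> simp [hx, hy]⟩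

lemma box (hB : Bas) {D : ℕ} (hD : 0 < D) (F : O → ℂ) (hF : Pe D F) :
    ∑ m : Fin D, ∑ n : Fin D, F ⟨(m : ℕ), (n : ℕ)⟩ = ∑ r ∈ Rs D, F r := by
  have hD' : (0 : ℤ) < D := by exact_mod_cast hD
  have hne : (D : O) ≠ 0 := fun c => by
    have := congrArg QuadraticAlgebra.re c
    simp at this
    omega
  rw [← hB.b4.sum_eq D F (Finset.univ : Finset (Fin D × Fin D))
    (fun i => ⟨(i.1 : ℕ), (i.2 : ℕ)⟩) hne hF ?_ ?_, Fintype.sum_prod_type]
  · intro a
    have k : ∀ x : ℤ, ∃ m : Fin D, (D : ℤ) ∣ x - (m : ℕ) := fun x => by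
      have h1 := Int.emod_nonneg x hD'.ne'
      have h2 := Int.emod_lt_of_pos x hD'
      refine ⟨⟨(x % D).toNat, by omega⟩, x / D, ?_⟩
      have := Int.mul_ediv_add_emod x D
      simp only [Int.toNat_of_nonneg h1]
      omega
    obtain ⟨m, hm⟩ := k a.re
    obtain ⟨n, hn⟩ := k a.im
    exact ⟨(m, n), Finset.mem_univ _, (dvd_iff _ _).2 ⟨hm, hn⟩⟩
  · rintro ⟨m, n⟩ - ⟨m', n'⟩ - h
    have k : ∀ x y : Fin D, (D : ℤ) ∣ ((x : ℕ) : ℤ) - (y : ℕ) → x = y := fun x y h => by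
      have := Int.eq_zero_of_abs_lt_dvd h (by have := x.2; have := y.2; rw [abs_lt]; omega)
      exact Fin.ext (by omega)
    have := (dvd_iff _ _).1 h
    exact Prod.ext (k _ _ this.1) (k _ _ this.2)

lemma eQ_int (z : O) {n : ℕ} : eQ z n = ee (z.im / n) := by
  have h3 : Real.sqrt 3 ≠ 0 := (Real.sqrt_pos.2 (by norm_num)).ne'
  have : (toC z).im = z.im * (Real.sqrt 3 / 2) := by
    show ((z.re : ℂ) + (z.im : ℂ) * om).im = _
    simp [om]
  rw [eQ, psi, ee, map_natCast, div_natCast_im, this]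
  congr 3
  field_simp

end LSM

open LSM in
theorem lsS (hB : Bas) : LSStmt := by
  intro a ha
  have hM' : (0 : ℝ) < Nn a := lt_of_lt_of_le one_pos (hB.b1.N_one_le a ha)
  have hM : 0 < Nn a := by exact_mod_cast hM'
  have hz : (Nn a : ℤ) = nz a := Int.natAbs_of_nonneg (nz_nonneg a)
  have hcj : cj a ≠ 0 := fun c => by
    have := hB.b1.cj_mul a
    rw [c, mul_zero] at this
    have := congrArg QuadraticAlgebra.re this
    simp at this
    omega
  have h4 : (4 : O) * a ≠ 0 := mul_ne_zero (fun c => by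
    have := congrArg QuadraticAlgebra.re c
    simp [QuadraticAlgebra.re_ofNat] at this) ha
  have pe : Pe (4 * a) fun x => eQ (1 * x ^ 2) (4 * a) := fun x m => by
    show eQ (1 * (x + 4 * a * m) ^ 2) (4 * a) = eQ (1 * x ^ 2) (4 * a)
    rw [show 1 * (x + 4 * a * m) ^ 2 = 1 * x ^ 2 + 4 * a * (2 * x * m + 4 * a * m ^ 2) by ring,
      hB.b1.eQ_add, hB.b1.eQ_dvd _ _ (dvd_mul_right _ _), mul_one]
  have ev : ∀ m n : ℕ, eQ (1 * (⟨m, n⟩ : O) ^ 2) (4 * a) =
      ee ((((-a.im : ℤ) : ℝ) * (m : ℝ) ^ 2 + 2 * (a.re : ℤ) * m * n +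
        ((a.im - a.re : ℤ) : ℝ) * (n : ℝ) ^ 2) / (4 * Nn a)) := by
    intro m n
    rw [← hB.b1.eQ_mul (cj a) _ _ hcj, show cj a * (4 * a) = ((4 * Nn a : ℕ) : O) by
      push_cast; rw [← hB.b1.cj_mul]; ring, eQ_int]
    congr 2
    · simp [cj, pow_two]; ring
    · simp
  have key : ∀ c : ℕ, 0 < c → ∑ m : Fin (4 * Nn a * c), ∑ n : Fin (4 * Nn a * c),
      eQ (1 * (⟨(m : ℕ), (n : ℕ)⟩ : O) ^ 2) (4 * a) =
        ((4 * Nn a * c : ℕ) : ℂ) ^ 2 * ((2 * Real.sqrt (Nn a))⁻¹ : ℝ) →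
      Gq 1 (4 * a) = 8 * (Real.sqrt (N a) : ℂ) := by
    intro c hc h
    have e : ((4 * Nn a * c : ℕ) : O) = 4 * a * (cj a * c) := by
      push_cast; rw [← hB.b1.cj_mul]; ring
    have hc' : (c : O) ≠ 0 := fun d => by
      have := congrArg QuadraticAlgebra.re d
      simp at this
      omega
    rw [box hB (by positivity) (fun x => eQ (1 * x ^ 2) (4 * a))
      (fun x m => by rw [e, mul_assoc]; exact pe x _), e,
      hB.b4.lift' _ _ _ h4 (mul_ne_zero hcj hc') pe, hB.b1.N_mul] at h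
    have n1 : N (cj a) = Nn a := by
      rw [hB.b1.N_eq, hB.b1.toC_cj, Complex.norm_conj, ← hB.b1.N_eq]; rfl
    have n2 : N (c : O) = (c : ℝ) ^ 2 := by simpa using hB.b1.N_int c
    rw [n1, n2] at h
    have hs : 0 < Real.sqrt (Nn a) := Real.sqrt_pos.2 hM'
    have hs2 := Real.mul_self_sqrt hM'.le
    have hc0 : (0 : ℝ) < c := by exact_mod_cast hc
    have r : ((4 * Nn a * c : ℕ) : ℝ) ^ 2 * (2 * Real.sqrt (Nn a))⁻¹ =
        (Nn a * (c : ℝ) ^ 2) * (8 * Real.sqrt (Nn a)) := by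
      push_cast
      field_simp
      nlinarith
    have r' := congrArg (fun x : ℝ => (x : ℂ)) r
    simp only [ofReal_mul, ofReal_pow, ofReal_natCast] at r' h
    rw [r'] at h
    exact mul_left_cancel₀ (by exact_mod_cast (by positivity : (Nn a : ℝ) * (c : ℝ) ^ 2 ≠ 0)) h
  by_cases h : a.im = 0
  · have h' : a.im - a.re ≠ 0 := fun c => ha (by ext <;> simp <;> omega)
    refine key _ (Int.natAbs_pos.2 h') ?_
    rw [← two (a.im - a.re) a.re (-a.im) h' hM (by rw [hz, nz]; ring) rfl]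
    refine Finset.sum_congr rfl fun m _ => Finset.sum_congr rfl fun n _ => ?_
    rw [ev]
    congr 2
    ring
  · have h' : -a.im ≠ 0 := neg_ne_zero.2 h
    refine key _ (Int.natAbs_pos.2 h') ?_
    rw [← two (-a.im) a.re (a.im - a.re) h' hM (by rw [hz, nz]; ring) rfl, Finset.sum_comm]
    refine Finset.sum_congr rfl fun m _ => Finset.sum_congr rfl fun n _ => ?_
    rw [ev]

end Vale.Agent.P026
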