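import Vale.Agent.P026.Stm1

noncomputable section
open Complex
open scoped Classical ComplexConjugate

namespace Vale.Agent.P026

namespace PHM

theorem eQ_congr (hB : Bas) {a b c : O} (h : c ∣ a - b) : eQ a c = eQ b c := by
  have := hB.b1.eQ_add (a - b) b c
  rw [sub_add_cancel, hB.b1.eQ_dvd _ _ h, one_mul] at this
  exact this

theorem norm_eQ (hB : Bas) (a c : O) : ‖eQ a c‖ = 1 := hB.b1.norm_psi _

theorem inv_ex {c d : O} (h : IsCoprime c d) : ∃ e, c ∣ d * e - 1 := by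
  obtain ⟨u, v, h⟩ := h
  exact ⟨v, -u, by linear_combination h⟩

theorem cop_of {c d e : O} (h : c ∣ d * e - 1) : IsCoprime c d := by
  obtain ⟨k, hk⟩ := h
  exact ⟨-k, e, by linear_combination hk⟩

theorem g_eq (hB : Bas) {g c1 d1 g' c1' d1' : O} (hg : Prim g) (hg' : Prim g')
    (h : IsCoprime c1 d1) (h' : IsCoprime c1' d1') (ec : g * c1 = g' * c1')
    (ed : g * d1 = g' * d1') : g = g' := by
  obtain ⟨u, v, h⟩ := h
  obtain ⟨u', v', h'⟩ := h'
  refine hB.b2.uniq g g' hg hg' (associated_of_dvd_dvd ⟨u' * c1 + v' * d1, ?_⟩ ⟨u * c1' + v * d1', ?_⟩)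
  · linear_combination (-g') * h' - u' * ec - v' * ed
  · linear_combination (-g) * h + u * ec + v * ed

theorem eq (hB : Bas) {c d x g c1 d1 e y : O} (h : PhD c d x g c1 d1 e y) :
    Phi c d x = bb g * cub d1 c1 * eQ (y * e) c1 := by
  have hex : ∃ p : O × O × O × O × O, PhD c d x p.1 p.2.1 p.2.2.1 p.2.2.2.1 p.2.2.2.2 :=
    ⟨(g, c1, d1, e, y), h⟩
  unfold Phi
  rw [dif_pos hex]
  have h' := hex.choose_spec
  generalize hex.choose = q at h' ⊢
  obtain ⟨g', c1', d1', e', y'⟩ := q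
  simp only at h' ⊢
  obtain rfl : g' = g := g_eq hB h'.pg h.pg (cop_of h'.he) (cop_of h.he) (h'.hc.symm.trans h.hc)
    (h'.hd.symm.trans h.hd)
  have g0 := hB.b2.ne _ h.pg
  obtain rfl : c1' = c1 := mul_left_cancel₀ g0 (h'.hc.symm.trans h.hc)
  obtain rfl : d1' = d1 := mul_left_cancel₀ g0 (h'.hd.symm.trans h.hd)
  obtain rfl : y' = y := mul_left_cancel₀ (pow_ne_zero 2 g0) (h'.hy.symm.trans h.hy)
  rw [eQ_congr hB (a := y' * e') (b := y' * e)]
  obtain ⟨k, hk⟩ := h.he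
  obtain ⟨k', hk'⟩ := h'.he
  exact ⟨y' * (e * k' - e' * k), by linear_combination y' * e * hk' - y' * e' * hk⟩

theorem zero (hB : Bas) {c d x g c1 d1 : O} (hg : Prim g) (hc : c = g * c1) (hd : d = g * d1)
    (hco : IsCoprime c1 d1) (hn : ¬ g ^ 2 ∣ x ^ 3) : Phi c d x = 0 := by
  unfold Phi
  rw [dif_neg]
  rintro ⟨⟨g', c1', d1', e', y'⟩, h'⟩
  simp only at h'
  obtain rfl : g' = g := g_eq hB h'.pg hg (cop_of h'.he) hco (h'.hc.symm.trans hc)
    (h'.hd.symm.trans hd)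
  exact hn ⟨y', h'.hy⟩

theorem shift {g c1 x y : O} (m : O) (hy : x ^ 3 = g ^ 2 * y) :
    ∃ k, (x + g * c1 * m) ^ 3 = g ^ 2 * (y + c1 * k) := by
  have h1 : g ^ 2 ∣ (x ^ 2) ^ 2 := ⟨y * x, by linear_combination x * hy⟩
  obtain ⟨z, hz⟩ := (IsIntegrallyClosed.pow_dvd_pow_iff (by norm_num : 2 ≠ 0)).1 h1
  exact ⟨3 * z * m + 3 * x * c1 * m ^ 2 + g * c1 ^ 2 * m ^ 3, by
    linear_combination hy + 3 * g * c1 * m * hz⟩

theorem norm_g (hB : Bas) (hb : BB) {c d x g c1 d1 : O} (hg : Prim g) (hc : c = g * c1)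
    (hd : d = g * d1) (hco : IsCoprime c1 d1) : ‖Phi c d x‖ ≤ N g ^ (2 / 3 : ℝ) := by
  by_cases h : g ^ 2 ∣ x ^ 3
  · obtain ⟨y, hy⟩ := h
    obtain ⟨e, he⟩ := inv_ex hco
    rw [eq hB ⟨hg, hc, hd, he, hy⟩, norm_mul, norm_mul, norm_eQ hB, mul_one]
    have h1 := hb.norm_le g
    have h2 := hB.b6.norm_le d1 c1
    nlinarith [norm_nonneg (bb g), norm_nonneg (cub d1 c1)]
  · rw [zero hB hg hc hd hco h, norm_zero]
    exact Real.rpow_nonneg (Nat.cast_nonneg _) _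

theorem N_le (hB : Bas) (g : O) {k : O} (hk : k ≠ 0) :
    N g ^ (2 / 3 : ℝ) ≤ N (g * k) ^ (2 / 3 : ℝ) := by
  have h0 : 0 ≤ N g := Nat.cast_nonneg _
  refine Real.rpow_le_rpow h0 ?_ (by norm_num)
  rw [hB.b1.N_mul]
  nlinarith [hB.b1.N_one_le k hk]

theorem crt (hB : Bas) (hC : CRStmt) (hb : BB) (c c' d x : O) (hc : Prim c) (hc' : Prim c')
    (hco : IsCoprime c c') :
    Phi (c * c') d x = cub c' c * Phi c (c' * d) x * Phi c' (c * d) x := by
  obtain ⟨g, c1, d1, pg, pc, rfl, hd, co⟩ := hB.b2.gcd c d hc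
  obtain ⟨g', c1', d1', pg', pc', rfl, hd', co'⟩ := hB.b2.gcd c' d hc'
  have gg : IsCoprime g g' := hco.of_mul_left_left.of_mul_right_left
  have gc : IsCoprime g c1' := hco.of_mul_left_left.of_mul_right_right
  have cg : IsCoprime c1 g' := hco.of_mul_left_right.of_mul_right_left
  have cc : IsCoprime c1 c1' := hco.of_mul_left_right.of_mul_right_right
  obtain ⟨d2, h2⟩ : g * g' ∣ d := gg.mul_dvd ⟨d1, hd⟩ ⟨d1', hd'⟩
  have g0 := hB.b2.ne _ pg
  have g0' := hB.b2.ne _ pg'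
  have c0 := hB.b2.ne _ pc
  have c0' := hB.b2.ne _ pc'
  obtain rfl : d1 = g' * d2 := mul_left_cancel₀ g0 (by rw [← hd, h2]; ring)
  obtain rfl : d1' = g * d2 := mul_left_cancel₀ g0' (by rw [← hd', h2]; ring)
  subst h2
  have k1 : IsCoprime c1 (g' * c1' * (g' * d2)) := (cg.mul_right cc).mul_right co
  have k2 : IsCoprime c1' (g * c1 * (g * d2)) := (gc.symm.mul_right cc.symm).mul_right co'
  have k3 : IsCoprime (c1 * c1') d2 := co.of_mul_right_right.mul_left co'.of_mul_right_right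
  have e1 : g' * c1' * (g * g' * d2) = g * (g' * c1' * (g' * d2)) := by ring
  have e2 : g * c1 * (g * g' * d2) = g' * (g * c1 * (g * d2)) := by ring
  have e3 : g * c1 * (g' * c1') = g * g' * (c1 * c1') := by ring
  have pgg := hB.b2.mul _ _ pg pg'
  by_cases a1 : g ^ 2 ∣ x ^ 3
  · by_cases a2 : g' ^ 2 ∣ x ^ 3
    · obtain ⟨y, hy⟩ := (gg.pow (m := 2) (n := 2)).mul_dvd a1 a2
      obtain ⟨e, he⟩ := inv_ex k1
      obtain ⟨e', he'⟩ := inv_ex k2
      have hE : c1 * c1' ∣ d2 * (g' * c1' * g' * e + g * c1 * g * e') - 1 := by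
        refine cc.mul_dvd ?_ ?_
        · obtain ⟨k, hk⟩ := he
          exact ⟨k + d2 * g * g * e', by linear_combination hk⟩
        · obtain ⟨k, hk⟩ := he'
          exact ⟨k + d2 * g' * g' * e, by linear_combination hk⟩
      rw [eq hB (y := y) ⟨pgg, e3, rfl, hE, by rw [hy]; ring⟩,
        eq hB (y := g' ^ 2 * y) ⟨pg, rfl, e1, he, by rw [hy]; ring⟩,
        eq hB (y := g ^ 2 * y) ⟨pg', rfl, e2, he', by rw [hy]; ring⟩]
      have x1 : eQ (y * (g' * c1' * g' * e + g * c1 * g * e')) (c1 * c1') =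
          eQ (g' ^ 2 * y * e) c1 * eQ (g ^ 2 * y * e') c1' := by
        rw [← hB.b1.eQ_mul c1' _ c1 c0', ← hB.b1.eQ_mul c1 _ c1' c0, mul_comm c1' c1,
          ← hB.b1.eQ_add]
        congr 1
        ring
      have q1 := hB.b2.cop _ pc
      have q1' := hB.b2.cop _ pc'
      have qg := hB.b2.cop _ pg
      rw [x1, hb.mul g g' pg pg' gg, hB.b6.mul_r d2 c1 c1' c0 c0', hB.b6.mul_r _ g c1 g0 c0]
      simp only [hB.b6.mul_l _ _ c1 q1, hB.b6.mul_l _ _ c1' q1', hB.b6.mul_l _ _ g qg]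
      rw [hC g' g pg' pg, hC c1' g pc' pg, hC c1 c1' pc pc']
      have t1 := hB.b6.cube g' c1 cg.symm
      have t2 := hB.b6.cube g c1' gc
      have t3 := hB.b6.cube c1' c1 cc.symm
      have t4 : (cub g' c1 * cub g c1' * cub c1' c1) ^ 3 = 1 := by
        rw [mul_pow, mul_pow, t1, t2, t3]; ring
      linear_combination (-(bb g * bb g' * cub g g' * cub d2 c1 * cub d2 c1' *
        eQ (g' ^ 2 * y * e) c1 * eQ (g ^ 2 * y * e') c1')) * t4
    · rw [zero hB pg' rfl e2 k2 a2, zero hB pgg e3 rfl k3, mul_zero]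
      exact fun h => a2 (Dvd.dvd.trans ⟨g ^ 2, by ring⟩ h)
  · rw [zero hB pg rfl e1 k1 a1, zero hB pgg e3 rfl k3, mul_zero, zero_mul]
    exact fun h => a1 (Dvd.dvd.trans ⟨g' ^ 2, by ring⟩ h)

end PHM

open PHM in
theorem phS (hB : Bas) (hC : CRStmt) (hb : BB) : PH where
  eq := fun _ _ _ _ _ _ _ _ _ h => PHM.eq hB h
  zero := fun _ _ _ _ _ _ hg hc hd hco _ hn => PHM.zero hB hg hc hd hco hn
  pe_d := by
    intro c x hc d m
    obtain ⟨g, c1, d1, pg, pc, rfl, rfl, co⟩ := hB.b2.gcd c d hc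
    have e1 : g * d1 + g * c1 * m = g * (d1 + c1 * m) := by ring
    show Phi _ _ _ = Phi _ _ _
    by_cases h : g ^ 2 ∣ x ^ 3
    · obtain ⟨y, hy⟩ := h
      obtain ⟨e, he⟩ := inv_ex co
      have he' : c1 ∣ (d1 + c1 * m) * e - 1 := by
        obtain ⟨k, hk⟩ := he
        exact ⟨k + m * e, by linear_combination hk⟩
      rw [PHM.eq hB ⟨pg, rfl, e1, he', hy⟩, PHM.eq hB ⟨pg, rfl, rfl, he, hy⟩]
      have := hB.b6.pe c1 d1 m
      simp only at this
      rw [this]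
    · rw [PHM.zero hB pg rfl e1 (co.add_mul_left_right m) h, PHM.zero hB pg rfl rfl co h]
  pe_x := by
    intro c d hc x m
    obtain ⟨g, c1, d1, pg, pc, rfl, rfl, co⟩ := hB.b2.gcd c d hc
    show Phi _ _ _ = Phi _ _ _
    by_cases h : g ^ 2 ∣ x ^ 3
    · obtain ⟨y, hy⟩ := h
      obtain ⟨e, he⟩ := inv_ex co
      obtain ⟨k, hk⟩ := shift (c1 := c1) m hy
      rw [PHM.eq hB ⟨pg, rfl, rfl, he, hk⟩, PHM.eq hB ⟨pg, rfl, rfl, he, hy⟩,
        eQ_congr hB (a := (y + c1 * k) * e) (b := y * e) ⟨k * e, by ring⟩]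
    · rw [PHM.zero hB pg rfl rfl co h, PHM.zero hB pg rfl rfl co]
      rintro ⟨y, hy⟩
      obtain ⟨k, hk⟩ := shift (c1 := c1) (-m) hy
      exact h ⟨y + c1 * k, by rw [← hk]; ring⟩
  scale := by
    intro c d x s hc hs
    obtain ⟨g, c1, d1, pg, pc, rfl, rfl, co⟩ := hB.b2.gcd c d hc
    have s1 : IsCoprime s c1 := hs.of_mul_right_right
    have s2 : IsCoprime s g := hs.of_mul_right_left
    have e1 : s ^ 3 * (g * d1) = g * (s ^ 3 * d1) := by ring
    have co' : IsCoprime c1 (s ^ 3 * d1) := s1.symm.pow_right.mul_right co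
    by_cases h : g ^ 2 ∣ x ^ 3
    · obtain ⟨y, hy⟩ := h
      obtain ⟨e, he⟩ := inv_ex co'
      have he' : c1 ∣ d1 * (s ^ 3 * e) - 1 := by
        rwa [show d1 * (s ^ 3 * e) = s ^ 3 * d1 * e by ring]
      rw [PHM.eq hB (y := s ^ 3 * y) ⟨pg, rfl, e1, he, by rw [mul_pow, hy]; ring⟩,
        PHM.eq hB ⟨pg, rfl, rfl, he', hy⟩, hB.b6.mul_l _ _ _ (hB.b2.cop _ pc),
        hB.b6.pow_l _ _ _ (hB.b2.cop _ pc), hB.b6.cube _ _ s1, one_mul]
      congr 2
      ring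
    · rw [PHM.zero hB pg rfl rfl co h, PHM.zero hB pg rfl e1 co']
      intro h'
      rw [mul_pow] at h'
      exact h ((s2.symm.pow (m := 2) (n := 3)).dvd_of_dvd_mul_left h')
  norm_c := by
    intro c d x hc
    obtain ⟨g, c1, d1, pg, pc, rfl, rfl, co⟩ := hB.b2.gcd c d hc
    exact (norm_g hB hb pg rfl rfl co).trans (N_le hB g (hB.b2.ne _ pc))
  norm_d := by
    intro c d x hc hd
    obtain ⟨g, c1, d1, pg, pc, rfl, rfl, co⟩ := hB.b2.gcd c d hc
    exact (norm_g hB hb pg rfl rfl co).trans (N_le hB g (right_ne_zero_of_mul hd))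
  one := by
    intro d x
    rw [PHM.eq hB (g := 1) (c1 := 1) (d1 := d) (e := 0) (y := x ^ 3)
      ⟨hB.b2.one, by ring, by ring, one_dvd _, by ring⟩, hb.one, hB.b6.unit_r _ _ isUnit_one,
      hB.b1.eQ_dvd _ _ (one_dvd _)]
    ring
  d0 := fun c x hc hn => PHM.zero hB (c1 := 1) (d1 := 0) hc (by ring) (by ring)
    isCoprime_one_left hn
  crt := PHM.crt hB hC hb

end Vale.Agent.P026
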