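import Vale.Agent.P026.Stm1

noncomputable section
open Complex
open scoped Classical ComplexConjugate

namespace Vale.Agent.P026

namespace QGM

theorem eQ_pe (hB : Bas) {a b c : O} (h : c ∣ a - b) : eQ a c = eQ b c := by
  have := hB.b1.eQ_add b (a - b) c
  rw [hB.b1.eQ_dvd _ _ h, mul_one] at this
  rw [← this]; congr 1; ring

theorem pe_sq (hB : Bas) (a c : O) : Pe c fun x => eQ (a * x ^ 2) c := fun x m =>
  eQ_pe hB ⟨a * (2 * x * m + c * m ^ 2), by ring⟩

theorem ne_of (hB : Bas) {n : O} (h : IsCoprime n 2) : n ≠ 0 := by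
  rintro rfl
  exact hB.b1.prime_two.not_isUnit (isCoprime_zero_left.1 h)

theorem sqsum (hB : Bas) {p : O} (hp : Prime p) (h2 : IsCoprime p 2) {F : O → ℂ} (hF : Pe p F) :
    ∑ x ∈ Rs p, F (x ^ 2) = ∑ y ∈ Rs p, (1 + quad y p) * F y := by
  have : ∀ x, F (x ^ 2) = ∑ y ∈ Rs p, if p ∣ x ^ 2 - y then F y else 0 := by
    intro x
    obtain ⟨r, hr, h⟩ := hB.b4.ex p (x ^ 2) hp.ne_zero
    rw [Finset.sum_eq_single_of_mem r hr, if_pos h]
    · exact hB.b4.pe_congr p F _ _ hF h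
    · intro y hy hne
      refine if_neg fun h' => hne (hB.b4.uniq p y r hp.ne_zero hy hr ?_)
      have := dvd_sub h h'
      rwa [show x ^ 2 - r - (x ^ 2 - y) = y - r by ring] at this
  simp only [this]
  rw [Finset.sum_comm]
  refine Finset.sum_congr rfl fun y _ => ?_
  rw [← hB.b7.count p y hp h2, ← Finset.sum_filter, Finset.sum_const, nsmul_eq_mul]

theorem crt (hB : Bas) (a n1 n2 : O) (h1 : n1 ≠ 0) (h2 : n2 ≠ 0) (h : IsCoprime n1 n2) :
    Gq a (n1 * n2) = Gq (a * n2) n1 * Gq (a * n1) n2 := by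
  rw [Gq, hB.b4.crt n1 n2 _ h1 h2 h (pe_sq hB a _), Gq, Gq, Finset.sum_mul_sum]
  refine Finset.sum_congr rfl fun r1 _ => Finset.sum_congr rfl fun r2 _ => ?_
  rw [← hB.b1.eQ_mul n2 _ n1 h2, ← hB.b1.eQ_mul n1 _ n2 h1, mul_comm n2 n1, ← hB.b1.eQ_add]
  exact eQ_pe hB ⟨2 * a * r1 * r2, by ring⟩

theorem pe_g2 (hB : Bas) (c : O) : Pe c fun r => quad r c * eQ r c := fun x m => by
  have := hB.b7.pe c x m
  simp only at this ⊢
  rw [this, eQ_pe hB (b := x) ⟨m, by ring⟩]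

theorem pr (hB : Bas) {p : O} (hp : Prime p) (h2 : IsCoprime p 2) {a : O} (ha : IsCoprime a p) :
    Gq a p = quad a p * g2 p := by
  have hF : Pe p fun y => eQ (a * y) p := fun x m => eQ_pe hB ⟨a * m, by ring⟩
  have h1 := sqsum hB hp h2 hF
  have h3 := hB.b4.orth p a hp.ne_zero
  rw [if_neg fun d => hp.not_isUnit (ha.symm.isUnit_of_dvd d)] at h3
  have h4 := hB.b4.affine p _ a 0 hp.ne_zero (pe_g2 hB p) ha
  rw [Gq, h1, g2, ← h4, Finset.mul_sum]
  simp only [add_mul, one_mul, Finset.sum_add_distrib, h3, zero_add, add_zero]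
  refine Finset.sum_congr rfl fun y _ => ?_
  rw [hB.b7.mul_l _ _ _ h2]
  linear_combination (-(quad y p * eQ (a * y) p)) * hB.b7.sq a p ha

theorem pw (hB : Bas) {p : O} (hp : Prime p) (h2 : IsCoprime p 2) {a : O} (ha : IsCoprime a p)
    (k : ℕ) : Gq a (p ^ (k + 2)) = N p * Gq a (p ^ k) := by
  have p0 := hp.ne_zero
  have n2 : ¬ p ∣ 2 := fun d => hp.not_isUnit (h2.isUnit_of_dvd d)
  have na : ¬ p ∣ a := fun d => hp.not_isUnit (ha.symm.isUnit_of_dvd d)
  have e1 : ∀ r1, ∑ r2 ∈ Rs p, eQ (a * (r1 + p ^ (k + 1) * r2) ^ 2) (p ^ (k + 1) * p) =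
      N p * if p ∣ r1 then eQ (a * r1 ^ 2) (p ^ (k + 1) * p) else 0 := by
    intro r1
    have : ∀ r2, eQ (a * (r1 + p ^ (k + 1) * r2) ^ 2) (p ^ (k + 1) * p) =
        eQ (a * r1 ^ 2) (p ^ (k + 1) * p) * eQ (2 * a * r1 * r2) p := fun r2 => by
      rw [← hB.b1.eQ_mul (p ^ (k + 1)) _ p (pow_ne_zero _ p0), ← hB.b1.eQ_add]
      exact eQ_pe hB ⟨a * p ^ k * r2 ^ 2, by ring⟩
    simp only [this]
    rw [← Finset.mul_sum, hB.b4.orth p _ p0]
    by_cases d : p ∣ r1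
    · rw [if_pos d, if_pos (d.mul_left _), mul_comm]
    · rw [if_neg d, if_neg, mul_zero, mul_zero]
      intro d'
      rcases hp.dvd_or_dvd d' with d1 | d1
      · exact (hp.dvd_or_dvd d1).elim n2 na
      · exact d d1
  have hF : Pe (p * p ^ k) fun r1 => if p ∣ r1 then eQ (a * r1 ^ 2) (p ^ (k + 1) * p) else 0 := by
    intro x m
    have e : p ∣ x + p * p ^ k * m ↔ p ∣ x := dvd_add_left ⟨p ^ k * m, by ring⟩
    simp only [e]
    split_ifs with d
    · obtain ⟨t, rfl⟩ := d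
      exact eQ_pe hB ⟨a * (2 * t * m + p ^ k * m ^ 2), by ring⟩
    · rfl
  rw [Gq, pow_succ p (k + 1), hB.b4.lift _ _ _ (pow_ne_zero _ p0) p0 (pe_sq hB a _)]
  simp only [e1]
  rw [← Finset.mul_sum]
  congr 1
  have h5 := hB.b4.lift p (p ^ k) _ p0 (pow_ne_zero _ p0) hF
  rw [← pow_succ'] at h5
  rw [h5]
  obtain ⟨r, hr, h⟩ := hB.b4.ex p 0 p0
  rw [zero_sub, dvd_neg] at h
  rw [Finset.sum_eq_single_of_mem r hr]
  · obtain ⟨t, rfl⟩ := h
    rw [Gq, ← hB.b4.affine (p ^ k) _ 1 t (pow_ne_zero _ p0) (pe_sq hB a _) isCoprime_one_left]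
    refine Finset.sum_congr rfl fun y _ => ?_
    rw [if_pos ⟨t + y, by ring⟩, ← hB.b1.eQ_mul (p ^ 2) _ (p ^ k) (pow_ne_zero _ p0)]
    congr 1 <;> ring
  · intro y hy hne
    refine Finset.sum_eq_zero fun z _ => if_neg fun d => hne (hB.b4.uniq p y r p0 hy hr ?_)
    exact dvd_sub ((dvd_add_left (dvd_mul_right p z)).1 d) h

theorem un (hB : Bas) {u : O} (hu : IsUnit u) (a : O) : Gq a u = quad a u * Gq 1 u := by
  simp only [Gq, hB.b7.unit_r a u hu, one_mul, hB.b1.eQ_dvd _ _ (hu.dvd)]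

theorem tw (hB : Bas) (n : O) : IsCoprime n 2 → ∀ a, IsCoprime a n →
    Gq a n = quad a n * Gq 1 n := by
  induction n using UniqueFactorizationMonoid.induction_on_coprime with
  | h0 => exact fun h => absurd rfl (ne_of hB h)
  | h1 hu => exact fun _ a _ => un hB hu a
  | @hpr p k hp =>
    intro h2 a ha
    rcases Nat.eq_zero_or_pos k with rfl | hk
    · exact un hB (by simp) a
    have h2' : IsCoprime p 2 := (IsCoprime.pow_left_iff hk).1 h2
    have ha' : IsCoprime a p := (IsCoprime.pow_right_iff hk).1 ha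
    clear h2 ha hk
    induction k using Nat.twoStepInduction with
    | zero => exact un hB (by simp) a
    | one => rw [pow_one, pr hB hp h2' ha', pr hB hp h2' isCoprime_one_left, hB.b7.one_l, one_mul]
    | more k ih _ =>
      rw [pw hB hp h2' ha', pw hB hp h2' isCoprime_one_left, ih, hB.b7.pow_r _ _ _ hp.ne_zero,
        hB.b7.pow_r _ _ _ hp.ne_zero, pow_add, hB.b7.sq a p ha']
      ring
  | @hcp x y hxy hx hy =>
    intro h2 a ha
    have c := isRelPrime_iff_isCoprime.1 hxy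
    have x2 := h2.of_mul_left_left
    have y2 := h2.of_mul_left_right
    have x0 := ne_of hB x2
    have y0 := ne_of hB y2
    rw [crt hB a x y x0 y0 c, crt hB 1 x y x0 y0 c, one_mul, one_mul,
      hx x2 _ (ha.of_mul_right_left.mul_left c.symm), hy y2 _ (ha.of_mul_right_right.mul_left c),
      hx x2 y c.symm, hy y2 x c, hB.b7.mul_l _ _ _ x2, hB.b7.mul_l _ _ _ y2,
      hB.b7.mul_r _ _ _ x0 y0]
    ring

theorem sf (hB : Bas) (n : O) : IsCoprime n 2 → Squarefree n → Gq 1 n = g2 n := by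
  have u : ∀ u : O, IsUnit u → Gq 1 u = g2 u := fun u hu => by
    simp only [Gq, g2, hB.b7.unit_r _ u hu, one_mul, hB.b1.eQ_dvd _ _ (hu.dvd)]
  induction n using UniqueFactorizationMonoid.induction_on_coprime with
  | h0 => exact fun h => absurd rfl (ne_of hB h)
  | h1 hu => exact fun _ _ => u _ hu
  | @hpr p k hp =>
    intro h2 hs
    rcases hs.eq_zero_or_one_of_pow_of_not_isUnit hp.not_isUnit with rfl | rfl
    · exact u _ (by simp)
    · rw [pow_one] at h2 ⊢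
      rw [pr hB hp h2 isCoprime_one_left, hB.b7.one_l, one_mul]
  | @hcp x y hxy hx hy =>
    intro h2 hs
    have c := isRelPrime_iff_isCoprime.1 hxy
    have x2 := h2.of_mul_left_left
    have y2 := h2.of_mul_left_right
    have x0 := ne_of hB x2
    have y0 := ne_of hB y2
    rw [crt hB 1 x y x0 y0 c, one_mul, one_mul, tw hB x x2 y c.symm, tw hB y y2 x c,
      hx x2 hs.of_mul_left, hy y2 hs.of_mul_right, g2, g2, g2,
      hB.b4.crt x y _ x0 y0 c (pe_g2 hB _), Finset.mul_sum, Finset.mul_sum, Finset.sum_mul_sum]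
    refine Finset.sum_congr rfl fun r1 _ => Finset.sum_congr rfl fun r2 _ => ?_
    have a1 := hB.b4.pe_congr x _ (r1 * y + r2 * x) (r1 * y) (hB.b7.pe x) ⟨r2, by ring⟩
    have a2 := hB.b4.pe_congr y _ (r1 * y + r2 * x) (r2 * x) (hB.b7.pe y) ⟨r1, by ring⟩
    have a3 := hB.b1.eQ_mul y r1 x y0
    have a4 := hB.b1.eQ_mul x r2 y x0
    rw [mul_comm y x, mul_comm y r1] at a3
    rw [mul_comm x r2] at a4
    rw [hB.b7.mul_r _ _ _ x0 y0, a1, a2, hB.b1.eQ_add, a3, a4, hB.b7.mul_l _ _ _ x2,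
      hB.b7.mul_l _ _ _ y2]
    ring

end QGM

theorem qgS (hB : Bas) : QGStmt :=
  ⟨QGM.crt hB, fun a n h ha => QGM.tw hB n h a ha, QGM.sf hB⟩

end Vale.Agent.P026
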