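import Vale.Agent.P026.Stm1

/-! Quadratic reciprocity package from the Landsberg-Schaar evaluation. -/

noncomputable section
open Complex
open scoped Classical ComplexConjugate

namespace Vale.Agent.P026

namespace QRM

theorem ne0 (hB : Bas) {n : O} (h : IsCoprime n 2) : n ≠ 0 := by
  rintro rfl
  exact hB.b1.prime_two.not_unit (isCoprime_zero_left.1 h)

theorem sq_ne (hB : Bas) {n : O} (h : n ≠ 0) : (Real.sqrt (N n) : ℂ) ≠ 0 := by
  have := hB.b1.N_one_le n h
  exact_mod_cast (Real.sqrt_pos.2 (by linarith)).ne'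

theorem pe (hB : Bas) {a b c : O} (h : c ∣ a - b) : eQ a c = eQ b c := by
  rw [show a = b + (a - b) by ring, hB.b1.eQ_add, hB.b1.eQ_dvd _ _ h, mul_one]

theorem gq_pe (hB : Bas) {a b c : O} (h : c ∣ a - b) : Gq a c = Gq b c :=
  Finset.sum_congr rfl fun x _ => pe hB (by rw [← sub_mul]; exact h.mul_right _)

theorem cop {D n n' : O} (h : IsCoprime n D) (h' : D ∣ n - n') : IsCoprime n' D := by
  obtain ⟨m, hm⟩ := h'
  rw [show n' = n + D * (-m) by linear_combination -hm]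
  exact h.add_mul_left_left _

theorem key (hB : Bas) (hL : LSStmt) (hQ : QGStmt) {D n : O} (hD : D ≠ 0) (h2 : IsCoprime n 2)
    (h : IsCoprime n D) : quad D n * gam n * Gq n (4 * D) = 8 * (Real.sqrt (N D) : ℂ) := by
  have hn := ne0 hB h2
  have h4 : (4 : O) = 2 ^ 2 := by norm_num
  have h5 : IsCoprime n (4 * D) := by rw [h4]; exact h2.pow_right.mul_right h
  have e1 := hL (D * n) (mul_ne_zero hD hn)
  have e2 := hQ.1 1 n (4 * D) hn (mul_ne_zero (by rw [h4]; exact pow_ne_zero _ hB.b1.prime_two.ne_zero) hD) h5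
  rw [one_mul, one_mul, hQ.2.1 _ _ h2 h5.symm, hB.b7.mul_l _ _ _ h2, show n * (4 * D) = 4 * (D * n) by ring,
    e1, hB.b1.N_mul, Real.sqrt_mul (show 0 ≤ N D from Nat.cast_nonneg _)] at e2
  have e3 : quad 4 n = 1 := by rw [h4, hB.b7.pow_l _ _ _ h2, hB.b7.sq _ _ h2.symm]
  have e4 := sq_ne hB hn
  rw [e3] at e2
  push_cast at e2
  unfold gam
  field_simp
  linear_combination -e2

theorem nrm (hB : Bas) {n : O} (h2 : IsCoprime n 2) : Gq 1 n * conj (Gq 1 n) = N n := by
  have hn := ne0 hB h2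
  have e1 : ∀ y, Gq 1 n = ∑ h ∈ Rs n, eQ ((h + y) ^ 2) n := fun y => by
    have := hB.b4.affine n (fun x => eQ (x ^ 2) n) 1 y hn
      (fun a m => pe hB ⟨m * (2 * a + n * m), by ring⟩) isCoprime_one_left
    simp only [one_mul] at this
    simp only [Gq, one_mul, this]
  have e2 : Gq 1 n * conj (Gq 1 n) =
      ∑ h ∈ Rs n, eQ (h ^ 2) n * ∑ y ∈ Rs n, eQ (2 * h * y) n := by
    conv_lhs => rw [mul_comm]; arg 1; rw [Gq, map_sum]
    rw [Finset.sum_mul]
    simp only [Finset.mul_sum]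
    rw [Finset.sum_comm]
    refine Finset.sum_congr rfl fun y _ => ?_
    rw [e1 y, Finset.mul_sum]
    refine Finset.sum_congr rfl fun h _ => ?_
    rw [← hB.b1.eQ_neg, ← hB.b1.eQ_add, ← hB.b1.eQ_add]
    congr 1; ring
  obtain ⟨r, hr, hr'⟩ := hB.b4.ex n 0 hn
  rw [zero_sub, dvd_neg] at hr'
  rw [e2, Finset.sum_eq_single_of_mem r hr fun h hh hne => ?_]
  · rw [hB.b4.orth _ _ hn, if_pos (hr'.mul_left _), hB.b1.eQ_dvd _ _ (hr'.pow (by norm_num)), one_mul]
  · rw [hB.b4.orth _ _ hn, if_neg fun k => hne (hB.b4.uniq n h r hn hh hr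
      (dvd_sub (h2.dvd_of_dvd_mul_left k) hr')), mul_zero]

end QRM

open QRM in
theorem qrS (hB : Bas) (hL : LSStmt) (hQ : QGStmt) : QR := by
  have per : ∀ n n', IsCoprime n 2 → (4 : O) ∣ n - n' → gam n = gam n' := by
    intro n n' h2 h4
    have h2' := cop h2 (Dvd.dvd.trans ⟨2, by norm_num⟩ h4)
    have e1 := key hB hL hQ one_ne_zero h2 isCoprime_one_right
    have e2 := key hB hL hQ one_ne_zero h2' isCoprime_one_right
    rw [hB.b7.one_l, one_mul, mul_one] at e1 e2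
    rw [← gq_pe hB h4] at e2
    have e3 : Gq n 4 ≠ 0 := fun k => by
      rw [k, mul_zero] at e1
      exact mul_ne_zero (by norm_num) (sq_ne hB one_ne_zero) e1.symm
    exact mul_right_cancel₀ e3 (e1.trans e2.symm)
  refine ⟨per, fun n h2 => ?_, fun n h2 hs => ?_, fun a b ha hb hab => ?_, fun D n n' hD h2 h4 => ?_⟩
  · have e := nrm hB h2
    have h1 := hB.b1.N_one_le n (ne0 hB h2)
    rw [Complex.mul_conj, Complex.normSq_eq_norm_sq] at e
    have e' : ‖Gq 1 n‖ ^ 2 = N n := by exact_mod_cast e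
    rw [gam, norm_div, Complex.norm_real, ← e', Real.sqrt_sq (norm_nonneg _), norm_norm]
    exact div_self fun k => by rw [k] at e'; linarith
  · rw [gam, div_mul_cancel₀ _ (sq_ne hB (ne0 hB h2)), hQ.2.2 n h2 hs]
  · have e := hQ.1 1 a b (ne0 hB ha) (ne0 hB hb) hab
    rw [one_mul, one_mul, hQ.2.1 b a ha hab.symm, hQ.2.1 a b hb hab] at e
    have e1 := sq_ne hB (ne0 hB ha)
    have e2 := sq_ne hB (ne0 hB hb)
    simp only [gam]
    rw [e, hB.b1.N_mul, Real.sqrt_mul (show 0 ≤ N a from Nat.cast_nonneg _)]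
    push_cast
    field_simp
  · have h4' : (4 : O) ∣ n - n' := (dvd_mul_right 4 D).trans h4
    have hD' : D ∣ n - n' := (dvd_mul_left D 4).trans h4
    have h2' := cop h2 (Dvd.dvd.trans ⟨2, by norm_num⟩ h4')
    by_cases h : IsCoprime n D
    · have e1 := key hB hL hQ hD h2 h
      have e2 := key hB hL hQ hD h2' (cop h hD')
      rw [← gq_pe hB h4, ← per n n' h2 h4', mul_assoc] at e2
      rw [mul_assoc] at e1
      have e3 : gam n * Gq n (4 * D) ≠ 0 := fun k => by
        rw [k, mul_zero] at e1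
        exact mul_ne_zero (by norm_num) (sq_ne hB hD) e1.symm
      exact mul_right_cancel₀ e3 (e1.trans e2.symm)
    · rw [hB.b7.zero _ _ (ne0 hB h2) fun k => h k.symm, hB.b7.zero _ _ (ne0 hB h2')
        fun k => h (cop k.symm (dvd_sub_comm.1 hD'))]

end Vale.Agent.P026
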