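import Vale.Agent.P026.Stm1

/-! P026: self-duality for every primary modulus. -/

noncomputable section

namespace Vale.Agent.P026

theorem sdS (hB : Bas) (h01 : SDk 0 ∧ SDk 1) (h2 : SDk 2) (h3 : SDk 3) (h4 : SDk 4) (h5 : SDk 5)
    (hr : SDrec) (hc : SDcrt) : SDStmt := by
  have hk : ∀ k, SDk k := fun k => by
    induction k using Nat.strong_induction_on with
    | _ k ih =>
      match k, ih with
      | 0, _ => exact h01.1
      | 1, _ => exact h01.2
      | 2, _ => exact h2
      | 3, _ => exact h3
      | 4, _ => exact h4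
      | 5, _ => exact h5
      | k + 6, ih => exact hr k (ih k (by omega)) (ih (k + 3) (by omega))
  refine hB.b2.ind SDat ?_ (fun p k hp hq => hk k p hp hq) hc
  have hq : Prim (-2 : O) := ⟨-1, by norm_num⟩
  simpa using h01.1 (-2) hB.b1.prime_two.neg hq

end Vale.Agent.P026
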