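import Vale.Agent.P026.M.SD2

/-! Self-duality of the kernel at 1 and at a prime. -/

noncomputable section
open Complex
open scoped Classical ComplexConjugate

namespace Vale.Agent.P026

namespace SD1M

open Finset SD2M

section
variable {K : Type} [Field K] [Fintype K] (χ ψ : K → ℂ) (g g' : ℂ)

def Ph (d x : K) : ℂ := if d = 0 then (if x = 0 then g else 0) else χ d * ψ (x ^ 3 * d⁻¹)

theorem fib (f : K → K) (G : K → ℂ) :
    ∑ x, G (f x) = ∑ y, ((univ.filter fun x => f x = y).card : ℂ) * G y := by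
  rw [← sum_fiberwise univ f fun x => G (f x)]
  refine sum_congr rfl fun y _ => ?_
  rw [sum_congr rfl fun x hx => by rw [(mem_filter.1 hx).2], sum_const, nsmul_eq_mul]

theorem split0 (G : K → ℂ) : ∑ x, G x = G 0 + ∑ x, if x = 0 then 0 else G x := by
  rw [← sum_ite_eq' (s := univ) (a := (0 : K)) (b := G) |>.trans (if_pos (mem_univ _)),
    ← sum_add_distrib]
  exact sum_congr rfl fun x _ => by split_ifs <;> simp

theorem half (h27 : (27 : K) ≠ 0) (hm : ∀ a b, χ (a * b) = χ a * χ b) (h0 : χ 0 = 0) (h1 : χ 1 = 1)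
    (h3 : ∀ a, a ≠ 0 → χ a ^ 3 = 1) (hn : ∀ a, χ (-a) = χ a) (c27 : ∀ a, χ (27 * a) = χ a)
    (p0 : ψ 0 = 1) (ho : ∀ a, a ≠ 0 → ∑ r, ψ (a * r) = 0)
    (t1 : ∀ h, ∑ r, χ r ^ 2 * ψ (r * h) = χ h * g) (t2 : ∀ h, ∑ r, χ r * ψ (r * h) = χ h ^ 2 * g')
    (cn : ∀ a, a ≠ 0 → ((univ.filter fun y : K => y ^ 3 = a).card : ℂ) = 1 + χ a + χ a ^ 2)
    (cd : ∀ d b y, d ≠ 0 → b ≠ 0 → ((univ.filter fun x : K => x ^ 3 + d * b * x - d * y = 0).card : ℂ) =
      1 + ∑ t ∈ univ.filter (fun t => t ^ 2 - y * t - d * b ^ 3 / 27 = 0), χ (d * t))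
    (ha : ∀ a b, ψ (a + b) = ψ a * ψ b) (d b : K) :
    ∑ x, Ph χ ψ g d x * ψ (x * b) = ∑ e, Ph χ ψ g (27 * e) b * ψ (-(d * e)) := by
  have hi : ∀ a, χ a⁻¹ = χ a ^ 2 := fun a => by
    by_cases k : a = 0
    · simp [k, h0]
    · have := hm a a⁻¹
      rw [mul_inv_cancel₀ k, h1] at this
      linear_combination -χ a ^ 2 * this - χ a⁻¹ * h3 a k
  have hR : ∑ e, Ph χ ψ g (27 * e) b * ψ (-(d * e)) =
      (if b = 0 then g else 0) + ∑ e, χ e * ψ (b ^ 3 * (27 * e)⁻¹ - d * e) := by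
    rw [split0, mul_zero, mul_zero, neg_zero, p0, mul_one, Ph, if_pos rfl]
    congr 1
    refine sum_congr rfl fun e _ => ?_
    split_ifs with k
    · rw [k, h0, zero_mul]
    · rw [Ph, if_neg (mul_ne_zero h27 k), c27, sub_eq_add_neg, ha, mul_assoc]
  rw [hR]
  by_cases hd : d = 0
  · subst hd
    rw [sum_eq_single_of_mem 0 (mem_univ _) fun x _ hx => by simp [Ph, hx],
      ← Equiv.sum_comp (Equiv.inv K), sum_congr rfl fun e _ => by
        rw [Equiv.inv_apply, hi, zero_mul, sub_zero, mul_inv, inv_inv, ← mul_assoc,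
          mul_comm _ e], t1]
    by_cases hb : b = 0
    · simp [Ph, hb, h0, p0]
    · rw [← c27, mul_left_comm, mul_inv_cancel₀ h27, mul_one, pow_succ, sq, hm, hm]
      simp only [Ph, if_true, zero_mul, p0, if_neg hb]
      linear_combination -g * h3 b hb
  simp only [Ph, if_neg hd]
  by_cases hb : b = 0
  · subst hb
    have e1 : ∑ x : K, ψ (x ^ 3 * d⁻¹) = ∑ y, (1 + χ y + χ y ^ 2) * ψ (y * d⁻¹) := by
      rw [fib (fun x => x ^ 3) fun y => ψ (y * d⁻¹)]
      refine sum_congr rfl fun y _ => ?_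
      by_cases k : y = 0
      · rw [k, show (univ.filter fun x : K => x ^ 3 = 0) = {0} by ext; simp]
        simp [h0]
      · rw [cn y k]
    have e2 := ho d⁻¹ (inv_ne_zero hd)
    simp only [mul_comm d⁻¹] at e2
    simp only [mul_zero, p0, mul_one, ← mul_sum, e1, add_mul, one_mul, sum_add_distrib, e2, t1, t2, hi,
      if_true, zero_pow three_ne_zero, zero_mul, zero_sub, mul_comm d, ← mul_neg, hn]
    linear_combination (g + χ d ^ 2 * g') * h3 d hd
  have e1 : ∑ x : K, χ d * ψ (x ^ 3 * d⁻¹) * ψ (x * b) = χ d * ∑ y, (1 + ∑ t ∈ univ.filter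
      (fun t => t ^ 2 - y * t - d * b ^ 3 / 27 = 0), χ (d * t)) * ψ y := by
    simp only [mul_assoc (χ d), ← ha, ← mul_sum]
    rw [fib (fun x => x ^ 3 * d⁻¹ + x * b) ψ]
    congr 1
    refine sum_congr rfl fun y _ => ?_
    rw [← cd d b y hd hb]
    rw [filter_congr (q := fun x => x ^ 3 + d * b * x - d * y = 0) fun x _ => ?_]
    refine ⟨fun h => by rw [← h]; field_simp; ring, fun h => ?_⟩
    field_simp
    linear_combination h
  have e2 := ho 1 one_ne_zero
  simp only [one_mul] at e2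
  have e3 : ∑ y, (∑ t ∈ univ.filter (fun t => t ^ 2 - y * t - d * b ^ 3 / 27 = 0), χ (d * t)) * ψ y =
      ∑ t, χ (d * t) * ψ (t - d * b ^ 3 / 27 * t⁻¹) := by
    simp only [sum_filter, sum_mul]
    rw [sum_comm]
    refine sum_congr rfl fun t _ => ?_
    by_cases k : t = 0
    · simp [k, h0]
    · rw [sum_eq_single_of_mem (t - d * b ^ 3 / 27 * t⁻¹) (mem_univ _) fun y _ hy => by
        rw [if_neg fun h => hy (by field_simp at h ⊢; linear_combination -h), zero_mul],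
        if_pos (by field_simp; ring)]
  rw [e1, if_neg hb, zero_add]
  simp only [add_mul, one_mul, sum_add_distrib, e2, e3, zero_add]
  rw [← Equiv.sum_comp (Equiv.mulLeft₀ (-d) (neg_ne_zero.2 hd)), mul_sum]
  refine sum_congr rfl fun e _ => ?_
  by_cases k : e = 0
  · simp [k, h0]
  · rw [Equiv.mulLeft₀_apply, hm, hm, hn, show -d * e - d * b ^ 3 / 27 * (-d * e)⁻¹ =
      b ^ 3 * (27 * e)⁻¹ - d * e by field_simp; ring]
    linear_combination χ e * ψ (b ^ 3 * (27 * e)⁻¹ - d * e) * h3 d hd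

theorem full (p0 : ψ 0 = 1) (ho : ∀ a, a ≠ 0 → ∑ r, ψ (a * r) = 0)
    (ha : ∀ a b, ψ (a + b) = ψ a * ψ b) (F G : K → K → ℂ) (a b : K)
    (h : ∀ d, ∑ x, F d x * ψ (x * b) = ∑ e, G e b * ψ (-(d * e))) :
    ∑ d, ∑ x, F d x * ψ (d * a + x * b) = Fintype.card K * G a b := by
  have : ∀ d, ∑ x, F d x * ψ (d * a + x * b) = ∑ e, G e b * ψ ((a - e) * d) := fun d => by
    simp only [ha, mul_left_comm _ (ψ (d * a)), ← mul_sum, h]
    rw [mul_sum]
    exact sum_congr rfl fun e _ => by rw [mul_left_comm, ← ha]; congr 2; ring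
  simp only [this]
  rw [sum_comm, sum_eq_single_of_mem a (mem_univ _) fun e _ he => by
    rw [← mul_sum, ho _ (sub_ne_zero.2 he.symm), mul_zero]]
  simp [p0]

end

end SD1M

open SD1M SD2M Finset in
theorem sd1S (hB : Bas) (_hG : GPStmt) (_hJ : JStmt) (hb : BB) (hP : PH) (hc : CardStmt) :
    SDk 0 ∧ SDk 1 := by
  refine ⟨fun p _ _ d' x' => ?_, fun p hp h1 d' x' => ?_⟩
  · have e : Nn 1 = 1 := (hB.b1.unit_iff 1).1 isUnit_one
    simp [FT2, hP.one, hB.b1.eQ_dvd _ _ (one_dvd _), hB.b4.card 1 one_ne_zero, e, N]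
  rw [pow_one]
  have h3 := hB.b2.cop p h1
  have h0 := hp.ne_zero
  have hN : (Nn p : ℂ) = N p := by simp [N]
  haveI : (Ideal.span {p}).IsMaximal := PrincipalIdealRing.isMaximal_of_irreducible hp.irreducible
  letI := Ideal.Quotient.field (Ideal.span {p})
  haveI : Finite (O ⧸ Ideal.span {p}) := Nat.finite_of_card_ne_zero (by
    rw [hB.b5.card p hp]
    have := hB.b1.N_one_le p h0
    intro k
    rw [N, k] at this
    norm_num at this)
  haveI := Fintype.ofFinite (O ⧸ Ideal.span {p})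
  set π := Ideal.Quotient.mk (Ideal.span {p}) with hπ
  have sur : ∀ {P : O ⧸ Ideal.span {p} → Prop}, (∀ x, P x) ↔ ∀ a, P (π a) :=
    Ideal.Quotient.mk_surjective.forall
  have z : ∀ a, π a = 0 ↔ p ∣ a := fun a => by
    rw [hπ, Ideal.Quotient.eq_zero_iff_mem, Ideal.mem_span_singleton]
  have out : ∀ a, p ∣ (π a).out - a := fun a => by
    rw [← z, map_sub, hπ, Ideal.Quotient.mk_out, sub_self]
  obtain ⟨χ, hχ⟩ : ∃ χ : O ⧸ Ideal.span {p} → ℂ, ∀ a, χ (π a) = cub a p :=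
    ⟨fun x => cub x.out p, fun a => cpe hB (out a)⟩
  obtain ⟨ψ, hψ⟩ : ∃ ψ : O ⧸ Ideal.span {p} → ℂ, ∀ a, ψ (π a) = eQ a p :=
    ⟨fun x => eQ x.out p, fun a => pe hB (out a)⟩
  have sq := fun G => (hB.b5.sum_q p G h0).symm
  have e27 : π 27 = 27 := map_ofNat π 27
  have h27 : (27 : O ⧸ Ideal.span {p}) ≠ 0 := by
    rw [← e27, Ne, z, ← mul_one 27, d27 h3]; exact hp.not_dvd_one
  have p0 : ψ 0 = 1 := by rw [← map_zero π, hψ, hB.b1.eQ_dvd _ _ (dvd_zero _)]
  have ho : ∀ a, a ≠ 0 → ∑ r, ψ (a * r) = 0 := sur.2 fun a h => by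
    rw [sq]
    simp only [← hπ, ← map_mul, hψ]
    rw [hB.b4.orth _ _ h0, if_neg fun k => h ((z a).2 k)]
  have ha : ∀ a b, ψ (a + b) = ψ a * ψ b := sur.2 fun a => sur.2 fun b => by
    rw [← map_add, hψ, hψ, hψ, hB.b1.eQ_add]
  have cardq : ∀ (P : O ⧸ Ideal.span {p} → Prop) (Q : O → Prop) (G : O ⧸ Ideal.span {p} → ℂ),
      (∀ a, P (π a) ↔ Q a) → ∑ x ∈ univ.filter P, G x = ∑ r ∈ (Rs p).filter Q, G (π r) :=
    fun P Q G h => by
      rw [sum_filter, sum_filter, sq]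
      exact sum_congr rfl fun r _ => by simp only [← hπ, h]
  have hPh : ∀ d x, Phi p d x = Ph χ ψ (gs p) (π d) (π x) := fun d x => by
    rw [Ph]
    by_cases hd : p ∣ d
    · rw [if_pos ((z d).2 hd)]
      obtain ⟨d, rfl⟩ := hd
      by_cases hx : p ∣ x
      · rw [if_pos ((z x).2 hx)]
        obtain ⟨x, rfl⟩ := hx
        have e := hb.pp1 p 0 hp h1
        simp only [mul_zero, zero_add, pow_one, pow_zero, mul_one] at e
        rw [hP.eq _ _ _ p 1 d 0 (p * x ^ 3) h1 ⟨h1, by ring, rfl, one_dvd _, by ring⟩, e,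
          hB.b6.unit_r _ _ isUnit_one, hB.b1.eQ_dvd _ _ (one_dvd _), mul_one, mul_one]
      · rw [if_neg fun k => hx ((z x).1 k)]
        exact hP.zero _ _ _ p 1 d h1 (by ring) rfl isCoprime_one_left h1
          fun k => hx (hp.dvd_of_dvd_pow ((dvd_pow_self p two_ne_zero).trans k))
    · obtain ⟨u, v, huv⟩ := cop hp hd
      have he : p ∣ d * u - 1 := ⟨-v, by linear_combination huv⟩
      have hu : (π d)⁻¹ = π u := inv_eq_of_mul_eq_one_right (by
        rw [← map_mul, ← sub_eq_zero, ← map_one π, ← map_sub, z]; exact he)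
      rw [if_neg fun k => hd ((z d).1 k), hP.eq _ _ _ 1 p d u (x ^ 3) h1
        ⟨hB.b2.one, by ring, by ring, he, by ring⟩, hb.one, one_mul, hu, ← map_pow, ← map_mul, hχ, hψ]
  have key := full ψ p0 ho ha (Ph χ ψ (gs p)) (fun e b => Ph χ ψ (gs p) (27 * e) b) (π d') (π x')
    fun d => half χ ψ (gs p) (conj (gs p)) h27
      (sur.2 fun a => sur.2 fun b => by rw [← map_mul, hχ, hχ, hχ, hB.b6.mul_l _ _ _ h3])
      (by rw [← map_zero π, hχ, cz hB hp (dvd_zero _)]) (by rw [← map_one π, hχ, hB.b6.one_l])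
      (sur.2 fun a h => by rw [hχ, hB.b6.cube _ _ (cop hp fun k => h ((z a).2 k))])
      (sur.2 fun a => by rw [← map_neg, hχ, hχ, hB.b6.neg_l _ _ h3])
      (sur.2 fun a => by rw [← e27, ← map_mul, hχ, hχ, c27 hB h3]) p0 ho
      (sur.2 fun h => by
        rw [sq]
        simp only [← hπ, ← map_mul π, hψ, hχ, ← hB.b6.conj_eq, tw hB hp h3])
      (sur.2 fun h => by
        rw [sq]
        simp only [← hπ, ← map_mul π, hψ, hχ, ← hB.b6.conj_eq, tw' hB hp h3])
      (sur.2 fun a h => by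
        rw [hχ, ← hB.b6.conj_eq, ← hB.b6.count p a hp h3 fun k => h ((z a).2 k), card_eq_sum_ones,
          card_eq_sum_ones]
        push_cast
        exact cardq _ _ (fun _ => 1) fun y => by rw [← z, map_sub, map_pow, sub_eq_zero])
      (sur.2 fun d => sur.2 fun b => sur.2 fun y hd hb => by
        obtain ⟨B, hB'⟩ := Ideal.Quotient.mk_surjective (π d * π b ^ 3 / 27)
        rw [← hπ] at hB'
        have e := hc p d b B y hp h1 (fun k => hd ((z d).2 k)) (fun k => hb ((z b).2 k)) (by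
          rw [← z, map_sub, map_mul, map_mul, map_pow, e27, hB']
          field_simp
          ring)
        rw [← hB', cardq _ (fun t => p ∣ t ^ 2 - y * t - B) _ fun t => by
          rw [← z, map_sub, map_sub, map_pow, map_mul]]
        simp only [← map_mul π, hχ]
        rw [← e, card_eq_sum_ones, card_eq_sum_ones]
        push_cast
        exact cardq _ _ (fun _ => 1) fun x => by
          rw [← z, map_sub, map_add, map_pow, map_mul π d y, map_mul π _ x, map_mul π d b]) ha d _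
  rw [hPh, map_mul, e27, ← hN, ← hB.b5.card p hp, Nat.card_eq_fintype_card, ← key, sq, FT2]
  refine sum_congr rfl fun d _ => ?_
  rw [sq]
  refine sum_congr rfl fun x _ => ?_
  rw [hPh, ← hψ, map_add, map_mul, map_mul]

end Vale.Agent.P026
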