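import Vale.Agent.P026.Stm1

/-! Self-duality of the kernel at the square of a prime. -/

noncomputable section
open Complex
open scoped Classical ComplexConjugate

namespace Vale.Agent.P026

namespace SD2M

theorem pe (hB : Bas) {a b c : O} (h : c ∣ a - b) : eQ a c = eQ b c := by
  rw [show a = b + (a - b) by ring, hB.b1.eQ_add, hB.b1.eQ_dvd _ _ h, mul_one]

theorem cpe (hB : Bas) {a b c : O} (h : c ∣ a - b) : cub a c = cub b c :=
  hB.b4.pe_congr c _ a b (hB.b6.pe c) h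

theorem cz (hB : Bas) {a p : O} (hp : Prime p) (h : p ∣ a) : cub a p = 0 :=
  hB.b6.zero _ _ hp.ne_zero fun k => hp.not_unit (k.isUnit_of_dvd' h dvd_rfl)

theorem cop {a p : O} (hp : Prime p) (h : ¬ p ∣ a) : IsCoprime a p :=
  (hp.irreducible.coprime_iff_not_dvd.2 h).symm

theorem c27 (hB : Bas) {p : O} (h3 : IsCoprime p 3) (a : O) : cub (27 * a) p = cub a p := by
  rw [hB.b6.mul_l _ _ _ h3, show (27 : O) = 3 ^ 3 by norm_num, hB.b6.pow_l _ _ _ h3,
    hB.b6.cube _ _ h3.symm, one_mul]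

theorem d27 {p : O} (h3 : IsCoprime p 3) (a : O) : p ∣ 27 * a ↔ p ∣ a :=
  ⟨fun h => (show IsCoprime p (3 ^ 3) from h3.pow_right).dvd_of_dvd_mul_left
    (by rwa [show (3 : O) ^ 3 = 27 by norm_num]), fun h => h.mul_left _⟩

theorem tw (hB : Bas) {p : O} (hp : Prime p) (h3 : IsCoprime p 3) (h : O) :
    ∑ r ∈ Rs p, conj (cub r p) * eQ (r * h) p = cub h p * gs p := by
  by_cases k : p ∣ h
  · rw [cz hB hp k, zero_mul, Finset.sum_congr rfl fun r _ => by
      rw [hB.b1.eQ_dvd _ _ (k.mul_left r), mul_one], ← map_sum, hB.b6.sum_zero p hp h3, map_zero]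
  · have e := hB.b4.affine p (fun r => conj (cub r p) * eQ r p) h 0 hp.ne_zero (fun a m => by
      dsimp only
      rw [cpe hB (b := a) ⟨m, by ring⟩, pe hB (b := a) ⟨m, by ring⟩]) (cop hp k)
    rw [gs, ← e, Finset.mul_sum]
    refine Finset.sum_congr rfl fun r _ => ?_
    rw [add_zero, hB.b6.mul_l _ _ _ h3, map_mul, hB.b6.conj_eq h, mul_comm h r]
    linear_combination (-(conj (cub r p) * eQ (r * h) p)) * hB.b6.cube h p (cop hp k)

theorem tw' (hB : Bas) {p : O} (hp : Prime p) (h3 : IsCoprime p 3) (h : O) :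
    ∑ r ∈ Rs p, cub r p * eQ (r * h) p = conj (cub h p) * conj (gs p) := by
  rw [← hB.b6.neg_l h p h3, ← map_mul, ← tw hB hp h3, map_sum]
  refine Finset.sum_congr rfl fun r _ => ?_
  rw [map_mul, conj_conj, mul_neg, hB.b1.eQ_neg, conj_conj]

/-- functions supported on the multiples of `p` -/
theorem supp (hB : Bas) {p c : O} (hp : p ≠ 0) (hc : c ≠ 0) (F : O → ℂ) (hF : Pe (p * c) F)
    (h0 : ∀ x, ¬ p ∣ x → F x = 0) : ∑ x ∈ Rs (p * c), F x = ∑ r ∈ Rs c, F (p * r) := by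
  obtain ⟨r, hr, m, hm⟩ := hB.b4.ex p 0 hp
  rw [hB.b4.lift p c F hp hc hF, Finset.sum_eq_single_of_mem r hr fun s hs hne =>
    Finset.sum_eq_zero fun t _ => h0 _ fun k => hne (hB.b4.uniq p s r hp hs hr ?_)]
  · rw [← hB.b4.affine c (fun r => F (p * r)) 1 (-m) hc (fun a t => by
      dsimp only; rw [← hF (p * a) t]; congr 1; ring) isCoprime_one_left]
    exact Finset.sum_congr rfl fun t _ => by congr 1; linear_combination -hm
  · exact dvd_sub ((dvd_add_left (dvd_mul_right p t)).1 k) ⟨-m, by linear_combination -hm⟩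

theorem lev (hB : Bas) {p : O} (hp : p ≠ 0) (H : O → ℂ) (hH : Pe p H) (a : O) :
    ∑ r ∈ Rs (p * p), H r * eQ (r * a) (p * p) =
      (∑ r ∈ Rs p, H r * eQ (r * a) (p * p)) * if p ∣ a then (N p : ℂ) else 0 := by
  rw [hB.b4.lift p p _ hp hp fun x m => by
    rw [mul_assoc, hH, pe hB (b := x * a) ⟨m * a, by ring⟩], ← hB.b4.orth p a hp, Finset.sum_mul_sum]
  refine Finset.sum_congr rfl fun r _ => Finset.sum_congr rfl fun s _ => ?_
  rw [hH, add_mul, hB.b1.eQ_add, mul_assoc p, hB.b1.eQ_mul _ _ _ hp, mul_comm s, mul_assoc]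

def Jd (p x : O) : ℂ := if p ∣ x then 1 else 0

def Bf (p d : O) : ℂ := if h : p ∣ d then cub h.choose p else 0

theorem Bf_mul {p : O} (hp : p ≠ 0) (d : O) : Bf p (p * d) = cub d p := by
  have h : p ∣ p * d := dvd_mul_right _ _
  rw [Bf, dif_pos h, ← mul_left_cancel₀ hp h.choose_spec]

theorem dec (hB : Bas) (hb : BB) (hP : PH) {p : O} (hp : Prime p) (h1 : Prim p) (d x : O) :
    Phi (p ^ 2) d x = EE p 2 2 d x + (conj (cub d p) + gs p * Bf p d) * Jd p x := by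
  have h2 := hB.b2.pow p 2 h1
  by_cases hd : p ∣ d
  · rw [EE, dif_neg fun ⟨_, e, he⟩ => hp.not_dvd_one
      ((dvd_sub_right (hd.mul_right e)).1 ((dvd_pow_self p two_ne_zero).trans he)), cz hB hp hd,
      map_zero, zero_add, zero_add]
    obtain ⟨d, rfl⟩ := hd
    rw [Bf_mul hp.ne_zero]
    by_cases hd' : p ∣ d
    · obtain ⟨d, rfl⟩ := hd'
      rw [cz hB hp (dvd_mul_right _ _), mul_zero, zero_mul]
      by_cases hx : (p ^ 2) ^ 2 ∣ x ^ 3
      · obtain ⟨y, hy⟩ := hx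
        have e := hb.pp2 p 0 hp h1
        rw [hP.eq _ _ _ (p ^ 2) 1 d 0 y h2 ⟨h2, by ring, by ring, one_dvd _, hy⟩,
          show bb (p ^ 2) = 0 from e, zero_mul, zero_mul]
      · exact hP.zero _ _ _ (p ^ 2) 1 d h2 (by ring) (by ring) isCoprime_one_left h2 hx
    · by_cases hx : p ∣ x
      · obtain ⟨x, rfl⟩ := hx
        obtain ⟨u, v, huv⟩ := cop hp hd'
        have e := hb.pp1 p 0 hp h1
        rw [hP.eq _ _ _ p p d u (p * x ^ 3) h2 ⟨h1, by ring, rfl, ⟨-v, by linear_combination huv⟩,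
          by ring⟩, hB.b1.eQ_dvd _ _ ⟨x ^ 3 * u, by ring⟩, Jd, if_pos (dvd_mul_right _ _)]
        simp only [mul_zero, zero_add, pow_one, pow_zero, mul_one] at e
        rw [e]
      · rw [Jd, if_neg hx, mul_zero]
        exact hP.zero _ _ _ p p d h1 (by ring) rfl (cop hp hd').symm h2
          fun k => hx (hp.dvd_of_dvd_pow ((dvd_pow_self p two_ne_zero).trans k))
  · obtain ⟨u, v, huv⟩ := (cop hp hd).pow_right (n := 2)
    have he : p ^ 2 ∣ d * u - 1 := ⟨-v, by linear_combination huv⟩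
    rw [hP.eq _ _ _ 1 (p ^ 2) d u (x ^ 3) h2 ⟨hB.b2.one, by ring, by ring, he, by ring⟩, hb.one,
      one_mul, hB.b6.pow_r _ _ _ hp.ne_zero, Bf, dif_neg hd, mul_zero, add_zero, EE, Jd]
    by_cases hx : p ∣ x
    · rw [dif_neg fun k => k.1 hx, if_pos hx, zero_add, hB.b6.conj_eq, hB.b1.eQ_dvd _ _
        (((pow_dvd_pow p (by norm_num)).trans (pow_dvd_pow_of_dvd hx 3)).mul_right u)]
    · have k : ¬ p ∣ x ∧ ∃ e, p ^ 2 ∣ d * e - 1 := ⟨hx, u, he⟩
      rw [dif_pos k, if_neg hx, mul_zero, add_zero, pe hB (b := x ^ 3 * k.2.choose)]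
      obtain ⟨a, ha⟩ := he
      obtain ⟨b, hb⟩ := k.2.choose_spec
      exact ⟨x ^ 3 * (k.2.choose * a - u * b), by
        linear_combination x ^ 3 * k.2.choose * ha - x ^ 3 * u * hb⟩

end SD2M

open SD2M in
theorem sd2S (hB : Bas) (_hG : GPStmt) (hJ : JStmt) (hb : BB) (hP : PH) (hE : SEStmt) : SDk 2 := by
  intro p hp h1 d' x'
  have h3 := hB.b2.cop p h1
  have h0 := hp.ne_zero
  have e0 := hE p 2 2 hp h1 le_rfl d' x'
  have eI : ∑ x ∈ Rs (p * p), Jd p x * eQ (x * x') (p * p) = N p * Jd p x' := by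
    rw [supp hB h0 h0 _ (fun x m => by
      rw [pe hB (b := x * x') ⟨m * x', by ring⟩, Jd, Jd, mul_assoc]
      simp only [dvd_add_left (dvd_mul_right p _)]) fun x hx => by rw [Jd, if_neg hx, zero_mul],
      Finset.sum_congr rfl fun r _ => by
        rw [Jd, if_pos (dvd_mul_right _ _), one_mul, mul_assoc, hB.b1.eQ_mul _ _ _ h0, mul_comm],
      hB.b4.orth _ _ h0, Jd]
    split_ifs <;> simp
  have eA : ∑ d ∈ Rs (p * p), conj (cub d p) * eQ (d * d') (p * p) =
      N p * (gs p * Bf p (27 * d')) := by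
    rw [lev hB h0 _ fun a m => by rw [cpe hB (b := a) ⟨m, by ring⟩]]
    by_cases k : p ∣ d'
    · obtain ⟨d', rfl⟩ := k
      rw [if_pos (dvd_mul_right _ _), mul_left_comm 27, Bf_mul h0, c27 hB h3,
        Finset.sum_congr rfl fun r _ => by rw [mul_left_comm, hB.b1.eQ_mul _ _ _ h0], tw hB hp h3]
      ring
    · rw [if_neg k, Bf, dif_neg fun h => k ((d27 h3 _).1 h)]; ring
  have eB : ∑ d ∈ Rs (p * p), Bf p d * eQ (d * d') (p * p) = conj (cub d' p) * conj (gs p) := by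
    rw [supp hB h0 h0 _ (fun x m => by
      rw [pe hB (b := x * d') ⟨m * d', by ring⟩]
      congr 1
      by_cases k : p ∣ x
      · obtain ⟨x, rfl⟩ := k
        rw [mul_assoc, ← mul_add, Bf_mul h0, Bf_mul h0, cpe hB (b := x) ⟨m, by ring⟩]
      · rw [Bf, Bf, dif_neg k, dif_neg fun h => k ((dvd_add_left ⟨p * m, by ring⟩).1 h)])
      fun x hx => by rw [Bf, dif_neg hx, zero_mul], ← tw' hB hp h3]
    exact Finset.sum_congr rfl fun r _ => by rw [Bf_mul h0, mul_assoc, hB.b1.eQ_mul _ _ _ h0]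
  have e1 : FT2 (p ^ 2) (Phi (p ^ 2)) d' x' = FT2 (p ^ 2) (EE p 2 2) d' x' +
      (∑ d ∈ Rs (p * p), conj (cub d p) * eQ (d * d') (p * p) +
        gs p * ∑ d ∈ Rs (p * p), Bf p d * eQ (d * d') (p * p)) *
      ∑ x ∈ Rs (p * p), Jd p x * eQ (x * x') (p * p) := by
    rw [Finset.mul_sum _ _ (gs p), ← Finset.sum_add_distrib, Finset.sum_mul_sum,
      FT2, FT2, ← sq, ← Finset.sum_add_distrib]
    refine Finset.sum_congr rfl fun d _ => ?_
    rw [← Finset.sum_add_distrib]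
    refine Finset.sum_congr rfl fun x _ => ?_
    rw [dec hB hb hP hp h1, hB.b1.eQ_add]
    ring
  rw [e1, e0, eI, eA, eB, dec hB hb hP hp h1, c27 hB h3, hB.b1.N_pow]
  push_cast
  linear_combination (N p : ℂ) * Jd p x' * conj (cub d' p) * (hJ p hp h1).2.2

end Vale.Agent.P026
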