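import Vale.Agent.P026.M.SE

set_option linter.unusedSectionVars false

noncomputable section
open Complex
open scoped Classical ComplexConjugate

namespace Vale.Agent.P026

namespace SD3M
open PHM SEM

theorem single (hB : Bas) {c : O} (c0 : c ≠ 0) {F : O → ℂ} (hF : Pe c F)
    (h : ∀ r, ¬ c ∣ r → F r = 0) : ∑ r ∈ Rs c, F r = F 0 := by
  obtain ⟨r0, h0, h1⟩ := hB.b4.ex c 0 c0
  rw [Finset.sum_eq_single_of_mem r0 h0, hB.b4.pe_congr c F 0 r0 hF h1]
  intro r hr hne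
  refine h r fun hd => hne (hB.b4.uniq c r r0 c0 hr h0 ?_)
  simpa [sub_eq_add_neg] using dvd_add hd h1

theorem up (hB : Bas) {c c1 c2 : O} (hc : c = c1 * c2) (h1 : c1 ≠ 0) (h2 : c2 ≠ 0) {F : O → ℂ}
    (hF : Pe c F) (h : ∀ r, ¬ c1 ∣ r → F r = 0) : ∑ r ∈ Rs c, F r = ∑ r ∈ Rs c2, F (c1 * r) := by
  subst hc
  rw [hB.b4.lift c1 c2 F h1 h2 hF, single hB h1 (F := fun r1 => ∑ r2 ∈ Rs c2, F (r1 + c1 * r2))]
  · simp
  · intro a m
    have := hB.b4.affine c2 (fun r2 => F (a + c1 * r2)) 1 m h2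
      (fun b k => hB.b4.pe_congr _ F _ _ hF ⟨k, by ring⟩) isCoprime_one_left
    refine Eq.trans ?_ this
    exact Finset.sum_congr rfl fun r _ => by congr 1; ring
  · exact fun r hr => Finset.sum_eq_zero fun r2 _ => h _ fun hd =>
      hr ((dvd_add_left (dvd_mul_right c1 r2)).1 hd)

theorem per0 (hB : Bas) {c c1 c2 a : O} (hc : c = c1 * c2) (h1 : c1 ≠ 0) (h2 : c2 ≠ 0)
    {f : O → ℂ} (hf : Pe c1 f) (ha : ¬ c2 ∣ a) : ∑ r ∈ Rs c, f r * eQ (r * a) c = 0 := by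
  subst hc
  rw [hB.b4.lift c1 c2 _ h1 h2 (fun b k => by
    show f _ * _ = f _ * _
    rw [hB.b4.pe_congr c1 f _ b hf ⟨c2 * k, by ring⟩,
      eQ_congr hB (b := b * a) ⟨k * a, by ring⟩])]
  refine Finset.sum_eq_zero fun r1 _ => ?_
  have : ∀ r2, f (r1 + c1 * r2) * eQ ((r1 + c1 * r2) * a) (c1 * c2) =
      f r1 * eQ (r1 * a) (c1 * c2) * eQ (a * r2) c2 := fun r2 => by
    rw [hf r1 r2, mul_assoc, ← hB.b1.eQ_mul c1 (a * r2) c2 h1, ← hB.b1.eQ_add]
    congr 2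
    ring
  simp only [this]
  rw [← Finset.mul_sum, hB.b4.orth c2 a h2, if_neg ha, mul_zero]

theorem per1 (hB : Bas) {c c1 c2 a : O} (hc : c = c1 * c2) (h1 : c1 ≠ 0) (h2 : c2 ≠ 0)
    {f : O → ℂ} (hf : Pe c1 f) :
    ∑ r ∈ Rs c, f r * eQ (r * (c2 * a)) c = (N c2 : ℂ) * ∑ r ∈ Rs c1, f r * eQ (r * a) c1 := by
  subst hc
  rw [← hB.b4.lift' c1 c2 _ h1 h2 (fun b k => by
    show f _ * _ = f _ * _
    rw [hf b k, eQ_congr hB (b := b * a) ⟨k * a, by ring⟩])]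
  refine Finset.sum_congr rfl fun r _ => ?_
  rw [← hB.b1.eQ_mul c2 (r * a) c1 h2, mul_comm c2 c1]
  congr 2
  ring

section
variable (hB : Bas) {p : O} (hp : Prime p) (hq : Prim p)
include hB hp hq

theorem cub0 {a : O} (h : p ∣ a) : cub a p = 0 :=
  hB.b6.zero a p hp.ne_zero fun hc => (hp.irreducible.coprime_iff_not_dvd).1 hc.symm h

theorem cub3 {a : O} (h : ¬ p ∣ a) : cub a p ^ 3 = 1 :=
  hB.b6.cube a p ((hp.irreducible.coprime_iff_not_dvd).2 h).symm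

theorem tw (h : O) : ∑ r ∈ Rs p, conj (cub r p) * eQ (r * h) p = cub h p * gs p := by
  have c3 := hB.b2.cop p hq
  by_cases hh : p ∣ h
  · have : ∀ r, eQ (r * h) p = 1 := fun r => hB.b1.eQ_dvd _ _ (hh.mul_left r)
    simp only [this, mul_one]
    rw [← map_sum, hB.b6.sum_zero p hp c3, cub0 hB hp hq hh]
    simp
  · have := hB.b4.affine p (fun r => conj (cub r p) * eQ r p) h 0 hp.ne_zero (fun b k => by
      show conj (cub _ p) * _ = conj (cub _ p) * _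
      rw [hB.b4.pe_congr p _ _ b (hB.b6.pe p) ⟨k, by ring⟩, eQ_congr hB (b := b) ⟨k, by ring⟩])
      ((hp.irreducible.coprime_iff_not_dvd).2 hh).symm
    unfold gs
    rw [← this, Finset.mul_sum]
    refine Finset.sum_congr rfl fun r _ => ?_
    rw [add_zero, hB.b6.mul_l _ _ _ c3, map_mul, mul_comm h r, hB.b6.conj_eq h]
    linear_combination (-(conj (cub r p) * eQ (r * h) p)) * cub3 hB hp hq hh

theorem tw' (h : O) : ∑ r ∈ Rs p, cub r p * eQ (r * h) p = conj (cub h p) * conj (gs p) := by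
  have := congrArg conj (tw hB hp hq (-h))
  rw [map_sum, map_mul, hB.b6.neg_l _ _ (hB.b2.cop p hq)] at this
  rw [← this]
  refine Finset.sum_congr rfl fun r _ => ?_
  rw [map_mul, conj_conj, mul_neg, hB.b1.eQ_neg, conj_conj]

theorem cubes {e : O} (he : ¬ p ∣ e) :
    ∑ x ∈ Rs p, eQ (x ^ 3 * e) p = conj (cub e p) * conj (gs p) + cub e p * gs p := by
  have p0 := hp.ne_zero
  have a1 : ∀ x, eQ (x ^ 3 * e) p = ∑ y ∈ Rs p, if p ∣ x ^ 3 - y then eQ (y * e) p else 0 := by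
    intro x
    obtain ⟨y0, h0, h1⟩ := hB.b4.ex p (x ^ 3) p0
    rw [Finset.sum_eq_single_of_mem y0 h0, if_pos h1]
    · exact eQ_congr hB (by rw [← sub_mul]; exact h1.mul_right e)
    · intro y hy hne
      refine if_neg fun hd => hne (hB.b4.uniq p y y0 p0 hy h0 ?_)
      simpa using dvd_sub h1 hd
  have a2 : ∀ y, ∑ x ∈ Rs p, (if p ∣ x ^ 3 - y then eQ (y * e) p else 0) =
      eQ (e * y) p + cub y p * eQ (y * e) p + conj (cub y p) * eQ (y * e) p := by
    intro y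
    by_cases hy : p ∣ y
    · rw [single hB p0, if_pos (by simpa using hy), cub0 hB hp hq hy, mul_comm e y]
      · simp
      · intro a k
        have : p ∣ (a + p * k) ^ 3 - y ↔ p ∣ a ^ 3 - y := by
          rw [show (a + p * k) ^ 3 - y = a ^ 3 - y + p * (3 * a ^ 2 * k + 3 * a * p * k ^ 2 +
            p ^ 2 * k ^ 3) by ring]
          exact dvd_add_left (dvd_mul_right _ _)
        simp only [this]
      · exact fun r hr => if_neg fun h => hr (hp.dvd_of_dvd_pow (n := 3)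
          (by simpa using dvd_add h hy))
    · rw [← Finset.sum_filter, Finset.sum_const, nsmul_eq_mul,
        hB.b6.count p y hp (hB.b2.cop p hq) hy, mul_comm e y]
      ring
  simp only [a1]
  rw [Finset.sum_comm]
  simp only [a2, Finset.sum_add_distrib]
  rw [hB.b4.orth p e p0, if_neg he, tw hB hp hq, tw' hB hp hq, zero_add]

theorem inv_sum (ι : O → O) (h1 : ∀ d, ¬ p ∣ d → p ∣ d * ι d - 1) (h0 : ∀ d, p ∣ d → ι d = 0)
    {F : O → ℂ} (hF : Pe p F) : ∑ d ∈ Rs p, F (ι d) = ∑ r ∈ Rs p, F r := by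
  have p0 := hp.ne_zero
  have h2 : ∀ d, ¬ p ∣ d → ¬ p ∣ ι d := fun d hd h =>
    hp.not_dvd_one ((dvd_sub_right (h.mul_left d)).1 (h1 d hd))
  refine hB.b4.sum_eq p F (Rs p) ι p0 hF (fun a => ?_) fun i hi j hj hij => ?_
  · obtain ⟨i, hi, hi'⟩ := hB.b4.ex p (ι a) p0
    refine ⟨i, hi, ?_⟩
    by_cases ha : p ∣ a
    · rw [h0 a ha] at hi'
      rw [h0 i (by simpa using hi'), sub_zero]
      exact ha
    · have hi2 : ¬ p ∣ i := fun h => h2 a ha (by simpa using dvd_add hi' h)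
      refine (hp.dvd_or_dvd (a := i) ?_).resolve_left hi2
      obtain ⟨k1, e1⟩ := h1 a ha
      obtain ⟨k2, e2⟩ := h1 i hi2
      obtain ⟨k3, e3⟩ := hi'
      exact ⟨k1 - k2 - a * k3, by linear_combination e1 - e2 - a * e3⟩
  · refine hB.b4.uniq p i j p0 hi hj ?_
    by_cases a1 : p ∣ i <;> by_cases a2 : p ∣ j
    · exact dvd_sub a1 a2
    · rw [h0 i a1] at hij
      exact absurd (by simpa using hij) (h2 j a2)
    · rw [h0 j a2] at hij
      exact absurd (by simpa using hij) (h2 i a1)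
    · obtain ⟨k1, e1⟩ := h1 i a1
      obtain ⟨k2, e2⟩ := h1 j a2
      obtain ⟨k3, e3⟩ := hij
      exact ⟨j * k1 - i * k2 - i * j * k3, by linear_combination j * e1 - i * e2 - i * j * e3⟩

theorem cub_inv {d e : O} (he : p ∣ d * e - 1) : cub d p * cub e p = 1 := by
  rw [← hB.b6.mul_l _ _ _ (hB.b2.cop p hq), hB.b4.pe_congr p _ _ _ (hB.b6.pe p) he, hB.b6.one_l]

theorem cub27 (a : O) : cub (27 * a) p = cub a p := by
  have c3 := hB.b2.cop p hq
  rw [show (27 : O) = 3 ^ 3 by norm_num, hB.b6.mul_l _ _ _ c3, hB.b6.pow_l _ _ _ c3,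
    cub3 hB hp hq (three hB hp hq), one_mul]

variable (hb : BB) (hP : PH)
include hb hP

theorem bbp : bb p = gs p := by simpa using hb.pp1 p 0 hp hq

theorem ph1 {d e : O} (x : O) (he : p ∣ d * e - 1) : Phi p d x = cub d p * eQ (x ^ 3 * e) p := by
  rw [hP.eq p d x 1 p d e (x ^ 3) hq ⟨hB.b2.one, by ring, by ring, he, by ring⟩, hb.one, one_mul]

theorem ph1' {d : O} (x : O) (hd : p ∣ d) : Phi p d x = if p ∣ x then gs p else 0 := by
  obtain ⟨d1, rfl⟩ := hd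
  split_ifs with h
  · obtain ⟨x1, rfl⟩ := h
    rw [hP.eq p _ _ p 1 d1 0 (p * x1 ^ 3) hq ⟨hq, by ring, rfl, one_dvd _, by ring⟩,
      bbp hB hp hq hb hP, hB.b6.unit_r _ _ isUnit_one, hB.b1.eQ_dvd _ _ (one_dvd _)]
    ring
  · exact hP.zero p _ x p 1 d1 hq (by ring) rfl isCoprime_one_left hq
      fun h' => h (hp.dvd_of_dvd_pow ((dvd_pow_self p two_ne_zero).trans h'))

/-- the twisted kernel at level one -/
def B1' (p d x : O) : ℂ := cub d p * Phi p d x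

omit hB hp hq hb hP in
theorem FT_split (c : O) (F : O → O → ℂ) (hB : Bas) (d' x' : O) : FT2 c F d' x' =
    ∑ d ∈ Rs c, (∑ x ∈ Rs c, F d x * eQ (x * x') c) * eQ (d * d') c := by
  unfold FT2
  refine Finset.sum_congr rfl fun d _ => ?_
  rw [Finset.sum_mul]
  exact Finset.sum_congr rfl fun x _ => by rw [hB.b1.eQ_add]; ring

theorem T_d (hJ : JStmt) {d2 : O} (x2 : O) (hd : p ∣ d2) :
    gs p * FT2 p (B1' p) d2 x2 = (if p ∣ x2 then (N p : ℂ) ^ 2 else 0) - N p := by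
  have p0 := hp.ne_zero
  have ex : ∀ d, ∃ e, (¬ p ∣ d → p ∣ d * e - 1) ∧ (p ∣ d → e = 0) := fun d => by
    by_cases h : p ∣ d
    · exact ⟨0, fun h' => absurd h h', fun _ => rfl⟩
    · obtain ⟨e, he⟩ := inv_ex ((hp.irreducible.coprime_iff_not_dvd).2 h)
      exact ⟨e, fun _ => he, fun h' => absurd h' h⟩
  choose ι h1 h0 using ex
  have a1 : ∀ x, ∑ d ∈ Rs p, B1' p d x * eQ (d * d2 + x * x2) p =
      conj (gs p) * eQ (x2 * x) p - (if p ∣ x then conj (gs p) else 0) := by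
    intro x
    have a2 : ∀ d, B1' p d x * eQ (d * d2 + x * x2) p =
        cub (ι d) p * eQ (ι d * x ^ 3) p * eQ (x2 * x) p := by
      intro d
      rw [eQ_congr hB (a := d * d2 + x * x2) (b := x2 * x)
        (by rw [show d * d2 + x * x2 - x2 * x = d * d2 by ring]; exact hd.mul_left d)]
      congr 1
      unfold B1'
      by_cases h : p ∣ d
      · rw [cub0 hB hp hq h, h0 d h, cub0 hB hp hq (dvd_zero p), zero_mul, zero_mul]
      · rw [ph1 hB hp hq hb hP x (h1 d h), mul_comm (ι d)]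
        linear_combination (-(cub d p ^ 2 * eQ (x ^ 3 * ι d) p)) * cub_inv hB hp hq (h1 d h) +
          cub (ι d) p * eQ (x ^ 3 * ι d) p * cub3 hB hp hq h
    simp only [a2]
    rw [← Finset.sum_mul, inv_sum hB hp hq ι h1 h0 (F := fun s => cub s p * eQ (s * x ^ 3) p)
      (fun b k => by
        show cub _ p * _ = cub _ p * _
        rw [hB.b4.pe_congr p _ _ b (hB.b6.pe p) ⟨k, by ring⟩,
          eQ_congr hB (b := b * x ^ 3) ⟨k * x ^ 3, by ring⟩]),
      tw' hB hp hq, hB.b6.pow_l _ _ _ (hB.b2.cop p hq)]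
    split_ifs with h
    · rw [cub0 hB hp hq h, hB.b1.eQ_dvd _ _ (h.mul_left x2)]
      simp
    · rw [cub3 hB hp hq h]
      simp
  unfold FT2
  rw [Finset.sum_comm]
  simp only [a1, Finset.sum_sub_distrib]
  rw [← Finset.mul_sum, hB.b4.orth p x2 p0, single hB p0 (fun a k => by
    simp only [dvd_add_left (dvd_mul_right p k)]) (fun r hr => if_neg hr), if_pos (dvd_zero p)]
  have := (hJ p hp hq).2.2
  split_ifs
  · linear_combination ((N p : ℂ) - 1) * this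
  · linear_combination (-1 : ℂ) * this

theorem T_x (hJ : JStmt) {d2 x2 : O} (hd : ¬ p ∣ d2) (hx : p ∣ x2) :
    gs p * FT2 p (B1' p) d2 x2 = N p * gs p * B1' p (27 * d2) x2 - N p := by
  have p0 := hp.ne_zero
  have a1 : ∀ d, (∑ x ∈ Rs p, B1' p d x * eQ (x * x2) p) * eQ (d * d2) p =
      conj (gs p) * eQ (d2 * d) p - (if p ∣ d then conj (gs p) else 0) +
        gs p * (cub d p * eQ (d * d2) p) := by
    intro d
    have a2 : ∀ x, eQ (x * x2) p = 1 := fun x => hB.b1.eQ_dvd _ _ (hx.mul_left x)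
    simp only [a2, mul_one, B1']
    split_ifs with h
    · rw [cub0 hB hp hq h, hB.b1.eQ_dvd _ _ (h.mul_left d2)]
      simp
    · obtain ⟨e, he⟩ := inv_ex ((hp.irreducible.coprime_iff_not_dvd).2 h)
      have he1 : ¬ p ∣ e := fun h' => hp.not_dvd_one ((dvd_sub_right (h'.mul_left d)).1 he)
      simp only [ph1 hB hp hq hb hP _ he]
      rw [← Finset.mul_sum, ← Finset.mul_sum, cubes hB hp hq he1, hB.b6.conj_eq e, mul_comm d2 d]
      have := cub_inv hB hp hq he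
      linear_combination eQ (d * d2) p *
        (conj (gs p) * (cub d p * cub e p + 1) + gs p * cub d p) * this
  rw [FT_split p _ hB]
  simp only [a1, Finset.sum_add_distrib, Finset.sum_sub_distrib]
  have h27 : ¬ p ∣ 27 * d2 := fun h => (hp.dvd_or_dvd h).elim
    (fun h' => three hB hp hq (hp.dvd_of_dvd_pow (n := 3) (by norm_num; exact h'))) hd
  obtain ⟨e, he⟩ := inv_ex ((hp.irreducible.coprime_iff_not_dvd).2 h27)
  rw [← Finset.mul_sum, ← Finset.mul_sum, hB.b4.orth p d2 p0, if_neg hd, single hB p0 (fun a k => by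
    simp only [dvd_add_left (dvd_mul_right p k)]) (fun r hr => if_neg hr), if_pos (dvd_zero p),
    tw' hB hp hq, B1', ph1 hB hp hq hb hP _ he, cub27 hB hp hq, hB.b6.conj_eq d2,
    hB.b1.eQ_dvd _ _ ((dvd_pow hx (by norm_num)).mul_right e)]
  linear_combination (gs p * cub d2 p ^ 2 - 1) * (hJ p hp hq).2.2

omit hq hb hP in
theorem xsum (a : ℂ) (x2 : O) : ∑ x ∈ Rs p, (if p ∣ x then a else 0) * eQ (x * x2) p = a := by
  rw [single hB hp.ne_zero (fun b k => by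
    simp only [dvd_add_left (dvd_mul_right p k)]
    rw [eQ_congr hB (b := b * x2) ⟨k * x2, by ring⟩]) (fun r hr => by rw [if_neg hr, zero_mul]),
    if_pos (dvd_zero p), zero_mul, hB.b1.eQ_dvd _ _ (dvd_zero p), mul_one]

theorem T_u (hJ : JStmt) (h1 : SDk 1) {d2 x2 : O} (hd : ¬ p ∣ d2) (hx : ¬ p ∣ x2) :
    gs p * FT2 p (B1' p) d2 x2 = N p * gs p * B1' p (27 * d2) x2 - N p := by
  have p0 := hp.ne_zero
  have c3 := hB.b2.cop p hq
  have h27 : ¬ p ∣ 27 * d2 := fun h => (hp.dvd_or_dvd h).elim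
    (fun h' => three hB hp hq (hp.dvd_of_dvd_pow (n := 3) (by norm_num; exact h'))) hd
  obtain ⟨e0, he0⟩ := inv_ex (cop_pow hp h27 1)
  have s1 := subst hB hp hq 1 le_rfl hx he0
  have s2 := subst hB hp hq 2 le_rfl hx he0
  have s3 := h1 p hp hq d2 x2
  simp only [pow_one] at s1 s2 s3
  have sw : FT2 p (EE p 2 1) d2 x2 = cub (27 * d2) p * FT2 p (EE p 1 1) d2 x2 := by
    rw [s1, s2, Finset.sum_comm, ← mul_assoc, ← sq]
    congr 1
    refine Finset.sum_congr rfl fun r _ => Finset.sum_congr rfl fun w _ => ?_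
    rw [mul_comm w r, add_comm w r]
    split_ifs with h
    · rfl
    · have hw : ¬ p ∣ w := fun h' => h (h'.mul_left r)
      rw [hB.b6.mul_l _ _ _ c3, hB.b6.mul_l _ _ _ c3, hB.b6.pow_l _ _ _ c3, hB.b6.pow_l _ _ _ c3]
      linear_combination cub r p ^ 2 * cub w p *
        eQ (-(x2 ^ 3 * e0 * (r * w * (r + w - 3)))) p * cub3 hB hp hq hw
  have v : ∀ d x, Phi p d x = EE p 1 1 d x +
      (if p ∣ x then cub d p + (if p ∣ d then gs p else 0) else 0) ∧
      B1' p d x = EE p 2 1 d x + (if p ∣ x then conj (cub d p) else 0) := by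
    intro d x
    unfold B1'
    by_cases a1 : p ∣ d
    · rw [ph1' hB hp hq hb hP x a1, EE_d hp le_rfl a1, EE_d hp le_rfl a1, cub0 hB hp hq a1]
      simp [a1]
    · obtain ⟨e, he⟩ := inv_ex (cop_pow hp a1 1)
      have he' : p ∣ d * e - 1 := by simpa using he
      rw [ph1 hB hp hq hb hP x he', hB.b6.conj_eq]
      by_cases a2 : p ∣ x
      · rw [EE_x a2, EE_x a2, hB.b1.eQ_dvd _ _ ((dvd_pow a2 (by norm_num)).mul_right e)]
        simp [a1, a2, sq]
      · rw [EE_eq hB a2 he, EE_eq hB a2 he]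
        simp only [a2, if_false, pow_one]
        exact ⟨by ring, by ring⟩
  have f1 : FT2 p (Phi p) d2 x2 = FT2 p (EE p 1 1) d2 x2 +
      (conj (cub d2 p) * conj (gs p) + gs p) := by
    rw [FT_split p _ hB, FT_split p _ hB]
    simp only [fun d x => (v d x).1, add_mul, Finset.sum_add_distrib, xsum hB hp]
    rw [tw' hB hp hq]
  have f2 : FT2 p (B1' p) d2 x2 = FT2 p (EE p 2 1) d2 x2 + cub d2 p * gs p := by
    rw [FT_split p _ hB, FT_split p _ hB]
    simp only [fun d x => (v d x).2, add_mul, Finset.sum_add_distrib, xsum hB hp]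
    rw [tw hB hp hq]
  rw [f1, hB.b6.conj_eq d2] at s3
  rw [f2, sw, B1', cub27 hB hp hq]
  linear_combination gs p * cub d2 p * s3 - gs p * conj (gs p) * cub3 hB hp hq hd -
    (hJ p hp hq).2.2

theorem T_all (hJ : JStmt) (h1 : SDk 1) (d2 x2 : O) :
    gs p * FT2 p (B1' p) d2 x2 = N p * gs p * B1' p (27 * d2) x2 +
      (if p ∣ d2 ∧ p ∣ x2 then (N p : ℂ) ^ 2 else 0) - N p := by
  by_cases hd : p ∣ d2
  · rw [T_d hB hp hq hb hP hJ x2 hd, B1', cub0 hB hp hq (hd.mul_left 27)]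
    simp [hd]
  · rw [if_neg fun h => hd h.1, add_zero]
    by_cases hx : p ∣ x2
    · exact T_x hB hp hq hb hP hJ hd hx
    · exact T_u hB hp hq hb hP hJ h1 hd hx

theorem v0 {d x : O} (hx : ¬ p ∣ x) : Phi (p ^ 3) d x = EE p 0 3 d x := by
  have q3 := hB.b2.pow p 3 hq
  by_cases hd : p ∣ d
  · rw [EE_d hp (by norm_num) hd]
    obtain ⟨g, c1, d1, pg, -, ec, ed, co⟩ := hB.b2.gcd (p ^ 3) d q3
    refine hP.zero _ _ _ g c1 d1 pg ec ed co q3 fun h => ?_
    have hg : ¬ p ∣ g := fun h' =>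
      hx (hp.dvd_of_dvd_pow ((dvd_pow h' two_ne_zero).trans h))
    have a1 : p ∣ c1 := (hp.dvd_or_dvd (ec ▸ dvd_pow_self p (by norm_num))).resolve_left hg
    have a2 : p ∣ d1 := (hp.dvd_or_dvd (ed ▸ hd)).resolve_left hg
    exact hp.not_isUnit (co.isUnit_of_dvd' a1 a2)
  · obtain ⟨e, he⟩ := inv_ex (cop_pow hp hd 3)
    rw [EE_eq hB hx he, hP.eq _ d x 1 (p ^ 3) d e (x ^ 3) q3
      ⟨hB.b2.one, by ring, by ring, he, by ring⟩, hb.one, hB.b6.pow_r _ _ _ hp.ne_zero,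
      cub3 hB hp hq hd]
    ring

theorem v1 {d : O} (x1 : O) (hd : ¬ p ∣ d) : Phi (p ^ 3) d (p * x1) = 1 := by
  obtain ⟨e, he⟩ := inv_ex (cop_pow hp hd 3)
  rw [hP.eq _ d _ 1 (p ^ 3) d e (p ^ 3 * x1 ^ 3) (hB.b2.pow p 3 hq)
    ⟨hB.b2.one, by ring, by ring, he, by ring⟩, hb.one, hB.b6.pow_r _ _ _ hp.ne_zero,
    cub3 hB hp hq hd, hB.b1.eQ_dvd _ _ ⟨x1 ^ 3 * e, by ring⟩]
  ring

theorem v2 (d1 x1 : O) : Phi (p ^ 3) (p * d1) (p * x1) =
    gs p * B1' p d1 x1 + (if p ^ 2 ∣ d1 then (if p ∣ x1 then (N p : ℂ) ^ 2 else 0) else 0) := by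
  have q3 := hB.b2.pow p 3 hq
  have p0 := hp.ne_zero
  unfold B1'
  by_cases h1 : p ∣ d1
  · rw [cub0 hB hp hq h1, zero_mul, mul_zero, zero_add]
    obtain ⟨d2, rfl⟩ := h1
    by_cases h2 : p ∣ d2
    · obtain ⟨d3, rfl⟩ := h2
      rw [if_pos ⟨d3, by ring⟩]
      split_ifs with h
      · obtain ⟨x2, rfl⟩ := h
        have b3 : bb (p ^ 3) = (N p : ℂ) ^ 2 := by simpa using hb.pp0 p 1 hp hq
        rw [hP.eq _ _ _ (p ^ 3) 1 d3 0 (x2 ^ 3) q3 ⟨q3, by ring, by ring, one_dvd _, by ring⟩, b3,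
          hB.b6.unit_r _ _ isUnit_one, hB.b1.eQ_dvd _ _ (one_dvd _)]
        ring
      · refine hP.zero _ _ _ (p ^ 3) 1 d3 q3 (by ring) (by ring) isCoprime_one_left q3 ?_
        rintro ⟨y, hy⟩
        refine h (hp.dvd_of_dvd_pow (n := 3) ⟨p ^ 2 * y, ?_⟩)
        exact mul_left_cancel₀ (pow_ne_zero 3 p0) (by linear_combination hy)
    · rw [if_neg fun h => h2 ((mul_dvd_mul_iff_left p0).1 (by rwa [← sq]))]
      have q2 := hB.b2.pow p 2 hq
      have co : IsCoprime p d2 := (hp.irreducible.coprime_iff_not_dvd).2 h2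
      by_cases h : (p ^ 2) ^ 2 ∣ (p * x1) ^ 3
      · obtain ⟨y, hy⟩ := h
        obtain ⟨e, he⟩ := inv_ex co
        have b2 : bb (p ^ 2) = 0 := by simpa using hb.pp2 p 0 hp hq
        rw [hP.eq _ _ _ (p ^ 2) p d2 e y q3 ⟨q2, by ring, by ring, he, hy⟩, b2]
        ring
      · exact hP.zero _ _ _ (p ^ 2) p d2 q2 (by ring) (by ring) co q3 h
  · obtain ⟨e, he⟩ := inv_ex (cop_pow hp h1 2)
    rw [if_neg fun h => h1 ((dvd_pow_self p two_ne_zero).trans h),
      hP.eq _ _ _ p (p ^ 2) d1 e (p * x1 ^ 3) q3 ⟨hq, by ring, rfl, he, by ring⟩,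
      ph1 hB hp hq hb hP x1 ((dvd_pow_self p two_ne_zero).trans he), bbp hB hp hq hb hP,
      hB.b6.pow_r _ _ _ p0, mul_assoc p, sq p, hB.b1.eQ_mul _ _ _ p0]
    ring

theorem B_pe_d (x : O) : Pe p fun d => B1' p d x := fun a k => by
  have h1 := hB.b6.pe p a k
  have h2 := hP.pe_d p x hq a k
  simp only [B1'] at h1 h2 ⊢
  rw [h1, h2]

theorem B_pe_x (d : O) : Pe p fun x => B1' p d x := fun a k => by
  have h2 := hP.pe_x p d hq a k
  simp only [B1'] at h2 ⊢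
  rw [h2]

/-- the part of the kernel supported on multiples of `p` in the second variable -/
theorem rest (d' x' : O) :
    FT2 (p ^ 3) (fun d x => if p ∣ x then Phi (p ^ 3) d x else 0) d' x' =
      (if p ^ 3 ∣ d' then (N p : ℂ) ^ 3 else 0) * (if p ^ 2 ∣ x' then (N p : ℂ) ^ 2 else 0) +
      (gs p * FT2 (p ^ 2) (B1' p) d' x' + (if p ∣ x' then (N p : ℂ) ^ 3 else 0) -
      (if p ^ 2 ∣ d' then (N p : ℂ) ^ 2 else 0) * (if p ^ 2 ∣ x' then (N p : ℂ) ^ 2 else 0)) := by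
  have p0 := hp.ne_zero
  have q0 : p ^ 2 ≠ 0 := pow_ne_zero _ p0
  have q3 := hB.b2.pow p 3 hq
  have e3 : p ^ 3 = p * p ^ 2 := by ring
  have eu : ∀ a, eQ (p * a) (p ^ 3) = eQ a (p ^ 2) := fun a => by
    rw [e3, hB.b1.eQ_mul _ _ _ p0]
  have n2 : (N (p ^ 2) : ℂ) = (N p : ℂ) ^ 2 := by rw [hB.b1.N_pow]; push_cast; rfl
  have n3 : (N (p ^ 3) : ℂ) = (N p : ℂ) ^ 3 := by rw [hB.b1.N_pow]; push_cast; rfl
  have o2 : ∀ a, ∑ r ∈ Rs (p ^ 2), eQ (r * a) (p ^ 2) =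
      if p ^ 2 ∣ a then (N p : ℂ) ^ 2 else 0 := fun a => by
    rw [← n2, ← hB.b4.orth _ a q0]
    exact Finset.sum_congr rfl fun r _ => by rw [mul_comm]
  have o3 : ∑ r ∈ Rs (p ^ 3), eQ (r * d') (p ^ 3) = if p ^ 3 ∣ d' then (N p : ℂ) ^ 3 else 0 := by
    rw [← n3, ← hB.b4.orth _ d' (pow_ne_zero _ p0)]
    exact Finset.sum_congr rfl fun r _ => by rw [mul_comm]
  have a1 : ∀ d, ∑ x ∈ Rs (p ^ 3), (if p ∣ x then Phi (p ^ 3) d x else 0) * eQ (x * x') (p ^ 3) =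
      (if p ^ 2 ∣ x' then (N p : ℂ) ^ 2 else 0) +
        ∑ x ∈ Rs (p ^ 2), (Phi (p ^ 3) d (p * x) - 1) * eQ (x * x') (p ^ 2) := by
    intro d
    rw [up hB e3 p0 q0 (fun a k => by
      have h1 := hP.pe_x _ d q3 a k
      have h2 : p ∣ a + p ^ 3 * k ↔ p ∣ a := dvd_add_left ⟨p ^ 2 * k, by ring⟩
      simp only at h1
      simp only [h1, h2]
      rw [eQ_congr hB (b := a * x') ⟨k * x', by ring⟩]) (fun r hr => by rw [if_neg hr, zero_mul]),
      ← o2, ← Finset.sum_add_distrib]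
    refine Finset.sum_congr rfl fun x _ => ?_
    rw [if_pos (dvd_mul_right p x), mul_assoc p, eu]
    ring
  have a2 : ∑ x ∈ Rs (p ^ 2), (if p ∣ x then (N p : ℂ) ^ 2 else 0) * eQ (x * x') (p ^ 2) =
      if p ∣ x' then (N p : ℂ) ^ 3 else 0 := by
    rw [up hB (sq p) p0 p0 (fun a k => by
      have h2 : p ∣ a + p ^ 2 * k ↔ p ∣ a := dvd_add_left ⟨p * k, by ring⟩
      simp only [h2]
      rw [eQ_congr hB (b := a * x') ⟨k * x', by ring⟩]) (fun r hr => by rw [if_neg hr, zero_mul])]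
    have : ∀ r, (if p ∣ p * r then (N p : ℂ) ^ 2 else 0) * eQ (p * r * x') (p ^ 2) =
        (N p : ℂ) ^ 2 * eQ (x' * r) p := fun r => by
      rw [if_pos (dvd_mul_right p r), mul_assoc, sq p, hB.b1.eQ_mul _ _ _ p0, mul_comm r]
    simp only [this]
    rw [← Finset.mul_sum, hB.b4.orth p x' p0]
    split_ifs <;> ring
  rw [FT_split _ _ hB]
  simp only [a1, add_mul, Finset.sum_add_distrib]
  rw [← Finset.mul_sum, o3, mul_comm]
  congr 1
  rw [up hB e3 p0 q0 (fun a k => by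
      have h1 := fun x => hP.pe_d _ x q3 a k
      simp only at h1
      simp only [h1]
      rw [eQ_congr hB (b := a * d') ⟨k * d', by ring⟩])
    (fun r hr => by simp [v1 hB hp hq hb hP _ hr])]
  have a3 : ∀ d, (∑ x ∈ Rs (p ^ 2), (Phi (p ^ 3) (p * d) (p * x) - 1) * eQ (x * x') (p ^ 2)) *
      eQ (p * d * d') (p ^ 3) =
      gs p * ((∑ x ∈ Rs (p ^ 2), B1' p d x * eQ (x * x') (p ^ 2)) * eQ (d * d') (p ^ 2)) +
        (if p ^ 2 ∣ d then (if p ∣ x' then (N p : ℂ) ^ 3 else 0) else 0) -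
        eQ (d * d') (p ^ 2) * (if p ^ 2 ∣ x' then (N p : ℂ) ^ 2 else 0) := by
    intro d
    rw [mul_assoc p, eu, ← o2, ← a2]
    simp only [v2 hB hp hq hb hP, sub_mul, add_mul, one_mul, Finset.sum_add_distrib,
      Finset.sum_sub_distrib, mul_assoc (gs p), ← Finset.mul_sum]
    by_cases h : p ^ 2 ∣ d
    · simp only [h, if_true, hB.b1.eQ_dvd _ _ (h.mul_right d')]
      ring
    · simp only [h, if_false, zero_mul, Finset.sum_const_zero]
      ring
  simp only [a3, Finset.sum_add_distrib, Finset.sum_sub_distrib]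
  rw [← Finset.mul_sum, ← FT_split _ _ hB, ← Finset.sum_mul, o2, single hB q0 (fun a k => by
    simp only [dvd_add_left (dvd_mul_right (p ^ 2) k)]) (fun r hr => if_neg hr),
    if_pos (dvd_zero _)]

theorem U0 {d' x' : O} (h : ¬ (p ∣ d' ∧ p ∣ x')) : FT2 (p ^ 2) (B1' p) d' x' = 0 := by
  have p0 := hp.ne_zero
  rw [FT_split _ _ hB]
  by_cases hx : p ∣ x'
  · refine per0 hB (sq p) p0 p0 (fun a k => ?_) fun hd => h ⟨hd, hx⟩
    have := fun x => B_pe_d hB hp hq hb hP x a k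
    simp only at this
    simp only [this]
  · exact Finset.sum_eq_zero fun d _ => by
      rw [per0 hB (sq p) p0 p0 (B_pe_x hB hp hq hb hP d) hx, zero_mul]

theorem U1 (d2 x2 : O) :
    FT2 (p ^ 2) (B1' p) (p * d2) (p * x2) = (N p : ℂ) ^ 2 * FT2 p (B1' p) d2 x2 := by
  have p0 := hp.ne_zero
  rw [FT_split _ _ hB, FT_split _ _ hB]
  simp only [fun d => per1 hB (a := x2) (sq p) p0 p0 (B_pe_x hB hp hq hb hP d)]
  rw [per1 hB (sq p) p0 p0 (fun a k => by
    have := fun x => B_pe_d hB hp hq hb hP x a k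
    simp only at this
    simp only [this]), sq, mul_assoc, Finset.mul_sum, Finset.mul_sum, Finset.mul_sum]
  exact Finset.sum_congr rfl fun d _ => by ring

end

end SD3M

open SD3M SEM in
theorem sd3S (hB : Bas) (_hG : GPStmt) (hJ : JStmt) (hb : BB) (hP : PH) (hE : SEStmt)
    (h1 : SDk 1) : SDk 3 := by
  intro p hp hq d' x'
  have p0 := hp.ne_zero
  have n3 : (N (p ^ 3) : ℂ) = (N p : ℂ) ^ 3 := by rw [hB.b1.N_pow]; push_cast; rfl
  have v : ∀ d x, Phi (p ^ 3) d x = EE p 0 3 d x + (if p ∣ x then Phi (p ^ 3) d x else 0) := by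
    intro d x
    split_ifs with h
    · rw [EE_x h, zero_add]
    · rw [v0 hB hp hq hb hP h, add_zero]
  have s : FT2 (p ^ 3) (Phi (p ^ 3)) d' x' = FT2 (p ^ 3) (EE p 0 3) d' x' +
      FT2 (p ^ 3) (fun d x => if p ∣ x then Phi (p ^ 3) d x else 0) d' x' := by
    unfold FT2
    simp only [← Finset.sum_add_distrib, ← add_mul, ← v]
  rw [s, hE p 0 3 hp hq (by norm_num), rest hB hp hq hb hP, n3, v (27 * d') x', mul_add]
  congr 1
  have h3 := three hB hp hq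
  have c27 : ∀ k : ℕ, IsCoprime (p ^ k) 27 := fun k => cop_pow hp
    (fun h' => h3 (hp.dvd_of_dvd_pow (n := 3) (by norm_num; exact h'))) k
  by_cases hx : p ∣ x'
  · obtain ⟨x2, rfl⟩ := hx
    have a1 : p ^ 2 ∣ p * x2 ↔ p ∣ x2 := by rw [sq, mul_dvd_mul_iff_left p0]
    by_cases hd : p ∣ d'
    · obtain ⟨d2, rfl⟩ := hd
      have a2 : p ^ 2 ∣ p * d2 ↔ p ∣ d2 := by rw [sq, mul_dvd_mul_iff_left p0]
      have a3 : p ^ 3 ∣ p * d2 ↔ p ^ 2 ∣ d2 := by rw [pow_succ' p 2, mul_dvd_mul_iff_left p0]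
      have a4 : p ^ 2 ∣ 27 * d2 ↔ p ^ 2 ∣ d2 :=
        ⟨fun h => (c27 2).dvd_of_dvd_mul_left h, fun h => h.mul_left _⟩
      rw [U1 hB hp hq hb hP, mul_left_comm (gs p), T_all hB hp hq hb hP hJ h1,
        mul_left_comm 27 p, v2 hB hp hq hb hP]
      simp only [a1, a2, a3, a4, dvd_mul_right, if_true]
      by_cases b1 : p ∣ x2 <;> by_cases b2 : p ∣ d2 <;> by_cases b3 : p ^ 2 ∣ d2 <;>
        simp only [b1, b2, b3, if_true, if_false, and_true, and_false] <;>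
        ring
    · have a2 : ¬ p ^ 2 ∣ d' := fun h => hd ((dvd_pow_self p two_ne_zero).trans h)
      have a3 : ¬ p ^ 3 ∣ d' := fun h => hd ((dvd_pow_self p three_ne_zero).trans h)
      have a4 : ¬ p ∣ 27 * d' := fun h => hd (by simpa using (c27 1).dvd_of_dvd_mul_left (by simpa))
      rw [U0 hB hp hq hb hP fun h => hd h.1, v1 hB hp hq hb hP _ a4]
      simp [a2, a3]
  · have a1 : ¬ p ^ 2 ∣ x' := fun h => hx ((dvd_pow_self p two_ne_zero).trans h)
    rw [U0 hB hp hq hb hP fun h => hx h.2]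
    simp [hx, a1]

end Vale.Agent.P026
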