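import Vale.Agent.P026.M.SDh

noncomputable section
open Complex
open scoped Classical ComplexConjugate

namespace Vale.Agent.P026

namespace SD4M

lemma ft_one (hB : Bas) (d x : O) : FT2 1 (fun _ _ => 1) d x = 1 := by
  have h1 : Nn 1 = 1 := (hB.b1.unit_iff 1).1 isUnit_one
  simp [FT2, hB.b1.eQ_dvd _ 1 (one_dvd _), hB.b4.card 1 one_ne_zero, h1]

end SD4M

open SDg in
theorem sd4S (hB : Bas) (_hG : GPStmt) (_hJ : JStmt) (hb : BB) (hP : PH) (hE : SEStmt)
    (h1 : SDk 1) : SDk 4 := by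
  intro p hp hq
  have hp0 := hp.ne_zero
  refine step hB hb hP hp hq hE 0 (h1 p hp hq) (sc2 (p ^ 2) (p ^ 2) fun _ _ => 1) (gs p)
    (fun d x => ?_) fun d x => ?_
  · by_cases hd : p ^ 2 ∣ d
    · obtain ⟨d, rfl⟩ := hd
      rw [if_pos (dvd_mul_right _ _)]
      by_cases hx : p ∣ x
      · obtain ⟨x, rfl⟩ := hx
        rw [sc_mul hp0, show p ^ 2 * d = p * (p * d) by ring]
        by_cases hx : p ∣ x
        · obtain ⟨x, rfl⟩ := hx
          rw [phi1 hB hb hP hp hq 0 (e := 0) x (by simp), pow_zero, pow_zero,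
            hB.b1.eQ_dvd _ 1 (one_dvd _), ← mul_assoc, ← mul_assoc, ← mul_assoc, ← sq,
            sc2_mul (pow_ne_zero 2 hp0) (pow_ne_zero 2 hp0)]
          ring
        · rw [phi1z hB hP hp hq 0 (e := 0) (by simp) hx, sc2_x, mul_zero]
          rwa [sq, mul_dvd_mul_iff_left hp0]
      · rw [sc_not hx, sc2_x fun h => hx ((dvd_pow_self p two_ne_zero).trans h), mul_zero]
    · rw [if_neg hd, sc2_d hd, mul_zero]
  · exact ft_sd hB hq (m := 0) (b1 := 2) (b2 := 2) (by omega) (by omega) (fun _ _ _ => rfl)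
      (fun _ _ _ => rfl) (fun d x => by simp [SD4M.ft_one hB]) d x

end Vale.Agent.P026
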