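import Vale.Agent.P026.M.SDh

noncomputable section
open Complex
open scoped Classical ComplexConjugate

namespace Vale.Agent.P026

open SDg in
theorem sd5S (hB : Bas) (_hG : GPStmt) (_hJ : JStmt) (hb : BB) (hP : PH) (hE : SEStmt)
    (h2 : SDk 2) : SDk 5 := by
  intro p hp hq
  refine step hB hb hP hp hq hE 1 (h2 p hp hq) (fun _ _ => 0) 0 (fun d x => ?_)
    fun d x => by simp [FT2]
  split_ifs with hd
  · obtain ⟨d, rfl⟩ := hd
    have h : Phi (p ^ (1 + 1)) (p ^ 2 * d) = fun _ => 0 :=
      funext fun x => phi2 hB hb hP hp hq 0 (e := 0) x (by simp)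
    simp [h, sc]
  · simp

end Vale.Agent.P026
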