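import Vale.Agent.P026.Stm1

/-! P026, module SDc: self-duality is multiplicative. -/

noncomputable section
open Complex
open scoped Classical ComplexConjugate

namespace Vale.Agent.P026

namespace SDcM

theorem eQ_congr (h1 : B1) {a b c : O} (h : c ∣ a - b) : eQ a c = eQ b c := by
  rw [← sub_add_cancel a b, h1.eQ_add, h1.eQ_dvd _ _ h, one_mul]

theorem pe_d (hB : Bas) (hP : PH) {c : O} (hc : Prim c) (u d' x' v : O) :
    Pe c fun d => ∑ x ∈ Rs c, Phi c (u * d) (v * x) * eQ (d * d' + x * x') c := by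
  intro a m
  refine Finset.sum_congr rfl fun x _ => ?_
  rw [eQ_congr hB.b1 (b := a * d' + x * x') ⟨m * d', by ring⟩,
    hB.b4.pe_congr c _ (u * (a + c * m)) (u * a) (hP.pe_d c (v * x) hc) ⟨u * m, by ring⟩]

theorem half (hB : Bas) (hP : PH) {c c' : O} (hc : Prim c) (h : IsCoprime c' c) (hs : SDat c)
    (d' x' : O) :
    ∑ d ∈ Rs c, ∑ x ∈ Rs c, Phi c (c' ^ 2 * d) (c' * x) * eQ (d * d' + x * x') c =
      (N c : ℂ) * Phi c (c' * (27 * d')) x' := by
  rw [← hB.b4.affine c _ c' 0 (hB.b2.ne c hc) (pe_d hB hP hc (c' ^ 2) d' x' c') h,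
    show c' * (27 * d') = 27 * (c' * d') by ring, ← hs (c' * d') x', FT2]
  refine Finset.sum_congr rfl fun d _ => Finset.sum_congr rfl fun x _ => ?_
  rw [show c' ^ 2 * (c' * d + 0) = c' ^ 3 * d by ring, hP.scale c d x c' hc h,
    show (c' * d + 0) * d' = d * (c' * d') by ring]

end SDcM

open SDcM in
theorem sdcS (hB : Bas) (_hC : CRStmt) (hP : PH) : SDcrt := by
  intro c c' hc hc' h s s' d' x'
  have h1 := hB.b1
  have n := hB.b2.ne c hc
  have n' := hB.b2.ne c' hc'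
  have hcc := hB.b2.mul c c' hc hc'
  have p1 := pe_d hB hP hcc 1 d' x' 1
  simp only [one_mul] at p1
  have p2 : ∀ d, Pe (c * c') fun x => Phi (c * c') d x * eQ (d * d' + x * x') (c * c') := by
    intro d a m
    beta_reduce
    rw [eQ_congr h1 (b := d * d' + a * x') ⟨m * x', by ring⟩]
    exact congrArg (· * _) (hP.pe_x (c * c') d hcc a m)
  have e : ∀ d1 d2 x1 x2, Phi (c * c') (d1 * c' + d2 * c) (x1 * c' + x2 * c) *
      eQ ((d1 * c' + d2 * c) * d' + (x1 * c' + x2 * c) * x') (c * c') =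
      cub c' c * ((Phi c (c' ^ 2 * d1) (c' * x1) * eQ (d1 * d' + x1 * x') c) *
        (Phi c' (c ^ 2 * d2) (c * x2) * eQ (d2 * d' + x2 * x') c')) := by
    intro d1 d2 x1 x2
    rw [hP.crt c c' _ _ hc hc' h,
      hB.b4.pe_congr c _ (c' * (d1 * c' + d2 * c)) (c' ^ 2 * d1) (hP.pe_d c _ hc) ⟨c' * d2, by ring⟩,
      hB.b4.pe_congr c _ (x1 * c' + x2 * c) (c' * x1) (hP.pe_x c _ hc) ⟨x2, by ring⟩,
      hB.b4.pe_congr c' _ (c * (d1 * c' + d2 * c)) (c ^ 2 * d2) (hP.pe_d c' _ hc') ⟨c * d1, by ring⟩,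
      hB.b4.pe_congr c' _ (x1 * c' + x2 * c) (c * x2) (hP.pe_x c' _ hc') ⟨x1, by ring⟩,
      show (d1 * c' + d2 * c) * d' + (x1 * c' + x2 * c) * x' =
        c' * (d1 * d' + x1 * x') + c * (d2 * d' + x2 * x') by ring, h1.eQ_add,
      h1.eQ_mul c _ c' n, mul_comm c c', h1.eQ_mul c' _ c n']
    ring
  rw [FT2, hB.b4.crt c c' _ n n' h p1]
  simp only [hB.b4.crt c c' _ n n' h (p2 _), e]
  rw [hP.crt c c' _ _ hc hc' h, h1.N_mul]
  have a1 := half hB hP hc h.symm s d' x'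
  have a2 := half hB hP hc' h s' d' x'
  calc _ = cub c' c * ((∑ d ∈ Rs c, ∑ x ∈ Rs c, Phi c (c' ^ 2 * d) (c' * x) * eQ (d * d' + x * x') c) *
        ∑ d ∈ Rs c', ∑ x ∈ Rs c', Phi c' (c ^ 2 * d) (c * x) * eQ (d * d' + x * x') c') := by
        simp only [Finset.sum_mul_sum]
        simp only [Finset.mul_sum]
    _ = _ := by
        rw [a1, a2]
        push_cast
        ring

end Vale.Agent.P026
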