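import Vale.Agent.P026.M.SDg

/-! P026 module SDr: the recursion for self-duality at prime powers. -/

noncomputable section
open Complex
open scoped Classical ComplexConjugate

namespace Vale.Agent.P026

namespace SDrM
open SE2M SDgM

theorem low (hB : Bas) (hb : BB) (hP : PH) {p : O} (hp : Prime p) (h3 : Prim p) (n : ℕ) {d : O}
    (hd : ¬ p ^ 3 ∣ d) (x : O) : Phi (p ^ (n + 5)) d x = EE p (n + 5) (n + 5) d x +
      gs p * Sc p p (EE p (n + 4) (n + 3)) d x + Sc 1 p (Phi (p ^ (n + 2))) d x := by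
  have n0 := hp.ne_zero
  have n3 := pow_ne_zero 3 n0
  have S1 : ∀ F d x, Sc 1 p F d (p * x) = F d x := fun F d x => by
    simpa using Sc_mul one_ne_zero n0 F d x
  have cu : ∀ d k, ¬ p ∣ d → cub d p ^ (k + 3) = cub d p ^ k := fun d k h => by
    rw [pow_add, hB.b6.cube d p (hp.irreducible.coprime_iff_not_dvd.2 h).symm, mul_one]
  by_cases h1 : p ∣ d
  swap
  · obtain ⟨e, he⟩ := inv (cp hp h1 (n + 5))
    rw [Sc_l h1, mul_zero, add_zero, Phi_0 hB hb hP hp h3 _ he]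
    by_cases hx : p ∣ x
    · obtain ⟨x, rfl⟩ := hx
      rw [EE_x (dvd_mul_right _ _), S1, zero_add, Phi_0 hB hb hP hp h3 _
        ((pow_dvd_pow p (by omega)).trans he), cu d (n + 2) h1,
        ← hB.b1.eQ_mul _ _ (p ^ (n + 2)) n3, ← pow_add,
        mul_pow, mul_assoc, add_comm 3]
    · rw [EE_eq hB _ hx he, Sc_r hx, add_zero]
  rw [EE_d hp h1 _ (by omega), zero_add]
  obtain ⟨d, rfl⟩ := h1
  by_cases h2 : p ∣ d
  swap
  · obtain ⟨e, he⟩ := inv (cp hp h2 (n + 4))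
    by_cases hx : p ∣ x
    swap
    · rw [Phi_1' hB hP hp h3 _ (cp hp h2 _) hx, Sc_r hx, Sc_r hx, mul_zero, add_zero]
    obtain ⟨x, rfl⟩ := hx
    rw [Sc_mul n0 n0, S1, Phi_1 hB hb hP hp h3 _ he]
    by_cases hx : p ∣ x
    · obtain ⟨x, rfl⟩ := hx
      rw [EE_x (dvd_mul_right _ _), mul_zero, zero_add, Phi_1 hB hb hP hp h3 _
        ((pow_dvd_pow p (by omega)).trans he), cu d (n + 1) h2, ← hB.b1.eQ_mul _ _ (p ^ (n + 1)) n3,
        ← pow_add, add_comm 3]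
      congr 2
      ring
    · rw [Phi_1' hB hP hp h3 _ (cp hp h2 _) hx, add_zero, EE_eq hB _ hx
        ((pow_dvd_pow p (by omega)).trans he), pow_succ' p (n + 3), mul_assoc p,
        hB.b1.eQ_mul _ _ _ n0, mul_assoc]
  obtain ⟨d, rfl⟩ := h2
  have h4 : ¬ p ∣ d := fun ⟨s, hs⟩ => hd ⟨s, by rw [hs]; ring⟩
  have z := fun k => Phi_2 hB hb hP hp h3 k (cp hp h4 k)
  simp only [sq, mul_assoc] at z
  by_cases hx : p ∣ x
  · obtain ⟨x, rfl⟩ := hx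
    rw [Sc_mul n0 n0, S1, EE_d hp (dvd_mul_right _ _) _ (by omega), z (n + 3), z, mul_zero, add_zero]
  · rw [z (n + 3), Sc_r hx, Sc_r hx, mul_zero, add_zero]

theorem dec (hB : Bas) (hb : BB) (hP : PH) {p : O} (hp : Prime p) (h3 : Prim p) (k : ℕ) (d x : O) :
    Phi (p ^ (k + 6)) d x = EE p (k + 6) (k + 6) d x + gs p * Sc p p (EE p (k + 5) (k + 4)) d x +
      Sc 1 p (Phi (p ^ (k + 3))) d x + N p ^ 2 * Sc (p ^ 3) (p ^ 2) (Phi (p ^ (k + 3))) d x -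
      N p ^ 2 * Sc (p ^ 3) (p ^ 3) (Phi (p ^ k)) d x := by
  have n0 := hp.ne_zero
  by_cases hd : p ^ 3 ∣ d
  swap
  · rw [low hB hb hP hp h3 (k + 1) hd, Sc_l hd, Sc_l hd]
    simp
  obtain ⟨d, rfl⟩ := hd
  have e1 : Sc p p (EE p (k + 5) (k + 4)) (p ^ 3 * d) x = 0 := by
    by_cases hx : p ∣ x
    · obtain ⟨x, rfl⟩ := hx
      rw [pow_succ' p 2, mul_assoc, Sc_mul n0 n0, EE_d hp ⟨p * d, by ring⟩ _ (by omega)]
    · exact Sc_r hx _ _ _
  have e2 : Sc 1 p (Phi (p ^ (k + 3))) (p ^ 3 * d) x =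
      N p ^ 2 * Sc (p ^ 3) (p ^ 3) (Phi (p ^ k)) (p ^ 3 * d) x := by
    by_cases hx : p ∣ x
    · obtain ⟨x, rfl⟩ := hx
      rw [← one_mul (p ^ 3 * d), Sc_mul one_ne_zero n0, one_mul, Phi_T hB hb hP hp h3]
      by_cases hx : p ^ 2 ∣ x
      · obtain ⟨x, rfl⟩ := hx
        rw [← mul_assoc p, ← pow_succ', Sc_mul (pow_ne_zero _ n0) (pow_ne_zero _ n0),
          Sc_mul (pow_ne_zero _ n0) (pow_ne_zero _ n0)]
      · rw [Sc_r hx, Sc_r (by rwa [pow_succ' p 2, mul_dvd_mul_iff_left n0])]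
    · rw [Sc_r hx, Sc_r fun h => hx ((dvd_pow_self p three_ne_zero).trans h), mul_zero]
  rw [Phi_T hB hb hP hp h3 (k + 3), EE_d hp ⟨p ^ 2 * d, by ring⟩ _ (by omega), e1, e2]
  ring

end SDrM

open SE2M SDgM in
theorem sdrS (hB : Bas) (hb : BB) (hP : PH) (hE : SEStmt) : SDrec := by
  intro k h0 h1 p hp h3 d' x'
  have n0 := pow_ne_zero (k + 6) hp.ne_zero
  have c0 := c27 hB h3
  have a1 := hE p (k + 6) (k + 6) hp h3 (by omega) d' x'
  have a2 := ft3 hB n0 (a := p) (b := p) (a' := p ^ 1) (b' := p ^ 1) (by ring) (by ring) (c0 1)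
    (EE_pe hB hp (k + 5) (m := k + 4) (by omega)) (hE p _ _ hp h3 (by omega)) d' x'
  have a3 := ft3 hB n0 (a := 1) (b := p) (a' := p ^ 3) (b' := p ^ 2) (by ring) (by ring) (c0 3)
    (Phi_pe hB hP h3 (k + 3)) (h1 p hp h3) d' x'
  have a4 := ft3 hB n0 (a := p ^ 3) (b := p ^ 2) (a' := p ^ 0) (b' := p ^ 1) (by ring) (by ring)
    (c0 0) (Phi_pe hB hP h3 (k + 3)) (h1 p hp h3) d' x'
  have a5 := ft3 hB n0 (a := p ^ 3) (b := p ^ 3) (a' := p ^ 3) (b' := p ^ 3) (by ring) (by ring)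
    (c0 3) (Phi_pe hB hP h3 k) (h0 p hp h3) d' x'
  simp only [hB.b1.N_pow, ofReal_pow] at a2 a3 a4 a5 ⊢
  simp only [pow_one, pow_zero] at a2 a4
  rw [SDrM.dec hB hb hP hp h3 k (27 * d')]
  simp only [FT2, SDrM.dec hB hb hP hp h3 k, add_mul, sub_mul, mul_assoc, Finset.sum_add_distrib,
    Finset.sum_sub_distrib, ← Finset.mul_sum] at a1 a2 a3 a4 a5 ⊢
  rw [a1, a2, a3, a4, a5]
  ring

end Vale.Agent.P026
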