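import Vale.Agent.P026.M.PH

noncomputable section
open Complex
open scoped Classical ComplexConjugate

namespace Vale.Agent.P026

namespace SEM
open PHM

theorem cop_pow {p a : O} (hp : Prime p) (h : ¬ p ∣ a) (m : ℕ) : IsCoprime (p ^ m) a :=
  ((hp.irreducible.coprime_iff_not_dvd).2 h).pow_left

theorem EE_eq (hB : Bas) {p : O} {i m : ℕ} {d x e : O} (hx : ¬ p ∣ x) (he : p ^ m ∣ d * e - 1) :
    EE p i m d x = cub d p ^ i * eQ (x ^ 3 * e) (p ^ m) := by
  have hex : ¬ p ∣ x ∧ ∃ e, p ^ m ∣ d * e - 1 := ⟨hx, e, he⟩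
  unfold EE
  rw [dif_pos hex]
  have h' := hex.2.choose_spec
  generalize hex.2.choose = e' at h' ⊢
  rw [eQ_congr hB (a := x ^ 3 * e') (b := x ^ 3 * e)]
  obtain ⟨k, hk⟩ := he
  obtain ⟨k', hk'⟩ := h'
  exact ⟨x ^ 3 * (e * k' - e' * k), by linear_combination x ^ 3 * e * hk' - x ^ 3 * e' * hk⟩

theorem EE_x {p : O} {i m : ℕ} {d x : O} (hx : p ∣ x) : EE p i m d x = 0 := by
  unfold EE
  rw [dif_neg fun h => h.1 hx]

theorem EE_d {p : O} (hp : Prime p) {i m : ℕ} (hm : 1 ≤ m) {d x : O} (hd : p ∣ d) :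
    EE p i m d x = 0 := by
  unfold EE
  rw [dif_neg]
  rintro ⟨-, e, he⟩
  have h1 : p ∣ d * e - 1 := (dvd_pow_self p (by omega)).trans he
  exact hp.not_dvd_one ((dvd_sub_right (hd.mul_right e)).1 h1)

theorem EE_congr (hB : Bas) {p : O} (hp : Prime p) {i m : ℕ} (hm : 1 ≤ m) {d x d2 x2 : O}
    (hd : p ^ m ∣ d - d2) (hx : p ^ m ∣ x - x2) : EE p i m d x = EE p i m d2 x2 := by
  have hpm : p ∣ p ^ m := dvd_pow_self p (by omega)
  by_cases h1 : p ∣ x2
  · rw [EE_x h1, EE_x (by simpa using dvd_add (hpm.trans hx) h1)]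
  by_cases h2 : p ∣ d2
  · rw [EE_d hp hm h2, EE_d hp hm (by simpa using dvd_add (hpm.trans hd) h2)]
  obtain ⟨e, he⟩ := inv_ex (cop_pow hp h2 m)
  have h3 : ¬ p ∣ x := fun h => h1 (by simpa using dvd_sub h (hpm.trans hx))
  have he' : p ^ m ∣ d * e - 1 := by
    have := dvd_add (hd.mul_right e) he
    rwa [show (d - d2) * e + (d2 * e - 1) = d * e - 1 by ring] at this
  rw [EE_eq hB h3 he', EE_eq hB h1 he, hB.b4.pe_congr p _ d d2 (hB.b6.pe p) (hpm.trans hd),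
    eQ_congr hB (a := x ^ 3 * e) (b := x2 ^ 3 * e)]
  have := hx.mul_right ((x ^ 2 + x * x2 + x2 ^ 2) * e)
  rwa [show (x - x2) * ((x ^ 2 + x * x2 + x2 ^ 2) * e) = x ^ 3 * e - x2 ^ 3 * e by ring] at this

/-- the summand of the Fourier transform -/
def FF (p : O) (i m : ℕ) (d' x' d x : O) : ℂ := EE p i m d x * eQ (d * d' + x * x') (p ^ m)

theorem FF_congr (hB : Bas) {p : O} (hp : Prime p) {i m : ℕ} (hm : 1 ≤ m) (d' x' : O)
    {d x d2 x2 : O} (hd : p ^ m ∣ d - d2) (hx : p ^ m ∣ x - x2) :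
    FF p i m d' x' d x = FF p i m d' x' d2 x2 := by
  unfold FF
  rw [EE_congr hB hp hm hd hx, eQ_congr hB (b := d2 * d' + x2 * x')]
  have := dvd_add (hd.mul_right d') (hx.mul_right x')
  rwa [show (d - d2) * d' + (x - x2) * x' = d * d' + x * x' - (d2 * d' + x2 * x') by ring] at this

/-- a sum with a nonvanishing derivative is zero -/
theorem vanish (hB : Bas) {p : O} (hp : Prime p) {l : ℕ} (G : O → ℂ) (κ : O → O)
    (hG : Pe (p ^ (l + 2)) G)
    (h1 : ∀ t r, G ((1 + p ^ (l + 1) * t) * r) = G r * eQ (κ r * t) p)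
    (h2 : ∀ r, G r = 0 ∨ ¬ p ∣ κ r) : ∑ r ∈ Rs (p ^ (l + 2)), G r = 0 := by
  have p0 := hp.ne_zero
  have a1 : ∀ t, ∑ r ∈ Rs (p ^ (l + 2)), G r = ∑ r ∈ Rs (p ^ (l + 2)), G r * eQ (κ r * t) p := by
    intro t
    have hc : IsCoprime (1 + p ^ (l + 1) * t) (p ^ (l + 2)) := by
      refine (cop_pow hp (fun h => hp.not_dvd_one ?_) _).symm
      exact (dvd_add_left ((dvd_pow_self p (by omega)).mul_right t)).1 h
    rw [← hB.b4.affine _ G _ 0 (pow_ne_zero _ p0) hG hc]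
    simp only [add_zero, h1]
  have a2 : ∑ _t ∈ Rs p, ∑ r ∈ Rs (p ^ (l + 2)), G r = 0 := by
    rw [Finset.sum_congr rfl fun t _ => a1 t, Finset.sum_comm]
    refine Finset.sum_eq_zero fun r _ => ?_
    rw [← Finset.mul_sum, hB.b4.orth p _ p0]
    rcases h2 r with h | h
    · rw [h, zero_mul]
    · rw [if_neg h, mul_zero]
  rw [Finset.sum_const, hB.b4.card p p0, nsmul_eq_mul] at a2
  refine (mul_eq_zero.1 a2).resolve_left ?_
  have := hB.b1.N_one_le p p0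
  unfold N at this
  have h3 : Nn p ≠ 0 := by
    intro h
    rw [h] at this
    norm_num at this
  exact_mod_cast h3

theorem three {p : O} (hB : Bas) (hp : Prime p) (hq : Prim p) : ¬ p ∣ 3 :=
  (hp.irreducible.coprime_iff_not_dvd).1 (hB.b2.cop p hq)

theorem eQ_up (hB : Bas) {p : O} (p0 : p ≠ 0) (l : ℕ) (a b k : O) :
    eQ (a + p ^ (l + 1) * k + p ^ (l + 2) * b) (p ^ (l + 2)) = eQ a (p ^ (l + 2)) * eQ k p := by
  rw [hB.b1.eQ_add, hB.b1.eQ_add, hB.b1.eQ_dvd _ _ (dvd_mul_right _ b), mul_one,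
    pow_succ p (l + 1), hB.b1.eQ_mul _ _ _ (pow_ne_zero _ p0)]

theorem zero_x (hB : Bas) {p : O} (hp : Prime p) (hq : Prim p) (i l : ℕ) (d' x' : O)
    (hx : p ∣ x') : FT2 (p ^ (l + 2)) (EE p i (l + 2)) d' x' = 0 := by
  obtain ⟨x1, rfl⟩ := hx
  refine Finset.sum_eq_zero fun d _ => ?_
  by_cases hd : p ∣ d
  · exact Finset.sum_eq_zero fun x _ => by rw [EE_d hp (by omega) hd, zero_mul]
  obtain ⟨e, he⟩ := inv_ex (cop_pow hp hd (l + 2))
  have he1 : ¬ p ∣ e := fun h => hp.not_dvd_one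
    ((dvd_sub_right (h.mul_left d)).1 ((dvd_pow_self p (by omega)).trans he))
  refine vanish hB hp (fun x => FF p i (l + 2) d' (p * x1) d x) (fun x => 3 * x ^ 3 * e)
    (fun a k => FF_congr hB hp (by omega) _ _ (by simp) (by simp)) (fun t x => ?_) fun x => ?_
  · by_cases h : p ∣ x
    · simp only [FF, EE_x h, EE_x (h.mul_left _), zero_mul]
    · have h' : ¬ p ∣ (1 + p ^ (l + 1) * t) * x := fun h' => (hp.dvd_or_dvd h').elim
        (fun h'' => hp.not_dvd_one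
          ((dvd_add_left ((dvd_pow_self p (by omega)).mul_right t)).1 h'')) h
      simp only [FF, EE_eq hB h he, EE_eq hB h' he, mul_assoc (cub d p ^ i), ← hB.b1.eQ_add]
      rw [← eQ_up hB hp.ne_zero l _
        (x * x1 * t + x ^ 3 * e * (3 * p ^ l * t ^ 2 + p ^ (2 * l + 1) * t ^ 3))]
      congr 2
      ring
  · by_cases h : p ∣ x
    · exact Or.inl (by simp only [FF, EE_x h, zero_mul])
    · refine Or.inr fun h' => ?_
      rcases hp.dvd_or_dvd h' with h' | h'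
      · rcases hp.dvd_or_dvd h' with h' | h'
        · exact three hB hp hq h'
        · exact h (hp.dvd_of_dvd_pow h')
      · exact he1 h'

theorem zero_d (hB : Bas) {p : O} (hp : Prime p) (i l : ℕ) (d' x' : O)
    (hd : p ∣ d') : FT2 (p ^ (l + 2)) (EE p i (l + 2)) d' x' = 0 := by
  obtain ⟨d1, rfl⟩ := hd
  unfold FT2
  rw [Finset.sum_comm]
  refine Finset.sum_eq_zero fun x _ => ?_
  by_cases hx : p ∣ x
  · exact Finset.sum_eq_zero fun d _ => by rw [EE_x hx, zero_mul]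
  have ex : ∀ d, ∃ e, ¬ p ∣ d → p ^ (l + 2) ∣ d * e - 1 := fun d => by
    by_cases h : p ∣ d
    · exact ⟨0, fun h' => absurd h h'⟩
    · obtain ⟨e, he⟩ := inv_ex (cop_pow hp h (l + 2))
      exact ⟨e, fun _ => he⟩
  choose e he using ex
  refine vanish hB hp (fun d => FF p i (l + 2) (p * d1) x' d x) (fun d => -(x ^ 3 * e d))
    (fun a k => FF_congr hB hp (by omega) _ _ (by simp) (by simp)) (fun t d => ?_) fun d => ?_
  · by_cases h : p ∣ d
    · simp only [FF, EE_d hp (by omega : 1 ≤ l + 2) h,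
        EE_d hp (by omega : 1 ≤ l + 2) (h.mul_left _), zero_mul]
    · have h' : p ^ (l + 2) ∣ (1 + p ^ (l + 1) * t) * d * ((1 - p ^ (l + 1) * t) * e d) - 1 := by
        obtain ⟨k, hk⟩ := he d h
        exact ⟨k - p ^ l * t ^ 2 * (d * e d), by linear_combination hk⟩
      have h'' : cub ((1 + p ^ (l + 1) * t) * d) p = cub d p :=
        hB.b4.pe_congr p _ _ _ (hB.b6.pe p) ⟨p ^ l * t * d, by ring⟩
      simp only [FF, EE_eq hB hx (he d h), EE_eq hB hx h', h'', mul_assoc (cub d p ^ i),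
        ← hB.b1.eQ_add]
      rw [← eQ_up hB hp.ne_zero l _ (d * d1 * t)]
      congr 2
      ring
  · by_cases h : p ∣ d
    · exact Or.inl (by simp only [FF, EE_d hp (by omega : 1 ≤ l + 2) h, zero_mul])
    · refine Or.inr fun h' => ?_
      rcases hp.dvd_or_dvd (dvd_neg.1 h') with h' | h'
      · exact hx (hp.dvd_of_dvd_pow h')
      · exact hp.not_dvd_one
          ((dvd_sub_right (h'.mul_left d)).1 ((dvd_pow_self p (by omega)).trans (he d h)))

/-- the change of variables for unit frequencies -/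
theorem subst (hB : Bas) {p : O} (hp : Prime p) (hq : Prim p) (i : ℕ) {m : ℕ} (hm : 1 ≤ m)
    {d' x' e0 : O} (hx : ¬ p ∣ x') (he : p ^ m ∣ 27 * d' * e0 - 1) :
    FT2 (p ^ m) (EE p i m) d' x' = cub (27 * d') p ^ i *
      ∑ r ∈ Rs (p ^ m), ∑ w ∈ Rs (p ^ m), (if p ∣ r * w then 0 else cub (r ^ 2 * w) p ^ i *
        eQ (-(x' ^ 3 * e0 * (r * w * (r + w - 3)))) (p ^ m)) := by
  have hpm : p ∣ p ^ m := dvd_pow_self p (by omega)
  have q0 : p ^ m ≠ 0 := pow_ne_zero _ hp.ne_zero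
  have h3 := three hB hp hq
  have c3 := hB.b2.cop p hq
  have nd : ∀ {a b : O}, ¬ p ∣ a → ¬ p ∣ b → ¬ p ∣ a * b := fun ha hb h =>
    (hp.dvd_or_dvd h).elim ha hb
  have he1 : ¬ p ∣ e0 := fun h => hp.not_dvd_one
    ((dvd_sub_right (h.mul_left _)).1 (hpm.trans he))
  have hk : ¬ p ∣ -9 * x' * e0 := by
    rw [show -9 * x' * e0 = -(3 * 3 * x' * e0) by ring, dvd_neg]
    exact nd (nd (nd h3 h3) hx) he1
  have hx0 : ¬ p ∣ 3 * x' ^ 2 * e0 := nd (nd h3 fun h => hx (hp.dvd_of_dvd_pow h)) he1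
  have s1 : FT2 (p ^ m) (EE p i m) d' x' =
      ∑ x ∈ Rs (p ^ m), ∑ r ∈ Rs (p ^ m), FF p i m d' x' (-9 * x' * e0 * x * r) x := by
    unfold FT2
    rw [Finset.sum_comm]
    refine Finset.sum_congr rfl fun x _ => ?_
    by_cases h : p ∣ x
    · simp only [FF, EE_x h, zero_mul]
    · have := hB.b4.affine (p ^ m) (fun d => FF p i m d' x' d x) (-9 * x' * e0 * x) 0 q0
        (fun a k => FF_congr hB hp hm _ _ (by simp) (by simp)) (cop_pow hp (nd hk h) m).symm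
      simp only [add_zero] at this
      exact this.symm
  have hc : cub (-9 * x' * e0 * (3 * x' ^ 2 * e0)) p = cub (27 * d') p := by
    have a1 : cub (27 * d') p * cub e0 p = 1 := by
      rw [← hB.b6.mul_l _ _ _ c3, hB.b4.pe_congr p _ _ _ (hB.b6.pe p) (hpm.trans he), hB.b6.one_l]
    have a2 := hB.b6.cube e0 p ((hp.irreducible.coprime_iff_not_dvd).2 he1).symm
    have a3 := hB.b6.cube (3 * x') p ((hp.irreducible.coprime_iff_not_dvd).2 (nd h3 hx)).symm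
    rw [show -9 * x' * e0 * (3 * x' ^ 2 * e0) = -((3 * x') ^ 3 * e0 ^ 2) by ring,
      hB.b6.neg_l _ _ c3, hB.b6.mul_l _ _ _ c3, hB.b6.pow_l _ _ _ c3, hB.b6.pow_l _ _ _ c3, a3]
    linear_combination (-(cub e0 p) ^ 2) * a1 + cub (27 * d') p * a2
  rw [s1, Finset.sum_comm, Finset.mul_sum]
  refine Finset.sum_congr rfl fun r _ => ?_
  rw [Finset.mul_sum]
  by_cases hr : p ∣ r
  · refine Finset.sum_congr rfl fun w _ => ?_
    simp only [FF, EE_d hp hm (hr.mul_left _), if_pos (hr.mul_right w), zero_mul, mul_zero]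
  have := hB.b4.affine (p ^ m) (fun x => FF p i m d' x' (-9 * x' * e0 * x * r) x)
    (3 * x' ^ 2 * e0 * r) 0 q0
    (fun a k => FF_congr hB hp hm _ _ ⟨-9 * x' * e0 * k * r, by ring⟩ (by simp))
    (cop_pow hp (nd hx0 hr) m).symm
  simp only [add_zero] at this
  rw [← this]
  refine Finset.sum_congr rfl fun w _ => ?_
  by_cases hw : p ∣ w
  · simp only [FF, EE_x (hw.mul_left _), if_pos (hw.mul_left r), zero_mul, mul_zero]
  have hX := nd (nd hx0 hr) hw
  obtain ⟨e, hE⟩ := inv_ex (cop_pow hp (nd (nd hk hX) hr) m)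
  rw [if_neg (nd hr hw), FF, EE_eq hB hX hE, mul_assoc, ← hB.b1.eQ_add,
    ← mul_assoc (cub (27 * d') p ^ i), ← mul_pow, ← hc, ← hB.b6.mul_l _ _ _ c3]
  congr 1
  · congr 2
    ring
  · refine eQ_congr hB ?_
    obtain ⟨k, hk⟩ := hE
    obtain ⟨k0, hk0⟩ := he
    exact ⟨-(x' ^ 3 * e0 * r * w ^ 2) * k - x' ^ 3 * e0 * r ^ 2 * w * k0, by
      linear_combination (-(x' ^ 3 * e0 * r * w ^ 2)) * hk - x' ^ 3 * e0 * r ^ 2 * w * hk0⟩

end SEM

open SEM PHM in
theorem seS (hB : Bas) (h2 : SE2Stmt) : SEStmt := by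
  intro p i m hp hq hm d' x'
  obtain ⟨l, rfl⟩ : ∃ l, m = l + 2 := ⟨m - 2, by omega⟩
  by_cases hx : p ∣ x'
  · rw [zero_x hB hp hq i l d' x' hx, EE_x hx, mul_zero]
  by_cases hd : p ∣ d'
  · rw [zero_d hB hp i l d' x' hd, EE_d hp (by omega) (hd.mul_left _), mul_zero]
  have h3 := three hB hp hq
  have h27 : ¬ p ∣ 27 * d' := fun h => (hp.dvd_or_dvd h).elim
    (fun h' => h3 (hp.dvd_of_dvd_pow (n := 3) (by norm_num; exact h'))) hd
  obtain ⟨e0, he⟩ := inv_ex (cop_pow hp h27 (l + 2))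
  have he1 : ¬ p ∣ e0 := fun h => hp.not_dvd_one
    ((dvd_sub_right (h.mul_left _)).1 ((dvd_pow_self p (by omega)).trans he))
  rw [subst hB hp hq i (by omega) hx he, h2 p (x' ^ 3 * e0) i (l + 2) hp hq hm
    (fun h => (hp.dvd_or_dvd h).elim (fun h' => hx (hp.dvd_of_dvd_pow h')) he1),
    EE_eq hB hx he]
  ring

end Vale.Agent.P026
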