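import Vale.Agent.P026.M.B1
import Vale.Agent.P026.M.B2
import Vale.Agent.P026.M.B3
import Vale.Agent.P026.M.B4
import Vale.Agent.P026.M.B5
import Vale.Agent.P026.M.B6
import Vale.Agent.P026.M.B7
import Vale.Agent.P026.M.GP
import Vale.Agent.P026.M.J
import Vale.Agent.P026.M.CR0
import Vale.Agent.P026.M.CR
import Vale.Agent.P026.M.P9
import Vale.Agent.P026.M.QG
import Vale.Agent.P026.M.LS
import Vale.Agent.P026.M.QR
import Vale.Agent.P026.M.HD0
import Vale.Agent.P026.M.HD
import Vale.Agent.P026.M.BB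
import Vale.Agent.P026.M.PH
import Vale.Agent.P026.M.SE2
import Vale.Agent.P026.M.SE
import Vale.Agent.P026.M.Card
import Vale.Agent.P026.M.SD1
import Vale.Agent.P026.M.SD2
import Vale.Agent.P026.M.SD3
import Vale.Agent.P026.M.SD4
import Vale.Agent.P026.M.SD5
import Vale.Agent.P026.M.SDr
import Vale.Agent.P026.M.SDc
import Vale.Agent.P026.M.SD

/-! P026: the wave-1 statements, unconditionally. -/

namespace Vale.Agent.P026.W1

theorem bas : Bas :=
  have h1 := b1S
  have h2 := b2S h1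
  have h4 := b4S h1
  have h5 := b5S h1 h4
  ⟨h1, h2, b3S h1, h4, h5, b6S h1 h2 h4 h5, b7S h1 h2 h4 h5⟩

theorem gp : GPStmt := gpS bas
theorem j : JStmt := jS bas gp
theorem cr0 : CR0Stmt := cr0S bas gp j
theorem cr : CRStmt := crS bas cr0
theorem p9 : P9Stmt := p9S bas cr
theorem qg : QGStmt := qgS bas
theorem ls : LSStmt := lsS bas
theorem qr : QR := qrS bas ls qg
theorem hd0 : HD0Stmt := hd0S bas gp j
theorem hd : HD := hdS bas gp cr hd0 qr
theorem bb : BB := bbS bas hd
theorem ph : PH := phS bas cr bb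
theorem se : SEStmt := seS bas (se2S bas)
theorem sd01 : SDk 0 ∧ SDk 1 := sd1S bas gp j bb ph (cardS bas)
theorem sd2 : SDk 2 := sd2S bas gp j bb ph se
theorem sd : SDStmt :=
  sdS bas sd01 sd2 (sd3S bas gp j bb ph se sd01.2) (sd4S bas gp j bb ph se sd01.2)
    (sd5S bas gp j bb ph se sd2) (sdrS bas bb ph se) (sdcS bas cr ph)

end Vale.Agent.P026.W1
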