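import Vale.Agent.P026.Stm2b
import Vale.Agent.P026.M.FAM

/-! P026, module FAMb: mean square transfer for families (corrected form). -/

noncomputable section
open Complex MeasureTheory
open scoped Classical ComplexConjugate ENNReal

namespace Vale.Agent.P026

namespace FAMbM

theorem min_le {x δ : ℝ} (hx : 0 < x) (h0 : 0 ≤ δ) (h1 : δ ≤ 1) : min 1 x ≤ x ^ δ := by
  rcases le_total 1 x with h | h
  · exact (min_le_left _ _).trans (Real.one_le_rpow h h0)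
  · refine (min_le_right _ _).trans ?_
    simpa using Real.rpow_le_rpow_of_exponent_ge hx h h1

theorem zb {θ η U Z P R : ℝ} (n : ℕ) (h0 : 0 ≤ θ) (h1 : 0 < η) (h2 : θ + η ≤ 1) (hU : 0 < U)
    (hZ : 0 < Z) (hP : 0 ≤ P) (hR : 0 ≤ R) :
    min 1 (U / (3 ^ n * Z)) * (P + R * Z ^ θ) ≤
      ((3 : ℝ) ^ (-η)) ^ n * ((1 + U) ^ η * (P + R * (1 + U) ^ θ)) * Z ^ (-η) := by
  have hx : 0 < U / (3 ^ n * Z) := by positivity
  have e : ∀ δ : ℝ, η ≤ δ → (U / (3 ^ n * Z)) ^ δ ≤ ((3 : ℝ) ^ (-η)) ^ n * (1 + U) ^ δ * Z ^ (-δ) := by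
    intro δ hδ
    rw [div_eq_mul_inv, mul_inv, Real.mul_rpow hU.le (by positivity),
      Real.mul_rpow (by positivity) (by positivity), Real.inv_rpow hZ.le, ← Real.rpow_neg hZ.le,
      ← mul_assoc, mul_comm (U ^ δ)]
    refine mul_le_mul_of_nonneg_right (mul_le_mul ?_
      (Real.rpow_le_rpow hU.le (by linarith) (by linarith)) (by positivity) (by positivity))
      (by positivity)
    rw [← Real.rpow_natCast, ← Real.rpow_natCast, ← Real.rpow_neg (by norm_num),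
      ← Real.rpow_mul (by norm_num), ← Real.rpow_mul (by norm_num)]
    exact Real.rpow_le_rpow_of_exponent_le (by norm_num)
      (by nlinarith [(Nat.cast_nonneg n : (0 : ℝ) ≤ n)])
  have a1 := (min_le hx h1.le (by linarith)).trans (e η le_rfl)
  have a2 := (min_le hx (by linarith) h2).trans (e (θ + η) (by linarith))
  have a3 := mul_le_mul_of_nonneg_right a2 (Real.rpow_nonneg hZ.le θ)
  rw [mul_assoc, ← Real.rpow_add hZ, show -(θ + η) + θ = -η by ring,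
    Real.rpow_add (by linarith : 0 < 1 + U)] at a3
  nlinarith [mul_le_mul_of_nonneg_left a1 hP, mul_le_mul_of_nonneg_left a3 hR]

theorem zfin {η ε : ℝ} (h0 : 0 < ε) (h1 : ε < η) (h2 : η < 1) :
    ∫⁻ Z in Set.Ioi (0 : ℝ), ENNReal.ofReal (min 1 Z / Z * (Z ^ (-η) * (1 + Z) ^ ε)) ≠ ⊤ := by
  rw [← Set.Ioc_union_Ioi_eq_Ioi zero_le_one]
  refine ne_top_of_le_ne_top (ENNReal.add_ne_top.2 ⟨?_, ?_⟩) (lintegral_union_le _ _ _)
  · have h := ((intervalIntegral.intervalIntegrable_rpow' (a := 0) (b := 1)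
      (by linarith : -1 < -η)).mul_const ((2 : ℝ) ^ ε)).1
    refine ne_top_of_le_ne_top h.lintegral_lt_top.ne (setLIntegral_mono' measurableSet_Ioc
      fun Z hZ => ENNReal.ofReal_le_ofReal ?_)
    rw [min_eq_right hZ.2, div_self hZ.1.ne', one_mul]
    exact mul_le_mul_of_nonneg_left (Real.rpow_le_rpow (by linarith [hZ.1]) (by linarith [hZ.2])
      h0.le) (Real.rpow_nonneg hZ.1.le _)
  · have h := (integrableOn_Ioi_rpow_of_lt (by linarith : -1 + (-η + ε) < -1) one_pos).mul_const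
      ((2 : ℝ) ^ ε)
    refine ne_top_of_le_ne_top h.lintegral_lt_top.ne (setLIntegral_mono' measurableSet_Ioi
      fun Z hZ => ENNReal.ofReal_le_ofReal ?_)
    have hZ' : (1 : ℝ) < Z := hZ
    have p : (0 : ℝ) < Z := by linarith
    rw [min_eq_left hZ'.le, Real.rpow_add p, Real.rpow_add p, Real.rpow_neg_one, one_div, mul_assoc,
      mul_assoc, ← Real.mul_rpow p.le (by norm_num)]
    exact mul_le_mul_of_nonneg_left (mul_le_mul_of_nonneg_left
      (Real.rpow_le_rpow (by linarith) (by linarith) h0.le) (by positivity)) (by positivity)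

end FAMbM

open FAMM hiding min_le zb zfin in
open FAMbM in
theorem fambS (hB : Bas) (hV : VIStmt) (h1 : FAM1bStmt) : FAMbStmt := by
  intro p θ ε h0 hε hθ
  obtain ⟨K, hK, hV⟩ := hV
  obtain ⟨C, hC, h1⟩ := h1
  obtain ⟨η, e0, e2, e4⟩ : ∃ η, ε < η ∧ η ≤ 2 * ε ∧ θ + η < 1 :=
    ⟨ε + min ε ((1 - θ - ε) / 2), by linarith [lt_min hε (by linarith : 0 < (1 - θ - ε) / 2)],
      by linarith [min_le_left ε ((1 - θ - ε) / 2)], by linarith [min_le_right ε ((1 - θ - ε) / 2)]⟩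
  have e1 : 0 < η := by linarith
  have e3 := e4.le
  obtain ⟨c1, hc1⟩ : ∃ c, c = ∫⁻ Z in Set.Ioi (0 : ℝ),
      ENNReal.ofReal (min 1 Z / Z * (Z ^ (-η) * (1 + Z) ^ ε)) :=
    ⟨_, rfl⟩
  obtain ⟨c2, hc2⟩ : ∃ c, c = ∫⁻ s : ℝ, ENNReal.ofReal (Real.exp (-(1 / 8) * s ^ 2)) := ⟨_, rfl⟩
  have f1 : c1 ≠ ⊤ := hc1 ▸ zfin hε e0 (by linarith)
  have f2 : c2 ≠ ⊤ := hc2 ▸ (integrable_exp_neg_mul_sq (by norm_num)).lintegral_lt_top.ne
  obtain ⟨c0, hc0⟩ : ∃ c, c = ∑' j : ℕ, ∑' n : ℕ, ∑ _v ∈ Finset.range 7, ∑ _e ∈ U6,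
      ∑ _r ∈ Rs 27, ENNReal.ofReal (C * (3 ^ j)⁻¹) *
        (ENNReal.ofReal (((3 : ℝ) ^ (-η)) ^ n) * (c1 * c2)) := ⟨_, rfl⟩
  have f0 : c0 ≠ ⊤ := by
    have s1 : Summable fun j : ℕ => C * ((3 : ℝ) ^ j)⁻¹ := by
      simp only [← inv_pow]
      exact (summable_geometric_of_lt_one (by norm_num) (by norm_num)).mul_left C
    have s2 : Summable fun n : ℕ => ((3 : ℝ) ^ (-η)) ^ n :=
      summable_geometric_of_lt_one (by positivity)
        (Real.rpow_lt_one_of_one_lt_of_neg (by norm_num) (by linarith))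
    rw [hc0]
    simp only [Finset.sum_const, nsmul_eq_mul, ENNReal.tsum_mul_left, ENNReal.tsum_mul_right]
    have t1 := s1.tsum_ofReal_ne_top
    have t2 := s2.tsum_ofReal_ne_top
    finiteness
  refine ⟨K * c0.toReal * Real.exp (2 * ((p + 4 : ℕ) : ℝ) ^ 2), by positivity, ?_⟩
  intro ι S J r h Ψ Y U P R t0 hJ hS hY hU hP hR H
  obtain ⟨B, hBe⟩ : ∃ B, B = (1 + U) ^ η * (P + R * (1 + U) ^ θ) *
    ((1 + |t0|) ^ (p + 4) * Real.exp (2 * ((p + 4 : ℕ) : ℝ) ^ 2)) := ⟨_, rfl⟩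
  have B0 : 0 ≤ B := by rw [hBe]; positivity
  obtain ⟨a, ha⟩ : ∃ a : ι → ℂ, a = fun i => TT J r (fs (h i) (Ψ i)) Y (1 / 2 + t0 * I) := ⟨_, rfl⟩
  obtain ⟨A, hA⟩ : ∃ A, A = Real.sqrt (∑ i ∈ S, ‖a i‖ ^ 2) := ⟨_, rfl⟩
  have A0 : 0 ≤ A := hA ▸ Real.sqrt_nonneg _
  have A2 : A ^ 2 = ∑ i ∈ S, ‖a i‖ ^ 2 := by
    rw [hA]
    exact Real.sq_sqrt (Finset.sum_nonneg fun _ _ => by positivity)
  have one : ∀ (j n v : ℕ) (e r' : O), v < 7 → IsUnit e →
      ∑ i ∈ S, ‖a i‖ₑ * ‖∫ t : ℝ, WW (h i) Y (1 / 2 + t0 * I) j n v (-1 / 2 + t * I) *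
        DP (-J) r' (h i) (dl (h i) (Ψ i) (e * lam ^ (2 * v + n + j))) (3 / 2 - t * I)‖ₑ ≤
      ENNReal.ofReal (C * (3 ^ j)⁻¹) * (ENNReal.ofReal (((3 : ℝ) ^ (-η)) ^ n) * (c1 * c2)) *
        ENNReal.ofReal (A * B) := by
    intro j n v e r' hv he
    refine (Finset.sum_le_sum fun i hi => mul_le_mul_right
      (h1 (-J) r' (h i) _ Y U t0 j n v (hB.b2.ne _ (hS i hi).1.1) hY hU (hS i hi).2 hv) _).trans ?_
    simp only [mul_left_comm (‖a _‖ₑ)]
    rw [← Finset.mul_sum, mul_assoc]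
    refine mul_le_mul_right ((sum_int _ _ _ _).trans ?_) _
    have pt : ∀ Z ∈ Set.Ioi (0 : ℝ), ∑ i ∈ S, ‖a i‖ₑ * ∫⁻ t : ℝ,
        ENNReal.ofReal (min 1 (U / (3 ^ n * Z)) / Z * Real.exp (-(t - t0) ^ 2 / 4) *
          (1 + |t|) ^ 4) * ‖TT (-J) r' (fs (h i) (dl (h i) (Ψ i) (e * lam ^ (2 * v + n + j)))) Z
            (1 / 2 - t * I)‖ₑ ≤
        (ENNReal.ofReal (((3 : ℝ) ^ (-η)) ^ n) * c2 * ENNReal.ofReal (A * B)) *
          ENNReal.ofReal (min 1 Z / Z * (Z ^ (-η) * (1 + Z) ^ ε)) := by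
      intro Z hZ
      have hZ' : 0 < Z := hZ
      have m0 : 0 ≤ min 1 Z := le_min zero_le_one hZ'.le
      refine (sum_int _ _ _ _).trans ((lintegral_mono (g := fun t =>
        (ENNReal.ofReal (((3 : ℝ) ^ (-η)) ^ n) * ENNReal.ofReal (A * B) *
          ENNReal.ofReal (min 1 Z / Z * (Z ^ (-η) * (1 + Z) ^ ε))) *
          ENNReal.ofReal (Real.exp (-(1 / 8) * (t - t0) ^ 2))) fun t => ?_).trans (le_of_eq ?_))
      · have H2 := H (2 * v + n + j) e r' Z (-t) he hZ'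
        rw [ofReal_neg, neg_mul, ← sub_eq_add_neg, abs_neg] at H2
        refine (cs S a _ _ _ (by positivity) H2).trans ?_
        rw [← hA]
        beta_reduce
        rw [← ENNReal.ofReal_mul A0, ← ENNReal.ofReal_mul (by positivity),
          ← ENNReal.ofReal_mul (by positivity), ← ENNReal.ofReal_mul (by positivity)]
        refine ENNReal.ofReal_le_ofReal ?_
        have z := zb n h0 e1 e3 hU hZ' hP hR
        have g := gauss (p + 4) t t0
        have zg := mul_le_mul_of_nonneg_left (mul_le_mul z g (by positivity) (by positivity))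
          (by positivity : 0 ≤ A * (min 1 Z / Z) * (1 + Z) ^ ε)
        refine le_trans (le_of_eq ?_) (zg.trans (le_of_eq ?_))
        · ring
        · rw [hBe]
          ring
      · rw [lintegral_const_mul' _ _ (by finiteness),
          lintegral_sub_right_eq_self (fun s => ENNReal.ofReal (Real.exp (-(1 / 8) * s ^ 2))), ← hc2]
        ring
    refine (setLIntegral_mono' measurableSet_Ioi pt).trans (le_of_eq ?_)
    rw [lintegral_const_mul' _ _ (by finiteness), ← hc1]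
    ring
  have tot : ENNReal.ofReal (A ^ 2) ≤ ENNReal.ofReal K * (c0 * ENNReal.ofReal (A * B)) := by
    rw [A2, ENNReal.ofReal_sum_of_nonneg fun _ _ => by positivity]
    have e : ∀ i ∈ S, ENNReal.ofReal (‖a i‖ ^ 2) = ‖a i‖ₑ * ‖a i‖ₑ := fun i _ => by
      rw [sq, ENNReal.ofReal_mul (norm_nonneg _), ofReal_norm]
    rw [Finset.sum_congr rfl e]
    refine (Finset.sum_le_sum fun i hi => mul_le_mul_right ((le_of_eq (by rw [ha])).trans
      (hV J r (h i) (Ψ i) Y t0 hJ (hS i hi).1 hY)) _).trans ?_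
    simp only [mul_left_comm (‖a _‖ₑ)]
    rw [← Finset.mul_sum]
    refine mul_le_mul_right ?_ _
    rw [sum_tsum, hc0, ← ENNReal.tsum_mul_right]
    refine ENNReal.tsum_le_tsum fun j => ?_
    rw [sum_tsum, ← ENNReal.tsum_mul_right]
    refine ENNReal.tsum_le_tsum fun n => ?_
    rw [sum_sum, Finset.sum_mul]
    refine Finset.sum_le_sum fun v hv => ?_
    rw [sum_sum, Finset.sum_mul]
    refine Finset.sum_le_sum fun e he => ?_
    rw [sum_sum, Finset.sum_mul]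
    exact Finset.sum_le_sum fun r' _ =>
      one j n v e r' (Finset.mem_range.1 hv) ((hB.b1.units e).2 he)
  rw [← ENNReal.ofReal_toReal f0, ← ENNReal.ofReal_mul ENNReal.toReal_nonneg,
    ← ENNReal.ofReal_mul hK, ENNReal.ofReal_le_ofReal_iff (by positivity)] at tot
  have A3 : A ≤ K * c0.toReal * B := by
    rcases A0.eq_or_lt with h0 | h0
    · rw [← h0]
      positivity
    · refine le_of_mul_le_mul_left (le_trans (le_of_eq ?_) (tot.trans (le_of_eq ?_))) h0 <;> ring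
  have A4 : ∑ i ∈ S, ‖TT J r (fs (h i) (Ψ i)) Y (1 / 2 + t0 * I)‖ ^ 2 = A ^ 2 := by rw [A2, ha]
  rw [A4]
  refine pow_le_pow_left₀ A0 (A3.trans ?_) 2
  have u := Real.rpow_le_rpow_of_exponent_le (by linarith : 1 ≤ 1 + U) e2
  have u2 := mul_le_mul_of_nonneg_right u (by positivity : 0 ≤ K * c0.toReal *
    ((P + R * (1 + U) ^ θ) * ((1 + |t0|) ^ (p + 4) * Real.exp (2 * ((p + 4 : ℕ) : ℝ) ^ 2))))
  rw [hBe]
  refine le_trans (le_of_eq ?_) (u2.trans (le_of_eq ?_)) <;> ring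

end Vale.Agent.P026
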