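import Vale.Agent.P026.Stm2

/-! Inversion of the kernel sum at a cusp. -/

noncomputable section
open Complex MeasureTheory Filter Topology
open scoped Classical ComplexConjugate

namespace Vale.Agent.P026

namespace INV2M

/-- inner sum of `Lsum` -/
def T (ν : O → O → O → ℂ) (z : ℂ) (u : ℂ → ℂ × ℂ → ℂ) (t : ℝ) (p : O × O) : ℂ :=
  ∑' x : O, if Prim p.1 then ν p.1 p.2 x * Phi p.1 p.2 x *
    u (toC p.1 / t ^ 3) ((toC p.2 + toC p.1 * z) / t ^ 3, toC x / t ^ 2) else 0

theorem fin (hB : Bas) (R : ℝ) : {a : O | ‖toC a‖ ≤ R}.Finite :=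
  (hB.b3.fin (R ^ 2)).subset fun a (h : ‖toC a‖ ≤ R) => by
    show N a ≤ _
    rw [hB.b1.N_eq]
    gcongr

theorem supp (hB : Bas) (ν z) {u} (hu : Adm u) {t : ℝ} (ht : 0 < t) :
    (Function.support (T ν z u t)).Finite := by
  obtain ⟨r, R, -, h⟩ := hu.supp
  refine ((fin hB (R * t ^ 3)).prod (fin hB (R * t ^ 3 + R * t ^ 3 * ‖z‖))).subset fun p hp => ?_
  obtain ⟨x, hx⟩ : ∃ x : O,
      u (toC p.1 / t ^ 3) ((toC p.2 + toC p.1 * z) / t ^ 3, toC x / t ^ 2) ≠ 0 := by
    by_contra hc
    push Not at hc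
    exact hp (by simp [T, hc])
  obtain ⟨-, h1, h2⟩ := h _ _ hx
  have n : ‖(t : ℂ) ^ 3‖ = t ^ 3 := by rw [norm_pow, Complex.norm_real, Real.norm_of_nonneg ht.le]
  rw [norm_div, n, div_le_iff₀ (by positivity)] at h1 h2
  refine ⟨h1, ?_⟩
  show ‖toC p.2‖ ≤ _
  calc _ = ‖(toC p.2 + toC p.1 * z) - toC p.1 * z‖ := by ring_nf
    _ ≤ _ := (norm_sub_le _ _).trans (by rw [norm_mul]; gcongr)

theorem e6 (hB : Bas) {e : O} (he : e ∈ U6) : e ^ 6 = 1 := by
  have w := hB.b1.w3
  have w3 : wO ^ 3 = 1 := by linear_combination (wO - 1) * w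
  simp only [U6, Finset.mem_insert, Finset.mem_singleton] at he
  rcases he with rfl | rfl | rfl | rfl | rfl | rfl
  · simp
  · norm_num
  · linear_combination (wO ^ 3 + 1) * w3
  · linear_combination (wO ^ 3 + 1) * w3
  · linear_combination (wO ^ 9 + wO ^ 6 + wO ^ 3 + 1) * w3
  · linear_combination (wO ^ 9 + wO ^ 6 + wO ^ 3 + 1) * w3

/-- the class of `d` -/
def Q (v : ℕ) (e d : O) : Prop := ∃ D, d = lam ^ v * D ∧ Prim (e * D)

theorem part (hB : Bas) (d : O) (y : ℂ) (h : y ≠ 0 → ¬ lam ^ 7 ∣ d) :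
    y = ∑ v ∈ Finset.range 7, ∑ e ∈ U6, if Q v e d then y else 0 := by
  by_cases hy : y = 0
  · simp [hy]
  have h7 := h hy
  obtain ⟨e, v, D, he, hD, rfl⟩ := hB.b2.dec d (by rintro rfl; exact h7 (dvd_zero _))
  have e1 := e6 hB ((hB.b1.units e).1 he)
  have key : ∀ v', ∀ e' ∈ U6, Q v' e' (e * lam ^ v * D) → v' = v ∧ e' = e ^ 5 := by
    rintro v' e' he' ⟨D', h1, h2⟩
    have e2 := e6 hB he'
    have u' : IsUnit e' := (hB.b1.units e').2 he'
    obtain ⟨a, b, -⟩ := hB.b2.dec_uniq e (e' ^ 5) v v' D (e' * D') he (u'.pow 5) hD h2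
      (by rw [h1]; linear_combination (-lam ^ v' * D') * e2)
    refine ⟨b.symm, ?_⟩
    rw [a]
    linear_combination (-e' * (e' ^ 18 + e' ^ 12 + e' ^ 6 + 1)) * e2
  have m : e ^ 5 ∈ U6 := (hB.b1.units _).1 (he.pow 5)
  rw [Finset.sum_eq_single_of_mem v, Finset.sum_eq_single_of_mem (e ^ 5) m, if_pos]
  · exact ⟨e * D, by ring, by rwa [show e ^ 5 * (e * D) = D by linear_combination D * e1]⟩
  · exact fun b hb hne => if_neg fun q => hne (key _ _ hb q).2
  · rw [Finset.mem_range]
    by_contra hv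
    exact h7 (((pow_dvd_pow lam (not_lt.1 hv)).mul_left e).mul_right D)
  · exact fun b _ hne => Finset.sum_eq_zero fun e' he' => if_neg fun q => hne (key _ _ he' q).1

end INV2M

open INV2M in
theorem inv2S (hB : Bas) (hA : AV0Stmt) : INV2Stmt := by
  intro r h a a2 ν u t hr hh ha ⟨k, hk⟩ hν hu ht
  have l0 : lam ≠ 0 := hB.b1.prime_lam.ne_zero
  have ne : ∀ {x : O}, x ≠ 0 → toC x ≠ 0 := fun hx => (map_ne_zero_iff _ hB.b1.inj).2 hx
  set z := toC (lam ^ 6 * a) / toC h with hz
  have s := supp hB (nu0 r) z hu ht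
  have s' : ∀ v e, Summable fun p : O × O => if Q v e p.2 then T (nu0 r) z u t p else 0 :=
    fun v e => summable_of_hasFiniteSupport (s.subset fun p hp h0 => hp (by simp [h0]))
  show ∑' p, T (nu0 r) z u t p = _
  rw [tsum_congr fun p => part hB p.2 (T (nu0 r) z u t p) fun h0 h7 => h0 (by
      have : ∀ x, nu0 r p.1 p.2 x = 0 := fun x => by
        by_contra hc
        exact ((hA r hr).2.1 _ _ _ hc).2 h7
      simp [T, this]),
    Summable.tsum_finsetSum fun v _ => summable_sum fun e _ => s' v e]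
  refine Finset.sum_congr rfl fun v hv => ?_
  rw [Summable.tsum_finsetSum fun e _ => s' v e]
  refine Finset.sum_congr rfl fun e he => ?_
  have hv := Finset.mem_range.1 hv
  obtain ⟨-, hz0, hI⟩ := hν v hv e he
  have e1 := e6 hB he
  have lv : lam ^ v * lam ^ (6 - v) = lam ^ 6 := by rw [← pow_add]; congr 1; omega
  have l12 : lam ^ 12 = 729 := by
    rw [show 12 = 2 * 6 from rfl, pow_mul, hB.b1.lam_sq]; norm_num
  set α := e * lam ^ (6 - v) * a with hα
  set δ := e ^ 5 * lam ^ v * 729 * a2 with hδ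
  set β := e ^ 5 * k with hβ
  have det : α * δ - e * h * β = 1 := by
    rw [hα, hδ, hβ, ← l12]
    linear_combination hk + (e ^ 6 * lam ^ 12 * a * a2) * lv + (lam ^ 18 * a * a2 - h * k) * e1
  have lv0 := pow_ne_zero v l0
  set z' := -(toC (729 * lam ^ (2 * v) * e ^ 4 * a2) / toC h) with hz'
  show _ = _ * ∑' p, T (ν v e) z' (utr (muC v e h) u) t p
  have i1 : Function.Injective fun p : O × O =>
      (δ * p.1 - e * h * p.2, lam ^ v * (α * p.2 - β * p.1)) := fun p q hpq => by
    obtain ⟨a1, a2⟩ := Prod.ext_iff.1 hpq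
    have a3 := mul_left_cancel₀ lv0 a2
    simp only at a1
    exact Prod.ext (by linear_combination α * a1 + e * h * a3 + (q.1 - p.1) * det)
      (by linear_combination β * a1 + δ * a3 + (q.2 - p.2) * det)
  have i2 : Function.Injective fun p : O × O => (p.1, lam ^ v * p.2) := fun p q hpq =>
    Prod.ext (Prod.ext_iff.1 hpq).1 (mul_left_cancel₀ lv0 (Prod.ext_iff.1 hpq).2)
  rw [← i1.tsum_eq, ← i2.tsum_eq (f := T (ν v e) z' (utr (muC v e h) u) t), ← tsum_mul_left]
  · refine tsum_congr fun ⟨c, d⟩ => ?_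
    have q : Q v e (lam ^ v * (α * d - β * c)) ↔ Prim (e * (α * d - β * c)) :=
      ⟨fun ⟨D, h1, h2⟩ => by rwa [mul_left_cancel₀ lv0 h1], fun h => ⟨_, rfl, h⟩⟩
    have h0 := ne (hB.b2.ne h hh)
    have e0 := ne ((hB.b1.units e).2 he).ne_zero
    have l1 := ne l0
    have t0 : (t : ℂ) ≠ 0 := ofReal_ne_zero.2 ht.ne'
    have ce := congrArg toC e1
    have cd := congrArg toC det
    have cl := congrArg toC lv
    simp only [map_mul, map_pow, map_one, map_sub] at ce cd cl
    have A : (toC (lam ^ v * d) + toC c * z') / t ^ 3 =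
        -(toC (δ * c - e * h * d) / t ^ 3) / muC v e h := by
      simp only [hz', hδ, muC, map_mul, map_pow, map_sub, map_ofNat]
      field_simp
      ring
    have B : toC c / t ^ 3 / muC v e h =
        (toC (lam ^ v * (α * d - β * c)) + toC (δ * c - e * h * d) * z) / t ^ 3 := by
      have : z = toC lam ^ v * toC α / (toC e * toC h) := by
        simp only [hz, hα, map_mul, map_pow]
        field_simp
        rw [← cl]
        ring
      simp only [this, muC, map_mul, map_pow, map_sub]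
      field_simp
      linear_combination (-toC c) * cd
    have m0 : muC v e h ≠ 0 := by
      simp only [muC, map_mul]
      positivity
    have U : ∀ x : O, utr (muC v e h) u (toC c / t ^ 3)
        ((toC (lam ^ v * d) + toC c * z') / t ^ 3, toC x / t ^ 2) =
        u (toC (δ * c - e * h * d) / t ^ 3)
          ((toC (lam ^ v * (α * d - β * c)) + toC (δ * c - e * h * d) * z) / t ^ 3, toC x / t ^ 2) *
        eQ (x ^ 3 * (e * h)) (lam ^ v * (δ * c - e * h * d) * c) := fun x => by
      rw [utr, A, B, mul_div_cancel₀ _ m0, neg_neg, eQ]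
      congr 2
      generalize δ * c - e * h * d = C
      simp only [muC, map_mul, map_pow, div_eq_mul_inv, mul_inv, inv_neg, inv_inv]
      field_simp
    have E : ∀ x : O, (if Prim (e * (α * d - β * c)) then if Prim (δ * c - e * h * d) then
        nu0 r (δ * c - e * h * d) (lam ^ v * (α * d - β * c)) x *
          Phi (δ * c - e * h * d) (lam ^ v * (α * d - β * c)) x * u (toC (δ * c - e * h * d) / t ^ 3)
          ((toC (lam ^ v * (α * d - β * c)) + toC (δ * c - e * h * d) * z) / t ^ 3, toC x / t ^ 2)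
          else 0 else 0) = cub α h * if Prim c then ν v e c (lam ^ v * d) x * Phi c (lam ^ v * d) x *
          utr (muC v e h) u (toC c / t ^ 3)
            ((toC (lam ^ v * d) + toC c * z') / t ^ 3, toC x / t ^ 2) else 0 := fun x => by
      have I := hI α β δ c d x (ha.mul_left _) (((dvd_refl _).mul_left _).mul_right _) det
      rw [U]
      generalize u (toC (δ * c - e * h * d) / t ^ 3) _ = w
      by_cases h1 : Prim (e * (α * d - β * c)) <;> by_cases h2 : Prim (δ * c - e * h * d) <;>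
        by_cases h3 : Prim c <;>
        simp only [h1, h2, h3, if_true, if_false, and_true, and_false, mul_zero] at I ⊢ <;>
        linear_combination w * I
    show (if Q v e (lam ^ v * (α * d - β * c)) then _ else _) = _
    rw [q]
    simp only [T]
    rw [← tsum_mul_left, ← tsum_congr E]
    by_cases h1 : Prim (e * (α * d - β * c))
    · simp only [h1, if_true]
    · simp only [h1, if_false, tsum_zero]
  · intro p hp
    by_contra hc
    refine hp ?_
    have : ∀ x, ν v e p.1 p.2 x = 0 := fun x => hz0 _ _ _ fun ⟨D, hD⟩ =>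
      hc ⟨(p.1, D), Prod.ext rfl hD.symm⟩
    simp [T, this]
  · intro p hp
    obtain ⟨D, hD, -⟩ : Q v e p.2 := by
      by_contra hc
      exact hp (if_neg hc)
    exact ⟨(α * p.1 + e * h * D, β * p.1 + δ * D), Prod.ext (by linear_combination p.1 * det)
      (by rw [hD]; linear_combination lam ^ v * D * det)⟩

end Vale.Agent.P026
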