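import Vale.Agent.P026.Stm2
import Vale.Agent.P026.M.Poi

/-! P026: admissibility of the test functions. -/

noncomputable section
open Complex MeasureTheory Filter Topology
open scoped Classical ComplexConjugate

namespace Vale.Agent.P026

namespace SOFTM

lemma map_mul' {c : ℂ} (hc : c ≠ 0) : Measure.map (fun z : ℂ => c * z) volume =
    ENNReal.ofReal ((‖c‖ ^ 2)⁻¹) • (volume : Measure ℂ) := by
  let A : ℂ →ₗ[ℝ] ℂ := Algebra.lmul ℝ ℂ c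
  have hd : LinearMap.det A = ‖c‖ ^ 2 := by
    rw [← Algebra.norm_apply, Algebra.norm_complex_eq, ← Complex.normSq_eq_norm_sq]; rfl
  have h1 := Measure.map_linearMap_addHaar_eq_smul_addHaar (volume : Measure ℂ) (f := A)
    (by rw [hd]; positivity)
  rw [hd, abs_of_nonneg (by positivity)] at h1
  exact h1

lemma int_mul2 (g : ℂ × ℂ → ℂ) {a b : ℂ} (ha : a ≠ 0) (hb : b ≠ 0) :
    ∫ p : ℂ × ℂ, g (a * p.1, b * p.2) = ((‖a‖ ^ 2)⁻¹ * (‖b‖ ^ 2)⁻¹ : ℝ) * ∫ p, g p := by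
  have h2 := ((Homeomorph.mulLeft₀ a ha).prodCongr
    (Homeomorph.mulLeft₀ b hb)).measurableEmbedding.integral_map (μ := volume) g
  have h3 : ((Homeomorph.mulLeft₀ a ha).prodCongr (Homeomorph.mulLeft₀ b hb) : ℂ × ℂ → ℂ × ℂ) =
    Prod.map (fun z => a * z) (fun z => b * z) := rfl
  rw [h3, Measure.volume_eq_prod, ← Measure.map_prod_map _ _ (by fun_prop) (by fun_prop),
    map_mul' ha, map_mul' hb, Measure.prod_smul_left, Measure.prod_smul_right,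
    integral_smul_measure, integral_smul_measure, ENNReal.toReal_ofReal (by positivity),
    ENNReal.toReal_ofReal (by positivity), smul_smul, Complex.real_smul] at h2
  exact h2.symm

variable {ω : SchwartzMap ℂ ℂ} {β1 β2 : ℂ → ℂ} {κ : ℂ} {H : SchwartzMap (ℝ × ℂ × ℂ × ℂ) ℂ}

lemma UU_eq (hH : ∀ s : ℝ, 0 ≤ s → s ≤ 1 → ∀ C E x,
      H (s, C, E, x) = β1 C * β2 E * ω x * psi (s * (κ * x ^ 3 / (E * C))))
    {X : ℝ} (h0 : 0 < X) (h1 : X ≤ 1) (C : ℂ) (p : ℂ × ℂ) :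
    UU ω β1 β2 κ X C p = ((X : ℂ) ^ 2)⁻¹ * H (X ^ 3, C, p.1, p.2 / X) := by
  have hX : (X : ℂ) ≠ 0 := by exact_mod_cast h0.ne'
  rw [hH _ (by positivity) (pow_le_one₀ h0.le h1), UU]
  have : ((X ^ 3 : ℝ) : ℂ) * (κ * (p.2 / X) ^ 3 / (p.1 * C)) = κ * p.2 ^ 3 / (p.1 * C) := by
    push_cast
    rw [← mul_div_assoc]
    congr 1
    field_simp
  rw [this]; ring

lemma F2_eq (hH : ∀ s : ℝ, 0 ≤ s → s ≤ 1 → ∀ C E x,
      H (s, C, E, x) = β1 C * β2 E * ω x * psi (s * (κ * x ^ 3 / (E * C))))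
    {X : ℝ} (h0 : 0 < X) (h1 : X ≤ 1) (C ξ η : ℂ) :
    F2 (UU ω β1 β2 κ X C) ξ η = F2 (fun p => H (X ^ 3, C, p)) ξ (X * η) := by
  have hX : (X : ℂ) ≠ 0 := by exact_mod_cast h0.ne'
  have := int_mul2 (fun p => UU ω β1 β2 κ X C p * psi (-(p.1 * ξ + p.2 * η))) one_ne_zero hX
  have e : ∀ p : ℂ × ℂ, UU ω β1 β2 κ X C (1 * p.1, X * p.2) *
      psi (-(1 * p.1 * ξ + X * p.2 * η)) =
      ((X : ℂ) ^ 2)⁻¹ * (H (X ^ 3, C, p) * psi (-(p.1 * ξ + p.2 * (X * η)))) := fun p => by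
    rw [UU_eq hH h0 h1]
    simp only [one_mul, mul_div_cancel_left₀ _ hX]
    rw [mul_assoc, mul_comm (X : ℂ) p.2, mul_assoc p.2]
  simp only [e, integral_const_mul] at this
  rw [norm_one, Complex.norm_real, Real.norm_of_nonneg h0.le] at this
  push_cast at this
  rw [one_pow, inv_one, one_mul] at this
  exact (mul_left_cancel₀ (inv_ne_zero (pow_ne_zero 2 hX)) this).symm

lemma F2_zero (h1 : B1) (hH : ∀ s : ℝ, 0 ≤ s → s ≤ 1 → ∀ C E x,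
      H (s, C, E, x) = β1 C * β2 E * ω x * psi (s * (κ * x ^ 3 / (E * C)))) (C ξ η : ℂ) :
    F2 (fun p => H (0, C, p)) ξ η = β1 C * F1 β2 ξ * F1 ω η := by
  have e : ∀ p : ℂ × ℂ, H (0, C, p) * psi (-(p.1 * ξ + p.2 * η)) =
      β1 C * ((β2 p.1 * psi (-(p.1 * ξ))) * (ω p.2 * psi (-(p.2 * η)))) := fun p => by
    rw [hH 0 le_rfl zero_le_one C p.1 p.2, neg_add, h1.psi_add]
    simp only [ofReal_zero, zero_mul, h1.psi_zero]
    ring
  simp only [F2, e, integral_const_mul]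
  rw [Measure.volume_eq_prod, integral_prod_mul (fun E => β2 E * psi (-(E * ξ)))
    (fun x => ω x * psi (-(x * η))), mul_assoc]
  rfl

lemma zero_mode (hO : OmP ω) {j' : ℤ} (h2 : Bump j' β2) (hj : j' ≠ 0) (X : ℝ) (C : ℂ) :
    ∫ p, UU ω β1 β2 κ X C p = 0 := by
  set ζ : ℂ := cexp ((Real.pi / (3 * j') : ℝ) * I) with hζ
  have hn : ‖ζ‖ = 1 := Complex.norm_exp_ofReal_mul_I _
  have h0 : ζ ≠ 0 := Complex.exp_ne_zero _
  have hj' : (j' : ℂ) ≠ 0 := by exact_mod_cast hj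
  have h3 : (ζ ^ 3) ^ j' = -1 := by
    rw [hζ, ← Complex.exp_nat_mul, ← Complex.exp_int_mul, ← Complex.exp_pi_mul_I]
    congr 1
    push_cast
    field_simp
  have hn3 : ‖ζ ^ 3‖ = 1 := by rw [norm_pow, hn, one_pow]
  have := int_mul2 (UU ω β1 β2 κ X C) (pow_ne_zero 3 h0) h0
  have e : ∀ p : ℂ × ℂ, UU ω β1 β2 κ X C (ζ ^ 3 * p.1, ζ * p.2) = -UU ω β1 β2 κ X C p := fun p => by
    have e1 : κ * (ζ * p.2) ^ 3 / (ζ ^ 3 * p.1 * C) = κ * p.2 ^ 3 / (p.1 * C) := by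
      rw [mul_pow, mul_left_comm, mul_assoc, mul_div_mul_left _ _ (pow_ne_zero 3 h0)]
    simp only [UU]
    rw [h2.mode _ _ hn3, h3, mul_div_assoc ζ, hO.2 _ _ hn, e1]
    ring
  simp only [e, integral_neg, hn3, hn] at this
  norm_num at this
  linear_combination (-1 / 2 : ℂ) * this

lemma sch_dec (H : SchwartzMap (ℝ × ℂ × ℂ × ℂ) ℂ) :
    ∃ K, 0 ≤ K ∧ ∀ q : ℝ × ℂ × ℂ × ℂ, ‖H q‖ ≤ K * (1 + ‖q.2.2.2‖) ^ (-3 : ℝ) := by
  obtain ⟨K, hK⟩ : ∃ K, ∀ q, (1 + ‖q‖) ^ 3 * ‖H q‖ ≤ K := ⟨_, fun q => by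
    have := SchwartzMap.one_add_le_sup_seminorm_apply (𝕜 := ℝ) (m := (3, 0)) le_rfl le_rfl H q
    rwa [norm_iteratedFDeriv_zero] at this⟩
  refine ⟨K, le_trans (by positivity) (hK 0), fun q => ?_⟩
  have h1 : ‖q.2.2.2‖ ≤ ‖q‖ := (norm_snd_le _).trans ((norm_snd_le _).trans (norm_snd_le _))
  rw [Real.rpow_neg (by positivity), ← div_eq_mul_inv, le_div_iff₀ (by positivity), mul_comm]
  refine le_trans ?_ (hK q)
  rw [show (3 : ℝ) = ((3 : ℕ) : ℝ) by norm_num, Real.rpow_natCast]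
  gcongr

end SOFTM

open SOFTM

theorem softS (hB : Bas) (h1 : SOFT1Stmt) (h2 : SOFT2Stmt) : SOFTStmt := by
  intro ω j j' β1 β2 κ hO b1 b2 hj
  obtain ⟨H, hH⟩ := h2 ω j j' β1 β2 κ b1 b2
  obtain ⟨hc, K, hK⟩ := h1 H
  have hK0 : 0 ≤ K := by simpa using (norm_nonneg _).trans (hK 0 0 0 0).1
  refine ⟨fun X x0 x1 => ⟨?_, fun C => ?_, ?_, ?_, ?_, fun C => ?_⟩, ?_, K, fun X x0 x1 C ξ η => ?_⟩
  · obtain ⟨r1, R1, a1, a2⟩ := b1.supp
    obtain ⟨r2, R2, a3, a4⟩ := b2.supp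
    refine ⟨r1, max R1 R2, a1, fun C p hp => ?_⟩
    have c1 : β1 C ≠ 0 := fun e => hp (by simp [UU, e])
    have c2 : β2 p.1 ≠ 0 := fun e => hp (by simp [UU, e])
    exact ⟨(a2 C c1).1, (a2 C c1).2.trans (le_max_left _ _), (a4 _ c2).2.trans (le_max_right _ _)⟩
  · rw [funext (UU_eq hH x0 x1 C)]
    exact continuous_const.mul (H.continuous.comp (by fun_prop))
  · obtain ⟨K', k0, hK'⟩ := sch_dec H
    refine ⟨‖((X : ℂ) ^ 2)⁻¹‖ * K', fun C p => ?_⟩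
    rw [UU_eq hH x0 x1, norm_mul, mul_assoc]
    refine mul_le_mul_of_nonneg_left ((hK' _).trans (mul_le_mul_of_nonneg_left ?_ k0)) (norm_nonneg _)
    refine Real.rpow_le_rpow_of_nonpos (by positivity) ?_ (by norm_num)
    rw [norm_div, Complex.norm_real, Real.norm_of_nonneg x0.le, add_le_add_iff_left, le_div_iff₀ x0]
    exact mul_le_of_le_one_right (norm_nonneg _) x1
  · simp only [F2_eq hH x0 x1]
    exact hc.comp (f := fun q : ℂ × ℂ × ℂ => ((X ^ 3 : ℝ), q.1, q.2.1, (X : ℂ) * q.2.2)) (by fun_prop)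
  · refine ⟨K * X ^ (-8 : ℝ), fun C ξ η => ?_⟩
    rw [F2_eq hH x0 x1]
    refine (hK _ _ _ _).1.trans ?_
    have : (1 + ‖(X : ℂ) * η‖) ^ (-8 : ℝ) ≤ X ^ (-8 : ℝ) * (1 + ‖η‖) ^ (-8 : ℝ) := by
      rw [← Real.mul_rpow x0.le (by positivity), norm_mul, Complex.norm_real,
        Real.norm_of_nonneg x0.le]
      exact Real.rpow_le_rpow_of_nonpos (by positivity) (by linarith) (by norm_num)
    calc _ ≤ K * (1 + ‖ξ‖) ^ (-6 : ℝ) * (X ^ (-8 : ℝ) * (1 + ‖η‖) ^ (-8 : ℝ)) := by gcongr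
      _ = _ := by ring
  · simpa [F2, hB.b1.psi_zero] using zero_mode (β1 := β1) (κ := κ) hO b2 hj X C
  · obtain ⟨r2, R2, -, a4⟩ := b2.supp
    have hs : HasCompactSupport β2 := HasCompactSupport.intro (isCompact_closedBall (0 : ℂ) R2)
      fun z hz => by_contra fun e => hz (by simpa using (a4 z e).2)
    obtain ⟨C, hC⟩ := schwartz_FTc_decay (hs.toSchwartzMap b2.smooth) 6
    refine ⟨C, fun ξ => ?_⟩
    have := hC ξ
    rw [Nat.cast_ofNat] at this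
    exact this
  · have := (hK (X ^ 3) C ξ (X * η)).2
    rw [F2_zero hB.b1 hH, hO.1, norm_mul (X : ℂ), Complex.norm_real, Real.norm_of_nonneg x0.le,
      abs_of_pos (by positivity)] at this
    rw [F2_eq hH x0 x1]
    exact this

end Vale.Agent.P026
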