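import Vale.Agent.P026.Stm2

/-! P026: the theta identity for bump functions. -/

noncomputable section
open Complex MeasureTheory Filter Topology
open scoped Classical ComplexConjugate

namespace Vale.Agent.P026

namespace TH0M

lemma N_nonneg (a : O) : 0 ≤ N a := Nat.cast_nonneg _

lemma unit_U6 (h1 : B1) {e : O} (he : e ∈ U6) : IsUnit e := (h1.units e).2 he

lemma mu_ne (hB : Bas) (v : ℕ) {e h : O} (he : e ∈ U6) (hh : Prim h) : muC v e h ≠ 0 := by
  have inj : ∀ a : O, a ≠ 0 → toC a ≠ 0 := fun a ha h0 => ha (hB.b1.inj (by rw [h0, map_zero]))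
  exact div_ne_zero (inj _ (mul_ne_zero (unit_U6 hB.b1 he).ne_zero (hB.b2.ne h hh)))
    (pow_ne_zero _ (inj _ hB.b1.prime_lam.ne_zero))

lemma bump_mul {j : ℤ} {β : ℂ → ℂ} (hβ : Bump j β) {m : ℂ} (hm : m ≠ 0) :
    Bump j (fun z => β (m * z)) where
  smooth := hβ.smooth.comp (contDiff_const.mul contDiff_id)
  supp := by
    obtain ⟨r, R, hr, h⟩ := hβ.supp
    have hm' : 0 < ‖m‖ := norm_pos_iff.2 hm
    refine ⟨r / ‖m‖, R / ‖m‖, by positivity, fun z hz => ?_⟩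
    have := h _ hz
    rw [norm_mul] at this
    rw [div_le_iff₀ hm', le_div_iff₀ hm', mul_comm]
    exact this
  mode ζ z hζ := by
    rw [← hβ.mode ζ _ hζ]
    congr 1
    ring

lemma bump_div {j : ℤ} {β : ℂ → ℂ} (hβ : Bump j β) {m : ℂ} (hm : m ≠ 0) :
    Bump j (fun z => β (z / m)) := by
  have := bump_mul hβ (inv_ne_zero hm)
  simpa only [div_eq_inv_mul] using this

lemma bump_neg {j : ℤ} {β : ℂ → ℂ} (hβ : Bump j β) {m : ℂ} (hm : m ≠ 0) :
    Bump j (fun z => β (-(m * z))) := by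
  have := bump_mul hβ (neg_ne_zero.2 hm)
  simpa only [neg_mul] using this

/-- absolute convergence of the theta series -/
lemma summ_av (hB : Bas) (hb : BB) (hA1 : AV1Stmt) {ν : O → O → O → ℂ} (hν : Nu ν) :
    Summable fun d : O => if d = 0 then 0 else ‖Av ν d‖ * ‖toC d‖ ^ (-4 / 3 : ℝ) := by
  obtain ⟨A, hA, -, hAv⟩ := hA1 ν hν
  have h1 := hB.b1
  have dec : ∀ d : O, ∃ q : O × ℕ × O, d = q.1 * lam ^ q.2.1 * q.2.2 ∧
      (d ≠ 0 → IsUnit q.1 ∧ Prim q.2.2) := fun d => by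
    by_cases hd : d = 0
    · exact ⟨(0, 0, 0), by simp [hd], fun h => absurd hd h⟩
    · obtain ⟨e, v, D, he, hD, h⟩ := hB.b2.dec d hd
      exact ⟨(e, v, D), h, fun _ => ⟨he, hD⟩⟩
  choose i hi hi' using dec
  have inj : Function.Injective i := fun a b h => by rw [hi a, hi b, h]
  have s1 : Summable fun e : O => if e ∈ U6 then (2 * 3 ^ 16 : ℝ) else 0 :=
    summable_of_ne_finset_zero (s := U6) fun e he => if_neg he
  have r0 : (0 : ℝ) ≤ 3 ^ (-2 / 3 : ℝ) := by positivity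
  have s2 : Summable fun v : ℕ => ((3 : ℝ) ^ (-2 / 3 : ℝ)) ^ v :=
    summable_geometric_of_lt_one r0 (Real.rpow_lt_one_of_one_lt_of_neg (by norm_num) (by norm_num))
  have s3 := hb.summ (5 / 3) (by norm_num)
  have n3 : ∀ k : O, 0 ≤ ‖bb k‖ * N k ^ (-(5 / 3) : ℝ) := fun k =>
    mul_nonneg (norm_nonneg _) (Real.rpow_nonneg (N_nonneg k) _)
  have s4 := s2.mul_of_nonneg s3 (fun v => pow_nonneg r0 v) n3
  have s5 := s1.mul_of_nonneg s4 (fun e => by positivity)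
    (fun q => mul_nonneg (pow_nonneg r0 _) (n3 _))
  refine Summable.of_nonneg_of_le (fun d => by positivity) (fun d => ?_) (s5.comp_injective inj)
  by_cases hd : d = 0
  · rw [if_pos hd]
    exact mul_nonneg (by positivity) (mul_nonneg (pow_nonneg r0 _) (n3 _))
  · obtain ⟨he, hD⟩ := hi' d hd
    have e0 := hi d
    rw [if_neg hd, Function.comp_apply]
    generalize i d = q at he hD e0 ⊢
    obtain ⟨e, v, D⟩ := q
    simp only at he hD e0 ⊢
    have hU : e ∈ U6 := (h1.units e).1 he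
    have ND : 0 < N D := lt_of_lt_of_le one_pos (h1.N_one_le D (hB.b2.ne D hD))
    have eN : N d = 3 ^ v * N D := by
      have a1 : N e = 1 := by rw [N, (h1.unit_iff e).1 he, Nat.cast_one]
      have a2 : N lam = 3 := by rw [N, h1.N_lam]; norm_num
      rw [e0, h1.N_mul, h1.N_mul, h1.N_pow, a1, a2, one_mul]
    have e1 : ‖toC d‖ ^ (-4 / 3 : ℝ) = ((3 : ℝ) ^ (-2 / 3 : ℝ)) ^ v * N D ^ (-2 / 3 : ℝ) := by
      have : ‖toC d‖ ^ (-4 / 3 : ℝ) = (‖toC d‖ ^ 2) ^ (-2 / 3 : ℝ) := by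
        rw [← Real.rpow_natCast, ← Real.rpow_mul (norm_nonneg _)]; norm_num
      rw [this, ← h1.N_eq, eN, Real.mul_rpow (by positivity) ND.le, ← Real.rpow_natCast,
        ← Real.rpow_natCast, ← Real.rpow_mul (by norm_num), ← Real.rpow_mul (by norm_num), mul_comm (v : ℝ)]
    have e2 : N D ^ (-(5 / 3) : ℝ) = (N D)⁻¹ * N D ^ (-2 / 3 : ℝ) := by
      rw [← Real.rpow_neg_one, ← Real.rpow_add ND]; norm_num
    rw [if_pos hU, e1, e2]
    conv_lhs => rw [e0, hAv e v D he hD]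
    rw [norm_mul, norm_div, Complex.norm_real, Real.norm_of_nonneg ND.le]
    have := hA e v D
    calc _ ≤ 2 * 3 ^ 16 * (‖bb D‖ / N D) * (((3 : ℝ) ^ (-2 / 3 : ℝ)) ^ v * N D ^ (-2 / 3 : ℝ)) := by
          gcongr
      _ = _ := by ring

/-- dominated convergence for theta series -/
lemma theta_lim (hB : Bas) (hb : BB) (hA1 : AV1Stmt) {ν : O → O → O → ℂ} (hν : Nu ν) (z : ℂ)
    {α : Type} {l : Filter α} {k : α → ℂ → ℂ} {k0 : ℂ → ℂ} {K : ℝ}
    (h1 : ∀ᶠ n in l, ∀ d : ℂ, 1 ≤ ‖d‖ → ‖k n d‖ ≤ K * ‖d‖ ^ (-4 / 3 : ℝ))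
    (h2 : ∀ d : ℂ, d ≠ 0 → Tendsto (fun n => k n d) l (𝓝 (k0 d))) :
    Tendsto (fun n => Theta ν z (k n)) l (𝓝 (Theta ν z k0)) := by
  have one : ∀ d : O, d ≠ 0 → 1 ≤ ‖toC d‖ := fun d hd => by
    have := hB.b1.N_one_le d hd
    rw [hB.b1.N_eq] at this
    nlinarith [norm_nonneg (toC d)]
  refine tendsto_tsum_of_dominated_convergence ((summ_av hB hb hA1 hν).mul_left K) (fun d => ?_) ?_
  · by_cases hd : d = 0
    · simp only [if_pos hd]; exact tendsto_const_nhds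
    · simp only [if_neg hd]
      exact (h2 _ (norm_pos_iff.1 (lt_of_lt_of_le one_pos (one d hd)))).const_mul _
  · filter_upwards [h1] with n hn d
    by_cases hd : d = 0
    · simp only [if_pos hd]; simp
    · simp only [if_neg hd]
      rw [norm_mul, norm_mul, hB.b1.norm_psi, one_mul]
      calc _ ≤ ‖Av ν d‖ * (K * ‖toC d‖ ^ (-4 / 3 : ℝ)) := by
            gcongr; exact hn _ (one d hd)
        _ = _ := by ring

lemma theta_mul (ν : O → O → O → ℂ) (z A : ℂ) (k : ℂ → ℂ) :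
    Theta ν z (fun d => A * k d) = A * Theta ν z k := by
  unfold Theta
  rw [← tsum_mul_left]
  refine tsum_congr fun d => ?_
  split_ifs <;> ring

lemma utr_eq (h1 : B1) (ω : SchwartzMap ℂ ℂ) (β1 β2 : ℂ → ℂ) (X : ℝ) (m : ℂ) :
    utr m (UU ω β1 β2 0 X) = UU ω (fun C => β2 (C / m)) (fun E => β1 (-(m * E))) (-1) X := by
  funext C p
  simp only [utr, UU, zero_mul, zero_div, h1.psi_zero, neg_mul, one_mul, neg_div]
  ring

end TH0M

open TH0M in
theorem th0S (hB : Bas) (hb : BB) (hL : LIMStmt) (hI : INV2Stmt) (hO : OMStmt) (hS : SOFTStmt)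
    (hX : XLStmt) (hA0 : AV0Stmt) (hA1 : AV1Stmt) : TH0Stmt := by
  intro j β1 β2 hj h1 h2 r h a a2 ν hr hh ha ha2 hν
  obtain ⟨ω, hω⟩ := hO
  obtain ⟨A, hA, hX⟩ := hX
  have n0 := (hA0 r hr).1
  have hj' : -j ≠ 0 := neg_ne_zero.2 hj
  have hk : ((kap ^ 4 * 3 ^ 16)⁻¹ : ℂ) ≠ 0 := by
    have : kap ≠ 0 := div_ne_zero (by
      exact_mod_cast (Real.sqrt_pos.2 (by norm_num : (0 : ℝ) < 3)).ne') two_ne_zero
    exact inv_ne_zero (mul_ne_zero (pow_ne_zero _ this) (by norm_num))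
  have lim : ∀ (i i' : ℤ) γ1 γ2 (κ : ℂ) μ z, Bump i γ1 → Bump i' γ2 → i' ≠ 0 → Nu μ →
      Tendsto (fun X : ℝ => Theta μ z (Ker (UU ω γ1 γ2 κ X))) (𝓝[>] 0)
        (𝓝 (A * Theta μ z (K0 γ1 γ2))) := by
    intro i i' γ1 γ2 κ μ z g1 g2 hi hμ
    obtain ⟨⟨K, hK⟩, hT⟩ := hX ω i i' γ1 γ2 κ hω g1 g2 hi
    rw [← theta_mul]
    refine theta_lim hB hb hA1 hμ z (K := max K 0) ?_ hT
    filter_upwards [Ioc_mem_nhdsGT (show (0 : ℝ) < 1 from one_pos)] with X hX d hd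
    have d0 : 0 < ‖d‖ := lt_of_lt_of_le one_pos hd
    refine (hK X hX.1 hX.2 d (norm_pos_iff.1 d0)).trans ?_
    refine mul_le_mul (le_max_left _ _) ?_ (by positivity) (le_max_right _ _)
    exact (Real.rpow_le_rpow_of_nonpos d0 (by linarith) (by norm_num)).trans
      (Real.rpow_le_rpow_of_exponent_le hd (by norm_num))
  have key : ∀ X : ℝ, 0 < X → X ≤ 1 →
      Theta (nu0 r) (toC (lam ^ 6 * a) / toC h) (Ker (UU ω β1 β2 0 X)) =
        ∑ v ∈ Finset.range 7, ∑ e ∈ U6, cub (e * lam ^ (6 - v) * a) h *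
          Theta (ν v e) (-(toC (729 * lam ^ (2 * v) * e ^ 4 * a2) / toC h))
            (Ker (UU ω (fun C => β2 (C / muC v e h)) (fun E => β1 (-(muC v e h * E))) (-1) X)) := by
    intro X h0 hX1
    have ad := (hS ω _ _ β1 β2 0 hω h1 h2 hj).1 X h0 hX1
    have t1 := hL _ (toC (lam ^ 6 * a) / toC h) _ n0 ad
    have t2 : Tendsto (fun t : ℝ => ∑ v ∈ Finset.range 7, ∑ e ∈ U6, cub (e * lam ^ (6 - v) * a) h *
        (((t : ℂ) ^ 12)⁻¹ * Lsum (ν v e) (-(toC (729 * lam ^ (2 * v) * e ^ 4 * a2) / toC h))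
          (UU ω (fun C => β2 (C / muC v e h)) (fun E => β1 (-(muC v e h * E))) (-1) X) t)) atTop
        (𝓝 (∑ v ∈ Finset.range 7, ∑ e ∈ U6, cub (e * lam ^ (6 - v) * a) h *
          ((kap ^ 4 * 3 ^ 16)⁻¹ * Theta (ν v e) (-(toC (729 * lam ^ (2 * v) * e ^ 4 * a2) / toC h))
            (Ker (UU ω (fun C => β2 (C / muC v e h)) (fun E => β1 (-(muC v e h * E))) (-1) X))))) := by
      refine tendsto_finsetSum _ fun v hv => tendsto_finsetSum _ fun e he => Tendsto.const_mul _ ?_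
      have m0 := mu_ne hB v he hh
      exact hL _ _ _ (hν v (Finset.mem_range.1 hv) e he).1
        ((hS ω _ _ _ _ (-1) hω (bump_div h2 m0) (bump_neg h1 m0) hj').1 X h0 hX1)
    have t3 := tendsto_nhds_unique_of_eventuallyEq t1 t2 (by
      filter_upwards [eventually_gt_atTop (0 : ℝ)] with t ht
      rw [hI r h a a2 ν _ t hr hh ha ha2 hν ad ht, Finset.mul_sum]
      refine Finset.sum_congr rfl fun v _ => ?_
      rw [Finset.mul_sum]
      refine Finset.sum_congr rfl fun e _ => ?_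
      rw [utr_eq hB.b1]
      ring)
    refine mul_left_cancel₀ hk (t3.trans ?_)
    rw [Finset.mul_sum]
    refine Finset.sum_congr rfl fun v _ => ?_
    rw [Finset.mul_sum]
    refine Finset.sum_congr rfl fun e _ => ?_
    ring
  have t1 := lim _ _ β1 β2 0 _ (toC (lam ^ 6 * a) / toC h) h1 h2 hj n0
  have t2 : Tendsto (fun X : ℝ => ∑ v ∈ Finset.range 7, ∑ e ∈ U6, cub (e * lam ^ (6 - v) * a) h *
          Theta (ν v e) (-(toC (729 * lam ^ (2 * v) * e ^ 4 * a2) / toC h))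
            (Ker (UU ω (fun C => β2 (C / muC v e h)) (fun E => β1 (-(muC v e h * E))) (-1) X)))
      (𝓝[>] 0) (𝓝 (∑ v ∈ Finset.range 7, ∑ e ∈ U6, cub (e * lam ^ (6 - v) * a) h *
          (A * Theta (ν v e) (-(toC (729 * lam ^ (2 * v) * e ^ 4 * a2) / toC h))
            (K0 (fun C => β2 (C / muC v e h)) (fun E => β1 (-(muC v e h * E))))))) := by
    refine tendsto_finsetSum _ fun v hv => tendsto_finsetSum _ fun e he => Tendsto.const_mul _ ?_
    have m0 := mu_ne hB v he hh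
    exact lim _ _ _ _ _ _ _ (bump_div h2 m0) (bump_neg h1 m0) hj' (hν v (Finset.mem_range.1 hv) e he).1
  have t3 := tendsto_nhds_unique_of_eventuallyEq t1 t2 (by
    filter_upwards [Ioc_mem_nhdsGT (show (0 : ℝ) < 1 from one_pos)] with X hX
    exact key X hX.1 hX.2)
  refine mul_left_cancel₀ hA (t3.trans ?_)
  rw [Finset.mul_sum]
  refine Finset.sum_congr rfl fun v _ => ?_
  rw [Finset.mul_sum]
  refine Finset.sum_congr rfl fun e _ => ?_
  ring

end Vale.Agent.P026
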