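import Vale.Agent.P026.M.TH0

/-! P026: the theta identity for Gaussian test functions. -/

noncomputable section
open Complex MeasureTheory Filter Topology
open scoped Classical ComplexConjugate

namespace Vale.Agent.P026

namespace TH1M

lemma int_mul (h : ℂ → ℂ) {c : ℂ} (hc : c ≠ 0) :
    ∫ z, h (c * z) = ((‖c‖ ^ 2)⁻¹ : ℝ) * ∫ z, h z := by
  let A : ℂ →ₗ[ℝ] ℂ := Algebra.lmul ℝ ℂ c
  have hd : LinearMap.det A = ‖c‖ ^ 2 := by
    rw [← Algebra.norm_apply, Algebra.norm_complex_eq, ← Complex.normSq_eq_norm_sq]; rfl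
  have h1 := Measure.map_linearMap_addHaar_eq_smul_addHaar (volume : Measure ℂ) (f := A)
    (by rw [hd]; positivity)
  have h2 := (Homeomorph.mulLeft₀ c hc).measurableEmbedding.integral_map (μ := volume) h
  have h3 : (Homeomorph.mulLeft₀ c hc : ℂ → ℂ) = A := rfl
  rw [h3, h1, integral_smul_measure, hd, abs_of_nonneg (by positivity),
    ENNReal.toReal_ofReal (by positivity), Complex.real_smul] at h2
  exact h2.symm

lemma F1_mul (f : ℂ → ℂ) {c : ℂ} (hc : c ≠ 0) (w : ℂ) :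
    F1 (fun z => f (c * z)) w = ((‖c‖ ^ 2)⁻¹ : ℝ) * F1 f (w / c) := by
  rw [F1, F1, ← int_mul _ hc]
  refine integral_congr_ae (.of_forall fun z => ?_)
  have : c * z * (w / c) = z * w := by field_simp
  simp only [this]

lemma norm_Gj (j : ℤ) (z : ℂ) : ‖Gj j z‖ ≤ ‖z‖ * Real.exp (-‖z‖ ^ 2) := by
  by_cases hz : z = 0
  · simp [Gj, hz]
  · have h0 : 0 < ‖z‖ := norm_pos_iff.2 hz
    have h1 : ‖ang j z‖ = 1 := by
      rw [ang, norm_zpow, norm_div, Complex.norm_real, norm_norm, div_self h0.ne', one_zpow]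
    rw [Gj, norm_mul, norm_mul, h1, one_mul, Complex.norm_real, norm_norm, ← Complex.ofReal_neg,
      ← Complex.ofReal_exp, Complex.norm_real, Real.norm_of_nonneg (Real.exp_pos _).le]

/-- Gaussian majorant -/
def BB0 (m C : ℂ) : ℝ := (1 + 2 / ‖m‖) * Real.exp (-(‖m‖ ^ 2 / 2) * ‖C‖ ^ 2)

lemma BB0_int {m : ℂ} (hm : m ≠ 0) : Integrable (BB0 m) := by
  have h0 : 0 < ‖m‖ := norm_pos_iff.2 hm
  have := (GaussianFourier.integrable_cexp_neg_mul_sq_norm_add (V := ℂ)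
    (b := ((‖m‖ ^ 2 / 2 : ℝ) : ℂ)) (by rw [Complex.ofReal_re]; positivity) 0 0).norm
  refine (this.congr (.of_forall fun z => ?_)).const_mul _
  simp only [zero_mul, add_zero]
  rw [← Complex.ofReal_neg, ← Complex.ofReal_pow, ← Complex.ofReal_mul, ← Complex.ofReal_exp,
    Complex.norm_real, Real.norm_of_nonneg (Real.exp_pos _).le]

lemma Gj_le (j : ℤ) {m : ℂ} (hm : m ≠ 0) (C : ℂ) : ‖Gj j (m * C)‖ * (1 + ‖C‖) ≤ BB0 m C := by
  have h0 : 0 < ‖m‖ := norm_pos_iff.2 hm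
  have h1 := norm_Gj j (m * C)
  rw [norm_mul m] at h1
  set s := ‖m‖ * ‖C‖ with hs
  have s0 : 0 ≤ s := by positivity
  have e1 : ‖C‖ = s / ‖m‖ := by rw [hs]; field_simp
  have e2 : -(‖m‖ ^ 2 / 2) * ‖C‖ ^ 2 = -(s ^ 2 / 2) := by rw [hs]; ring
  have e3 : Real.exp (-s ^ 2) * Real.exp (s ^ 2 / 2) = Real.exp (-(s ^ 2 / 2)) := by
    rw [← Real.exp_add]; congr 1; ring
  have a1 := Real.add_one_le_exp (s ^ 2 / 2)
  have a2 : s ≤ Real.exp (s ^ 2 / 2) := by nlinarith [sq_nonneg (s - 1)]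
  have a3 : s * s / ‖m‖ ≤ 2 / ‖m‖ * Real.exp (s ^ 2 / 2) := by
    rw [div_mul_eq_mul_div]
    exact div_le_div_of_nonneg_right (by nlinarith) h0.le
  rw [BB0, e2, ← e3]
  calc _ ≤ s * Real.exp (-s ^ 2) * (1 + ‖C‖) := by gcongr
    _ = Real.exp (-s ^ 2) * (s + s * s / ‖m‖) := by rw [e1]; ring
    _ ≤ Real.exp (-s ^ 2) * (Real.exp (s ^ 2 / 2) + 2 / ‖m‖ * Real.exp (s ^ 2 / 2)) := by gcongr
    _ = _ := by ring

lemma Gj_le' (j : ℤ) {m : ℂ} (hm : m ≠ 0) (C : ℂ) : ‖Gj j (m * C)‖ ≤ BB0 m C :=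
  le_trans (le_mul_of_one_le_right (norm_nonneg _) (by linarith [norm_nonneg C])) (Gj_le j hm C)

lemma k0_lim (h1 : B1) {j1 j2 : ℤ} {f g : ℕ → ℂ → ℂ} {K : ℝ} (cf : ∀ n, Continuous (f n))
    (cg : ∀ n, Continuous (g n)) (bf : ∀ n z, ‖f n z‖ ≤ ‖Gj j1 z‖) (bg : ∀ n z, ‖g n z‖ ≤ ‖Gj j2 z‖)
    (lf : ∀ z, Tendsto (fun n => f n z) atTop (𝓝 (Gj j1 z)))
    (lg : ∀ z, Tendsto (fun n => g n z) atTop (𝓝 (Gj j2 z)))
    (hK : ∀ n ξ, ‖ξ‖ ^ 2 * ‖F1 (g n) ξ‖ ≤ K) {m1 m2 : ℂ} (hm1 : m1 ≠ 0) (hm2 : m2 ≠ 0) :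
    ∃ K' : ℝ, (∀ n (d : ℂ), 1 ≤ ‖d‖ →
      ‖K0 (fun C => f n (m1 * C)) (fun E => g n (m2 * E)) d‖ ≤ K' * ‖d‖ ^ (-4 / 3 : ℝ)) ∧
      ∀ d : ℂ, d ≠ 0 → Tendsto (fun n => K0 (fun C => f n (m1 * C)) (fun E => g n (m2 * E)) d) atTop
        (𝓝 (K0 (fun C => Gj j1 (m1 * C)) (fun E => Gj j2 (m2 * E)) d)) := by
  have K0' : 0 ≤ K := le_trans (by positivity) (hK 0 0)
  have m20 : 0 < ‖m2‖ := norm_pos_iff.2 hm2
  have hK2 : ∀ n ξ, ‖ξ‖ ^ 2 * ‖F1 (fun E => g n (m2 * E)) ξ‖ ≤ K := fun n ξ => by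
    have := hK n (ξ / m2)
    rw [F1_mul _ hm2, norm_mul, Complex.norm_real, Real.norm_of_nonneg (by positivity)]
    rw [norm_div] at this
    convert this using 1
    field_simp
  have cp : ∀ n ξ, Continuous fun z : ℂ => g n (m2 * z) * psi (-(z * ξ)) := fun n ξ =>
    ((cg n).comp (continuous_const.mul continuous_id)).mul
      (h1.cont_psi.comp (continuous_id.mul continuous_const).neg)
  have bp : ∀ n ξ z, ‖g n (m2 * z) * psi (-(z * ξ))‖ ≤ BB0 m2 z := fun n ξ z => by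
    rw [norm_mul, h1.norm_psi, mul_one]
    exact (bg n _).trans (Gj_le' j2 hm2 z)
  have cF : ∀ n, Continuous (F1 fun E => g n (m2 * E)) := fun n =>
    continuous_of_dominated (fun ξ => (cp n ξ).aestronglyMeasurable)
      (fun ξ => .of_forall (bp n ξ)) (BB0_int hm2)
      (.of_forall fun z => continuous_const.mul
        (h1.cont_psi.comp (continuous_const.mul continuous_id).neg))
  have lF : ∀ ξ, Tendsto (fun n => F1 (fun E => g n (m2 * E)) ξ) atTop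
      (𝓝 (F1 (fun E => Gj j2 (m2 * E)) ξ)) := fun ξ =>
    tendsto_integral_of_dominated_convergence (BB0 m2) (fun n => (cp n ξ).aestronglyMeasurable)
      (BB0_int hm2) (fun n => .of_forall (bp n ξ)) (.of_forall fun z => (lg _).mul_const _)
  have bI : ∀ n (d : ℂ), d ≠ 0 → ∀ C : ℂ, ‖f n (m1 * C) * ((‖C‖ ^ (-4 / 3 : ℝ) : ℝ) : ℂ) *
      F1 (fun E => g n (m2 * E)) (d / (729 * C))‖ ≤ K * 729 ^ 2 / ‖d‖ ^ 2 * BB0 m1 C := by
    intro n d hd C
    have d0 : 0 < ‖d‖ := norm_pos_iff.2 hd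
    have B0 : 0 ≤ BB0 m1 C := (norm_nonneg _).trans (Gj_le' j1 hm1 C)
    by_cases hC : C = 0
    · rw [hC, norm_zero, Real.zero_rpow (by norm_num)]
      simp only [ofReal_zero, mul_zero, zero_mul, norm_zero]
      rw [hC] at B0
      positivity
    have c0 : 0 < ‖C‖ := norm_pos_iff.2 hC
    have a1 : ‖F1 (fun E => g n (m2 * E)) (d / (729 * C))‖ ≤ K * 729 ^ 2 / ‖d‖ ^ 2 * ‖C‖ ^ 2 := by
      have := hK2 n (d / (729 * C))
      rw [norm_div, norm_mul, Complex.norm_ofNat, div_pow, div_mul_eq_mul_div,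
        div_le_iff₀ (by positivity)] at this
      rw [div_mul_eq_mul_div, le_div_iff₀ (by positivity)]
      nlinarith
    have a2 : ‖C‖ ^ (-4 / 3 : ℝ) * ‖C‖ ^ 2 ≤ 1 + ‖C‖ := by
      rw [← Real.rpow_natCast, ← Real.rpow_add c0]
      rcases le_total ‖C‖ 1 with h | h
      · exact (Real.rpow_le_one c0.le h (by norm_num)).trans (by linarith)
      · have := Real.rpow_le_rpow_of_exponent_le h (show (-4 / 3 + ((2 : ℕ) : ℝ) : ℝ) ≤ 1 by norm_num)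
        rw [Real.rpow_one] at this
        linarith
    rw [norm_mul, norm_mul, Complex.norm_real, Real.norm_of_nonneg (by positivity)]
    calc _ ≤ ‖Gj j1 (m1 * C)‖ * ‖C‖ ^ (-4 / 3 : ℝ) * (K * 729 ^ 2 / ‖d‖ ^ 2 * ‖C‖ ^ 2) := by
          gcongr; exact bf n _
      _ = K * 729 ^ 2 / ‖d‖ ^ 2 * (‖Gj j1 (m1 * C)‖ * (‖C‖ ^ (-4 / 3 : ℝ) * ‖C‖ ^ 2)) := by ring
      _ ≤ K * 729 ^ 2 / ‖d‖ ^ 2 * (‖Gj j1 (m1 * C)‖ * (1 + ‖C‖)) := by gcongr
      _ ≤ _ := by gcongr; exact Gj_le j1 hm1 C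
  refine ⟨K * 729 ^ 2 * ∫ C, BB0 m1 C, fun n d hd => ?_, fun d hd => ?_⟩
  · have d0 : 0 < ‖d‖ := lt_of_lt_of_le one_pos hd
    have := norm_integral_le_of_norm_le ((BB0_int hm1).const_mul (K * 729 ^ 2 / ‖d‖ ^ 2))
      (.of_forall (bI n d (norm_pos_iff.1 d0)))
    rw [integral_const_mul] at this
    have e : ‖d‖ ^ (-4 / 3 : ℝ) = ‖d‖ ^ (2 / 3 : ℝ) / ‖d‖ ^ 2 := by
      rw [← Real.rpow_natCast, ← Real.rpow_sub d0]; norm_num
    rw [K0, norm_mul, Complex.norm_real, Real.norm_of_nonneg (by positivity), e]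
    calc _ ≤ ‖d‖ ^ (2 / 3 : ℝ) * (K * 729 ^ 2 / ‖d‖ ^ 2 * ∫ C, BB0 m1 C) := by gcongr
      _ = _ := by ring
  · refine Tendsto.const_mul _ (tendsto_integral_of_dominated_convergence _ (fun n => ?_)
      ((BB0_int hm1).const_mul (K * 729 ^ 2 / ‖d‖ ^ 2)) (fun n => .of_forall (bI n d hd))
      (.of_forall fun C => ((lf _).mul_const _).mul (lF _)))
    refine Measurable.aestronglyMeasurable (Measurable.mul (Measurable.mul ?_ ?_) ?_)
    · exact ((cf n).comp (continuous_const.mul continuous_id)).measurable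
    · exact Complex.measurable_ofReal.comp (measurable_norm.pow_const _)
    · exact (cF n).measurable.comp (measurable_const.div (measurable_const.mul measurable_id))

end TH1M

open TH0M TH1M in
theorem th1S (hB : Bas) (hb : BB) (h0 : TH0Stmt) (hc : CUTStmt) (hA0 : AV0Stmt) (hA1 : AV1Stmt) :
    TH1Stmt := by
  intro j y hj hy r h a a2 ν hr hh ha ha2 hν
  have hj0 : j ≠ 0 := by rcases hj with rfl | rfl <;> norm_num
  obtain ⟨f, Kf, f1, f2, f3, f4⟩ := hc (-j) (by rcases hj with rfl | rfl <;> norm_num)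
  obtain ⟨g, Kg, g1, g2, g3, g4⟩ := hc j hj
  have y0 : (y : ℂ) ≠ 0 := by exact_mod_cast hy.ne'
  have cf : ∀ n, Continuous (f n) := fun n => (f1 n).smooth.continuous
  have cg : ∀ n, Continuous (g n) := fun n => (g1 n).smooth.continuous
  have key := fun n => h0 j (f n) _ hj0 (f1 n) (bump_div (g1 n) y0) r h a a2 ν hr hh ha ha2 hν
  have t1 : Tendsto (fun n => Theta (nu0 r) (toC (lam ^ 6 * a) / toC h)
      (K0 (f n) fun E => g n (E / y))) atTop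
      (𝓝 (Theta (nu0 r) (toC (lam ^ 6 * a) / toC h) (K0 (Gj (-j)) fun E => Gj j (E / y)))) := by
    obtain ⟨K, k1, k2⟩ := k0_lim hB.b1 cf cg f2 g2 f3 g3 g4 one_ne_zero (inv_ne_zero y0)
    simp only [one_mul, ← div_eq_inv_mul] at k1 k2
    exact theta_lim hB hb hA1 (hA0 r hr).1 _ (.of_forall k1) k2
  refine tendsto_nhds_unique t1 ?_
  simp only [key]
  refine tendsto_finsetSum _ fun v hv => tendsto_finsetSum _ fun e he => Tendsto.const_mul _ ?_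
  have m0 := mu_ne hB v he hh
  obtain ⟨K, k1, k2⟩ := k0_lim hB.b1 cg cf g2 f2 g3 f3 f4 (inv_ne_zero (mul_ne_zero m0 y0))
    (neg_ne_zero.2 m0)
  simp only [neg_mul, ← div_eq_inv_mul, ← div_div] at k1 k2
  exact theta_lim hB hb hA1 (hν v (Finset.mem_range.1 hv) e he).1 _ (.of_forall k1) k2

end Vale.Agent.P026
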