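import Vale.Agent.P026.M.LIM2

/-! P026: the limit of the kernel when the cubic scale tends to zero. -/

noncomputable section
open Complex MeasureTheory Filter Topology
open scoped Classical ComplexConjugate

namespace Vale.Agent.P026

namespace XLM

open LIM2M

theorem int_one (s : ℝ) (hs : 2 < s) : Integrable fun z : ℂ => (1 + ‖z‖) ^ (-s) :=
  integrable_one_add_norm (by simpa using hs)

theorem Gk_int (hB : Bas) {u : ℂ → ℂ × ℂ → ℂ} (hu : Adm u) {d : ℂ} (hd : d ≠ 0) :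
    Integrable (Gk u d) (volume.prod volume) := by
  obtain ⟨K, hK⟩ := Gk_bd hB hu d
  exact (((int_one 3 (by norm_num)).const_mul K).mul_prod (int_one 3 (by norm_num))).mono'
    (Gk_cont hB hu hd).aestronglyMeasurable (Eventually.of_forall hK)

theorem Gk_int2 (hB : Bas) {u : ℂ → ℂ × ℂ → ℂ} (hu : Adm u) {d : ℂ} (hd : d ≠ 0) (C : ℂ) :
    Integrable fun Y => Gk u d (C, Y) := by
  obtain ⟨K, hK⟩ := Gk_bd hB hu d
  exact ((int_one 3 (by norm_num)).const_mul (K * (1 + ‖C‖) ^ (-3 : ℝ))).mono'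
    ((Gk_cont hB hu hd).comp (by fun_prop)).aestronglyMeasurable
    (Eventually.of_forall fun Y => hK (C, Y))

def c8 : ℝ := ∫ z : ℂ, (1 + ‖z‖) ^ (-8 : ℝ)

theorem c8_nonneg : 0 ≤ c8 := integral_nonneg fun z => by positivity

theorem scale {c : ℝ} (hc : 0 < c) : (Integrable fun Y : ℂ => (1 + c * ‖Y‖) ^ (-8 : ℝ)) ∧
    ∫ Y : ℂ, (1 + c * ‖Y‖) ^ (-8 : ℝ) = (c ^ 2)⁻¹ * c8 := by
  have e : ∀ Y : ℂ, (1 + c * ‖Y‖) ^ (-8 : ℝ) = (fun z : ℂ => (1 + ‖z‖) ^ (-8 : ℝ)) (c • Y) := by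
    intro Y; simp [norm_smul, abs_of_pos hc]
  simp only [e]
  refine ⟨(int_one 8 (by norm_num)).comp_smul hc.ne', ?_⟩
  rw [Measure.integral_comp_smul volume (fun z : ℂ => (1 + ‖z‖) ^ (-8 : ℝ)) c]
  simp [c8]

/-- the slice estimate -/
theorem slice (hB : Bas) {u : ℂ → ℂ × ℂ → ℂ} (hu : Adm u) {d C m : ℂ} (hd : d ≠ 0) (hC : C ≠ 0)
    {X E : ℝ} (hX : 0 < X)
    (h : ∀ η, ‖F2 (u C) (d / (729 * C)) η - m * cexp (-((X * ‖η‖) ^ 6 : ℝ))‖ ≤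
      E * (1 + X * ‖η‖) ^ (-8 : ℝ)) :
    ‖(∫ Y, Gk u d (C, Y)) - m / (‖C‖ : ℂ) ^ 2 * Ai (X / (9 * ‖C‖)) (1 / (27 * C * d))‖ ≤
      81 * c8 * E / X ^ 2 := by
  have a1 : 0 < ‖C‖ := norm_pos_iff.2 hC
  have hc : 0 < X / (9 * ‖C‖) := by positivity
  have e1 : ∀ Y : ℂ, X * ‖Y / (9 * C)‖ = X / (9 * ‖C‖) * ‖Y‖ := by
    intro Y; rw [norm_div, norm_mul]; simp; ring
  set M : ℂ → ℂ := fun Y => m / (‖C‖ : ℂ) ^ 2 *
    (cexp (-((X / (9 * ‖C‖) * ‖Y‖) ^ 6 : ℝ)) * psi (1 / (27 * C * d) * Y ^ 3)) with hM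
  have bd : ∀ Y, ‖Gk u d (C, Y) - M Y‖ ≤ E / ‖C‖ ^ 2 * (1 + X / (9 * ‖C‖) * ‖Y‖) ^ (-8 : ℝ) := by
    intro Y
    have : Gk u d (C, Y) - M Y = (F2 (u C) (d / (729 * C)) (Y / (9 * C)) -
        m * cexp (-((X * ‖Y / (9 * C)‖) ^ 6 : ℝ))) * psi (Y ^ 3 / (27 * C * d)) / (‖C‖ : ℂ) ^ 2 := by
      simp only [Gk, hM, e1]
      rw [show 1 / (27 * C * d) * Y ^ 3 = Y ^ 3 / (27 * C * d) by ring]
      ring
    rw [this, norm_div, norm_mul, hB.b1.norm_psi, mul_one, norm_pow, norm_real, norm_norm, ← e1,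
      div_mul_eq_mul_div]
    gcongr
    exact h _
  have cM : Continuous M := by
    have := hB.b1.cont_psi
    simp only [hM]
    fun_prop
  have i1 := Gk_int2 hB hu hd C
  have i2 := (scale hc).1.const_mul (E / ‖C‖ ^ 2)
  have i3 : Integrable fun Y => Gk u d (C, Y) - M Y :=
    i2.mono' (i1.aestronglyMeasurable.sub cM.aestronglyMeasurable) (Eventually.of_forall bd)
  have i4 : Integrable M := (i1.sub i3).congr (Eventually.of_forall fun Y => by simp)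
  rw [Ai, ← integral_const_mul, ← integral_sub i1 i4]
  refine (norm_integral_le_of_norm_le i2 (Eventually.of_forall bd)).trans (le_of_eq ?_)
  rw [integral_const_mul, (scale hc).2]
  field_simp
  ring

theorem npow {C d : ℂ} (hC : C ≠ 0) (hd : d ≠ 0) :
    ‖1 / (27 * C * d)‖ ^ (-2 / 3 : ℝ) = 9 * ‖d‖ ^ (2 / 3 : ℝ) * (‖C‖ ^ (-4 / 3 : ℝ) * ‖C‖ ^ 2) := by
  have a1 : 0 < ‖C‖ := norm_pos_iff.2 hC
  have a2 : 0 < ‖d‖ := norm_pos_iff.2 hd
  have e1 : (27 : ℝ) ^ (2 / 3 : ℝ) = 9 := by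
    rw [show (27 : ℝ) = 3 ^ (3 : ℝ) by norm_num, ← Real.rpow_mul (by norm_num)]; norm_num
  have e2 : ‖C‖ ^ (-4 / 3 : ℝ) * ‖C‖ ^ 2 = ‖C‖ ^ (2 / 3 : ℝ) := by
    rw [← Real.rpow_natCast, ← Real.rpow_add a1]; norm_num
  rw [e2, norm_div, norm_one, one_div, Real.inv_rpow (by positivity), neg_div,
    Real.rpow_neg (by positivity), inv_inv, norm_mul, norm_mul, Real.mul_rpow (by positivity) a2.le,
    Real.mul_rpow (by positivity) a1.le]
  simp only [norm_ofNat, e1]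
  ring

end XLM

open LIM2M XLM in
theorem xlS (hB : Bas) (hS : SOFTStmt) (hA : AIStmt) : XLStmt := by
  obtain ⟨A0, A1, hA0, hA⟩ := hA
  refine ⟨((9 * A0 : ℝ) : ℂ), by exact_mod_cast (show 9 * A0 ≠ 0 by positivity),
    fun ω j j' β1 β2 κ hω h1 h2 hj => ?_⟩
  obtain ⟨hu, ⟨K1, hK1⟩, K2, hK2⟩ := hS ω j j' β1 β2 κ hω h1 h2 hj
  obtain ⟨r, R0, hr, hs⟩ := h1.supp
  set R := |R0| + 1 with hR
  have hR0 : 0 < R := by positivity
  have hs' : ∀ C, β1 C ≠ 0 → r ≤ ‖C‖ ∧ ‖C‖ ≤ R := fun C c =>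
    ⟨(hs C c).1, (hs C c).2.trans ((le_abs_self _).trans (by linarith))⟩
  obtain ⟨B0, hB0⟩ := (isCompact_closedBall (0 : ℂ) R).exists_bound_of_continuousOn
    h1.smooth.continuous.continuousOn
  have z : ∀ X d C, β1 C = 0 → ∫ Y, Gk (UU ω β1 β2 κ X) d (C, Y) = 0 := by
    intro X d C c
    have : ∀ Y, Gk (UU ω β1 β2 κ X) d (C, Y) = 0 := fun Y => by
      rw [Gk, F2_zero fun p => by simp [UU, c]]; simp
    simp [this]
  have sl : ∀ X : ℝ, 0 < X → X ≤ 1 → ∀ d : ℂ, d ≠ 0 → ∀ C, β1 C ≠ 0 →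
      ‖(∫ Y, Gk (UU ω β1 β2 κ X) d (C, Y)) - β1 C * F1 β2 (d / (729 * C)) / (‖C‖ : ℂ) ^ 2 *
        Ai (X / (9 * ‖C‖)) (1 / (27 * C * d))‖ ≤
        81 * c8 * |K2| * (1 + ‖d / (729 * C)‖) ^ (-6 : ℝ) * X := by
    intro X x1 x2 d hd C c
    have hC : C ≠ 0 := norm_pos_iff.1 (hr.trans_le (hs' C c).1)
    refine (slice hB (hu X x1 x2) hd hC x1
      (E := |K2| * X ^ 3 * (1 + ‖d / (729 * C)‖) ^ (-6 : ℝ)) fun η => (hK2 X x1 x2 C _ η).trans ?_).trans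
      (le_of_eq ?_)
    · gcongr
      exact le_abs_self _
    · field_simp
  set K := (81 * c8 * |K2| + |B0| * |K1| * |A1| * 9 * r ^ (-4 / 3 : ℝ)) * (1 + 729 * R) ^ 6 with hK
  have c8n := c8_nonneg
  have bd : ∀ X : ℝ, 0 < X → X ≤ 1 → ∀ d : ℂ, d ≠ 0 → ∀ C,
      ‖∫ Y, Gk (UU ω β1 β2 κ X) d (C, Y)‖ ≤
        (Metric.closedBall (0 : ℂ) R).indicator (fun _ => K * (1 + ‖d‖) ^ (-5 : ℝ)) C := by
    intro X x1 x2 d hd C
    by_cases c : β1 C = 0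
    · rw [z X d C c, norm_zero]
      exact Set.indicator_nonneg (fun _ _ => by positivity) _
    have hc := hs' C c
    have a1 : 0 < ‖C‖ := hr.trans_le hc.1
    have hC : C ≠ 0 := norm_pos_iff.1 a1
    have hm : C ∈ Metric.closedBall (0 : ℂ) R := by simpa using hc.2
    rw [Set.indicator_of_mem hm]
    have b1 := sl X x1 x2 d hd C c
    have b2 := (hA (1 / (27 * C * d)) (by simp [hC, hd])).1 (X / (9 * ‖C‖)) (by positivity)
    rw [npow hC hd] at b2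
    have b3 := rp_le (norm_nonneg _) (norm_nonneg d) (by positivity)
      (div_le (Y := d) 729 (by norm_num) hC hc.2) 6
    simp only [Nat.cast_ofNat, ofReal_ofNat] at b3
    have b4 : ‖C‖ ^ (-4 / 3 : ℝ) ≤ r ^ (-4 / 3 : ℝ) :=
      Real.rpow_le_rpow_of_nonpos hr hc.1 (by norm_num)
    have d1 : 1 ≤ 1 + ‖d‖ := by linarith [norm_nonneg d]
    have b5 : ‖d‖ ^ (2 / 3 : ℝ) ≤ 1 + ‖d‖ := by
      refine (Real.rpow_le_rpow (norm_nonneg _) (show ‖d‖ ≤ 1 + ‖d‖ by linarith) (by norm_num)).trans ?_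
      simpa using Real.rpow_le_rpow_of_exponent_le d1 (show (2 / 3 : ℝ) ≤ 1 by norm_num)
    have b6 : (1 + ‖d‖) ^ (-6 : ℝ) * (1 + ‖d‖) = (1 + ‖d‖) ^ (-5 : ℝ) := by
      rw [← Real.rpow_add_one (by positivity)]; norm_num
    have b7 : ‖β1 C * F1 β2 (d / (729 * C)) / (‖C‖ : ℂ) ^ 2 * Ai (X / (9 * ‖C‖)) (1 / (27 * C * d))‖ ≤
        |B0| * (|K1| * (1 + ‖d / (729 * C)‖) ^ (-6 : ℝ)) / ‖C‖ ^ 2 *
          (|A1| * (9 * (1 + ‖d‖) * (r ^ (-4 / 3 : ℝ) * ‖C‖ ^ 2))) := by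
      rw [norm_mul, norm_div, norm_mul, norm_pow, norm_real, norm_norm]
      gcongr
      · exact (hB0 C hm).trans (le_abs_self _)
      · exact (hK1 _).trans (by gcongr; exact le_abs_self _)
      · exact b2.trans (by gcongr; exact le_abs_self _)
    have b8 := (norm_le_norm_sub_add _ _).trans (add_le_add b1 b7)
    refine b8.trans ?_
    calc _ ≤ 81 * c8 * |K2| * (1 + ‖d / (729 * C)‖) ^ (-6 : ℝ) * (1 + ‖d‖) +
          |B0| * (|K1| * (1 + ‖d / (729 * C)‖) ^ (-6 : ℝ)) / ‖C‖ ^ 2 *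
          (|A1| * (9 * (1 + ‖d‖) * (r ^ (-4 / 3 : ℝ) * ‖C‖ ^ 2))) := by gcongr; linarith
      _ = (81 * c8 * |K2| + |B0| * |K1| * |A1| * 9 * r ^ (-4 / 3 : ℝ)) *
          (1 + ‖d / (729 * C)‖) ^ (-6 : ℝ) * (1 + ‖d‖) := by field_simp
      _ ≤ (81 * c8 * |K2| + |B0| * |K1| * |A1| * 9 * r ^ (-4 / 3 : ℝ)) *
          ((1 + 729 * R) ^ 6 * (1 + ‖d‖) ^ (-6 : ℝ)) * (1 + ‖d‖) := by gcongr
      _ = _ := by rw [← b6, hK]; ring
  have ib : ∀ d : ℂ, Integrable ((Metric.closedBall (0 : ℂ) R).indicator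
      (fun _ => K * (1 + ‖d‖) ^ (-5 : ℝ))) := fun d =>
    (integrable_indicator_iff measurableSet_closedBall).2
      (integrableOn_const measure_closedBall_lt_top.ne)
  have ke : ∀ X : ℝ, 0 < X → X ≤ 1 → ∀ d : ℂ, d ≠ 0 →
      Ker (UU ω β1 β2 κ X) d = ∫ C, ∫ Y, Gk (UU ω β1 β2 κ X) d (C, Y) := fun X x1 x2 d hd =>
    integral_prod _ (Gk_int hB (hu X x1 x2) hd)
  have ev : ∀ᶠ X : ℝ in 𝓝[>] 0, 0 < X ∧ X ≤ 1 :=
    (Ioc_mem_nhdsGT (show (0 : ℝ) < 1 by norm_num))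
  refine ⟨⟨volume.real (Metric.closedBall (0 : ℂ) R) * K, fun X x1 x2 d hd => ?_⟩, fun d hd => ?_⟩
  · rw [ke X x1 x2 d hd]
    refine (norm_integral_le_of_norm_le (ib d) (Eventually.of_forall (bd X x1 x2 d hd))).trans
      (le_of_eq ?_)
    rw [integral_indicator_const _ measurableSet_closedBall, smul_eq_mul, ← mul_assoc]
  · rw [K0, ← mul_assoc, ← integral_const_mul]
    refine Tendsto.congr' (ev.mono fun X x => (ke X x.1 x.2 d hd).symm) ?_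
    refine tendsto_integral_filter_of_dominated_convergence _
      (ev.mono fun X x => (Gk_int hB (hu X x.1 x.2) hd).integral_prod_left.aestronglyMeasurable)
      (ev.mono fun X x => Eventually.of_forall (bd X x.1 x.2 d hd)) (ib d)
      (Eventually.of_forall fun C => ?_)
    by_cases c : β1 C = 0
    · simp only [z _ d C c, c, zero_mul, mul_zero]
      exact tendsto_const_nhds
    have a1 : 0 < ‖C‖ := hr.trans_le (hs' C c).1
    have hC : C ≠ 0 := norm_pos_iff.1 a1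
    have t1 : Tendsto (fun X : ℝ => X / (9 * ‖C‖)) (𝓝[>] 0) (𝓝[>] 0) := by
      refine tendsto_nhdsWithin_iff.2 ⟨?_, ev.mono fun X x => div_pos x.1 (by positivity)⟩
      simpa using (tendsto_id.mono_left (nhdsWithin_le_nhds (a := (0 : ℝ)) (s := Set.Ioi 0))).div_const
        (9 * ‖C‖)
    have t2 := (((hA (1 / (27 * C * d)) (by simp [hC, hd])).2.comp t1).const_mul
      (β1 C * F1 β2 (d / (729 * C)) / (‖C‖ : ℂ) ^ 2))
    have t3 : Tendsto (fun X : ℝ => 81 * c8 * |K2| * (1 + ‖d / (729 * C)‖) ^ (-6 : ℝ) * X) (𝓝[>] 0)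
        (𝓝 0) := by
      simpa using (tendsto_id.mono_left (nhdsWithin_le_nhds (a := (0 : ℝ)) (s := Set.Ioi 0))).const_mul
        (81 * c8 * |K2| * (1 + ‖d / (729 * C)‖) ^ (-6 : ℝ))
    have t4 := (squeeze_zero_norm' (ev.mono fun X x => sl X x.1 x.2 d hd C c) t3).add t2
    simp only [Function.comp, sub_add_cancel, zero_add] at t4
    convert t4 using 2
    have a2 : (‖C‖ : ℂ) ≠ 0 := by exact_mod_cast a1.ne'
    rw [npow hC hd]
    push_cast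
    field_simp

end Vale.Agent.P026
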