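import Vale.Agent.P026.M.W2a
import Vale.Agent.P026.M.INV2
import Vale.Agent.P026.M.SOFT
import Vale.Agent.P026.M.XL
import Vale.Agent.P026.M.TH0
import Vale.Agent.P026.M.TH1
import Vale.Agent.P026.M.KG
import Vale.Agent.P026.M.FE
import Vale.Agent.P026.M.VI
import Vale.Agent.P026.M.FAMb

/-! P026: the wave-2 statements, unconditionally. -/

namespace Vale.Agent.P026.W2

open W1

theorem inv2 : INV2Stmt := inv2S bas av0
theorem soft : SOFTStmt := softS bas soft1 soft2
theorem xl : XLStmt := xlS bas soft ai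
theorem th0 : TH0Stmt := th0S bas W1.bb lim inv2 oms soft xl av0 av1
theorem th1 : TH1Stmt := th1S bas W1.bb th0 cut av0 av1
theorem kg : KGStmt := kgS bas gf
theorem fe : FEStmt := feS bas W1.bb inv1 th1 kg av0 av1 mel
theorem vi : VIStmt := viS bas W1.bb fe sh ln gamm
theorem famb : FAMbStmt := fambS bas vi fam1b

end Vale.Agent.P026.W2
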