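import Vale.Agent.P026.Stm1

/-! P026 module B1. -/

noncomputable section
open Complex
open scoped Classical ComplexConjugate

namespace Vale.Agent.P026

namespace B1M

lemma s3 : Real.sqrt 3 * Real.sqrt 3 = 3 := Real.mul_self_sqrt (by norm_num)
lemma s3pos : 0 < Real.sqrt 3 := Real.sqrt_pos.2 (by norm_num)

lemma toC_apply (a : O) : toC a = (a.re : ℂ) + (a.im : ℂ) * om := rfl
lemma toC_re (a : O) : (toC a).re = a.re - a.im / 2 := by
  simp [toC_apply, om]; ring
lemma toC_im (a : O) : (toC a).im = a.im * (Real.sqrt 3 / 2) := by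
  simp [toC_apply, om]

lemma Nn_cast (a : O) : (Nn a : ℤ) = nz a := Int.natAbs_of_nonneg (nz_nonneg a)

lemma N_nz (a : O) : N a = (nz a : ℝ) := by
  rw [N, ← Nn_cast]; simp

lemma N_eq (a : O) : N a = ‖toC a‖ ^ 2 := by
  rw [N_nz, Complex.sq_norm, Complex.normSq_apply, toC_re, toC_im, nz]
  push_cast
  linear_combination (-(a.im : ℝ) ^ 2 / 4) * s3

lemma inj : Function.Injective toC := by
  rw [injective_iff_map_eq_zero]
  intro a h
  have := N_eq a
  rw [h, N_nz] at this
  apply nz_eq_zero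
  simpa using this

lemma Nn_mul (a b : O) : Nn (a * b) = Nn a * Nn b := by
  simp [Nn, nz_mul, Int.natAbs_mul]

lemma N_mul (a b : O) : N (a * b) = N a * N b := by simp [N, Nn_mul]

lemma cj_mul (a : O) : a * cj a = (Nn a : O) := by
  have : (Nn a : O) = ((nz a : ℤ) : O) := by rw [← Nn_cast]; simp
  rw [this]
  ext
  · rw [QuadraticAlgebra.re_intCast]; simp [cj, nz]; ring
  · rw [QuadraticAlgebra.im_intCast]; simp [cj]; ring

lemma Nn_one : Nn 1 = 1 := by
  simp [Nn, nz, QuadraticAlgebra.re_one, QuadraticAlgebra.im_one]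

lemma unit_iff (a : O) : IsUnit a ↔ Nn a = 1 := by
  constructor
  · intro h
    obtain ⟨b, hb⟩ := h.exists_right_inv
    have := congrArg Nn hb
    rw [Nn_mul, Nn_one] at this
    exact Nat.eq_one_of_mul_eq_one_right this
  · intro h
    have := cj_mul a
    rw [h] at this
    exact IsUnit.of_mul_eq_one _ (by simpa using this)

lemma w_sq : wO ^ 2 = ⟨-1, -1⟩ := by
  ext <;> simp [wO, pow_two]

lemma units (u : O) : IsUnit u ↔ u ∈ ({1, -1, wO, -wO, wO ^ 2, -wO ^ 2} : Finset O) := by
  rw [unit_iff, w_sq]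
  have e : Nn u = 1 ↔ nz u = 1 := by rw [← Nn_cast]; simp
  rw [e]
  simp only [Finset.mem_insert, Finset.mem_singleton, QuadraticAlgebra.ext_iff, wO, nz,
    QuadraticAlgebra.re_one, QuadraticAlgebra.im_one, QuadraticAlgebra.re_neg,
    QuadraticAlgebra.im_neg]
  constructor
  · intro h
    have h1 : u.im ≤ 1 := by nlinarith [sq_nonneg (2 * u.re - u.im)]
    have h2 : -1 ≤ u.im := by nlinarith [sq_nonneg (2 * u.re - u.im)]
    have h3 : u.re ≤ 1 := by nlinarith [sq_nonneg (2 * u.im - u.re)]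
    have h4 : -1 ≤ u.re := by nlinarith [sq_nonneg (2 * u.im - u.re)]
    generalize u.re = x at *
    generalize u.im = y at *
    interval_cases x <;> interval_cases y <;> simp_all
  · rintro (h | h | h | h | h | h) <;> rw [h.1, h.2] <;> norm_num

lemma lam_sq : lam ^ 2 = -3 := by
  ext <;> simp [lam, pow_two,
    QuadraticAlgebra.re_ofNat, QuadraticAlgebra.im_ofNat]

lemma N_lam : Nn lam = 3 := by simp [Nn, nz, lam]

lemma prime_lam : Prime lam := by
  refine Irreducible.prime ⟨fun h => ?_, fun a b h => ?_⟩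
  · have := (unit_iff _).1 h
    rw [N_lam] at this
    omega
  · have := congrArg Nn h
    rw [N_lam, Nn_mul] at this
    rcases (Nat.dvd_prime Nat.prime_three).1 (Dvd.intro _ this.symm) with c | c
    · exact Or.inl ((unit_iff _).2 c)
    · rw [c] at this
      exact Or.inr ((unit_iff _).2 (by omega))

lemma nz_ne_two (a : O) : nz a ≠ 2 := by
  unfold nz
  intro h
  have h1 : a.im ≤ 1 := by nlinarith [sq_nonneg (2 * a.re - a.im)]
  have h2 : -1 ≤ a.im := by nlinarith [sq_nonneg (2 * a.re - a.im)]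
  have h3 : a.re ≤ 1 := by nlinarith [sq_nonneg (2 * a.im - a.re)]
  have h4 : -1 ≤ a.re := by nlinarith [sq_nonneg (2 * a.im - a.re)]
  generalize a.re = x at *
  generalize a.im = y at *
  interval_cases x <;> interval_cases y <;> simp_all

lemma N_two : Nn 2 = 4 := by
  simp [Nn, nz, QuadraticAlgebra.re_ofNat, QuadraticAlgebra.im_ofNat]

lemma prime_two : Prime (2 : O) := by
  refine Irreducible.prime ⟨fun h => ?_, fun a b h => ?_⟩
  · have := (unit_iff _).1 h
    rw [N_two] at this
    omega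
  · have := congrArg Nn h
    rw [N_two, Nn_mul] at this
    have a2 : Nn a ≠ 2 := fun c => nz_ne_two a (by rw [← Nn_cast, c]; rfl)
    have a4 : Nn a ≤ 4 := Nat.le_of_dvd (by norm_num) (Dvd.intro _ this.symm)
    rw [unit_iff, unit_iff]
    generalize Nn a = x at *
    generalize Nn b = y at *
    interval_cases x <;> omega

lemma psi_add (z w : ℂ) : psi (z + w) = psi z * psi w := by
  unfold psi
  rw [← Complex.exp_add]
  congr 1
  simp only [add_im]
  push_cast
  ring

lemma psi_zero : psi 0 = 1 := by simp [psi]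

lemma psi_neg (z : ℂ) : psi (-z) = conj (psi z) := by
  unfold psi
  rw [← Complex.exp_conj]
  congr 1
  simp only [neg_im, map_mul, conj_ofReal, conj_I, map_ofNat]
  push_cast
  ring

lemma norm_psi (z : ℂ) : ‖psi z‖ = 1 := by
  unfold psi
  rw [show 2 * (Real.pi : ℂ) * I * ((2 * z.im / Real.sqrt 3 : ℝ) : ℂ) =
    ((2 * Real.pi * (2 * z.im / Real.sqrt 3) : ℝ) : ℂ) * I by push_cast; ring]
  exact Complex.norm_exp_ofReal_mul_I _

lemma psi_toC (a : O) : psi (toC a) = 1 := by
  unfold psi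
  have : 2 * (toC a).im / Real.sqrt 3 = (a.im : ℝ) := by
    rw [toC_im]; field_simp
  rw [this, show 2 * (Real.pi : ℂ) * I * (((a.im : ℤ) : ℝ) : ℂ) = (a.im : ℤ) * (2 * Real.pi * I) by
    push_cast; ring]
  exact Complex.exp_int_mul_two_pi_mul_I _

lemma psi_eq_one {z : ℂ} (h : psi z = 1) : ∃ n : ℤ, 2 * z.im / Real.sqrt 3 = n := by
  obtain ⟨n, hn⟩ := Complex.exp_eq_one_iff.1 h
  refine ⟨n, ?_⟩
  rw [mul_comm (n : ℂ)] at hn
  have := mul_left_cancel₀ Complex.two_pi_I_ne_zero hn
  exact_mod_cast this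

lemma toC_ne {a : O} (h : a ≠ 0) : toC a ≠ 0 := fun c => h (inj (by simpa using c))

lemma toC_w : toC wO = om := by simp [toC_apply, wO]

lemma eQ_triv (a c : O) (hc : c ≠ 0) (h : ∀ m, eQ (a * m) c = 1) : c ∣ a := by
  have hc' := toC_ne hc
  obtain ⟨n, hn⟩ := psi_eq_one (h 1)
  obtain ⟨k, hk⟩ := psi_eq_one (h wO)
  rw [mul_one] at hn
  rw [map_mul, toC_w, mul_div_right_comm (toC a)] at hk
  have hs := s3pos.ne'
  set z := toC a / toC c with hz
  have e : z = toC ⟨k + n, n⟩ := by
    rw [div_eq_iff hs] at hn hk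
    simp only [mul_im, om] at hk
    apply Complex.ext
    · rw [toC_re]
      push_cast
      apply mul_right_cancel₀ hs
      linarith
    · rw [toC_im]
      linarith
  refine ⟨⟨k + n, n⟩, inj ?_⟩
  rw [map_mul, ← e, hz]
  field_simp

end B1M

open B1M in
theorem b1S : B1 where
  inj := inj
  N_eq := N_eq
  Nn_mul := Nn_mul
  N_mul := N_mul
  N_pow a k := by
    induction k with
    | zero => simp [N, Nn_one]
    | succ k ih => rw [pow_succ, N_mul, ih, pow_succ]
  N_one_le a h := by
    have h1 : nz a ≠ 0 := fun c => h (nz_eq_zero c)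
    have h2 := nz_nonneg a
    rw [N_nz]
    exact_mod_cast (by omega : 1 ≤ nz a)
  N_zero := by simp [N, Nn, nz]
  unit_iff := unit_iff
  units := units
  cj_mul := cj_mul
  toC_cj a := by
    apply Complex.ext
    · rw [conj_re, toC_re, toC_re]; simp [cj]; ring
    · rw [conj_im, toC_im, toC_im]; simp [cj]
  toC_w := toC_w
  w3 := by
    rw [w_sq]
    ext <;> simp [wO, QuadraticAlgebra.re_one, QuadraticAlgebra.im_one]
  lam_sq := lam_sq
  toC_lam := by
    apply Complex.ext
    · rw [toC_re]; simp [lam]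
    · rw [toC_im]; simp [lam]; ring
  prime_lam := prime_lam
  prime_two := prime_two
  N_lam := N_lam
  N_int n := by
    rw [N_eq, map_intCast, Complex.norm_intCast, sq_abs]
  psi_add := psi_add
  psi_zero := psi_zero
  psi_neg := psi_neg
  norm_psi := norm_psi
  psi_toC := psi_toC
  cont_psi := by
    unfold psi
    fun_prop
  eQ_add a b c := by rw [eQ, map_add, add_div, psi_add]; rfl
  eQ_neg a c := by rw [eQ, map_neg, neg_div, psi_neg]; rfl
  eQ_dvd a c h := by
    obtain ⟨m, rfl⟩ := h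
    by_cases hc : c = 0
    · simp [eQ, hc, psi_zero]
    · rw [eQ, map_mul, mul_div_cancel_left₀ _ (toC_ne hc), psi_toC]
  eQ_mul g a c h := by
    rw [eQ, eQ, map_mul, map_mul, mul_div_mul_left _ _ (toC_ne h)]
  eQ_triv := eQ_triv

end Vale.Agent.P026
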