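import Vale.Agent.P026.Stm1

/-! P026, module BB: the cubic theta coefficients. -/

noncomputable section
open Complex
open scoped Classical ComplexConjugate

namespace Vale.Agent.P026

namespace BBM

def Rep (k : O) : Prop := ∃ n u, Prim n ∧ Prim u ∧ Squarefree n ∧ k = n * u ^ 3

theorem bb_zero {k : O} (h : ¬ Rep k) : bb k = 0 :=
  dif_neg fun ⟨p, hp⟩ => h ⟨p.1, p.2, hp⟩

variable (h2 : B2)
include h2

theorem unit_one {a : O} (ha : Prim a) (h : IsUnit a) : a = 1 :=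
  h2.uniq a 1 ha h2.one (associated_one_iff_isUnit.2 h)

theorem dec {k u n v : O} (hu : Prim u) (hv : Prim v) (hn : Squarefree n)
    (e : k * u ^ 3 = n * v ^ 3) : ∃ b, Prim b ∧ v = u * b ∧ k = n * b ^ 3 := by
  obtain ⟨g, a, b, hg, ha, rfl, rfl, hab⟩ := h2.gcd u v hu
  have e2 : k * a ^ 3 = n * b ^ 3 := by
    refine mul_left_cancel₀ (pow_ne_zero 3 (h2.ne g hg)) ?_
    linear_combination e
  have h3 : a ^ 3 ∣ n := (hab.pow (m := 3) (n := 3)).dvd_of_dvd_mul_right ⟨k, by rw [← e2, mul_comm]⟩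
  have h4 : a = 1 := unit_one h2 ha (hn a (Dvd.dvd.trans ⟨a, by ring⟩ h3))
  subst h4
  exact ⟨b, h2.cancel g b hg hv, by ring, by rw [← e2]; ring⟩

theorem uniq (n u n' u' : O) (_hn : Prim n) (hu : Prim u) (sn : Squarefree n) (_hn' : Prim n')
    (hu' : Prim u') (sn' : Squarefree n') (e : n * u ^ 3 = n' * u' ^ 3) : n = n' ∧ u = u' := by
  obtain ⟨b, hb, e1, e2⟩ := dec h2 hu hu' sn' e
  have h4 : b = 1 := unit_one h2 hb (sn b ⟨n' * b, by rw [e2]; ring⟩)
  subst h4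
  exact ⟨by rw [e2]; ring, by rw [e1]; ring⟩

theorem eq (n u : O) (hn : Prim n) (hu : Prim u) (sn : Squarefree n) :
    bb (n * u ^ 3) = gs n * (N u : ℂ) ^ 2 := by
  have h : ∃ p : O × O, Prim p.1 ∧ Prim p.2 ∧ Squarefree p.1 ∧ n * u ^ 3 = p.1 * p.2 ^ 3 :=
    ⟨(n, u), hn, hu, sn, rfl⟩
  obtain ⟨a, b, c, d⟩ := h.choose_spec
  obtain ⟨e1, e2⟩ := uniq h2 _ _ _ _ hn hu sn a b c d
  rw [bb, dif_pos h, ← e1, ← e2]

theorem rep_left (u : O) (hu : Prim u) : ∀ a b n, Prim a → IsCoprime a b → Squarefree n →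
    a * b = n * u ^ 3 → Rep a := by
  refine h2.ind1 (fun u => ∀ a b n, Prim a → IsCoprime a b → Squarefree n →
    a * b = n * u ^ 3 → Rep a) ?_ ?_ u hu
  · intro a b n ha _ hn e
    exact ⟨a, 1, ha, h2.one, hn.squarefree_of_dvd ⟨b, by rw [e]; ring⟩, by ring⟩
  · intro p v hp pp _ ih a b n ha hab hn e
    have h3 : p ^ 3 ∣ a * b := ⟨n * v ^ 3, by rw [e]; ring⟩
    have h0 := pow_ne_zero 3 hp.ne_zero
    by_cases h : p ∣ a
    · have h4 : IsCoprime (p ^ 3) b := (hab.of_isCoprime_of_dvd_left h).pow_left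
      obtain ⟨a', rfl⟩ := h4.dvd_of_dvd_mul_right h3
      obtain ⟨m, w, h5, h6, h7, h8⟩ := ih a' b n (h2.cancel _ _ (h2.pow p 3 pp) ha)
        hab.of_mul_left_right hn (mul_left_cancel₀ h0 (by linear_combination e))
      exact ⟨m, p * w, h5, h2.mul _ _ pp h6, h7, by rw [h8]; ring⟩
    · obtain ⟨b', rfl⟩ := hp.pow_dvd_of_dvd_mul_left 3 h h3
      exact ih a b' n ha hab.of_mul_right_right hn (mul_left_cancel₀ h0 (by linear_combination e))

end BBM

open BBM in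
theorem bbS (hB : Bas) (hH : HD) : BB := by
  have h1 := hB.b1
  have h2 := hB.b2
  have h6 := hB.b6
  have N1 : N 1 = 1 := by simpa using h1.N_pow 1 0
  have N0 : ∀ a, 0 ≤ N a := fun a => Nat.cast_nonneg _
  have g1 : gs 1 = 1 := by
    have e : ∀ r ∈ Rs 1, conj (cub r 1) * eQ r 1 = 1 := fun r _ => by
      rw [h6.unit_r r 1 isUnit_one, h1.eQ_dvd r 1 (one_dvd _), map_one, one_mul]
    rw [gs, Finset.sum_congr rfl e, Finset.sum_const, hB.b4.card 1 one_ne_zero,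
      (h1.unit_iff 1).1 isUnit_one, one_smul]
  have cube : ∀ k u, Prim k → Prim u → bb (k * u ^ 3) = bb k * (N u : ℂ) ^ 2 := by
    intro k u hk hu
    by_cases h : Rep k
    · obtain ⟨n, v, a, b, c, rfl⟩ := h
      rw [eq h2 n v a b c, mul_assoc, ← mul_pow, eq h2 n _ a (h2.mul _ _ b hu) c, h1.N_mul]
      push_cast
      ring
    · rw [bb_zero h, zero_mul]
      refine bb_zero fun ⟨n, v, a, b, c, d⟩ => h ?_
      obtain ⟨w, e1, _, e2⟩ := dec h2 hu b c d
      exact ⟨n, w, a, e1, c, e2⟩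
  have pp : ∀ k p (m : ℕ), Prim k → Prim p → bb (k * p ^ (3 * m)) = bb k * (N p : ℂ) ^ (2 * m) := by
    intro k p m hk hp
    rw [pow_mul', cube k _ hk (h2.pow p m hp), h1.N_pow, pow_mul']
    push_cast
    rfl
  have one : bb 1 = 1 := by
    have h := eq h2 1 1 h2.one h2.one squarefree_one
    simpa [g1, N1] using h
  have ng : ∀ n u, Prim n → Prim u → Squarefree n →
      ‖bb (n * u ^ 3)‖ = N n ^ (1 / 2 : ℝ) * N u ^ 2 := by
    intro n u hn hu sn
    rw [eq h2 n u hn hu sn, norm_mul, norm_pow, Complex.norm_real, Real.norm_of_nonneg (N0 u),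
      ← hH.n3 n (h2.cop n hn) sn, ← Real.sqrt_eq_rpow, Real.sqrt_sq (norm_nonneg _)]
  let T : Set (O × O) := {x | Prim x.1 ∧ Prim x.2 ∧ Squarefree x.2}
  let i : T → O := fun x => x.1.2 * x.1.1 ^ 3
  have hi : Function.Injective i := fun x y h => by
    obtain ⟨e1, e2⟩ := uniq h2 _ _ _ _ x.2.2.1 x.2.1 x.2.2.2 y.2.2.1 y.2.1 y.2.2.2 h
    exact Subtype.ext (Prod.ext e2 e1)
  have hr : ∀ k ∉ Set.range i, bb k = 0 := fun k hk =>
    bb_zero fun ⟨n, u, a, b, c, d⟩ => hk ⟨⟨(u, n), b, a, c⟩, d.symm⟩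
  refine ⟨eq h2, fun k => ?_, uniq h2, one, fun p m _ hp => ?_, fun p m hp pp' => ?_,
    fun p m hp pp' => ?_, cube, fun a b ha hb hab => ?_, fun k => ?_, fun s hs => ?_,
    fun f hf => ?_⟩
  · by_cases h : Rep k
    · exact Or.inr h
    · exact Or.inl (bb_zero h)
  · rw [← one_mul (p ^ (3 * m)), pp 1 p m h2.one hp, one, one_mul]
  · have h := eq h2 p 1 pp' h2.one hp.squarefree
    rw [pow_succ', pp p p m pp' pp']
    simp only [one_pow, mul_one, N1, ofReal_one] at h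
    rw [h]
  · rw [pow_add, mul_comm, pp _ p m (h2.pow p 2 pp') pp', bb_zero, zero_mul]
    rintro ⟨n, u, -, -, c, d⟩
    by_cases h : p ∣ u
    · obtain ⟨v, rfl⟩ := h
      refine hp.not_dvd_one ⟨n * v ^ 3, mul_left_cancel₀ (pow_ne_zero 2 hp.ne_zero) ?_⟩
      linear_combination d
    · have h3 : p ^ 2 ∣ n :=
        hp.pow_dvd_of_dvd_mul_right 2 (fun h' => h (hp.dvd_of_dvd_pow h')) (dvd_of_eq d)
      exact hp.not_isUnit (c p (by rwa [← sq]))
  · by_cases h : Rep a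
    · by_cases h' : Rep b
      · obtain ⟨n, u, a1, a2, a3, rfl⟩ := h
        obtain ⟨n', u', b1, b2, b3, rfl⟩ := h'
        have c1 : IsCoprime n n' := hab.of_mul_left_left.of_mul_right_left
        have c2 : IsCoprime n u' := hab.of_mul_left_left.of_isCoprime_of_dvd_right ⟨n' * u' ^ 2, by ring⟩
        have c3 : IsCoprime u (n' * u' ^ 3) := hab.of_isCoprime_of_dvd_left ⟨n * u ^ 2, by ring⟩
        rw [show n * u ^ 3 * (n' * u' ^ 3) = n * n' * (u * u') ^ 3 by ring,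
          eq h2 _ _ (h2.mul _ _ a1 b1) (h2.mul _ _ a2 b2)
            (squarefree_mul_iff.2 ⟨c1.isRelPrime, a3, b3⟩),
          eq h2 n u a1 a2 a3, eq h2 n' u' b1 b2 b3, hH.mul3 n n' a1 b1 c1,
          h6.mul_l _ _ _ (h2.cop _ hb), h6.pow_l _ _ _ (h2.cop _ hb), h6.cube _ _ c3,
          h6.mul_r _ _ _ (h2.ne _ b1) (pow_ne_zero _ (h2.ne _ b2)), h6.pow_r _ _ _ (h2.ne _ b2),
          h6.cube _ _ c2, h1.N_mul]
        push_cast
        ring
      · rw [bb_zero h', mul_zero, zero_mul]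
        exact bb_zero fun ⟨n, u, _, b2, c, d⟩ =>
          h' (rep_left h2 u b2 b a n hb hab.symm c (by rw [← d, mul_comm]))
    · rw [bb_zero h, zero_mul, zero_mul]
      exact bb_zero fun ⟨n, u, _, b2, c, d⟩ => h (rep_left h2 u b2 a b n ha hab c d)
  · by_cases h : Rep k
    · obtain ⟨n, u, a, b, c, rfl⟩ := h
      rw [ng n u a b c, h1.N_mul, h1.N_pow, Real.mul_rpow (N0 _) (pow_nonneg (N0 _) _),
        ← Real.rpow_natCast (N u) 3, ← Real.rpow_mul (N0 _), ← Real.rpow_natCast (N u) 2]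
      refine mul_le_mul (Real.rpow_le_rpow_of_exponent_le (h1.N_one_le n (h2.ne n a))
        (by norm_num)) (le_of_eq (by norm_num)) (Real.rpow_nonneg (N0 _) _)
        (Real.rpow_nonneg (N0 _) _)
    · rw [bb_zero h, norm_zero]
      exact Real.rpow_nonneg (N0 _) _
  · refine (hi.summable_iff (f := fun k => ‖bb k‖ * N k ^ (-s)) fun k hk => by
      simp only [hr k hk, norm_zero, zero_mul]).1 ?_
    have h3 := (hB.b3.summ (3 * s - 2) (by linarith)).mul_of_nonneg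
      (hB.b3.summ (s - 1 / 2) (by linarith)) (fun _ => Real.rpow_nonneg (N0 _) _)
      (fun _ => Real.rpow_nonneg (N0 _) _)
    refine (h3.subtype T).congr fun x => ?_
    obtain ⟨⟨u, n⟩, a, b, c⟩ := x
    have p1 : 0 < N u := lt_of_lt_of_le one_pos (h1.N_one_le u (h2.ne u a))
    have p2 : 0 < N n := lt_of_lt_of_le one_pos (h1.N_one_le n (h2.ne n b))
    show N u ^ (-(3 * s - 2)) * N n ^ (-(s - 1 / 2)) = ‖bb (n * u ^ 3)‖ * N (n * u ^ 3) ^ (-s)
    rw [ng n u b a c, h1.N_mul, h1.N_pow, Real.mul_rpow (N0 _) (pow_nonneg (N0 _) _),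
      ← Real.rpow_natCast (N u) 3, ← Real.rpow_mul (N0 _), ← Real.rpow_natCast (N u) 2,
      mul_mul_mul_comm, ← Real.rpow_add p1, ← Real.rpow_add p2, mul_comm]
    congr 2
    · ring
    · push_cast
      ring
  · let F : O × O → ℂ := fun x => gs x.2 * (N x.1 : ℂ) ^ 2 * f (x.2 * x.1 ^ 3)
    have e : ∀ x : T, bb (i x) * f (i x) = F x := fun x => by
      simp only [i, F, eq h2 _ _ x.2.2.1 x.2.1 x.2.2.2]
    have h3 : Summable (T.indicator F) :=
      summable_subtype_iff_indicator.1 ((hf.comp_injective hi).congr e)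
    rw [← hi.tsum_eq (f := fun k => bb k * f k) (fun k hk => by
      by_contra h
      exact hk (by simp only [hr k h, zero_mul])), tsum_congr e, tsum_subtype, h3.tsum_prod]
    refine tsum_congr fun u => tsum_congr fun n => ?_
    rw [Set.indicator_apply]
    rfl

end Vale.Agent.P026
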