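import Vale.Agent.P026.Stm2

noncomputable section
open Complex MeasureTheory Filter Topology
open scoped Classical ComplexConjugate

namespace Vale.Agent.P026

namespace CRUM

theorem norm_ang (J : ℤ) (z : ℂ) : ‖ang J z‖ ≤ 1 := by
  unfold ang
  by_cases h : z = 0
  · subst h
    rw [zero_div, norm_zpow, norm_zero]
    by_cases c : J = 0
    · simp [c]
    · simp [zero_zpow J c]
  · rw [norm_zpow, norm_div, norm_real, norm_norm, div_self (norm_ne_zero_iff.2 h), one_zpow]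

theorem n3 (s : ℂ) : ‖(3 : ℂ) ^ s‖ = 3 ^ s.re := by
  simpa using norm_cpow_eq_rpow_re_of_pos (x := 3) (by norm_num) s

theorem gauss_int : Integrable fun u : ℝ => Real.exp (-(1 / 4) * u ^ 2) * (1 + |u|) ^ 4 := by
  have h0 := integrable_exp_neg_mul_sq (b := 1 / 4) (by norm_num)
  have h4 := integrable_rpow_mul_exp_neg_mul_sq (b := 1 / 4) (by norm_num) (s := 4) (by norm_num)
  refine ((h0.add h4).const_mul 8).mono' (by fun_prop) (.of_forall fun u => ?_)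
  rw [Real.norm_of_nonneg (by positivity), Pi.add_apply, Real.rpow_ofNat,
    show u ^ 4 = |u| ^ 4 by rw [← abs_pow, abs_of_nonneg (by positivity)]]
  have : (1 + |u|) ^ 4 ≤ 8 * (1 + |u| ^ 4) := by
    nlinarith [sq_nonneg (|u| - 1), sq_nonneg (|u| ^ 2 - 1), sq_nonneg (|u| + 1),
      mul_nonneg (sq_nonneg (|u| - 1)) (sq_nonneg (|u| + 1)),
      mul_nonneg (sq_nonneg (|u| - 1)) (sq_nonneg |u|), abs_nonneg u,
      mul_nonneg (sq_nonneg (|u| - 1)) (abs_nonneg u)]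
  nlinarith [mul_le_mul_of_nonneg_left this (Real.exp_pos (-(1 / 4) * u ^ 2)).le]

variable (hB : Bas)
include hB

theorem Ds_le (hb : BB) (J : ℤ) (r h a : O) (t : ℝ) :
    ‖Ds J r h a (3 / 2 - t * I)‖ ≤ ∑' k, ‖bb k‖ * N k ^ (-2 : ℝ) := by
  refine tsum_of_norm_bounded (hb.summ 2 (by norm_num)).hasSum fun k => ?_
  have h0 : 0 ≤ N k := Nat.cast_nonneg _
  split_ifs
  · have e : (-(1 / 2 + (3 / 2 - t * I)) : ℂ).re = -2 := by norm_num
    rw [norm_mul, norm_mul, norm_mul, norm_cpow_eq_rpow_re_of_nonneg h0 (by rw [e]; norm_num), e,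
      eQ, hB.b1.norm_psi, mul_one]
    gcongr
    exact mul_le_of_le_one_right (norm_nonneg _) (norm_ang _ _)
  · rw [norm_zero]
    positivity

theorem dl_le {h : O} {Ψ : O → ℂ} (hc : Cf h Ψ) (m : O) :
    ∑ b ∈ Rs h, ‖dl h Ψ m b‖ ≤ ∑ a ∈ Rs h, ‖Ψ a‖ := by
  refine (Finset.sum_le_sum fun b _ => norm_sum_le _ _).trans ?_
  rw [Finset.sum_comm]
  refine Finset.sum_le_sum fun a _ => ?_
  by_cases c : IsCoprime a h
  · simp only [apply_ite norm, norm_zero]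
    rw [← Finset.sum_filter, Finset.sum_const, nsmul_eq_mul, norm_mul, hB.b6.norm a h c, mul_one]
    refine mul_le_of_le_one_left (norm_nonneg _) (Nat.cast_le_one.2 (Finset.card_le_one.2 ?_))
    intro b hb b' hb'
    rw [Finset.mem_filter] at hb hb'
    have h1 : IsCoprime h lam := (hB.b1.prime_lam.coprime_iff_not_dvd.2
      ((hB.b2.cop_iff h).1 (hB.b2.cop h hc.1))).symm
    refine hB.b4.uniq h b b' (hB.b2.ne h hc.1) hb.1 hb'.1
      (((h1.pow_right (n := 18)).mul_right c.symm).dvd_of_dvd_mul_left ?_)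
    simpa [mul_sub] using hb.2.sub hb'.2
  · simp [hc.2.2 a c]

theorem WW_le {C : ℝ} (hC : ∀ t : ℝ, ‖gg (-1 / 2 + t * I)‖ ≤ C * (1 + |t|) ^ 4) {h : O}
    (hh : h ≠ 0) {Y : ℝ} (hY : 0 < Y) (t0 t : ℝ) (i n v : ℕ) :
    ‖WW h Y (1 / 2 + t0 * I) i n v (-1 / 2 + t * I)‖ ≤
      Real.exp 1 * C * 3 ^ 9 * (N h ^ 2 / Y) * (1 + |t0|) ^ 4 * (2⁻¹ ^ i * 2⁻¹ ^ n) *
        (Real.exp (-(1 / 4) * (t - t0) ^ 2) * (1 + |t - t0|) ^ 4) := by
  have h1 : 0 < N h := one_pos.trans_le (hB.b1.N_one_le h hh)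
  have hC0 : 0 ≤ C := by simpa using (norm_nonneg _).trans (hC 0)
  have e1 : (((-1 / 2 + t * I) - (1 / 2 + t0 * I)) ^ 2 / 4 : ℂ).re =
      1 / 4 + -(1 / 4) * (t - t0) ^ 2 := by
    simp [pow_two]
    ring
  have e2 : ((-1 / 2 + t * I) - (1 / 2 + t0 * I) : ℂ).re = -1 := by norm_num
  have e3 : (1 - 2 * (-1 / 2 + t * I) : ℂ).re = (2 : ℕ) := by norm_num
  have e4 : (-18 * (-1 / 2 + t * I) : ℂ).re = (9 : ℕ) := by norm_num
  have e5 : (i * ((-1 / 2 + t * I) - 3 / 2) : ℂ).re = -2 * i := by simp; ring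
  have e6 : (n * ((-1 / 2 + t * I) - 1 / 2) : ℂ).re = -1 * n := by simp; ring
  have e7 : (v * (2 * (-1 / 2 + t * I) - 1) : ℂ).re = -2 * v := by simp; ring
  simp only [WW, norm_mul, n3, norm_exp, norm_cpow_eq_rpow_re_of_pos hY,
    norm_cpow_eq_rpow_re_of_pos h1, e1, e2, e3, e4, e5, e6, e7, Real.rpow_natCast,
    Real.rpow_neg_one, Real.exp_add]
  have k : ∀ (a : ℝ) (m : ℕ), a ≤ -1 → (3 : ℝ) ^ (a * m) ≤ 2⁻¹ ^ m := fun a m ha => by
    rw [Real.rpow_mul (by norm_num), Real.rpow_natCast]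
    refine pow_le_pow_left₀ (by positivity) ((Real.rpow_le_rpow_of_exponent_le (by norm_num)
      ha).trans ?_) m
    rw [Real.rpow_neg_one]
    norm_num
  have k1 : (3 : ℝ) ^ (-2 * v : ℝ) ≤ 1 :=
    (k _ v (by norm_num)).trans (pow_le_one₀ (by norm_num) (by norm_num))
  have k2 : 1 + |t| ≤ (1 + |t0|) * (1 + |t - t0|) := by
    have := abs_add_le t0 (t - t0)
    rw [add_sub_cancel] at this
    nlinarith [mul_nonneg (abs_nonneg t0) (abs_nonneg (t - t0))]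
  calc _ ≤ Real.exp 1 * Real.exp (-(1 / 4) * (t - t0) ^ 2) * Y⁻¹ *
        (C * ((1 + |t0|) * (1 + |t - t0|)) ^ 4) * N h ^ 2 * 3 ^ 9 * 2⁻¹ ^ i * 2⁻¹ ^ n * 1 := by
        gcongr
        · norm_num
        · exact (hC t).trans (by gcongr)
        · exact k _ i (by norm_num)
        · exact k _ n le_rfl
    _ = _ := by ring

end CRUM

open CRUM

theorem cruS (hB : Bas) (hb : BB) (hV : VIStmt) (hG : GAM) : CRUStmt := by
  obtain ⟨K, hK, hV⟩ := hV
  obtain ⟨C, hC⟩ := hG.lm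
  have hC0 : 0 ≤ C := by simpa using (norm_nonneg _).trans (hC 0)
  set D := ∑' k, ‖bb k‖ * N k ^ (-2 : ℝ) with hD
  have hD0 : 0 ≤ D := (norm_nonneg _).trans (Ds_le hB hb 0 0 0 0 0)
  set A := ∫ u : ℝ, Real.exp (-(1 / 4) * u ^ 2) * (1 + |u|) ^ 4 with hA
  have hA0 : 0 ≤ A := integral_nonneg fun u => by positivity
  set c : ℕ := 7 * (U6.card * (Rs 27).card) with hc
  refine ⟨K * (c * (Real.exp 1 * C * 3 ^ 9 * D * A) * 2 * 2), fun J r h Ψ Y t0 hJ hf hY => ?_⟩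
  set S := ∑ a ∈ Rs h, ‖Ψ a‖ with hS
  have hS0 : 0 ≤ S := Finset.sum_nonneg fun _ _ => norm_nonneg _
  set M := Real.exp 1 * C * 3 ^ 9 * D * A * S * (N h ^ 2 / Y) * (1 + |t0|) ^ 4 with hM
  have hM0 : 0 ≤ M := by positivity
  have k1 : ∀ (i n v : ℕ) (m r' : O), ‖∫ t : ℝ, WW h Y (1 / 2 + t0 * I) i n v (-1 / 2 + t * I) *
      DP (-J) r' h (dl h Ψ m) (3 / 2 - t * I)‖ₑ ≤ ENNReal.ofReal M * 2⁻¹ ^ i * 2⁻¹ ^ n := by
    intro i n v m r'
    have k2 : ∀ t : ℝ, ‖DP (-J) r' h (dl h Ψ m) (3 / 2 - t * I)‖ ≤ S * D := fun t => by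
      refine (norm_sum_le _ _).trans ((Finset.sum_le_sum fun b _ => (norm_mul_le _ _).trans
        (mul_le_mul_of_nonneg_left (Ds_le hB hb _ _ _ _ t) (norm_nonneg _))).trans ?_)
      rw [← Finset.sum_mul]
      exact mul_le_mul_of_nonneg_right (dl_le hB hf m) hD0
    have k3 := norm_integral_le_of_norm_le (((gauss_int.comp_sub_right t0).const_mul
      (Real.exp 1 * C * 3 ^ 9 * (N h ^ 2 / Y) * (1 + |t0|) ^ 4 * (2⁻¹ ^ i * 2⁻¹ ^ n))).mul_const
        (S * D)) (.of_forall fun t => (norm_mul_le _ _).trans (mul_le_mul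
          (WW_le hB hC (hB.b2.ne h hf.1) hY t0 t i n v) (k2 t) (norm_nonneg _) (by positivity)))
    rw [integral_mul_const, integral_const_mul, integral_sub_right_eq_self
      (fun u : ℝ => Real.exp (-(1 / 4) * u ^ 2) * (1 + |u|) ^ 4), ← hA] at k3
    rw [← ofReal_norm]
    refine (ENNReal.ofReal_le_ofReal (k3.trans (le_of_eq
      (by rw [hM]; ring : _ = M * 2⁻¹ ^ i * 2⁻¹ ^ n)))).trans (le_of_eq ?_)
    rw [ENNReal.ofReal_mul (by positivity), ENNReal.ofReal_mul hM0, ENNReal.ofReal_pow (by norm_num),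
      ENNReal.ofReal_pow (by norm_num), ENNReal.ofReal_inv_of_pos two_pos, ENNReal.ofReal_ofNat]
  have k4 := (hV J r h Ψ Y t0 hJ hf hY).trans (mul_le_mul_right (ENNReal.tsum_le_tsum fun i =>
    ENNReal.tsum_le_tsum fun n => Finset.sum_le_sum fun v _ => Finset.sum_le_sum fun e _ =>
      Finset.sum_le_sum fun r' _ => k1 i n v _ r') _)
  simp only [Finset.sum_const, nsmul_eq_mul, ENNReal.tsum_mul_left, ENNReal.tsum_mul_right,
    ENNReal.tsum_geometric_two, Finset.card_range] at k4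
  rw [← ofReal_norm] at k4
  refine (ENNReal.ofReal_le_ofReal_iff (by positivity)).1 (k4.trans (le_of_eq ?_))
  rw [show K * (c * (Real.exp 1 * C * 3 ^ 9 * D * A) * 2 * 2) * S * (N h ^ 2 / Y) * (1 + |t0|) ^ 4 =
    K * (c * (M * 2 * 2)) by rw [hM]; ring, ENNReal.ofReal_mul hK, ENNReal.ofReal_mul (Nat.cast_nonneg c),
    ENNReal.ofReal_mul (mul_nonneg hM0 zero_le_two), ENNReal.ofReal_mul hM0, ENNReal.ofReal_natCast,
    ENNReal.ofReal_ofNat, hc]
  push_cast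
  ring

end Vale.Agent.P026
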