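import Vale.Agent.P026.M.KK

/-! P026, module FE, part 1: the theta series as sums over `O`. -/

noncomputable section
open Complex MeasureTheory Filter Topology
open scoped Classical ComplexConjugate

namespace Vale.Agent.P026

namespace FEM

def xx (m : ℝ) (d : O) : ℝ := if d = 0 then 1 else ‖toC d‖ / (729 * m)

def AA (ν : O → O → O → ℂ) (z : ℂ) (J : ℤ) (w : ℂ) (d : O) : ℂ :=
  if d = 0 then 0 else psi (z * toC d / 729) * Av ν d * ang J (toC d * w) * (‖toC d‖ : ℂ)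

theorem ang_mul (J : ℤ) (a b : ℂ) : ang J (a * b) = ang J a * ang J b := by
  rw [ang, ang, ang, norm_mul, ofReal_mul, mul_div_mul_comm, mul_zpow]

theorem ang_pos (J : ℤ) {t : ℝ} (ht : 0 < t) : ang J t = 1 := by
  rw [ang, norm_real, Real.norm_of_nonneg ht.le, div_self (ofReal_ne_zero.2 ht.ne'), one_zpow]

theorem norm_ang (J : ℤ) {z : ℂ} (hz : z ≠ 0) : ‖ang J z‖ = 1 := by
  rw [ang, norm_zpow, norm_div, norm_real, norm_norm, div_self (norm_ne_zero_iff.2 hz), one_zpow]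

theorem cp {x : ℝ} (hx : 0 < x) (s : ℂ) : (x : ℂ) ^ s = cexp (Real.log x * s) := by
  rw [cpow_def_of_ne_zero (ofReal_ne_zero.2 hx.ne'), ofReal_log hx.le]

theorem cp3 (s : ℂ) : (3 : ℂ) ^ s = cexp (Real.log 3 * s) := by
  simpa using cp (x := 3) (by norm_num) s

theorem toC_ne (hB : Bas) {d : O} (hd : d ≠ 0) : toC d ≠ 0 :=
  fun h => hd (hB.b1.inj (h.trans (map_zero toC).symm))

theorem xx_pos (hB : Bas) {m : ℝ} (hm : 0 < m) (d : O) : 0 < xx m d := by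
  rw [xx]
  split_ifs with h
  · exact one_pos
  · have := norm_pos_iff.2 (toC_ne hB h)
    positivity

theorem ne3 (hB : Bas) {e D : O} (k : ℕ) (he : IsUnit e) (hD : D ≠ 0) : e * lam ^ k * D ≠ 0 :=
  mul_ne_zero (mul_ne_zero he.ne_zero (pow_ne_zero _ hB.b1.prime_lam.ne_zero)) hD

theorem logN (hB : Bas) (D : O) : Real.log (N D) = 2 * Real.log ‖toC D‖ := by
  rw [hB.b1.N_eq, Real.log_pow]
  norm_num

theorem log3 (hB : Bas) {e D : O} (k : ℕ) (he : IsUnit e) (hD : D ≠ 0) :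
    Real.log ‖toC (e * lam ^ k * D)‖ = k / 2 * Real.log 3 + Real.log (N D) / 2 := by
  have h1 : N e = 1 := by rw [N, (hB.b1.unit_iff e).1 he, Nat.cast_one]
  have h2 : N lam = 3 := by rw [N, hB.b1.N_lam]; norm_num
  have h3 := logN hB (e * lam ^ k * D)
  have h4 := hB.b1.N_one_le D hD
  rw [hB.b1.N_mul, hB.b1.N_mul, hB.b1.N_pow, h1, h2, one_mul,
    Real.log_mul (by positivity) (by positivity), Real.log_pow] at h3
  linarith

theorem logx (hB : Bas) {e D : O} (k : ℕ) (he : IsUnit e) (hD : D ≠ 0) {m : ℝ} (hm : 0 < m) :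
    Real.log (xx m (e * lam ^ k * D)) =
      k / 2 * Real.log 3 + Real.log (N D) / 2 - 6 * Real.log 3 - Real.log m := by
  have h := norm_pos_iff.2 (toC_ne hB (ne3 hB k he hD))
  rw [xx, if_neg (ne3 hB k he hD), Real.log_div h.ne' (by positivity),
    Real.log_mul (by norm_num) hm.ne', log3 hB k he hD, show (729 : ℝ) = 3 ^ 6 by norm_num,
    Real.log_pow]
  push_cast
  ring

theorem pw (hB : Bas) {e D : O} (k : ℕ) (he : IsUnit e) (hD : D ≠ 0) {m : ℝ} (hm : 0 < m)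
    (s : ℂ) : (‖toC (e * lam ^ k * D)‖ : ℂ) * (xx m (e * lam ^ k * D) : ℂ) ^ (-2 * s) / N D =
      3 ^ (k / 2 + 12 * s - k * s) * (m : ℂ) ^ (2 * s) * (N D : ℂ) ^ (-(1 / 2 + s)) := by
  have h := norm_pos_iff.2 (toC_ne hB (ne3 hB k he hD))
  have h4 : 0 < N D := lt_of_lt_of_le one_pos (hB.b1.N_one_le D hD)
  rw [← cpow_one (‖toC (e * lam ^ k * D)‖ : ℂ), div_eq_mul_inv, ← cpow_neg_one, cp h,
    cp (xx_pos hB hm _), cp h4, cp h4, cp hm, cp3, log3 hB k he hD, logx hB k he hD hm]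
  simp only [← Complex.exp_add]
  congr 1
  push_cast
  ring

theorem pwR (hB : Bas) {e D : O} (k : ℕ) (he : IsUnit e) (hD : D ≠ 0) {m : ℝ} (hm : 0 < m)
    (σ : ℝ) : ‖toC (e * lam ^ k * D)‖ * xx m (e * lam ^ k * D) ^ (-2 * σ) / N D =
      ((3 : ℝ) ^ (1 / 2 - σ)) ^ k * ((3 : ℝ) ^ (12 * σ) * m ^ (2 * σ) * N D ^ (-(1 / 2 + σ))) := by
  have h := norm_pos_iff.2 (toC_ne hB (ne3 hB k he hD))
  have h4 : 0 < N D := lt_of_lt_of_le one_pos (hB.b1.N_one_le D hD)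
  rw [← Real.rpow_mul_natCast (by norm_num), ← Real.rpow_one ‖toC (e * lam ^ k * D)‖,
    div_eq_mul_inv, ← Real.rpow_neg_one]
  simp only [Real.rpow_def_of_pos h, Real.rpow_def_of_pos (xx_pos hB hm _),
    Real.rpow_def_of_pos h4, Real.rpow_def_of_pos hm,
    Real.rpow_def_of_pos (show (0 : ℝ) < 3 by norm_num), log3 hB k he hD, logx hB k he hD hm,
    ← Real.exp_add]
  congr 1
  ring

theorem summ_dec (hB : Bas) (f : O → ℝ) (hf : ∀ d, 0 ≤ f d) (h0 : f 0 = 0) (w : ℕ → ℝ)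
    (G : O → ℝ) (hw : Summable w) (hG : Summable G) (hw0 : 0 ≤ w) (hG0 : 0 ≤ G)
    (h : ∀ e v D, IsUnit e → Prim D → f (e * lam ^ v * D) ≤ w v * G D) : Summable f := by
  have h1 : ∀ d : O, ∃ q : {e // e ∈ U6} × ℕ × O, q.1 * lam ^ q.2.1 * q.2.2 = d ∧
      f d ≤ 1 * (w q.2.1 * G q.2.2) := fun d => by
    by_cases hd : d = 0
    · exact ⟨(⟨1, by simp [U6]⟩, 0, 0), by simp [hd], by
        rw [hd, h0, one_mul]; exact mul_nonneg (hw0 _) (hG0 _)⟩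
    · obtain ⟨e, v, D, he, hD, rfl⟩ := hB.b2.dec d hd
      exact ⟨(⟨e, (hB.b1.units e).1 he⟩, v, D), rfl, by rw [one_mul]; exact h e v D he hD⟩
  choose q hq hq' using h1
  have h2 := (Summable.of_finite (f := fun _ : {e // e ∈ U6} => (1 : ℝ))).mul_of_nonneg
    (hw.mul_of_nonneg hG hw0 hG0) (fun _ => zero_le_one) fun x => mul_nonneg (hw0 _) (hG0 _)
  exact Summable.of_nonneg_of_le hf hq' (h2.comp_injective fun a b hab => by
    rw [← hq a, hab, hq b])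

theorem summA (hB : Bas) (hb : BB) (hA1 : AV1Stmt) {ν : O → O → O → ℂ} (hν : Nu ν) (z : ℂ)
    (J : ℤ) {w : ℂ} (hw : w ≠ 0) {m : ℝ} (hm : 0 < m) (σ : ℝ) (hσ : 1 < σ) :
    Summable fun d => ‖AA ν z J w d‖ * xx m d ^ (-2 * σ) := by
  obtain ⟨A, hA, -, hA'⟩ := hA1 ν hν
  refine summ_dec hB _ (fun d => mul_nonneg (norm_nonneg _) (Real.rpow_nonneg
    (xx_pos hB hm d).le _)) (by simp [AA]) (fun k => ((3 : ℝ) ^ (1 / 2 - σ)) ^ k)
    (fun D => 2 * 3 ^ 16 * ((3 : ℝ) ^ (12 * σ) * m ^ (2 * σ)) * (‖bb D‖ * N D ^ (-(1 / 2 + σ))))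
    (summable_geometric_of_lt_one (by positivity)
      (Real.rpow_lt_one_of_one_lt_of_neg (by norm_num) (by linarith)))
    ((hb.summ _ (by linarith)).mul_left _) (fun _ => by positivity) (fun D => ?_)
    fun e v D he hD => ?_
  · have : 0 ≤ N D := Nat.cast_nonneg _
    positivity
  have h0 := hB.b2.ne D hD
  have hN : 0 ≤ N D := Nat.cast_nonneg _
  have h1 := pwR hB v he h0 hm σ
  rw [AA, if_neg (ne3 hB v he h0), hA' e v D he hD]
  simp only [norm_mul, hB.b1.norm_psi, norm_ang J (mul_ne_zero (toC_ne hB (ne3 hB v he h0)) hw),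
    norm_div, norm_real, norm_norm, Real.norm_of_nonneg hN]
  calc _ = ‖A e v D‖ * (‖bb D‖ * (‖toC (e * lam ^ v * D)‖ *
        xx m (e * lam ^ v * D) ^ (-2 * σ) / N D)) := by ring
    _ ≤ 2 * 3 ^ 16 * (‖bb D‖ * (‖toC (e * lam ^ v * D)‖ *
        xx m (e * lam ^ v * D) ^ (-2 * σ) / N D)) := by
      have := xx_pos hB hm (e * lam ^ v * D)
      gcongr
      exact hA e v D
    _ = _ := by rw [h1]; ring

theorem summD {ι : Type} {A : ι → ℂ} {x : ι → ℝ} (hx : ∀ i, 0 < x i)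
    (h : ∀ σ : ℝ, 1 < σ → Summable fun i => ‖A i‖ * x i ^ (-2 * σ)) {s : ℂ} (hs : 1 < s.re) :
    Summable fun i => ‖A i * (x i : ℂ) ^ (-2 * s)‖ := by
  simpa [norm_cpow_eq_rpow_re_of_pos (hx _)] using h s.re hs

theorem summT {ι : Type} {A : ι → ℂ} {x : ι → ℝ} (hx : ∀ i, 0 < x i)
    (h : ∀ σ : ℝ, 1 < σ → Summable fun i => ‖A i‖ * x i ^ (-2 * σ)) {y : ℝ} (hy : 0 < y) :
    Summable fun i => ‖A i * ((x i ^ (-1 / 3 : ℝ) * kk (y * x i) : ℝ) : ℂ)‖ := by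
  obtain ⟨C, hC⟩ := kkS.dec (8 / 3) (by norm_num)
  refine Summable.of_nonneg_of_le (fun _ => norm_nonneg _) (fun i => ?_)
    ((h (3 / 2) (by norm_num)).mul_left (C * y ^ (-(8 / 3) : ℝ)))
  have h0 := hx i
  have h1 := kkS.nonneg _ (mul_pos hy h0)
  rw [norm_mul, norm_real, Real.norm_of_nonneg (by positivity),
    show (-2 * (3 / 2) : ℝ) = -1 / 3 + -(8 / 3) by norm_num, Real.rpow_add h0]
  calc _ ≤ ‖A i‖ * (x i ^ (-1 / 3 : ℝ) * (C * (y * x i) ^ (-(8 / 3) : ℝ))) := by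
        gcongr
        exact hC _ (mul_pos hy h0)
    _ = _ := by rw [Real.mul_rpow hy.le h0.le]; ring

theorem tsum_fp {α : Type} (S : Finset α) (f : α → O → ℂ)
    (h : ∀ a ∈ S, Summable fun d => ‖f a d‖) :
    ∑' q : {a // a ∈ S} × O, f q.1 q.2 = ∑ a ∈ S, ∑' d, f a d := by
  have h1 : Summable fun q : {a // a ∈ S} × O => ‖f q.1 q.2‖ :=
    (summable_prod_of_nonneg fun _ => norm_nonneg _).2 ⟨fun a => h a a.2, Summable.of_finite⟩
  rw [h1.of_norm.tsum_prod, ← Finset.tsum_subtype S fun a => ∑' d, f a d]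

theorem theta (hB : Bas) {c0 : ℂ} (hK : ∀ (j : ℤ) (m1 m2 d : ℂ), j = 1 ∨ j = -1 → m1 ≠ 0 →
    m2 ≠ 0 → d ≠ 0 → K0 (fun C => Gj (-j) (C / m1)) (fun E => Gj j (E / m2)) d =
      j * c0 * ang (-j) (d * m2 / m1) * ((‖d‖ ^ (2 / 3 : ℝ) * ‖m1‖ ^ (2 / 3 : ℝ) * ‖m2‖ ^ 2 *
        kk (‖d‖ * ‖m2‖ / (729 * ‖m1‖)) : ℝ) : ℂ))
    (ν : O → O → O → ℂ) (z : ℂ) (j : ℤ) (m1 m2 w : ℂ) (t m y : ℝ) (hj : j = 1 ∨ j = -1)
    (h1 : m1 ≠ 0) (h2 : m2 ≠ 0) (ht : 0 < t) (hm : 0 < m) (hw : m2 / m1 = w * t)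
    (hy : ‖m2‖ / ‖m1‖ = y / m) :
    Theta ν z (K0 (fun C => Gj (-j) (C / m1)) (fun E => Gj j (E / m2))) =
      j * c0 * ((‖m1‖ ^ (2 / 3 : ℝ) * ‖m2‖ ^ 2 * m ^ (-1 / 3 : ℝ) / 9 : ℝ) : ℂ) *
        Th (AA ν z (-j) w) (xx m) y := by
  rw [Theta, Th, ← tsum_mul_left]
  refine tsum_congr fun d => ?_
  rw [AA, xx]
  split_ifs with hd
  · simp
  have h3 := norm_pos_iff.2 (toC_ne hB hd)
  have h4 : ‖toC d‖ ^ (2 / 3 : ℝ) =
      ‖toC d‖ * (m ^ (-1 / 3 : ℝ) / 9) * (‖toC d‖ / (729 * m)) ^ (-1 / 3 : ℝ) := by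
    rw [Real.div_rpow h3.le (by positivity), Real.mul_rpow (by norm_num) hm.le,
      show (2 / 3 : ℝ) = 1 + -1 / 3 by norm_num, Real.rpow_add h3, Real.rpow_one,
      show (729 : ℝ) = 9 ^ (3 : ℝ) by norm_num, ← Real.rpow_mul (by norm_num),
      show (3 * (-1 / 3) : ℝ) = -1 by norm_num, Real.rpow_neg_one]
    have := Real.rpow_pos_of_pos hm (-1 / 3 : ℝ)
    field_simp
  rw [hK j m1 m2 _ hj h1 h2 (toC_ne hB hd), mul_div_assoc (toC d) m2, hw, ← mul_assoc (toC d),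
    ang_mul _ _ t, ang_pos _ ht, h4,
    show ‖toC d‖ * ‖m2‖ / (729 * ‖m1‖) = y * (‖toC d‖ / (729 * m)) by
      rw [mul_div_mul_comm, hy]; ring]
  push_cast
  ring

end FEM

end Vale.Agent.P026
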