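import Vale.Agent.P026.Stm2

/-! Functional equation, part 1: the coefficient families. -/

noncomputable section
open Complex MeasureTheory Filter Topology
open scoped Classical ComplexConjugate

namespace Vale.Agent.P026.FEM

theorem ang_mul (j : ℤ) (a b : ℂ) : ang j (a * b) = ang j a * ang j b := by
  simp only [ang, norm_mul]; push_cast; rw [← mul_zpow, mul_div_mul_comm]

theorem ang_pos (j : ℤ) {y : ℝ} (hy : 0 < y) : ang j y = 1 := by
  simp [ang, abs_of_pos hy, hy.ne']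

theorem ang_one (j : ℤ) {z : ℂ} (hz : z ≠ 0) : ‖ang j z‖ = 1 := by
  simp [ang, norm_zpow, hz]

theorem ang_le (j : ℤ) (z : ℂ) : ‖ang j z‖ ≤ 1 := by
  by_cases hz : z = 0
  · by_cases hj : j = 0 <;> simp [ang, hz, hj, zero_zpow]
  · exact (ang_one j hz).le

theorem pw {x : ℝ} (hx : 0 < x) (w : ℂ) : (x : ℂ) ^ w = cexp (w * Real.log x) := by
  rw [cpow_def_of_ne_zero (by exact_mod_cast hx.ne'), ofReal_log hx.le, mul_comm]

theorem pw3 (w : ℂ) : (3 : ℂ) ^ w = cexp (w * Real.log 3) := by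
  exact_mod_cast pw (x := 3) (by norm_num) w

theorem ex {x : ℝ} (hx : 0 < x) : (x : ℂ) = cexp (Real.log x) := by
  rw [← ofReal_exp, Real.exp_log hx]

theorem scal {P m : ℝ} (n : ℕ) (w : ℂ) (hP : 0 < P) (hm : 0 < m) :
    ((81 * (Real.sqrt 3 ^ n * P / (729 * m)) : ℝ) : ℂ) *
      ((Real.sqrt 3 ^ n * P / (729 * m) : ℝ) : ℂ) ^ (-2 * w) / ((P ^ 2 : ℝ) : ℂ) =
    3 ^ (12 * w - 2) * 3 ^ (n * (1 / 2 - w)) * (m : ℂ) ^ (2 * w - 1) *
      ((P ^ 2 : ℝ) : ℂ) ^ (-(1 / 2 + w)) := by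
  have hq : Real.log (Real.sqrt 3 ^ n * P / (729 * m)) =
      n * (Real.log 3 / 2) + Real.log P - (6 * Real.log 3 + Real.log m) := by
    rw [Real.log_div (by positivity) (by positivity), Real.log_mul (by positivity) hP.ne',
      Real.log_mul (by norm_num) hm.ne', Real.log_pow, Real.log_sqrt (by norm_num),
      show (729 : ℝ) = 3 ^ 6 by norm_num, Real.log_pow]
    norm_num
  rw [pw (by positivity), pw hm, pw (x := P ^ 2) (by positivity), pw3, pw3,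
    ex (x := 81 * _) (by positivity), ex (x := P ^ 2) (by positivity),
    Real.log_mul (by norm_num) (by positivity), hq, show (81 : ℝ) = 3 ^ 4 by norm_num, Real.log_pow,
    Real.log_pow, ← exp_add, ← exp_sub, ← exp_add, ← exp_add, ← exp_add]
  congr 1
  push_cast
  ring

def xx (m : ℝ) (d : O) : ℝ := if d = 0 then 1 else ‖toC d‖ / (729 * m)

def AA (ν : O → O → O → ℂ) (z : ℂ) (J : ℤ) (m : ℝ) (d : O) : ℂ :=
  if d = 0 then 0 else psi (z * toC d / 729) * Av ν d * ang J (toC d) * ((81 * xx m d : ℝ) : ℂ)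

theorem ne0 (hB : Bas) {d : O} (h : d ≠ 0) : toC d ≠ 0 :=
  fun k => h (hB.b1.inj (k.trans (map_zero _).symm))

theorem xx_pos (hB : Bas) {m : ℝ} (hm : 0 < m) (d : O) : 0 < xx m d := by
  unfold xx
  split_ifs with h
  · exact one_pos
  · have := norm_pos_iff.2 (ne0 hB h); positivity

theorem n_unit (hB : Bas) {e : O} (he : IsUnit e) : ‖toC e‖ = 1 := by
  have := hB.b1.N_eq e
  rw [N, (hB.b1.unit_iff e).1 he] at this
  rw [← sq_eq_sq₀ (norm_nonneg _) zero_le_one, ← this]; simp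

theorem n_lam (hB : Bas) : ‖toC lam‖ = Real.sqrt 3 := by simp [hB.b1.toC_lam]

theorem theta {c0 : ℂ} (hB : Bas) (hK : ∀ (j : ℤ) (m1 m2 d : ℂ), j = 1 ∨ j = -1 → m1 ≠ 0 → m2 ≠ 0 →
    d ≠ 0 → K0 (fun C => Gj (-j) (C / m1)) (fun E => Gj j (E / m2)) d = j * c0 * ang (-j) (d * m2 / m1) *
      ((‖d‖ ^ (2 / 3 : ℝ) * ‖m1‖ ^ (2 / 3 : ℝ) * ‖m2‖ ^ 2 * kk (‖d‖ * ‖m2‖ / (729 * ‖m1‖)) : ℝ) : ℂ))
    (ν : O → O → O → ℂ) (z : ℂ) (j : ℤ) (m1 m2 : ℂ) (m y : ℝ) (hj : j = 1 ∨ j = -1) (h1 : m1 ≠ 0)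
    (h2 : m2 ≠ 0) (hm : 0 < m) (hy : ‖m2‖ / ‖m1‖ = y / m) :
    Theta ν z (K0 (fun C => Gj (-j) (C / m1)) fun E => Gj j (E / m2)) =
      j * c0 * ang (-j) (m2 / m1) * (((‖m1‖ * m) ^ (2 / 3 : ℝ) * ‖m2‖ ^ 2 : ℝ) : ℂ) *
        Th (AA ν z (-j) m) (xx m) y := by
  rw [Theta, Th, ← tsum_mul_left]
  refine tsum_congr fun d => ?_
  by_cases hd : d = 0
  · simp [AA, hd]
  have h3 := norm_pos_iff.2 (ne0 hB hd)
  have h4 := norm_pos_iff.2 h1
  have e1 : ‖toC d‖ * ‖m2‖ / (729 * ‖m1‖) = y * xx m d := by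
    rw [xx, if_neg hd, mul_div_mul_comm, hy]; ring
  have e2 : ‖toC d‖ ^ (2 / 3 : ℝ) * ‖m1‖ ^ (2 / 3 : ℝ) =
      (‖m1‖ * m) ^ (2 / 3 : ℝ) * (81 * xx m d * xx m d ^ (-1 / 3 : ℝ)) := by
    have hx := xx_pos hB hm d
    rw [mul_assoc 81, ← Real.rpow_one_add' hx.le (by norm_num), show (81 : ℝ) = 729 ^ (2 / 3 : ℝ) by
      rw [show (729 : ℝ) = 9 ^ (3 : ℝ) by norm_num, ← Real.rpow_mul (by norm_num)]; norm_num,
      show (1 + -1 / 3 : ℝ) = 2 / 3 by norm_num, ← Real.mul_rpow (by norm_num) hx.le,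
      ← Real.mul_rpow (by positivity) (by positivity), ← Real.mul_rpow (by positivity) (by positivity),
      xx, if_neg hd]
    congr 1
    field_simp
  rw [if_neg hd, hK j m1 m2 _ hj h1 h2 (ne0 hB hd), e1, e2, mul_div_assoc _ m2, ang_mul, AA, if_neg hd]
  push_cast
  ring

theorem term (hB : Bas) (ν : O → O → O → ℂ) (z : ℂ) (J : ℤ) {m : ℝ} (hm : 0 < m) {e D : O} (n : ℕ)
    (w c : ℂ) (he : IsUnit e) (hD : D ≠ 0) (hA : Av ν (e * lam ^ n * D) = c * (bb D / N D)) :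
    AA ν z J m (e * lam ^ n * D) * (xx m (e * lam ^ n * D) : ℂ) ^ (-2 * w) =
      c * ang J (toC (e * lam ^ n)) * (3 ^ (12 * w - 2) * 3 ^ (n * (1 / 2 - w)) * (m : ℂ) ^ (2 * w - 1)) *
        (bb D * ang J (toC D) * psi (z * toC (e * lam ^ n * D) / 729) * (N D : ℂ) ^ (-(1 / 2 + w))) := by
  have h0 : e * lam ^ n * D ≠ 0 :=
    mul_ne_zero (mul_ne_zero he.ne_zero (pow_ne_zero _ hB.b1.prime_lam.ne_zero)) hD
  have e1 := scal n w (norm_pos_iff.2 (ne0 hB hD)) hm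
  have e2 : xx m (e * lam ^ n * D) = Real.sqrt 3 ^ n * ‖toC D‖ / (729 * m) := by
    rw [xx, if_neg h0, map_mul, map_mul, map_pow, norm_mul, norm_mul, norm_pow, n_unit hB he,
      n_lam hB, one_mul]
  rw [AA, if_neg h0, hA, e2, hB.b1.N_eq D, show ang J (toC (e * lam ^ n * D)) =
    ang J (toC (e * lam ^ n)) * ang J (toC D) by rw [map_mul _ _ D, ang_mul]]
  linear_combination c * ang J (toC (e * lam ^ n)) * bb D * ang J (toC D) *
    psi (z * toC (e * lam ^ n * D) / 729) * e1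

theorem ph_le (hB : Bas) (J : ℤ) (z w : ℂ) (hw : 1 < w.re) (D : O) :
    ‖bb D * ang J (toC D) * psi z * (N D : ℂ) ^ (-(1 / 2 + w))‖ ≤ ‖bb D‖ * N D ^ (-(1 / 2 + w.re)) := by
  have h0 : 0 ≤ N D := Nat.cast_nonneg _
  have h1 : (-(1 / 2 + w)).re = -(1 / 2 + w.re) := by simp
  rw [norm_mul, norm_mul, norm_mul, hB.b1.norm_psi, mul_one,
    norm_cpow_eq_rpow_re_of_nonneg h0 (by rw [h1]; linarith), h1]
  exact mul_le_mul_of_nonneg_right (mul_le_of_le_one_right (norm_nonneg _) (ang_le _ _))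
    (by positivity)

theorem n3 (n : ℕ) (w : ℂ) : ‖(3 : ℂ) ^ (n * w)‖ = (3 ^ w.re) ^ n := by
  have := norm_cpow_eq_rpow_re_of_pos (x := 3) (by norm_num) (n * w)
  rw [show ((3 : ℝ) : ℂ) = 3 by norm_num] at this
  rw [this, ← Real.rpow_mul_natCast (by norm_num)]
  congr 1
  simp [mul_comm]

theorem geo {w : ℂ} (hw : w.re < 0) : Summable fun n : ℕ => ((3 : ℝ) ^ w.re) ^ n :=
  summable_geometric_of_lt_one (by positivity) (Real.rpow_lt_one_of_one_lt_of_neg (by norm_num) hw)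

theorem sumC (hB : Bas) (hb : BB) (ν : O → O → O → ℂ) (z : ℂ) (J : ℤ) {m : ℝ} (hm : 0 < m) (w : ℂ)
    (hw : 1 < w.re) (A : O → ℕ → O → ℂ) (K : ℝ) (hK : ∀ e v D, ‖A e v D‖ ≤ K)
    (hA : ∀ e (v : ℕ) D, IsUnit e → Prim D → Av ν (e * lam ^ v * D) = A e v D * (bb D / N D)) :
    Summable fun d => ‖AA ν z J m d * (xx m d : ℂ) ^ (-2 * w)‖ := by
  have K0 : 0 ≤ K := (norm_nonneg _).trans (hK 0 0 0)
  have h1 : ∀ d : O, ∃ q : U6 × ℕ × O, d = q.1 * lam ^ q.2.1 * q.2.2 ∧ (d ≠ 0 → Prim q.2.2) := fun d => by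
    by_cases hd : d = 0
    · exact ⟨(⟨1, by simp [U6]⟩, 0, 0), by simp [hd], fun h => absurd hd h⟩
    · obtain ⟨e, v, D, a, b, c⟩ := hB.b2.dec d hd
      exact ⟨(⟨e, (hB.b1.units e).1 a⟩, v, D), c, fun _ => b⟩
  choose i hi hi' using h1
  have s1 := (geo (w := 1 / 2 - w) (by simp; linarith)).mul_of_nonneg
    (hb.summ (1 / 2 + w.re) (by linarith)) (fun _ => by positivity)
    (fun D => mul_nonneg (norm_nonneg _) (Real.rpow_nonneg (Nat.cast_nonneg _) _))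
  have s2 := ((Summable.of_finite (f := fun _ : U6 => K * (‖(3 : ℂ) ^ (12 * w - 2)‖ *
    ‖(m : ℂ) ^ (2 * w - 1)‖))).mul_of_nonneg s1 (fun _ => by positivity) fun q =>
      mul_nonneg (by positivity) (mul_nonneg (norm_nonneg _)
        (Real.rpow_nonneg (Nat.cast_nonneg _) _))).comp_injective
    (i := i) fun a b h => by rw [hi a, hi b, h]
  refine s2.of_nonneg_of_le (fun _ => norm_nonneg _) fun d => ?_
  have a0 : 0 ≤ N (i d).2.2 := Nat.cast_nonneg _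
  by_cases hd : d = 0
  · rw [AA, if_pos hd, zero_mul, norm_zero]
    simp only [Function.comp]
    positivity
  · have hu := (hB.b1.units _).2 (i d).1.2
    conv_lhs => rw [hi d, term hB ν z J hm _ w _ hu (hB.b2.ne _ (hi' d hd)) (hA _ _ _ hu (hi' d hd))]
    rw [norm_mul, norm_mul, norm_mul, norm_mul, norm_mul, n3]
    refine (mul_le_mul (mul_le_mul_of_nonneg_right (mul_le_mul (hK _ _ _) (ang_le _ _)
      (norm_nonneg _) K0) (by positivity)) (ph_le hB _ _ w hw _) (norm_nonneg _)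
      (by positivity)).trans (le_of_eq ?_)
    simp only [Function.comp]
    ring

theorem sumR {ι : Type} (A : ι → ℂ) (x : ι → ℝ) (hx : ∀ i, 0 < x i)
    (h : ∀ w : ℂ, 1 < w.re → Summable fun d => ‖A d * (x d : ℂ) ^ (-2 * w)‖) (σ : ℝ) (hσ : 1 < σ) :
    Summable fun d => ‖A d‖ * x d ^ (-2 * σ) :=
  (h σ hσ).congr fun d => by rw [norm_mul, norm_cpow_eq_rpow_re_of_pos (hx d)]; simp

theorem sumT (hk : KK) {ι : Type} (A : ι → ℂ) (x : ι → ℝ) (hx : ∀ i, 0 < x i)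
    (h : Summable fun d => ‖A d‖ * x d ^ (-2 * (2 : ℝ))) {y : ℝ} (hy : 0 < y) :
    Summable fun i => A i * ((x i ^ (-1 / 3 : ℝ) * kk (y * x i) : ℝ) : ℂ) := by
  obtain ⟨C, hC⟩ := hk.dec (11 / 3) (by norm_num)
  refine (h.mul_left (C * y ^ (-(11 / 3) : ℝ))).of_norm_bounded fun i => ?_
  have h1 := hx i
  have h2 := hC _ (mul_pos hy h1)
  rw [norm_mul, Complex.norm_real, Real.norm_of_nonneg (mul_nonneg (by positivity)
    (hk.nonneg _ (mul_pos hy h1))), show (-2 * 2 : ℝ) = -1 / 3 + -(11 / 3) by norm_num,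
    Real.rpow_add h1]
  rw [Real.mul_rpow hy.le h1.le] at h2
  refine (mul_le_mul_of_nonneg_left (mul_le_mul_of_nonneg_left h2 (by positivity))
    (norm_nonneg _)).trans (le_of_eq (by ring))

theorem split (F : O → ℂ) {c : O} (hc : c ≠ 0) (S : O → Prop) :
    ∑' d, (if ∃ D, S D ∧ d = c * D then F d else 0) = ∑' D, if S D then F (c * D) else 0 := by
  rw [← (mul_right_injective₀ hc).tsum_eq fun d hd => ?_]
  · refine tsum_congr fun D => if_congr ⟨fun ⟨D', a, b⟩ => ?_, fun h => ⟨D, h, rfl⟩⟩ rfl rfl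
    rwa [mul_left_cancel₀ hc b]
  · by_contra k
    exact hd (if_neg fun ⟨D, _, b⟩ => k ⟨D, b.symm⟩)

end Vale.Agent.P026.FEM
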