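import Vale.Agent.P026.M.FE1

/-! P026, module FE, part 2: the Dirichlet series on both sides. -/

noncomputable section
open Complex MeasureTheory Filter Topology
open scoped Classical ComplexConjugate

namespace Vale.Agent.P026

namespace FEM

def TD (J : ℤ) (h a : O) (s : ℂ) (k : O) : ℂ :=
  bb k * ang J (toC k) * eQ (a * k) h * (N k : ℂ) ^ (-(1 / 2 + s))

theorem Ds_eq (J : ℤ) (r h a : O) (s : ℂ) :
    Ds J r h a s = ∑' k, if (27 : O) ∣ k - r then TD J h a s k else 0 := rfl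

theorem bb0 (hB : Bas) (hb : BB) {k : O} (hk : ¬ Prim k) : bb k = 0 := by
  rcases hb.cases k with h | ⟨n, u, hn, hu, -, rfl⟩
  · exact h
  · exact absurd (hB.b2.mul _ _ hn (hB.b2.pow _ _ hu)) hk

theorem normT (hB : Bas) (hb : BB) (J : ℤ) (h a : O) (s : ℂ) (k : O) :
    ‖TD J h a s k‖ = ‖bb k‖ * N k ^ (-(1 / 2 + s.re)) := by
  by_cases hk : Prim k
  · have h0 := hB.b2.ne k hk
    rw [TD, norm_mul, norm_mul, norm_mul, norm_ang J (toC_ne hB h0), eQ, hB.b1.norm_psi,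
      norm_cpow_eq_rpow_re_of_pos (lt_of_lt_of_le one_pos (hB.b1.N_one_le k h0))]
    simp
  · simp [TD, bb0 hB hb hk]

theorem summC (hB : Bas) (hb : BB) (J : ℤ) (r h a : O) {s : ℂ} (hs : 1 < s.re) :
    (Summable fun k => if (27 : O) ∣ k - r then TD J h a s k else 0) ∧
      ‖Ds J r h a s‖ ≤ ∑' k, ‖bb k‖ * N k ^ (-(1 / 2 + s.re)) := by
  have h1 := hb.summ (1 / 2 + s.re) (by linarith)
  have h2 : ∀ k, ‖if (27 : O) ∣ k - r then TD J h a s k else 0‖ ≤
      ‖bb k‖ * N k ^ (-(1 / 2 + s.re)) := fun k => by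
    rw [← normT hB hb J h a s k]
    split_ifs <;> simp
  exact ⟨Summable.of_norm_bounded h1 h2, tsum_of_norm_bounded h1.hasSum h2⟩

theorem term (hB : Bas) {ν : O → O → O → ℂ} {z : ℂ} (J : ℤ) (w : ℂ) {m : ℝ} (hm : 0 < m) (s : ℂ)
    {e D h a : O} {k : ℕ} {c : ℂ} (he : IsUnit e) (hD : D ≠ 0)
    (hAv : Av ν (e * lam ^ k * D) = c * (bb D / N D))
    (hψ : psi (z * toC (e * lam ^ k * D) / 729) = eQ (a * D) h) :
    AA ν z J w (e * lam ^ k * D) * (xx m (e * lam ^ k * D) : ℂ) ^ (-2 * s) =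
      c * ang J (toC (e * lam ^ k) * w) * (3 ^ (k / 2 + 12 * s - k * s) * (m : ℂ) ^ (2 * s)) *
        TD J h a s D := by
  have h1 := pw hB k he hD hm s
  rw [AA, if_neg (ne3 hB k he hD), hAv, hψ, TD, show toC (e * lam ^ k * D) * w =
    toC (e * lam ^ k) * w * toC D by rw [map_mul]; ring, ang_mul]
  linear_combination (eQ (a * D) h * c * bb D * ang J (toC (e * lam ^ k) * w) * ang J (toC D)) * h1

theorem eQ_congr (hB : Bas) {a b h : O} (H : h ∣ a - b) : eQ a h = eQ b h := by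
  rw [← sub_add_cancel a b, hB.b1.eQ_add, hB.b1.eQ_dvd _ _ H, one_mul]

theorem lam12 (hB : Bas) : lam ^ 12 = 729 := by
  rw [show 12 = 2 * 6 by rfl, pow_mul, hB.b1.lam_sq]
  norm_num

theorem psi12 {a b c h : O} (H : a * b = 729 * c) :
    psi (toC a / toC h * toC b / 729) = eQ c h := by
  have := congrArg toC H
  rw [map_mul, map_mul, map_ofNat] at this
  rw [eQ, div_mul_eq_mul_div, this]
  congr 1
  ring

theorem tk (hB : Bas) (r : O) (k : ℕ) (f : O → ℂ) :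
    ∑' d, (if ∃ D, (27 : O) ∣ D - r ∧ d = lam ^ k * D then f d else 0) =
      ∑' D, if (27 : O) ∣ D - r then f (lam ^ k * D) else 0 := by
  have hi : Function.Injective fun D : O => lam ^ k * D :=
    mul_right_injective₀ (pow_ne_zero _ hB.b1.prime_lam.ne_zero)
  rw [← hi.tsum_eq]
  · refine tsum_congr fun D => if_congr ⟨fun ⟨D', h1, h2⟩ => ?_, fun h => ⟨D, h, rfl⟩⟩ rfl rfl
    rwa [hi h2]
  · intro d hd
    by_contra h
    exact hd (if_neg fun ⟨D, _, h2⟩ => h ⟨D, h2.symm⟩)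

theorem D1 (hB : Bas) (hb : BB) (hA1 : AV1Stmt) {r h a a0 a1 : O} {θ : ℂ} (J : ℤ) (hr : Prim r)
    (hh : Prim h) (hν : Nu (nu0 r))
    (h6 : ∀ D, (27 : O) ∣ D - r → Av (nu0 r) (lam ^ 6 * D) = 3 ^ 8 * (bb D / N D))
    (h5 : ∀ D, (27 : O) ∣ D - r → Av (nu0 r) (lam ^ 5 * D) = -(3 ^ 7 * θ) * (bb D / N D))
    (h0 : ∀ d, d ≠ 0 → (∀ D, (27 : O) ∣ D - r → d ≠ lam ^ 6 * D ∧ d ≠ lam ^ 5 * D) →
      Av (nu0 r) d = 0)
    (ha0 : (729 : O) ∣ a0) (ha : h ∣ a0 - a) (ha1 : h ∣ lam * a1 - a) {s : ℂ} (hs : 1 < s.re) :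
    Dir (AA (nu0 r) (toC (lam ^ 6 * a0) / toC h) J 1) (xx 1) s =
      ang J (toC (lam ^ 6)) * 3 ^ (11 + 6 * s) * (Ds J r h a s -
        θ * ang J (toC (lam ^ 5)) / ang J (toC (lam ^ 6)) * 3 ^ (s - 3 / 2) * Ds J r h a1 s) := by
  have hS := (summD (xx_pos hB one_pos) (summA hB hb hA1 hν (toC (lam ^ 6 * a0) / toC h) J
    one_ne_zero one_pos) hs).of_norm
  rw [Dir]
  generalize hf : (fun d => AA (nu0 r) (toC (lam ^ 6 * a0) / toC h) J 1 d *
    (xx 1 d : ℂ) ^ (-2 * s)) = f at hS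
  have hf' : ∀ d, AA (nu0 r) (toC (lam ^ 6 * a0) / toC h) J 1 d * (xx 1 d : ℂ) ^ (-2 * s) = f d :=
    congrFun hf
  have hP : ∀ D, (27 : O) ∣ D - r → Prim D := fun D ⟨c, hc⟩ => by
    obtain ⟨c', hc'⟩ := hr
    exact ⟨9 * c + c', by linear_combination hc + hc'⟩
  have hl : ∀ D, Prim D → ¬ lam ∣ D := fun D hD => (hB.b2.cop_iff D).1 (hB.b2.cop D hD)
  have hl0 := hB.b1.prime_lam.ne_zero
  have hsplit : ∀ d, f d = (if ∃ D, (27 : O) ∣ D - r ∧ d = lam ^ 6 * D then f d else 0) +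
      if ∃ D, (27 : O) ∣ D - r ∧ d = lam ^ 5 * D then f d else 0 := fun d => by
    split_ifs with c1 c2 c2
    · obtain ⟨D, -, rfl⟩ := c1
      obtain ⟨D', hD', e⟩ := c2
      exact absurd ⟨D, mul_left_cancel₀ (pow_ne_zero 5 hl0) (by linear_combination -e)⟩
        (hl D' (hP D' hD'))
    · simp
    · simp
    · rw [← hf', AA]
      split_ifs with c3
      · simp
      · rw [h0 d c3 fun D hD => ⟨fun e => c1 ⟨D, hD, e⟩, fun e => c2 ⟨D, hD, e⟩⟩]
        simp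
  have hsum : ∀ p : O → Prop, Summable fun d => if p d then f d else 0 := fun p =>
    Summable.of_norm_bounded hS.norm fun d => by split_ifs <;> simp
  obtain ⟨u, rfl⟩ := ha0
  have hu : h ∣ lam ^ 11 * u - a1 :=
    (hB.b1.prime_lam.coprime_iff_not_dvd.2 (hl h hh)).symm.dvd_of_dvd_mul_left (by
      convert dvd_sub ha ha1 using 1
      linear_combination u * lam12 hB)
  have hα : ang J (toC (lam ^ 6)) ≠ 0 := by
    rw [← norm_ne_zero_iff, norm_ang J (toC_ne hB (pow_ne_zero _ hl0))]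
    exact one_ne_zero
  rw [tsum_congr hsplit, (hsum _).tsum_add (hsum _), tk hB, tk hB, mul_sub, Ds, Ds, ← mul_assoc,
    sub_eq_add_neg, ← neg_mul, ← tsum_mul_left, ← tsum_mul_left]
  congr 1 <;> refine tsum_congr fun D => ?_ <;> split_ifs with hD
  · have := term hB J 1 one_pos s (k := 6) (a := a) (h := h) isUnit_one (hB.b2.ne D (hP D hD))
      (by rw [one_mul]; exact h6 D hD) ((psi12 (a := lam ^ 6 * (729 * u)) (c := 729 * u * D) (by
        linear_combination 729 * u * D * lam12 hB)).trans (eQ_congr hB (by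
          rw [← sub_mul]; exact ha.mul_right D)))
    rw [one_mul, hf', mul_one] at this
    rw [this, TD, ofReal_one, one_cpow]
    have e : (3 : ℂ) ^ (11 + 6 * s) = 3 ^ 8 * 3 ^ ((6 : ℕ) / 2 + 12 * s - (6 : ℕ) * s) := by
      rw [← cpow_natCast, ← cpow_add _ _ three_ne_zero]
      congr 1
      push_cast
      ring
    rw [e]
    ring
  · simp
  · have := term hB J 1 one_pos s (k := 5) (a := a1) (h := h) isUnit_one (hB.b2.ne D (hP D hD))
      (by rw [one_mul]; exact h5 D hD) ((psi12 (a := lam ^ 6 * (729 * u))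
        (c := lam ^ 11 * u * D) (by ring)).trans (eQ_congr hB (by
          rw [← sub_mul]; exact hu.mul_right D)))
    rw [one_mul, hf', mul_one] at this
    rw [this, TD, ofReal_one, one_cpow]
    have e : (3 : ℂ) ^ (11 + 6 * s) * 3 ^ (s - 3 / 2) =
        3 ^ 7 * 3 ^ ((5 : ℕ) / 2 + 12 * s - (5 : ℕ) * s) := by
      rw [← cpow_natCast, ← cpow_add _ _ three_ne_zero, ← cpow_add _ _ three_ne_zero]
      congr 1
      push_cast
      ring
    linear_combination (θ * ang J (toC (lam ^ 5)) * bb D * ang J (toC D) * eQ (a1 * D) h *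
      (N D : ℂ) ^ (-(1 / 2 + s))) * (e + 3 ^ (11 + 6 * s) * 3 ^ (s - 3 / 2) * mul_inv_cancel₀ hα)
  · simp

theorem D2 (hB : Bas) (hb : BB) (hA1 : AV1Stmt) {ν : O → O → O → ℂ} (hν : Nu ν)
    {A : O → ℕ → O → ℂ} (hA : ∀ e v, Pe 27 (A e v))
    (hA' : ∀ e (v : ℕ) D, IsUnit e → Prim D → Av ν (e * lam ^ v * D) = A e v D * (bb D / N D))
    (J : ℤ) (h b : O) {w : ℂ} (hw : w ≠ 0) {m : ℝ} (hm : 0 < m) {s : ℂ} (hs : 1 < s.re) :
    Dir (AA ν (-(toC (729 * b) / toC h)) J w) (xx m) s = ∑ e ∈ U6, ∑' n : ℕ, ∑ r ∈ Rs 27,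
      A e n r * ang J (toC (e * lam ^ n) * w) * (3 ^ (n / 2 + 12 * s - n * s) * (m : ℂ) ^ (2 * s)) *
        Ds J r h (-(b * e * lam ^ n)) s := by
  have h27 : (27 : O) ≠ 0 := by norm_num
  rw [Dir, hB.b2.tsum_dec _ (summD (xx_pos hB hm) (summA hB hb hA1 hν _ J hw hm) hs).of_norm, AA,
    if_pos rfl, zero_mul, zero_add]
  refine Finset.sum_congr rfl fun e he => tsum_congr fun n => ?_
  have he' := (hB.b1.units e).2 he
  simp only [Ds_eq, ← tsum_mul_left]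
  rw [← Summable.tsum_finsetSum fun r _ => ((summC hB hb J r h _ hs).1.mul_left _)]
  refine tsum_congr fun D => ?_
  obtain ⟨r, hr, hD⟩ := hB.b4.ex 27 D h27
  rw [Finset.sum_eq_single r (fun r' hr' hne => by
    rw [if_neg fun h' => hne (hB.b4.uniq 27 r' r h27 hr' hr (by simpa using dvd_sub hD h')),
      mul_zero]) (fun h' => absurd hr h'), if_pos hD, ← hB.b4.pe_congr 27 _ D r (hA e n) hD]
  split_ifs with hP
  · refine term hB J w hm s he' (hB.b2.ne D hP) (hA' e n D he' hP) ?_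
    rw [← neg_div, ← map_neg]
    exact psi12 (by ring)
  · simp [TD, bb0 hB hb hP]

end FEM

end Vale.Agent.P026
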