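import Vale.Agent.P026.Stm2
import Vale.Agent.P026.M.Poi

/-! P026: Poisson summation on the product of two Eisenstein lattices. -/

noncomputable section
open Complex MeasureTheory Filter Topology Set
open scoped Classical ComplexConjugate

namespace Vale.Agent.P026

namespace PO2M

abbrev J := Fin 2 ⊕ Fin 2
abbrev R4 := J → ℝ
abbrev Z4 := J → ℤ

def cs (n : Z4) : R4 := fun i => (n i : ℝ)
def ch (m : Z4) (x : R4) : ℂ := UnitAddTorus.mFourier m (fun i => (x i : UnitAddCircle))
def box (n : Z4) : Set R4 := {x | ∀ i, x i ∈ Ioc ((n i : ℝ)) (n i + 1)}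

lemma ch_eq (m : Z4) (x : R4) : ch m x =
    PoiM.ch (fun i => m (Sum.inl i)) (fun i => x (Sum.inl i)) *
      PoiM.ch (fun i => m (Sum.inr i)) (fun i => x (Sum.inr i)) := by
  simp only [ch, PoiM.ch, UnitAddTorus.mFourier, ContinuousMap.coe_mk, Fintype.prod_sum_type]

lemma coe_add_cs (x : R4) (n : Z4) (i : J) :
    (((x + cs n) i : ℝ) : UnitAddCircle) = (x i : UnitAddCircle) := by
  simp only [Pi.add_apply, cs]
  rw [AddCircle.coe_add]
  have : (((n i : ℤ) : ℝ) : UnitAddCircle) = 0 :=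
    (AddCircle.coe_eq_zero_iff 1).2 ⟨n i, by simp⟩
  rw [this, add_zero]

lemma ch_add (m n : Z4) (x : R4) : ch m (x + cs n) = ch m x := by
  unfold ch; simp only [coe_add_cs]

lemma norm_ch (m : Z4) (x : R4) : ‖ch m x‖ = 1 := by
  rw [ch_eq, norm_mul, PoiM.norm_ch, PoiM.norm_ch, one_mul]

lemma cont_ch (m : Z4) : Continuous (ch m) := by
  have : ch m = fun x => PoiM.ch (fun i => m (Sum.inl i)) (fun i => x (Sum.inl i)) *
      PoiM.ch (fun i => m (Sum.inr i)) (fun i => x (Sum.inr i)) := funext (ch_eq m)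
  rw [this]
  exact ((PoiM.cont_ch _).comp (by fun_prop)).mul ((PoiM.cont_ch _).comp (by fun_prop))

lemma box_meas (n : Z4) : MeasurableSet (box n) :=
  MeasurableSet.univ_pi' (fun _ => measurableSet_Ioc)

lemma mem_box {n : Z4} {x : R4} : x ∈ box n ↔ ∀ i, n i = ⌈x i⌉ - 1 := by
  refine forall_congr' fun i => ?_
  rw [eq_sub_iff_add_eq, eq_comm, Int.ceil_eq_iff]
  push_cast
  simp [mem_Ioc]

lemma box_disj : Pairwise (Function.onFun Disjoint box) := fun n m h =>
  disjoint_left.2 fun _ a b => h (funext fun i => by rw [mem_box.1 a i, mem_box.1 b i])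

lemma box_union : ⋃ n, box n = univ :=
  eq_univ_of_forall fun x => mem_iUnion.2 ⟨fun i => ⌈x i⌉ - 1, mem_box.2 fun _ => rfl⟩

lemma unfold_int {h : R4 → ℂ} (hi : Integrable h) :
    HasSum (fun n : Z4 => ∫ x in box 0, h (x + cs n)) (∫ x, h x) := by
  have := hasSum_integral_iUnion (μ := volume) (f := h) box_meas box_disj hi.integrableOn
  rw [box_union, Measure.restrict_univ] at this
  refine HasSum.congr_fun this fun n => ?_
  rw [← (measurePreserving_add_right volume (cs n)).setIntegral_preimage_emb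
    (measurableEmbedding_addRight _) h (box n)]
  congr 2
  ext x
  simp only [box, cs, mem_preimage, mem_ofPred_eq, Pi.add_apply, mem_Ioc, Pi.zero_apply]
  refine forall_congr' fun i => ?_
  push_cast
  constructor <;> rintro ⟨a, b⟩ <;> constructor <;> linarith

lemma vol_box : volume (box 0) ≠ ⊤ := by
  have : box 0 = Set.univ.pi fun _ : J => Ioc (0 : ℝ) 1 := by
    ext x; simp [box]
  rw [this, Real.volume_pi_Ioc]
  simp

theorem core (g : R4 → ℂ) (hc : Continuous g)
    (hb : ∀ R : ℝ, ∃ u : Z4 → ℝ, Summable u ∧ ∀ n x, ‖x‖ ≤ R → ‖g (x + cs n)‖ ≤ u n)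
    (hi : Integrable g) (hs : Summable fun m : Z4 => ∫ x, ch (-m) x * g x) (x0 : R4) :
    HasSum (fun m : Z4 => (∫ x, ch (-m) x * g x) * ch m x0) (∑' n, g (x0 + cs n)) := by
  set P : R4 → ℂ := fun x => ∑' n, g (x + cs n) with hP
  have Pc : Continuous P := by
    refine continuous_of_cover_nhds (s := fun R : ℝ => Metric.closedBall 0 R) (fun x =>
      ⟨‖x‖ + 1, Metric.closedBall_mem_nhds_of_mem (by simp)⟩) fun R => ?_
    obtain ⟨u, h1, h2⟩ := hb R
    exact continuousOn_tsum (fun n => (hc.comp (continuous_add_const _)).continuousOn) h1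
      fun n x hx => h2 n x (by simpa using hx)
  have Pp : ∀ x n, P (x + cs n) = P x := fun x n => by
    simp only [hP]
    rw [← (Equiv.addLeft n).tsum_eq (fun k => g (x + cs k))]
    refine tsum_congr fun k => ?_
    congr 1
    ext i; simp [cs]; ring
  let L : UnitAddTorus J → R4 := fun t i => (AddCircle.equivIoc 1 0 (t i)).1
  have hL : ∀ x : R4, P (L fun i => (x i : UnitAddCircle)) = P x := fun x => by
    have : ∀ i, ∃ k : ℤ, L (fun i => (x i : UnitAddCircle)) i = x i + k := fun i => by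
      have h1 : ((L (fun i => (x i : UnitAddCircle)) i : ℝ) : UnitAddCircle) = (x i : ℝ) :=
        (AddCircle.equivIoc 1 0).symm_apply_apply _
      rw [← sub_eq_zero, ← AddCircle.coe_sub, AddCircle.coe_eq_zero_iff] at h1
      obtain ⟨k, hk⟩ := h1
      exact ⟨k, by simp at hk; linarith⟩
    choose k hk using this
    rw [← Pp x k]
    congr 1
    exact funext hk
  have hq : IsOpenQuotientMap (Pi.map fun (_ : J) (y : ℝ) => (y : UnitAddCircle)) :=
    IsOpenQuotientMap.piMap fun _ => QuotientAddGroup.isOpenQuotientMap_mk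
  let F : C(UnitAddTorus J, ℂ) := ⟨fun t => P (L t), by
    rw [← hq.continuous_comp_iff]
    convert Pc using 1
    exact funext hL⟩
  have hF : ∀ m, UnitAddTorus.mFourierCoeff F m = ∫ x, ch (-m) x * g x := fun m => by
    rw [UnitAddTorus.mFourierCoeff_eq_integral F m (cs 0)]
    have h1 := unfold_int (h := fun x => ch (-m) x * g x)
      (hi.bdd_mul (c := 1) (cont_ch _).aestronglyMeasurable (.of_forall fun x => (norm_ch _ _).le))
    obtain ⟨u, h2, h3⟩ := hb 1
    have h4 := hasSum_integral_of_dominated_convergence (μ := volume.restrict (box 0))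
      (F := fun n x => ch (-m) (x + cs n) * g (x + cs n)) (f := fun x => ch (-m) x * P x)
      (fun n _ => u n)
      (fun n => (((cont_ch _).mul hc).comp (continuous_add_const _)).aestronglyMeasurable)
      (fun n => (ae_restrict_iff' (box_meas 0)).2 (.of_forall fun x hx => by
        rw [norm_mul, norm_ch, one_mul]
        refine h3 n x ((pi_norm_le_iff_of_nonneg zero_le_one).2 fun i => ?_)
        have := hx i
        simp only [Pi.zero_apply, Int.cast_zero, zero_add, mem_Ioc] at this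
        rw [Real.norm_eq_abs, abs_le]; constructor <;> linarith [this.1, this.2]))
      (.of_forall fun _ => h2)
      (integrableOn_const vol_box)
      (.of_forall fun x => by
        simp only [ch_add]
        obtain ⟨u, h5, h6⟩ := hb ‖x‖
        exact (Summable.of_norm_bounded h5 fun n => h6 n x le_rfl).hasSum.mul_left _)
    rw [h1.unique h4]
    refine setIntegral_congr_fun (box_meas 0) fun x _ => ?_
    simp only [F, ContinuousMap.coe_mk, smul_eq_mul, hL, ch]
  have := UnitAddTorus.hasSum_mFourier_series_apply_of_summable (f := F)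
    (by convert hs using 1; exact funext hF) (fun i => (x0 i : UnitAddCircle))
  simp only [hF, smul_eq_mul] at this
  have e : F (fun i => (x0 i : UnitAddCircle)) = P x0 := hL x0
  rw [e] at this
  exact this

def T4 (x : R4) : ℂ × ℂ := (PoiM.T fun i => x (Sum.inl i), PoiM.T fun i => x (Sum.inr i))

lemma cont_T4 : Continuous T4 :=
  (PoiM.cont_T.comp (by fun_prop)).prodMk (PoiM.cont_T.comp (by fun_prop))

lemma map_T4 : Measure.map T4 volume =
    (ENNReal.ofReal (2 / Real.sqrt 3) * ENNReal.ofReal (2 / Real.sqrt 3)) •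
      (volume : Measure (ℂ × ℂ)) := by
  have h1 := volume_measurePreserving_sumPiEquivProdPi (fun _ : J => ℝ)
  have h2 : T4 = Prod.map PoiM.T PoiM.T ∘ MeasurableEquiv.sumPiEquivProdPi (fun _ : J => ℝ) := rfl
  have hm := PoiM.cont_T.measurable
  rw [h2, ← Measure.map_map (hm.prodMap hm) h1.measurable, h1.map_eq, Measure.volume_eq_prod,
    ← Measure.map_prod_map _ _ hm hm, PoiM.map_T, Measure.prod_smul_left, Measure.prod_smul_right,
    smul_smul, Measure.volume_eq_prod]

lemma int_T4 {h : ℂ × ℂ → ℂ} (hc : Continuous h) :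
    ∫ x, h (T4 x) = (kap ^ 2)⁻¹ * ∫ z, h z := by
  have := PoiM.s3
  rw [← integral_map cont_T4.aemeasurable hc.aestronglyMeasurable, map_T4, integral_smul_measure,
    ENNReal.toReal_mul, ENNReal.toReal_ofReal (by positivity), Complex.real_smul]
  congr 1
  have h3 : ((Real.sqrt 3 : ℝ) : ℂ) ≠ 0 := by exact_mod_cast this.ne'
  simp only [kap]
  push_cast
  field_simp

lemma integ_T4 {h : ℂ × ℂ → ℂ} (hc : Continuous h) (hi : Integrable h) :
    Integrable fun x => h (T4 x) :=
  (integrable_map_measure (f := T4) (g := h) (μ := volume) hc.aestronglyMeasurable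
    cont_T4.aemeasurable).1 (by
      rw [map_T4]
      exact hi.smul_measure (ENNReal.mul_ne_top ENNReal.ofReal_ne_top ENNReal.ofReal_ne_top))

def e4 (e : O ≃ PoiM.Z2) : O × O ≃ Z4 :=
  (e.prodCongr e).trans (Equiv.sumArrowEquivProdArrow (Fin 2) (Fin 2) ℤ).symm

lemma e4_l (e : O ≃ PoiM.Z2) (a : O × O) : (fun i => e4 e a (Sum.inl i)) = e a.1 := rfl
lemma e4_r (e : O ≃ PoiM.Z2) (a : O × O) : (fun i => e4 e a (Sum.inr i)) = e a.2 := rfl

lemma T4_cs (x : R4) (a : O × O) :
    T4 (x + cs (e4 PoiM.eA a)) = ((T4 x).1 + toC a.1, (T4 x).2 + toC a.2) := by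
  rw [← PoiM.T_cs, ← PoiM.T_cs]
  simp only [T4, ← PoiM.T_add]
  rfl

lemma ch_e4 (h1 : B1) (k : O × O) (x : R4) :
    ch (e4 PoiM.eB k) x = psi ((T4 x).1 * toC k.1 + (T4 x).2 * toC k.2) := by
  rw [ch_eq, e4_l, e4_r, PoiM.ch_eB, PoiM.ch_eB, h1.psi_add]
  rfl

lemma ch_neg (m : Z4) (x : R4) : ch (-m) x = conj (ch m x) := UnitAddTorus.mFourier_neg

lemma K_nonneg {f : ℂ × ℂ → ℂ} {K : ℝ}
    (hf : ∀ p, ‖f p‖ ≤ K * (1 + ‖p.1‖) ^ (-3 : ℝ) * (1 + ‖p.2‖) ^ (-3 : ℝ)) : 0 ≤ K := by
  have := (norm_nonneg _).trans (hf 0)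
  simpa using this

lemma integ2 {f : ℂ × ℂ → ℂ} {K : ℝ} (hc : Continuous f)
    (hf : ∀ p, ‖f p‖ ≤ K * (1 + ‖p.1‖) ^ (-3 : ℝ) * (1 + ‖p.2‖) ^ (-3 : ℝ)) : Integrable f := by
  have h := integrable_one_add_norm (E := ℂ) (μ := volume) (r := 3) (by simp; norm_num)
  have h2 := (h.const_mul K).mul_prod h
  rw [← Measure.volume_eq_prod] at h2
  exact h2.mono' hc.aestronglyMeasurable (.of_forall hf)

lemma summ2 (h3 : B3) : Summable fun a : O × O =>
    (1 + ‖toC a.1‖) ^ (-3 : ℝ) * (1 + ‖toC a.2‖) ^ (-3 : ℝ) :=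
  (h3.summ' 3 (by norm_num)).mul_of_nonneg (h3.summ' 3 (by norm_num))
    (fun _ => by positivity) (fun _ => by positivity)

/-- Poisson summation on `O × O`, with a shift -/
theorem poisson2 (h1 : B1) (h3 : B3) (f : ℂ × ℂ → ℂ) (hc : Continuous f) {K : ℝ}
    (hf : ∀ p, ‖f p‖ ≤ K * (1 + ‖p.1‖) ^ (-3 : ℝ) * (1 + ‖p.2‖) ^ (-3 : ℝ))
    (hF : Summable fun b : O × O => F2 f (toC b.1) (toC b.2)) (z w : ℂ) :
    HasSum (fun b : O × O => (kap ^ 2)⁻¹ * (F2 f (toC b.1) (toC b.2) *
      psi (z * toC b.1 + w * toC b.2))) (∑' a : O × O, f (z + toC a.1, w + toC a.2)) := by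
  obtain ⟨x1, rfl⟩ := PoiM.surj_T z
  obtain ⟨x2, rfl⟩ := PoiM.surj_T w
  have hK := K_nonneg hf
  have e : ∀ k : O × O, ∫ x, ch (-(e4 PoiM.eB k)) x * f (T4 x) =
      (kap ^ 2)⁻¹ * F2 f (toC k.1) (toC k.2) := fun k => by
    rw [F2, ← int_T4 (h := fun p => f p * psi (-(p.1 * toC k.1 + p.2 * toC k.2)))
      (hc.mul (h1.cont_psi.comp (by fun_prop)))]
    refine integral_congr_ae (.of_forall fun x => ?_)
    simp only [ch_neg, ch_e4 h1, h1.psi_neg, mul_comm]
  have := core (fun x => f (T4 x)) (hc.comp cont_T4) (fun R => by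
      obtain ⟨C, hC⟩ := (isCompact_closedBall (0 : R4) R).exists_bound_of_continuousOn
        cont_T4.continuousOn
      refine ⟨fun n => K * ((1 + C) ^ (3 : ℝ) * (1 + C) ^ (3 : ℝ)) *
        ((1 + ‖toC ((e4 PoiM.eA).symm n).1‖) ^ (-3 : ℝ) *
          (1 + ‖toC ((e4 PoiM.eA).symm n).2‖) ^ (-3 : ℝ)), ?_, fun n x hx => ?_⟩
      · exact ((e4 PoiM.eA).symm.summable_iff.2 (summ2 h3)).mul_left _
      · obtain ⟨a, rfl⟩ := (e4 PoiM.eA).surjective n
        simp only [T4_cs, Equiv.symm_apply_apply]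
        have hx' := hC x (by simpa using hx)
        have p1 := PoiM.peetre (s := 3) (w := toC a.1) (by norm_num) ((norm_fst_le _).trans hx')
        have p2 := PoiM.peetre (s := 3) (w := toC a.2) (by norm_num) ((norm_snd_le _).trans hx')
        refine (hf _).trans ?_
        have p3 := mul_le_mul p1 p2 (by positivity) ((by positivity : (0 : ℝ) ≤ _).trans p1)
        have p4 := mul_le_mul_of_nonneg_left p3 hK
        simp only at p4 ⊢
        linarith)
    (integ_T4 hc (integ2 hc hf)) ((e4 PoiM.eB).summable_iff.1 (by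
      simp only [Function.comp_def, e]; exact hF.mul_left _)) (Sum.elim x1 x2)
  rw [← (e4 PoiM.eB).hasSum_iff, ← (e4 PoiM.eA).tsum_eq] at this
  simp only [Function.comp_def, e, T4_cs, ch_e4 h1, mul_assoc] at this
  exact this

end PO2M

theorem po2S (hB : Bas) : PO2Stmt := fun f _ hc hf hF => by
  have := PO2M.poisson2 hB.b1 hB.b3 f hc hf hF.of_norm 0 0
  simp only [zero_mul, add_zero, zero_add, hB.b1.psi_zero, mul_one] at this
  rw [← this.tsum_eq, tsum_mul_left]

end Vale.Agent.P026
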