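import Vale.Agent.P026.M.SS0

/-! The Poisson step: Gaussian Poisson summation and Mellin inversion. -/

noncomputable section
open Complex MeasureTheory Filter Topology
open scoped Classical ComplexConjugate

namespace Vale.Agent.P026

namespace PS1M
open SS0M

theorem gc {σ : ℝ} (hσ : 0 < σ) : Continuous fun u : ℝ => Gamma (σ + u * I) :=
  continuous_iff_continuousAt.2 fun u => ContinuousAt.comp (f := fun u : ℝ => (σ + u * I : ℂ))
    (differentiableAt_Gamma _ fun m k => by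
      have := congrArg re k
      simp at this
      linarith [m.cast_nonneg (α := ℝ)]).continuousAt (by fun_prop)

theorem gi (hΓ : GAM) {σ : ℝ} (hσ : 0 < σ) : Integrable fun u : ℝ => Gamma (σ + u * I) := by
  obtain ⟨C, hC⟩ := hΓ.dec σ 2 hσ
  refine (integrable_inv_one_add_sq.const_mul C).mono' (gc hσ).aestronglyMeasurable
    (.of_forall fun t => ?_)
  rw [← div_eq_mul_inv, le_div_iff₀ (by positivity)]
  refine le_trans (mul_le_mul_of_nonneg_left ?_ (norm_nonneg _)) (hC t)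
  nlinarith [sq_abs t, abs_nonneg t]

theorem minv (hΓ : GAM) {σ x : ℝ} (hσ : 0 < σ) (hx : 0 < x) : cexp (-(x : ℂ)) =
    ((1 / (2 * Real.pi) : ℝ) : ℂ) * ∫ u : ℝ, (x : ℂ) ^ (-(σ + u * I)) * Gamma (σ + u * I) := by
  have e : ∀ u : ℝ, mellin (fun x : ℝ => (Real.exp (-x) : ℂ)) (σ + u * I) = Gamma (σ + u * I) :=
    fun u => by rw [← GammaIntegral_eq_mellin, Gamma_eq_integral (by simpa using hσ)]
  have := mellinInv_mellin_eq σ (fun x : ℝ => (Real.exp (-x) : ℂ)) hx
    ((Complex.GammaIntegral_convergent (s := σ) (by simpa using hσ)).congr_fun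
      (fun t _ => by simp [mul_comm]) measurableSet_Ioi)
    (by simpa only [VerticalIntegrable, e] using gi hΓ hσ) (by fun_prop)
  simp only [mellinInv, e, smul_eq_mul, real_smul] at this
  rw [this]; simp

theorem pw {x : ℝ} (hx : 0 < x) (w : ℂ) : (x : ℂ) ^ w = cexp (w * Real.log x) := by
  rw [cpow_def_of_ne_zero (by exact_mod_cast hx.ne'), ofReal_log hx.le, mul_comm]

theorem hmul {ι : Type} {f g : ι → ℂ} (hf : Summable fun k => ‖f k‖) (hg : Summable fun k => ‖g k‖) :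
    HasSum (fun k : ι × ι => f k.1 * conj (g k.2)) ((∑' k, f k) * conj (∑' k, g k)) := by
  have a1 : HasSum (fun k => conj (g k)) (conj (∑' k, g k)) := hasSum_conj'.2 hg.of_norm.hasSum
  have a2 : Summable fun k => ‖conj (g k)‖ := by simpa only [norm_conj] using hg
  have a3 := summable_mul_of_summable_norm (g := fun k => conj (g k)) hf a2
  exact HasSum.mul (g := fun k => conj (g k)) hf.of_norm.hasSum a1 a3

def aa (κ : ℕ) (y : O → ℂ) (h : O) (σ u : ℝ) (k : O) : ℂ :=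
  y k * conj (sx h k) ^ κ * (N k : ℂ) ^ (-1 / 2 + σ + u * I)

def Tk (κ : ℕ) (y : O → ℂ) (M : ℝ) (k : O × O) (b : O) : ℂ :=
  y k.1 * conj (y k.2) * ((Real.sqrt (N (k.1 * k.2)) : ℂ))⁻¹ * dd κ k.1 k.2 b *
    cexp (-(sg * M * N b / N (k.1 * k.2) : ℝ))

variable (hB : Bas) (hX : SX) {κ : ℕ} {y : O → ℂ} (hy : ∀ k, y k ≠ 0 → OP k)
include hB hy

theorem n1 {k : O} (h : y k ≠ 0) : 1 ≤ N k := hB.b1.N_one_le k (hB.b2.ne k (hy k h).1)

include hX in
theorem aa_le (h : O) {σ : ℝ} (hσ : σ ≤ 4) (u : ℝ) (k : O) : ‖aa κ y h σ u k‖ ≤ ‖y k‖ * N k ^ 6 := by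
  by_cases k0 : y k = 0
  · simp [aa, k0]
  have h1 := n1 hB hy k0
  rw [aa, norm_mul, norm_mul, norm_pow, norm_conj, norm_cpow_eq_rpow_re_of_pos (by linarith),
    ← Real.rpow_natCast _ 6]
  exact mul_le_mul (mul_le_of_le_one_right (norm_nonneg _) (pow_le_one₀ (norm_nonneg _)
    (hX.norm_le _ _))) (Real.rpow_le_rpow_of_exponent_le h1 (by simp; linarith)) (by positivity)
    (norm_nonneg _)

theorem aa_c (h : O) (σ : ℝ) (k : O) : Continuous fun u => aa κ y h σ u k := by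
  by_cases k0 : y k = 0
  · simpa [aa, k0] using continuous_const
  have h1 := n1 hB hy k0
  simp only [aa, pw (one_pos.trans_le h1)]
  fun_prop

theorem Tk_eq (hΓ : GAM) {M σ : ℝ} (hM : 0 < M) (hσ : 0 < σ) {h : O} (h0 : h ≠ 0) (k : O × O) :
    Tk κ y M k h = ((1 / (2 * Real.pi) : ℝ) : ℂ) * ∫ u : ℝ,
      Gamma (σ + u * I) * ((sg * M * N h : ℝ) : ℂ) ^ (-(σ + u * I)) *
        (aa κ y h σ u k.1 * conj (aa κ y h σ (-u) k.2)) := by
  by_cases k1 : y k.1 = 0
  · simp [Tk, aa, k1]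
  by_cases k2 : y k.2 = 0
  · simp [Tk, aa, k2]
  have h1 := one_pos.trans_le (n1 hB hy k1)
  have h2 := one_pos.trans_le (n1 hB hy k2)
  have h3 : 0 < sg * M * N h :=
    mul_pos (mul_pos (one_pos.trans_le sg1) hM) (one_pos.trans_le (hB.b1.N_one_le h h0))
  have h4 : 0 < sg * M * N h / (N k.1 * N k.2) := by positivity
  rw [Tk, hB.b1.N_mul, minv hΓ hσ h4, mul_left_comm, ← integral_const_mul]
  congr 2
  funext u
  have e : ((Real.sqrt (N k.1 * N k.2) : ℂ))⁻¹ * ((sg * M * N h / (N k.1 * N k.2) : ℝ) : ℂ) ^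
      (-(σ + u * I)) = ((sg * M * N h : ℝ) : ℂ) ^ (-(σ + u * I)) *
      ((N k.1 : ℂ) ^ (-1 / 2 + σ + u * I) * conj ((N k.2 : ℂ) ^ (-1 / 2 + σ + (-u : ℝ) * I))) := by
    rw [Real.sqrt_eq_rpow, ofReal_cpow (by positivity), pw (mul_pos h1 h2), pw h4, pw h3, pw h1, pw h2,
      ← exp_conj, Real.log_div h3.ne' (by positivity), Real.log_mul h1.ne' h2.ne', ← exp_neg,
      ← exp_add, ← exp_add, ← exp_add]
    congr 1
    simp only [map_mul, map_add, map_div₀, map_neg, map_one, map_ofNat, conj_ofReal, conj_I]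
    push_cast
    ring
  simp only [aa, dd, map_mul, map_pow, conj_conj]
  linear_combination y k.1 * conj (y k.2) * conj (sx h k.1) ^ κ * sx h k.2 ^ κ * Gamma (σ + u * I) * e

include hX in
theorem dual (hΓ : GAM) (hs : Summable fun k => ‖y k‖ * N k ^ 6) {M σ : ℝ} (hM : 0 < M) (hσ : 0 < σ)
    (hσ' : σ ≤ 4) {h : O} (h0 : h ≠ 0) : ‖∑' k, Tk κ y M k h‖ₑ ≤ DU κ y M σ h := by
  haveI : Countable O := Function.Injective.countable (f := fun a : O => (a.re, a.im))
    fun a b k => by ext <;> simp_all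
  have h3 : 0 < sg * M * N h :=
    mul_pos (mul_pos (one_pos.trans_le sg1) hM) (one_pos.trans_le (hB.b1.N_one_le h h0))
  have c0 : ∀ k, 0 ≤ ‖y k‖ * N k ^ 6 := fun k => mul_nonneg (norm_nonneg _) (pow_nonneg (N0 k) _)
  have al := aa_le (κ := κ) hB hX hy h hσ'
  have ac := aa_c (κ := κ) hB hy h σ
  set S : ℝ → ℂ := fun u => ∑' k, aa κ y h σ u k with hS
  have Sc : Continuous S := continuous_tsum ac hs fun k u => al u k
  have sa : ∀ u, Summable fun k => ‖aa κ y h σ u k‖ := fun u =>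
    hs.of_nonneg_of_le (fun _ => norm_nonneg _) (al u)
  have nG : ∀ u : ℝ, ‖Gamma (σ + u * I) * ((sg * M * N h : ℝ) : ℂ) ^ (-(σ + u * I))‖ =
      ‖Gamma (σ + u * I)‖ * (sg * M * N h) ^ (-σ) := fun u => by
    rw [norm_mul, norm_cpow_eq_rpow_re_of_pos h3]; simp
  have s2 := hs.mul_of_nonneg hs c0 c0
  have ac' : ∀ k, Continuous fun u : ℝ => conj (aa κ y h σ (-u) k) := fun k =>
    continuous_conj.comp ((ac k).comp continuous_neg)
  have Gc : Continuous fun u : ℝ => Gamma (σ + u * I) * ((sg * M * N h : ℝ) : ℂ) ^ (-(σ + u * I)) :=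
    (gc hσ).mul (by simp only [pw h3]; fun_prop)
  have hm : ∀ u, HasSum (fun k : O × O => aa κ y h σ u k.1 * conj (aa κ y h σ (-u) k.2))
      (S u * conj (S (-u))) := fun u => hmul (sa u) (sa (-u))
  have e1 := (hasSum_integral_of_dominated_convergence (μ := volume)
    (F := fun (k : O × O) (u : ℝ) => Gamma (σ + u * I) * ((sg * M * N h : ℝ) : ℂ) ^ (-(σ + u * I)) *
        (aa κ y h σ u k.1 * conj (aa κ y h σ (-u) k.2)))
    (fun k u => ‖Gamma (σ + u * I)‖ * (sg * M * N h) ^ (-σ) * (‖y k.1‖ * N k.1 ^ 6 * (‖y k.2‖ * N k.2 ^ 6)))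
    (fun k => (Gc.mul ((ac k.1).mul (ac' k.2))).aestronglyMeasurable)
    (fun k => .of_forall fun u => by
      rw [norm_mul, nG, norm_mul, norm_conj]
      exact mul_le_mul_of_nonneg_left (mul_le_mul (al _ _) (al _ _) (norm_nonneg _) (c0 _))
        (by positivity))
    (.of_forall fun u => s2.mul_left _)
    (by simp only [tsum_mul_left]; exact ((gi hΓ hσ).norm.mul_const _).mul_const _)
    (.of_forall fun u => (hm u).mul_left _)).tsum_eq
  set g : ℝ → ENNReal := fun u => ENNReal.ofReal (‖Gamma (σ + u * I)‖ * (sg * M * N h) ^ (-σ) *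
    ‖S u‖ ^ 2) with hg
  have gm : Measurable g := by
    have := gc hσ
    exact (Continuous.measurable (by fun_prop)).ennreal_ofReal
  have e2 : DU κ y M σ h = ∫⁻ u, g u := lintegral_congr fun u => by
    simp only [hg]
    rw [ENNReal.ofReal_mul (by positivity), ENNReal.ofReal_mul (by positivity),
      ENNReal.ofReal_pow (norm_nonneg _), ofReal_norm_eq_enorm, ofReal_norm_eq_enorm]
    rfl
  simp only [Tk_eq hB hy hΓ hM hσ h0]
  rw [tsum_mul_left, e1, enorm_mul, e2]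
  refine (mul_le_mul' (b := ENNReal.ofReal (1 / 2)) (d := (∫⁻ u, g u) + ∫⁻ u, g u) ?_ ?_).trans (le_of_eq ?_)
  · rw [← ofReal_norm_eq_enorm, norm_real, Real.norm_of_nonneg (by positivity)]
    exact ENNReal.ofReal_le_ofReal (one_div_le_one_div_of_le two_pos (by linarith [Real.pi_gt_three]))
  · nth_rw 2 [← lintegral_neg_eq_self]
    rw [← lintegral_add_left gm]
    refine (enorm_integral_le_lintegral_enorm _).trans (lintegral_mono fun u => ?_)
    have e3 : ‖Gamma (σ + (-u : ℝ) * I)‖ = ‖Gamma (σ + u * I)‖ := by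
      rw [← norm_conj, ← Gamma_conj]; simp
    simp only [hg]
    rw [← ofReal_norm_eq_enorm, ← ENNReal.ofReal_add (by positivity) (by positivity), norm_mul, nG, e3,
      ← mul_add, norm_mul, norm_conj]
    exact ENNReal.ofReal_le_ofReal (mul_le_mul_of_nonneg_left (by
      nlinarith [sq_nonneg (‖S u‖ - ‖S (-u)‖), norm_nonneg (S u), norm_nonneg (S (-u))]) (by positivity))
  · rw [← two_mul, ← mul_assoc, ← ENNReal.ofReal_ofNat, ← ENNReal.ofReal_mul (by norm_num)]
    norm_num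

include hX in
theorem pois (hG : GPOStmt) {M : ℝ} (hM : 0 < M) (k : O × O) :
    ∑' m : O, (Real.exp (-(N m / M)) : ℂ) * (y k.1 * conj (y k.2) * II κ k.1 k.2 m) =
      (Real.pi * M : ℝ) / kap * ∑' b, Tk κ y M k b := by
  by_cases k1 : y k.1 = 0
  · simp [Tk, k1]
  by_cases k2 : y k.2 = 0
  · simp [Tk, k2]
  have q0 := mul_ne_zero (hB.b2.ne _ (hy _ k1).1) (hB.b2.ne _ (hy _ k2).1)
  have q1 : (N (k.1 * k.2) : ℂ) ≠ 0 := by
    exact_mod_cast (one_pos.trans_le (hB.b1.N_one_le _ q0)).ne'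
  have p1 : Pe (k.1 * k.2) (dd κ k.1 k.2) := fun a m => by
    have e1 := hX.pe k.1 a (k.2 * m)
    have e2 := hX.pe k.2 a (k.1 * m)
    simp only at e1 e2
    rw [dd, dd, ← e1, ← e2, mul_assoc, mul_left_comm]
  have p2 : Pe (k.1 * k.2) (II κ k.1 k.2) := fun a m => by
    simp only [II]
    congr 1
    refine Finset.sum_congr rfl fun r _ => ?_
    rw [show -((a + k.1 * k.2 * m) * r) = -(a * r) + k.1 * k.2 * -(m * r) by ring, hB.b1.eQ_add,
      hB.b1.eQ_dvd _ _ (dvd_mul_right _ _), mul_one]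
  have e1 := hG _ _ M q0 p2 hM
  have e2 : ∀ b, ∑ r ∈ Rs (k.1 * k.2), II κ k.1 k.2 r * eQ (r * b) (k.1 * k.2) =
      N (k.1 * k.2) * (((Real.sqrt (N (k.1 * k.2)) : ℂ))⁻¹ * dd κ k.1 k.2 b) := fun b => by
    rw [hB.b4.finv _ _ b q0 p1]
    simp only [II, mul_assoc, ← Finset.mul_sum]
    field_simp
  rw [tsum_congr fun m => (by rw [ofReal_exp, ofReal_neg]; ring : _ = y k.1 * conj (y k.2) *
    (II κ k.1 k.2 m * cexp (-(N m / M : ℝ)))), tsum_mul_left, e1]
  simp only [e2, Tk, mul_assoc, tsum_mul_left]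
  field_simp

include hX in
theorem Tk_le {M : ℝ} (hM : 0 < M) (k : O × O) (b : O) : ‖Tk κ y M k b‖ ≤
    ‖y k.1‖ * N k.1 ^ 6 * (‖y k.2‖ * N k.2 ^ 6) *
      ((if b = 0 then 1 else 0) + 2 / (sg * M) ^ 2 * N b ^ (-(2 : ℝ))) := by
  by_cases k1 : y k.1 = 0
  · simp [Tk, k1]
  by_cases k2 : y k.2 = 0
  · simp [Tk, k2]
  have h1 := one_le_mul_of_one_le_of_one_le (n1 hB hy k1) (n1 hB hy k2)
  have s0 := one_pos.trans_le sg1
  have b0 := N0 b
  have d1 : ‖dd κ k.1 k.2 b‖ ≤ 1 := by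
    rw [dd, norm_mul, norm_pow, norm_pow, norm_conj]
    exact mul_le_one₀ (pow_le_one₀ (norm_nonneg _) (hX.norm_le _ _)) (by positivity)
      (pow_le_one₀ (norm_nonneg _) (hX.norm_le _ _))
  rw [Tk, hB.b1.N_mul, norm_mul, norm_mul, norm_mul, norm_mul, norm_conj, cexp_norm, norm_inv, norm_real,
    Real.norm_of_nonneg (Real.sqrt_nonneg _), mul_mul_mul_comm _ (N k.1 ^ 6), ← mul_pow, mul_assoc,
    mul_assoc, mul_assoc (_ * _)]
  refine mul_le_mul_of_nonneg_left ((mul_le_of_le_one_left (by positivity) (inv_le_one_of_one_le₀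
    (Real.one_le_sqrt.2 h1))).trans ((mul_le_of_le_one_left (by positivity) d1).trans ?_))
    (by positivity)
  generalize N k.1 * N k.2 = Q at h1
  split_ifs with hb
  · exact (Real.exp_le_one_iff.2 (neg_nonpos.2 (by positivity))).trans (one_le_mul_of_one_le_of_one_le
      (one_le_pow₀ h1) (le_add_of_nonneg_right (by positivity)))
  · have := exp_le hB (A := 2) (c := sg * M / Q) (by positivity) hb
    rw [div_mul_eq_mul_div] at this
    refine this.trans ?_
    rw [zero_add, ← mul_assoc, show ((2 : ℕ) : ℝ) = 2 by norm_num]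
    refine mul_le_mul_of_nonneg_right (le_trans (le_of_eq ?_) (mul_le_mul_of_nonneg_right
      (pow_le_pow_right₀ h1 (show 2 ≤ 6 by norm_num)) (by positivity))) (by positivity)
    norm_num [Nat.factorial]
    field_simp

end PS1M

open PS1M SS0M in
theorem ps1S (hB : Bas) (hX : SX) (hK : KM) (hG : GPOStmt) (hΓ : GAM) : PS1Stmt := by
  intro κ y M σ hκ hM hy hs hσ
  have c0 : ∀ k, 0 ≤ ‖y k‖ * N k ^ 6 := fun k => mul_nonneg (norm_nonneg _) (pow_nonneg (N0 k) _)
  have s2 := hs.mul_of_nonneg hs c0 c0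
  have c2 := fun k : O × O => mul_nonneg (c0 k.1) (c0 k.2)
  have s3 : Summable (Function.uncurry fun (k : O × O) (m : O) =>
      (Real.exp (-(N m / M)) : ℂ) * (y k.1 * conj (y k.2) * II κ k.1 k.2 m)) := by
    refine (s2.mul_of_nonneg (summ_exp hB (inv_pos.2 hM)) c2 fun _ => (Real.exp_pos _).le).of_norm_bounded
      fun ⟨k, m⟩ => ?_
    by_cases k1 : y k.1 = 0
    · simp [k1]
    by_cases k2 : y k.2 = 0
    · simp [k2]
    have a1 := n1 hB hy k1
    have a2 := n1 hB hy k2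
    simp only [Function.uncurry]
    rw [norm_mul, norm_mul, norm_mul, norm_conj, norm_real, Real.norm_of_nonneg (Real.exp_pos _).le,
      mul_comm, div_eq_inv_mul, mul_mul_mul_comm _ (N k.1 ^ 6)]
    refine mul_le_mul_of_nonneg_right (mul_le_mul_of_nonneg_left ((hK.II_le κ _ _ m (hy _ k1)
      (hy _ k2)).trans (mul_le_mul (le_self_pow₀ a1 (by norm_num)) (le_self_pow₀ a2 (by norm_num))
        (by positivity) (by positivity))) (by positivity)) (by positivity)
  have s4 : Summable (Function.uncurry (Tk κ y M)) :=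
    (s2.mul_of_nonneg ((hasSum_ite_eq 0 (1 : ℝ)).summable.add ((hB.b3.summ 2 one_lt_two).mul_left
      (2 / (sg * M) ^ 2))) c2 fun b => by have := N0 b; positivity).of_norm_bounded
        fun p => Tk_le hB hX hy hM p.1 p.2
  simp only [← tsum_mul_left]
  rw [s3.tsum_comm]
  simp only [pois hB hX hy hG hM]
  rw [tsum_mul_left, ← s4.tsum_comm, enorm_mul]
  refine mul_le_mul' ?_ (enorm_tsum_le_tsum_enorm.trans ?_)
  · have h3 : 5 / 3 ≤ Real.sqrt 3 := Real.le_sqrt_of_sq_le (by norm_num)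
    rw [← ofReal_norm_eq_enorm, kap, norm_div, norm_div, norm_real, norm_real,
      Real.norm_of_nonneg (by positivity), Real.norm_of_nonneg (by positivity)]
    refine ENNReal.ofReal_le_ofReal ?_
    rw [show ‖(2 : ℂ)‖ = 2 by simp, div_le_iff₀ (by positivity)]
    nlinarith [Real.pi_lt_d2]
  · rw [ENNReal.tsum_eq_add_tsum_ite 0]
    refine add_le_add (le_of_eq ?_) (ENNReal.tsum_le_tsum fun h => ?_)
    · have z : ∀ k, k ≠ 1 → y k * sx 0 k = 0 := fun k hk => by
        by_cases k1 : y k = 0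
        · simp [k1]
        · rw [hX.zero 0 k (hB.b2.ne _ (hy _ k1).1) fun c => hk (hB.b2.uniq _ _ (hy _ k1).1 hB.b2.one
            (associated_one_iff_isUnit.2 (isCoprime_zero_left.1 c))), mul_zero]
      have N1 : N 1 = 1 := by rw [N, (hB.b1.unit_iff 1).1 isUnit_one, Nat.cast_one]
      rw [tsum_eq_single (1, 1) fun k hk => ?_]
      · simp [Tk, dd, hX.one_r, N1, hB.b1.N_zero, sq]
      · by_cases k1 : k.1 = 1
        · rcases mul_eq_zero.1 (z k.2 fun k2 => hk (Prod.ext k1 k2)) with a | a <;> simp [Tk, dd, a, hκ]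
        · rcases mul_eq_zero.1 (z k.1 k1) with a | a <;> simp [Tk, dd, a, hκ]
    · split_ifs with h0
      · exact le_rfl
      · exact dual hB hX hy hΓ hs hM (hσ h).1 (hσ h).2 h0

end Vale.Agent.P026
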