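import Vale.Agent.P026.M.PS1a

/-! P026 row PS1: Poisson summation in the family variable. -/

noncomputable section
open Complex MeasureTheory Filter Topology
open scoped Classical ComplexConjugate

namespace Vale.Agent.P026
namespace PS1M
open PSM

/-- summable majorant -/
def ww (b : O) : ℝ := (if b = 0 then 1 else 0) + N b ^ (-2 : ℝ)

lemma ww0 (b : O) : 0 ≤ ww b := by
  unfold ww
  have := N0 b
  split_ifs <;> positivity

lemma ww_summ (hB : Bas) : Summable ww :=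
  (hasSum_ite_eq (0 : O) (1 : ℝ)).summable.add (hB.b3.summ 2 (by norm_num))

lemma exp_le (hB : Bas) {c Q : ℝ} (hc : 0 < c) (hQ : 1 ≤ Q) (b : O) :
    Real.exp (-(c * N b / Q)) ≤ (1 + 2 / c ^ 2) * Q ^ 2 * ww b := by
  have q2 : 1 ≤ Q ^ 2 := one_le_pow₀ hQ
  have c2 : 0 < 2 / c ^ 2 := by positivity
  unfold ww
  by_cases hb : b = 0
  · rw [if_pos hb, hb, hB.b1.N_zero, Real.zero_rpow (by norm_num)]
    simp only [mul_zero, zero_div, neg_zero, Real.exp_zero, add_zero, mul_one]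
    nlinarith
  · rw [if_neg hb, zero_add]
    have nb : 0 < N b := zero_lt_one.trans_le (hB.b1.N_one_le b hb)
    have hx : 0 < c * N b / Q := by positivity
    have h1 := Real.quadratic_le_exp_of_nonneg hx.le
    have e : N b ^ (-2 : ℝ) = (N b ^ 2)⁻¹ := by
      rw [Real.rpow_neg nb.le]; norm_num
    rw [e, Real.exp_neg]
    calc (Real.exp (c * N b / Q))⁻¹ ≤ ((c * N b / Q) ^ 2 / 2)⁻¹ := by
          gcongr; linarith
      _ = (0 + 2 / c ^ 2) * Q ^ 2 * (N b ^ 2)⁻¹ := by field_simp; ring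
      _ ≤ _ := by gcongr; norm_num

lemma pe_dd (hX : SX) (κ : ℕ) (k1 k2 : O) : Pe (k1 * k2) (dd κ k1 k2) := by
  intro a m
  unfold dd
  have h1 := hX.pe k1 a (k2 * m)
  have h2 := hX.pe k2 a (k1 * m)
  simp only at h1 h2
  rw [mul_assoc, h1, mul_left_comm, h2]

lemma pe_II (hB : Bas) (κ : ℕ) (k1 k2 : O) : Pe (k1 * k2) (II κ k1 k2) := by
  intro a m
  unfold II
  congr 1
  refine Finset.sum_congr rfl fun h _ => ?_
  have : -((a + k1 * k2 * m) * h) = -(a * h) + k1 * k2 * (-(m * h)) := by ring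
  rw [this, hB.b1.eQ_add, hB.b1.eQ_dvd (k1 * k2 * _) _ (dvd_mul_right _ _), mul_one]

lemma kap_ne : kap ≠ 0 := by
  unfold kap
  exact div_ne_zero (by exact_mod_cast (Real.sqrt_pos.2 (by norm_num : (0 : ℝ) < 3)).ne') two_ne_zero

lemma pair (hB : Bas) (hX : SX) (hG : GPOStmt) (κ : ℕ) (y : O → ℂ) (hy : ∀ k, y k ≠ 0 → OP k)
    {M : ℝ} (hM : 0 < M) (k : O × O) :
    ∑' m : O, (Real.exp (-(N m / M)) : ℂ) * (y k.1 * conj (y k.2) * II κ k.1 k.2 m) =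
      ((Real.pi * M : ℝ) / kap) * ∑' b, TK κ y M k b := by
  unfold TK
  by_cases h1 : y k.1 = 0
  · simp [h1]
  by_cases h2 : y k.2 = 0
  · simp [h2]
  have hq : k.1 * k.2 ≠ 0 := mul_ne_zero (op_ne hB (hy _ h1)) (op_ne hB (hy _ h2))
  have nq : (N (k.1 * k.2) : ℂ) ≠ 0 := by
    exact_mod_cast (zero_lt_one.trans_le (hB.b1.N_one_le _ hq)).ne'
  have G := hG (II κ k.1 k.2) (k.1 * k.2) M hq (pe_II hB κ _ _) hM
  have F : ∀ b, ∑ r ∈ Rs (k.1 * k.2), II κ k.1 k.2 r * eQ (r * b) (k.1 * k.2) =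
      N (k.1 * k.2) * (dd κ k.1 k.2 b * ((Real.sqrt (N (k.1 * k.2)) : ℂ))⁻¹) := by
    intro b
    rw [hB.b4.finv (k.1 * k.2) (dd κ k.1 k.2) b hq (pe_dd hX κ _ _)]
    unfold II
    simp only [mul_assoc]
    rw [← Finset.mul_sum]
    field_simp
  simp only [F, mul_assoc (N (k.1 * k.2) : ℂ)] at G
  rw [tsum_mul_left] at G
  rw [tsum_mul_left]
  have e : ∀ m : O, (Real.exp (-(N m / M)) : ℂ) * (y k.1 * conj (y k.2) * II κ k.1 k.2 m) =
      y k.1 * conj (y k.2) * (II κ k.1 k.2 m * cexp (-(N m / M : ℝ))) := by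
    intro m; push_cast; ring
  simp only [e]
  rw [tsum_mul_left, G]
  have := kap_ne
  field_simp

lemma le6 (hB : Bas) (y : O → ℂ) (hy : ∀ k, y k ≠ 0 → OP k) (k : O) {j : ℕ} (hj : j ≤ 6) :
    ‖y k‖ * N k ^ j ≤ ‖y k‖ * N k ^ 6 := by
  by_cases h : y k = 0
  · simp [h]
  exact mul_le_mul_of_nonneg_left (pow_le_pow_right₀ (op_N hB (hy k h)) hj) (norm_nonneg _)

lemma summ1 (hB : Bas) (hK : KM) (κ : ℕ) (y : O → ℂ) (hy : ∀ k, y k ≠ 0 → OP k)
    (hs : Summable (fun k => ‖y k‖ * N k ^ 6)) {M : ℝ} (hM : 0 < M) :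
    Summable (Function.uncurry fun (m : O) (k : O × O) =>
      (Real.exp (-(N m / M)) : ℂ) * (y k.1 * conj (y k.2) * II κ k.1 k.2 m)) := by
  have a0 : ∀ k, 0 ≤ ‖y k‖ * N k ^ 6 := fun k => mul_nonneg (norm_nonneg _) (pow_nonneg (N0 _) _)
  refine Summable.of_norm_bounded (((ww_summ hB).mul_left ((1 + 2 / M⁻¹ ^ 2) * 1 ^ 2)).mul_of_nonneg
    (hs.mul_of_nonneg hs a0 a0) (fun b => mul_nonneg (by positivity) (ww0 b))
    (fun k => mul_nonneg (a0 _) (a0 _))) ?_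
  rintro ⟨m, k⟩
  simp only [Function.uncurry]
  have h := exp_le hB (inv_pos.2 hM) le_rfl m
  rw [div_one, ← div_eq_inv_mul] at h
  rw [norm_mul, Complex.norm_real, Real.norm_of_nonneg (Real.exp_pos _).le]
  refine mul_le_mul h ?_ (norm_nonneg _) (mul_nonneg (by positivity) (ww0 m))
  by_cases h1 : y k.1 = 0
  · simp [h1]
  by_cases h2 : y k.2 = 0
  · simp [h2]
  rw [norm_mul, norm_mul, Complex.norm_conj]
  have := hK.II_le κ _ _ m (hy _ h1) (hy _ h2)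
  have b1 := le6 hB y hy k.1 (j := 1) (by norm_num)
  have b2 := le6 hB y hy k.2 (j := 1) (by norm_num)
  have := N0 k.2
  have := a0 k.1
  calc _ ≤ ‖y k.1‖ * ‖y k.2‖ * (N k.1 * N k.2) := by gcongr
    _ = (‖y k.1‖ * N k.1 ^ 1) * (‖y k.2‖ * N k.2 ^ 1) := by ring
    _ ≤ _ := by gcongr

lemma summ2 (hB : Bas) (hX : SX) (κ : ℕ) (y : O → ℂ) (hy : ∀ k, y k ≠ 0 → OP k)
    (hs : Summable (fun k => ‖y k‖ * N k ^ 6)) {M : ℝ} (hM : 0 < M) :
    Summable (Function.uncurry (TK κ y M)) := by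
  have a0 : ∀ k, 0 ≤ ‖y k‖ * N k ^ 6 := fun k => mul_nonneg (norm_nonneg _) (pow_nonneg (N0 _) _)
  have hsg := sg_pos
  refine Summable.of_norm_bounded ((hs.mul_of_nonneg hs a0 a0).mul_of_nonneg
    ((ww_summ hB).mul_left (1 + 2 / (sg * M) ^ 2))
    (fun k => mul_nonneg (a0 _) (a0 _)) (fun b => mul_nonneg (by positivity) (ww0 b))) ?_
  rintro ⟨k, b⟩
  simp only [Function.uncurry, TK]
  by_cases h1 : y k.1 = 0
  · simp [h1]
  by_cases h2 : y k.2 = 0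
  · simp [h2]
  have n1 := op_N hB (hy _ h1)
  have n2 := op_N hB (hy _ h2)
  have nq : 1 ≤ N k.1 * N k.2 := one_le_mul_of_one_le_of_one_le n1 n2
  have h := exp_le hB (c := sg * M) (by positivity) nq b
  have d1 : ‖dd κ k.1 k.2 b‖ ≤ 1 := by
    unfold dd
    rw [norm_mul, norm_pow, norm_pow, Complex.norm_conj]
    exact mul_le_one₀ (pow_le_one₀ (norm_nonneg _) (hX.norm_le _ _)) (by positivity)
      (pow_le_one₀ (norm_nonneg _) (hX.norm_le _ _))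
  have d2 : ‖((Real.sqrt (N k.1 * N k.2) : ℂ))⁻¹‖ ≤ 1 := by
    rw [norm_inv, Complex.norm_real, Real.norm_of_nonneg (Real.sqrt_nonneg _)]
    exact inv_le_one_of_one_le₀ (Real.one_le_sqrt.2 nq)
  have d3 : ‖cexp (-(sg * M * N b / (N k.1 * N k.2) : ℝ))‖ =
      Real.exp (-(sg * M * N b / (N k.1 * N k.2))) := by
    rw [← Complex.ofReal_neg, Complex.norm_exp_ofReal]
  rw [hB.b1.N_mul, norm_mul, norm_mul, norm_mul, norm_mul, Complex.norm_conj, d3]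
  have b1 := le6 hB y hy k.1 (j := 2) (by norm_num)
  have b2 := le6 hB y hy k.2 (j := 2) (by norm_num)
  have := ww0 b
  have := a0 k.1
  calc _ ≤ ‖y k.1‖ * ‖y k.2‖ * (1 * 1 * ((1 + 2 / (sg * M) ^ 2) * (N k.1 * N k.2) ^ 2 * ww b)) := by
        gcongr
    _ = (‖y k.1‖ * N k.1 ^ 2) * (‖y k.2‖ * N k.2 ^ 2) * ((1 + 2 / (sg * M) ^ 2) * ww b) := by ring
    _ ≤ _ := by gcongr

lemma sx0 (hB : Bas) (hX : SX) {k : O} (hk : OP k) (h1 : k ≠ 1) : sx 0 k = 0 := by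
  refine hX.zero 0 k (op_ne hB hk) fun h => h1 ?_
  exact hB.b2.uniq _ _ hk.1 hB.b2.one (associated_one_iff_isUnit.2 (isCoprime_zero_left.1 h))

lemma zero_term (hB : Bas) (hX : SX) {κ : ℕ} (hκ : κ ≠ 0) (y : O → ℂ) (hy : ∀ k, y k ≠ 0 → OP k)
    (M : ℝ) : ‖∑' k : O × O, TK κ y M k 0‖ₑ = ‖y 1‖ₑ ^ 2 := by
  rw [tsum_eq_single ((1 : O), (1 : O))]
  · unfold TK dd
    simp only [hX.one_r, mul_one, N1 hB, hB.b1.N_zero]
    simp [sq, ← ofReal_norm]
  · intro k hk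
    unfold TK dd
    by_cases h1 : y k.1 = 0
    · simp [h1]
    by_cases h2 : y k.2 = 0
    · simp [h2]
    by_cases e1 : k.1 = 1
    · have e2 : k.2 ≠ 1 := fun e2 => hk (Prod.ext e1 e2)
      simp [sx0 hB hX (hy _ h2) e2, hκ]
    · simp [sx0 hB hX (hy _ h1) e1, hκ]

lemma cst {M : ℝ} (hM : 0 < M) : ‖(((Real.pi * M : ℝ) : ℂ) / kap)‖ₑ ≤ ENNReal.ofReal (4 * M) := by
  rw [← ofReal_norm]
  refine ENNReal.ofReal_le_ofReal ?_
  have h3 : (17 / 10 : ℝ) ≤ Real.sqrt 3 := Real.le_sqrt_of_sq_le (by norm_num)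
  have hk : ‖kap‖ = Real.sqrt 3 / 2 := by
    unfold kap
    rw [norm_div, Complex.norm_real, Real.norm_of_nonneg (Real.sqrt_nonneg _)]; simp
  rw [norm_div, hk, Complex.norm_real, Real.norm_of_nonneg (by positivity), div_le_iff₀ (by positivity)]
  nlinarith [Real.pi_lt_d2]

end PS1M

open PS1M in
theorem ps1S (hB : Bas) (hX : SX) (hK : KM) (hG : GPOStmt) (hΓ : GAM) : PS1Stmt := by
  intro κ y M σ hκ hM hy hs hσ
  simp only [← tsum_mul_left]
  rw [← (summ1 hB hK κ y hy hs hM).tsum_comm]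
  simp only [pair hB hX hG κ y hy hM]
  rw [tsum_mul_left, ← (summ2 hB hX κ y hy hs hM).tsum_comm, enorm_mul]
  refine mul_le_mul' (cst hM) (enorm_tsum_le_tsum_enorm.trans ?_)
  rw [ENNReal.tsum_eq_add_tsum_ite 0, zero_term hB hX hκ y hy M]
  refine add_le_add le_rfl (ENNReal.tsum_le_tsum fun b => ?_)
  by_cases hb : b = 0
  · simp [hb]
  · simp only [hb, if_false]
    exact dual hB hX hΓ κ y hy hs hM (hσ b).1 (hσ b).2 hb

end Vale.Agent.P026
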