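import Vale.Agent.P026.Stm3

noncomputable section
open Complex MeasureTheory Filter Topology
open scoped Classical ComplexConjugate

namespace Vale.Agent.P026

namespace PSDLM

/-- weights -/
def rho (i : ℕ) : ℝ := if i < 4 then (if i = 0 then 2 else if i = 3 then 3 else 1) else 25 / 2 ^ (i + 1)

theorem rho_sum (n : ℕ) : ∑ i ∈ Finset.range n, rho i ≤ 9 := by
  have h : ∀ k, ∑ i ∈ Finset.range (k + 4), rho i = 7 + 25 / 16 - 25 / 2 ^ (k + 4) := fun k => by
    induction k with
    | zero => simp [Finset.sum_range_succ, rho]; norm_num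
    | succ k ih =>
      rw [show k + 1 + 4 = k + 4 + 1 by ring, Finset.sum_range_succ, ih, rho, if_neg (by omega)]
      field_simp
      ring
  calc _ ≤ ∑ i ∈ Finset.range (n + 4), rho i :=
        Finset.sum_le_sum_of_subset_of_nonneg (Finset.range_mono (by omega)) fun i _ _ => by
          unfold rho
          split_ifs <;> positivity
    _ ≤ 9 := by
      have : (0 : ℝ) ≤ 25 / 2 ^ (n + 4) := by positivity
      rw [h]
      linarith

theorem qd (n : ℕ) (a b : ℕ → ℝ) (h1 : ∀ i < 3, a i = 0) (h2 : ∀ i, 4 ≤ i → b i = 0) :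
    ∑ i ∈ Finset.range n, (if i = 0 then b 0 ^ 2 / 2 else 0) ≤
      ∑ i ∈ Finset.range n, ∑ j ∈ Finset.range n,
        ((if i = j then b i ^ 2 + 2 ^ (i + 1) * a i ^ 2 else 0) - (a i * a j + a i * b j + b i * a j)) := by
  have e : ∀ A : ℝ, ∑ i ∈ Finset.range n, ((if i = 0 then b 0 ^ 2 / 2 else 0) + 2 * A * b i + 10 * A * a i) ≤
      ∑ i ∈ Finset.range n, (b i ^ 2 + 2 ^ (i + 1) * a i ^ 2 + rho i * A ^ 2) := fun A =>
    Finset.sum_le_sum fun i _ => by
      by_cases c : i < 4
      · interval_cases i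
        · simp [rho, h1]
          nlinarith [sq_nonneg (b 0 - 2 * A)]
        · simp [rho, h1]
          nlinarith [sq_nonneg (b 1 - A)]
        · simp [rho, h1]
          nlinarith [sq_nonneg (b 2 - A)]
        · simp [rho]
          nlinarith [sq_nonneg (b 3 - A), sq_nonneg (16 * a 3 - 5 * A), sq_nonneg A]
      · rw [rho, if_neg c, if_neg (by omega), h2 i (by omega)]
        have h : (0 : ℝ) < 2 ^ (i + 1) := by positivity
        generalize (2 : ℝ) ^ (i + 1) = t at h
        have : 0 ≤ (t * a i - 5 * A) ^ 2 / t := by positivity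
        have e : (t * a i - 5 * A) ^ 2 / t = t * a i ^ 2 + 25 / t * A ^ 2 - 10 * A * a i := by
          field_simp
          ring
        linarith
  have e1 := e (∑ i ∈ Finset.range n, a i)
  have e2 := mul_le_mul_of_nonneg_right (rho_sum n) (sq_nonneg (∑ i ∈ Finset.range n, a i))
  refine le_of_le_of_eq ?_ (Finset.sum_congr rfl fun i hi => by
    rw [Finset.sum_sub_distrib, Finset.sum_ite_eq, if_pos hi]).symm
  simp only [Finset.sum_add_distrib, Finset.sum_sub_distrib, ← Finset.mul_sum, ← Finset.sum_mul] at e1 ⊢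
  nlinarith

/-- exponent -/
def ex (κ j : ℕ) : ℕ := j + if κ = 1 ∧ j = 3 then 0 else j / 3
/-- main size -/
def v (κ : ℕ) (p m : O) (j : ℕ) : ℝ := if 3 ≤ j ∧ p ^ (j - 1) ∣ m then Real.sqrt (N p ^ ex κ j) else 0
/-- secondary size -/
def s (κ : ℕ) (p m : O) (j : ℕ) : ℝ :=
  if j = 0 then 1 else if j = 1 ∧ p ^ 2 ∣ m then Real.sqrt (N p ^ 1) else
    if j = 3 ∧ κ = 1 ∧ p ^ 6 ∣ m then Real.sqrt (N p ^ 4) else 0

theorem v0 (κ p m j) : 0 ≤ v κ p m j := by
  unfold v
  split_ifs <;> positivity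

theorem s0 (κ p m j) : 0 ≤ s κ p m j := by
  unfold s
  split_ifs <;> positivity

variable (hl : LOC) {κ : ℕ} {p m : O} (hκ : κ = 1 ∨ κ = 3) (hp : Prime p) (ho : OP p) (hq : 1 ≤ N p)
  (hm : p ∣ m)
include hl hκ hp ho hq hm

theorem off {i j : ℕ} (h : i < j) : ‖Kn κ (p ^ i) (p ^ j) m‖ ≤
    v κ p m i * v κ p m j + v κ p m i * s κ p m j + s κ p m i * v κ p m j := by
  have a1 := mul_nonneg (v0 κ p m i) (v0 κ p m j)
  have a2 := mul_nonneg (v0 κ p m i) (s0 κ p m j)
  have a3 := mul_nonneg (s0 κ p m i) (v0 κ p m j)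
  have z : Kn κ (p ^ i) (p ^ j) m = 0 → ‖Kn κ (p ^ i) (p ^ j) m‖ ≤
      v κ p m i * v κ p m j + v κ p m i * s κ p m j + s κ p m i * v κ p m j := fun e => by
    rw [e, norm_zero]
    positivity
  by_cases c : p ^ (i + j - 1) ∣ m
  swap
  · exact z (hl.supp κ p m i j hκ hp ho (by omega) c)
  by_cases c2 : i % 3 = 2 ∨ j % 3 = 2
  · exact z (hl.two κ p m i j hp ho c2)
  by_cases c3 : j = 1
  · obtain rfl : i = 0 := by omega
    exact z (hl.nontriv κ p m 0 j hκ hp ho (by rcases hκ with rfl | rfl <;> omega) (by simpa [c3] using hm))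
  have d : ∀ k, k ≤ i + j - 1 → p ^ k ∣ m := fun k hk => (pow_dvd_pow p hk).trans c
  have r : ∀ a b : ℕ, ‖Kn κ (p ^ i) (p ^ j) m‖ ^ 2 ≤ N p ^ (a + b) →
      ‖Kn κ (p ^ i) (p ^ j) m‖ ≤ Real.sqrt (N p ^ a) * Real.sqrt (N p ^ b) := fun a b e => by
    rw [← Real.sqrt_mul (by positivity), ← pow_add]
    exact Real.le_sqrt_of_sq_le e
  have l1 := hl.le κ p m i j hκ hp ho
  have l2 := hl.le' κ p m i j hκ hp ho (by omega)
  have vj : v κ p m j = Real.sqrt (N p ^ ex κ j) := if_pos ⟨by omega, d _ (by omega)⟩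
  by_cases c4 : i < 3
  · have e : ‖Kn κ (p ^ i) (p ^ j) m‖ ^ 2 ≤ N p ^ (i + ex κ j) := by
      unfold ex
      split_ifs with c5
      · convert l2 (Or.inl (by rw [c5.1]; omega)) using 2
        omega
      · convert l1 using 2
        omega
    have e2 : s κ p m i = Real.sqrt (N p ^ i) := by
      obtain rfl | rfl : i = 0 ∨ i = 1 := by omega
      · simp [s]
      · rw [s, if_neg (by omega), if_pos ⟨rfl, d _ (by omega)⟩]
    have := r _ _ e
    rw [← vj, ← e2] at this
    linarith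
  have vi : v κ p m i = Real.sqrt (N p ^ ex κ i) := if_pos ⟨by omega, d _ (by omega)⟩
  have ej : ex κ j = j + j / 3 := by rw [ex, if_neg (by omega)]
  by_cases c5 : κ = 1 ∧ i = 3 ∧ p ^ 6 ∣ m
  · have e2 : s κ p m i = Real.sqrt (N p ^ 4) := by
      rw [s, if_neg (by omega), if_neg (by omega), if_pos ⟨c5.2.1, c5.1, c5.2.2⟩]
    have := r 4 (ex κ j) (by convert l1 using 2; omega)
    rw [← vj, ← e2] at this
    linarith
  · have := r (ex κ i) (ex κ j) (by
      rw [ej, ex]
      split_ifs with c6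
      · convert l2 (Or.inr fun e => c5 ⟨c6.1, c6.2, (pow_dvd_pow p (by omega)).trans e⟩) using 2
        omega
      · convert l1 using 2
        omega)
    rw [← vj, ← vi] at this
    linarith

theorem dia (hK : KM) (i : ℕ) :
    s κ p m i ^ 2 + (2 ^ (i + 1) - 1) * v κ p m i ^ 2 ≤ (Kl κ p m i i).re := by
  have h0 : 0 < N p := by linarith
  have sq : ∀ k : ℕ, Real.sqrt (N p ^ k) ^ 2 = N p ^ k := fun k => Real.sq_sqrt (by positivity)
  by_cases c : i < 3
  · interval_cases i
    · simp [Kl, s, v, hK.one]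
    · rw [Kl, hl.diag κ p m 1 hκ hp ho le_rfl (by omega)]
      have : (N p : ℂ) ≠ 0 := ofReal_ne_zero.2 h0.ne'
      by_cases d : p ^ 2 ∣ m <;> simp [s, v, cl, d, hm, mul_sub, this, Real.sq_sqrt h0.le]
    · simp [Kl, s, v, cl, hl.two κ p m 2 2 hp ho]
  by_cases d : p ^ (i - 1) ∣ m
  swap
  · have d' : ∀ k, i - 1 ≤ k → ¬ p ^ k ∣ m := fun k hk e => d ((pow_dvd_pow p hk).trans e)
    rw [Kl, hl.supp κ p m i i hκ hp ho (by omega) (d' _ (by omega)), if_neg fun e => d e.2.2, s,
      if_neg (by omega), if_neg (by omega), if_neg fun e => d' 6 (by omega) e.2.2, v,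
      if_neg fun e => d e.2]
    simp
  rw [Kl, if_pos ⟨rfl, by omega, d⟩, add_re, ofReal_re, cl, if_neg (by omega), if_neg (by omega), v,
    if_pos ⟨by omega, d⟩, sq, ← ex]
  suffices s κ p m i ^ 2 - N p ^ ex κ i ≤ (Kn κ (p ^ i) (p ^ i) m).re by linarith
  have h1 : 0 < N p ^ ex κ i := by positivity
  rw [s, if_neg (by omega), if_neg (by omega)]
  by_cases c2 : i % 3 = 2
  · rw [hl.two κ p m i i hp ho (Or.inl c2), if_neg (by omega)]
    simpa using h1.le
  have e : Kn κ (p ^ i) (p ^ i) m = (N p ^ (i + i / 3) *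
      ((if p ^ (2 * i) ∣ m then 1 else 0) - if p ^ (2 * i - 1) ∣ m then (N p)⁻¹ else 0) : ℝ) := by
    rw [hl.diag κ p m i hκ hp ho (by omega) c2]
    split_ifs <;> simp
  have e1 : N p ^ (i + i / 3) * (N p)⁻¹ ≤ N p ^ ex κ i := by
    rw [mul_inv_le_iff₀ h0, ← pow_succ]
    refine pow_le_pow_right₀ hq ?_
    unfold ex
    split_ifs <;> omega
  have e2 : 0 < N p ^ (i + i / 3) := by positivity
  rw [e, ofReal_re, mul_sub]
  by_cases c3 : i = 3 ∧ κ = 1 ∧ p ^ 6 ∣ m
  · obtain ⟨rfl, -, c4⟩ := id c3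
    rw [if_pos c3, if_pos c4, if_pos ((pow_dvd_pow p (by omega)).trans c4), sq]
    norm_num at e1 ⊢
    linarith
  · rw [if_neg c3]
    split_ifs <;> linarith

end PSDLM

open PSDLM

theorem psdlS (hB : Bas) (hK : KM) (hl : LOC) : PSDLStmt := by
  intro κ p m n x hκ hp ho
  have hq := hB.b1.N_one_le p hp.ne_zero
  have o : ∀ i, OP (p ^ i) := fun i => ⟨hB.b2.pow p i ho.1, ho.2.pow_left⟩
  have o1 : OP 1 := by simpa using o 0
  split_ifs with hm
  · have a1 : Kn κ p 1 m = 0 := by
      simpa using hl.nontriv κ p m 1 0 hκ hp ho (by rcases hκ with rfl | rfl <;> omega) (by simpa using hm)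
    have e := qd n (fun i => v κ p m i * ‖x i‖) (fun i => s κ p m i * ‖x i‖)
      (fun i hi => by rw [v, if_neg (by omega), zero_mul])
      (fun i hi => by rw [s, if_neg (by omega), if_neg (by omega), if_neg (by omega), zero_mul])
    refine le_trans (le_of_eq ?_) (e.trans ?_)
    · rw [Finset.sum_ite_eq', Finset.sum_congr rfl (g := fun i => if i = 0 then x 0 else 0) fun i _ => by
        unfold al
        split_ifs with c <;> simp [*], Finset.sum_ite_eq']
      split_ifs <;> simp [s]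
      ring
    · rw [re_sum]
      refine Finset.sum_le_sum fun i _ => ?_
      rw [re_sum]
      refine Finset.sum_le_sum fun j _ => ?_
      split_ifs with c
      · subst c
        have := mul_le_mul_of_nonneg_left (dia hl hκ hp ho hq hm hK i) (sq_nonneg ‖x i‖)
        have a := mul_nonneg (mul_nonneg (v0 κ p m i) (s0 κ p m i)) (sq_nonneg ‖x i‖)
        rw [mul_conj, re_ofReal_mul, normSq_eq_norm_sq]
        nlinarith
      · have b : ‖Kn κ (p ^ i) (p ^ j) m‖ ≤
            v κ p m i * v κ p m j + v κ p m i * s κ p m j + s κ p m i * v κ p m j := by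
          rcases lt_or_gt_of_ne c with h | h
          · exact off hl hκ hp ho hq hm h
          · rw [hK.herm κ _ _ m hκ (o j) (o i), norm_conj]
            linarith [off hl hκ hp ho hq hm h]
        have a := (neg_le_abs _).trans (abs_re_le_norm (x i * conj (x j) * Kl κ p m i j))
        rw [norm_mul, norm_mul, norm_conj, Kl, if_neg fun e => c e.1, add_zero] at a
        rw [Kl, if_neg fun e => c e.1, add_zero]
        have := mul_le_mul_of_nonneg_left b (mul_nonneg (norm_nonneg (x i)) (norm_nonneg (x j)))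
        linarith
  · have u := hl.unit κ p m hκ hp ho hm
    have d : ∀ k, 1 ≤ k → ¬ p ^ k ∣ m := fun k hk e => hm ((dvd_pow_self p (by omega)).trans e)
    have e : ∀ i j, Kl κ p m i j = al κ p m i * conj (al κ p m j) := fun i j => by
      by_cases c : i < 2 ∧ j < 2
      · obtain ⟨c1, c2⟩ := c
        interval_cases i <;> interval_cases j
        · simp [Kl, al, hK.one]
        · simp [Kl, al, hK.herm κ p 1 m hκ ho o1]
        · simp [Kl, al]
        · rw [Kl, hl.diag κ p m 1 hκ hp ho le_rfl (by omega), if_neg (d _ (by omega)), if_neg (d _ (by omega))]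
          simp [al, cl, mul_conj, normSq_eq_norm_sq, u]
      · rw [Kl, hl.supp κ p m i j hκ hp ho (by omega) (d _ (by omega)),
          if_neg fun e => d _ (by omega) e.2.2]
        unfold al
        split_ifs <;> first | omega | simp
    rw [one_mul, ← normSq_eq_norm_sq, ← ofReal_re (normSq _), ← mul_conj, map_sum, Finset.sum_mul_sum]
    refine le_of_eq (congrArg re (Finset.sum_congr rfl fun i _ => Finset.sum_congr rfl fun j _ => ?_))
    rw [e, map_mul]
    ring

end Vale.Agent.P026
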