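import Vale.Agent.P026.Stm3

/-! P026 row PS, part a: the real inequality. -/

noncomputable section

namespace Vale.Agent.P026
namespace PSM

lemma kA1 (ε R rs Z L H : ℝ) (hε : 0 < ε) (hε1 : ε ≤ 1 / 100) (hZ0 : 0 < Z) (hL : 0 < L) (hH0 : 0 < H)
    (hrs : 1 ≤ rs) (hR0 : 0 ≤ R) (hR : R ≤ rs * L ^ 3) (hHen : L * H ≤ Z ^ 2) :
    R ^ (2 * ε) * min 1 H ^ (1 / 4 : ℝ) ≤ rs ^ (2 * ε) * Z ^ (12 * ε) := by
  have hm0 : 0 < min 1 H := lt_min one_pos hH0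
  have h1 : R ^ (2 * ε) ≤ rs ^ (2 * ε) * L ^ (6 * ε) := by
    calc R ^ (2 * ε) ≤ (rs * L ^ 3) ^ (2 * ε) := by gcongr
      _ = rs ^ (2 * ε) * L ^ (6 * ε) := by
        rw [Real.mul_rpow (by positivity) (by positivity), ← Real.rpow_natCast,
          ← Real.rpow_mul (by positivity)]
        congr 2; push_cast; ring
  have h2 : min 1 H ^ (1 / 4 : ℝ) ≤ H ^ (6 * ε) := by
    calc min 1 H ^ (1 / 4 : ℝ) ≤ min 1 H ^ (6 * ε) :=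
          Real.rpow_le_rpow_of_exponent_ge hm0 (min_le_left _ _) (by linarith)
      _ ≤ H ^ (6 * ε) := Real.rpow_le_rpow hm0.le (min_le_right _ _) (by positivity)
  have h3 : L ^ (6 * ε) * H ^ (6 * ε) ≤ Z ^ (12 * ε) := by
    rw [← Real.mul_rpow (by positivity) hH0.le]
    calc (L * H) ^ (6 * ε) ≤ (Z ^ 2) ^ (6 * ε) := by gcongr
      _ = Z ^ (12 * ε) := by
        rw [← Real.rpow_natCast, ← Real.rpow_mul hZ0.le]; congr 1; push_cast; ring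
  calc R ^ (2 * ε) * min 1 H ^ (1 / 4 : ℝ) ≤ (rs ^ (2 * ε) * L ^ (6 * ε)) * H ^ (6 * ε) := by
        gcongr
    _ = rs ^ (2 * ε) * (L ^ (6 * ε) * H ^ (6 * ε)) := by ring
    _ ≤ _ := by gcongr

lemma kA2 (ε Z e H : ℝ) (hε : 0 < ε) (hε1 : ε ≤ 1 / 100) (hZ : 1 ≤ Z) (he0 : 0 < e) (hH0 : 0 < H)
    (hHZ : H ≤ Z ^ 2) (hHe : e * H ≤ Z ^ 2) :
    ((1 + H) * (1 + H ^ 2 / (Z / e))) ^ (3 * ε) ≤ 4 * Z ^ (15 * ε) := by
  have hZ0 : 0 < Z := by linarith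
  have h1 : H ^ 2 / (Z / e) ≤ Z ^ 3 := by
    rw [div_le_iff₀ (by positivity)]
    have : Z ^ 3 * (Z / e) = Z ^ 2 * Z ^ 2 / e := by ring
    rw [this, le_div_iff₀ he0]
    calc H ^ 2 * e = H * (e * H) := by ring
      _ ≤ _ := by gcongr
  have h2 : 1 ≤ Z ^ 2 := one_le_pow₀ hZ
  have h3 : 1 ≤ Z ^ 3 := one_le_pow₀ hZ
  have h4 : (1 + H) * (1 + H ^ 2 / (Z / e)) ≤ 4 * Z ^ 5 := by
    calc (1 + H) * (1 + H ^ 2 / (Z / e)) ≤ (2 * Z ^ 2) * (2 * Z ^ 3) := by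
          gcongr <;> linarith
      _ = _ := by ring
  calc ((1 + H) * (1 + H ^ 2 / (Z / e))) ^ (3 * ε) ≤ (4 * Z ^ 5) ^ (3 * ε) := by gcongr
    _ = 4 ^ (3 * ε) * Z ^ (15 * ε) := by
      rw [Real.mul_rpow (by positivity) (by positivity), ← Real.rpow_natCast,
        ← Real.rpow_mul hZ0.le]
      congr 2; push_cast; ring
    _ ≤ 4 * Z ^ (15 * ε) := by
      gcongr
      calc (4 : ℝ) ^ (3 * ε) ≤ 4 ^ (1 : ℝ) :=
            Real.rpow_le_rpow_of_exponent_le (by norm_num) (by linarith)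
        _ = 4 := Real.rpow_one _

lemma hτg (x a : ℝ) (h0 : 0 < x) (h1 : x ≤ 1) (ha : 1 ≤ a) : x ^ a ≤ x := by
  calc x ^ a ≤ x ^ (1 : ℝ) := Real.rpow_le_rpow_of_exponent_ge h0 h1 ha
    _ = _ := Real.rpow_one _

lemma kA3 (ε Z K w x H : ℝ) (hε : 0 < ε) (hε1 : ε ≤ 1 / 100) (hZ0 : 0 < Z) (hK0 : 0 < K) (hw0 : 0 < w)
    (h0 : 0 < x) (h1x : x ≤ 1) (hKZ : K ≤ Z ^ 2) (hH' : H = K * w * x) :
    H * min 1 H ≤ Z ^ (2 * ε) * x * (K * w ^ (1 + ε)) := by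
  have hH0 : 0 < H := by rw [hH']; positivity
  have hm0 : 0 < min 1 H := lt_min one_pos hH0
  have h1 : min 1 H ≤ H ^ ε := by
    calc min 1 H = min 1 H ^ (1 : ℝ) := (Real.rpow_one _).symm
      _ ≤ min 1 H ^ ε := Real.rpow_le_rpow_of_exponent_ge hm0 (min_le_left _ _) (by linarith)
      _ ≤ H ^ ε := Real.rpow_le_rpow hm0.le (min_le_right _ _) hε.le
  have h2 : H * H ^ ε = K * K ^ ε * w ^ (1 + ε) * x ^ (1 + ε) := by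
    have e1 : ∀ y : ℝ, 0 < y → y * y ^ ε = y ^ (1 + ε) := fun y hy => by
      rw [Real.rpow_add hy, Real.rpow_one]
    rw [e1 H hH0, e1 K hK0, hH', Real.mul_rpow (by positivity) h0.le, Real.mul_rpow hK0.le hw0.le]
  have h3 : K ^ ε ≤ Z ^ (2 * ε) := by
    calc K ^ ε ≤ (Z ^ 2) ^ ε := by gcongr
      _ = _ := by rw [← Real.rpow_natCast, ← Real.rpow_mul hZ0.le]; norm_num
  calc H * min 1 H ≤ H * H ^ ε := by gcongr
    _ = K * K ^ ε * w ^ (1 + ε) * x ^ (1 + ε) := h2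
    _ ≤ K * Z ^ (2 * ε) * w ^ (1 + ε) * x := by
      have := hτg x (1 + ε) h0 h1x (by linarith)
      gcongr
    _ = _ := by ring

lemma kA4 (ε g θ Z K w x e H : ℝ) (hε : 0 < ε) (hg : 1 ≤ g) (hZ : 1 ≤ Z) (hK0 : 0 < K) (hw0 : 0 < w)
    (he0 : 0 < e) (h0 : 0 < x) (h1x : x ≤ 1) (hH' : H = K * w * x) :
    H ^ g * (Z / e) ^ (-2 * θ) ≤
      Z ^ (2 * ε) * x * (K ^ g * Z ^ (-2 * θ) * (w ^ g * e ^ (2 * θ))) := by
  have hZ0 : 0 < Z := by linarith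
  have hZε : 1 ≤ Z ^ (2 * ε) := Real.one_le_rpow hZ (by positivity)
  have h1 : (Z / e) ^ (-2 * θ) = Z ^ (-2 * θ) * e ^ (2 * θ) := by
    rw [Real.div_rpow hZ0.le he0.le, div_eq_mul_inv, ← Real.rpow_neg he0.le]
    congr 2; ring
  rw [h1, hH', Real.mul_rpow (by positivity) h0.le, Real.mul_rpow hK0.le hw0.le]
  have := hτg x g h0 h1x hg
  calc K ^ g * w ^ g * x ^ g * (Z ^ (-2 * θ) * e ^ (2 * θ))
      = 1 * x ^ g * (K ^ g * Z ^ (-2 * θ) * (w ^ g * e ^ (2 * θ))) := by ring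
    _ ≤ _ := by gcongr

lemma kfin (c M f e Z Q T a1 a2 a3 a4 b1 b3 b4 : ℝ) (hc : 0 ≤ c) (hM : 0 < M) (hf : 0 < f) (he : 0 < e)
    (hZ : 0 < Z) (hQ : 0 ≤ Q) (hT : 0 ≤ T) (ha3 : 0 ≤ a3) (ha4 : 0 ≤ a4) (hb1 : 0 ≤ b1) (hb3 : 0 ≤ b3)
    (h1 : a1 * a2 ≤ b1) (h3 : a3 ≤ b3) (h4 : a4 ≤ b4) :
    c * (M / f) * (e⁻¹ * (Q * (Z / e)⁻¹ * a1 * a3 * a2 * a4 * T)) ≤
      c / f * (M / Z) * (Q * T) * b1 * b3 * b4 := by
  calc _ = c / f * (M / Z) * (Q * T) * (a1 * a2) * a3 * a4 := by field_simp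
    _ ≤ _ := by gcongr

lemma key (ε g θ C D R rs Z M e f n τ T m1 m2 c H : ℝ)
    (hε : 0 < ε) (hε1 : ε ≤ 1 / 100) (hg : 1 ≤ g) (hC : 0 ≤ C) (hc : 0 ≤ c) (hT : 0 ≤ T)
    (hZ : 1 ≤ Z) (hM : 1 ≤ M) (he : 1 ≤ e) (hf : 1 ≤ f) (hfe : f ≤ e) (hn : 1 ≤ n) (hτ : 1 ≤ τ)
    (hrs : 1 ≤ rs) (hR0 : 0 ≤ R) (hR : R ≤ rs * (e * n) ^ 3)
    (hH : H = (Z / e) ^ 2 / (M / f * (τ * n))) :
    c * (M / f) * (e⁻¹ * (C * D ^ 2 * (Z / e)⁻¹ * R ^ (2 * ε) *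
      ((1 + H) * (1 + H ^ 2 / (Z / e))) ^ (3 * ε) * min 1 H ^ (1 / 4 : ℝ) *
      (H * min 1 H * m1 ^ 2 + H ^ g * (Z / e) ^ (-2 * θ) * m2 ^ 2) * T)) ≤
    τ⁻¹ * ((C * D ^ 2 * 4 * rs ^ (2 * ε) * Z ^ (29 * ε) * T) *
      (Z * (c / f * (f / (e ^ 2 * n)) ^ (1 + ε) * m1 ^ 2) +
        M / Z * (Z ^ 2 / M) ^ g * Z ^ (-2 * θ) * (c / f * (f / (e ^ 2 * n)) ^ g * e ^ (2 * θ) * m2 ^ 2))) := by
  have hZ0 : 0 < Z := by linarith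
  have hM0 : 0 < M := by linarith
  have he0 : 0 < e := by linarith
  have hf0 : 0 < f := by linarith
  have hn0 : 0 < n := by linarith
  have hτ0 : 0 < τ := by linarith
  obtain ⟨K, hK⟩ : ∃ K, K = Z ^ 2 / M := ⟨_, rfl⟩
  obtain ⟨w, hw⟩ : ∃ w, w = f / (e ^ 2 * n) := ⟨_, rfl⟩
  rw [← hK, ← hw]
  have hK0 : 0 < K := by rw [hK]; positivity
  have hw0 : 0 < w := by rw [hw]; positivity
  have hKZ : K ≤ Z ^ 2 := by rw [hK]; exact div_le_self (by positivity) hM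
  have hH' : H = K * w * τ⁻¹ := by rw [hH, hK, hw]; field_simp
  have hH0 : 0 < H := by rw [hH']; positivity
  have hτi : τ⁻¹ ≤ 1 := inv_le_one_of_one_le₀ hτ
  have hτi0 : 0 < τ⁻¹ := by positivity
  have hen : 1 ≤ e * n := one_le_mul_of_one_le_of_one_le he hn
  have hHen : e * n * H ≤ Z ^ 2 := by
    have h1 : e * n * H = K * (f / e) * τ⁻¹ := by rw [hH', hw]; field_simp
    have h2 : f / e ≤ 1 := (div_le_one he0).2 hfe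
    rw [h1]
    calc K * (f / e) * τ⁻¹ ≤ K * 1 * 1 := by gcongr
      _ ≤ Z ^ 2 := by linarith
  have hHZ : H ≤ Z ^ 2 := (le_mul_of_one_le_left hH0.le hen).trans hHen
  have hHe : e * H ≤ Z ^ 2 := by
    refine le_trans ?_ hHen
    exact mul_le_mul_of_nonneg_right (le_mul_of_one_le_right he0.le hn) hH0.le
  have hm0 : 0 < min 1 H := lt_min one_pos hH0
  have A1 := kA1 ε R rs Z (e * n) H hε hε1 hZ0 (by positivity) hH0 hrs hR0 hR hHen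
  have A2 := kA2 ε Z e H hε hε1 hZ he0 hH0 hHZ hHe
  have A3 := kA3 ε Z K w τ⁻¹ H hε hε1 hZ0 hK0 hw0 hτi0 hτi hKZ hH'
  have A4 := kA4 ε g θ Z K w τ⁻¹ e H hε hg hZ hK0 hw0 he0 hτi0 hτi hH'
  have A5 := add_le_add (mul_le_mul_of_nonneg_right A3 (sq_nonneg m1))
    (mul_le_mul_of_nonneg_right A4 (sq_nonneg m2))
  have hZ29 : Z ^ (29 * ε) = Z ^ (12 * ε) * Z ^ (15 * ε) * Z ^ (2 * ε) := by
    rw [← Real.rpow_add hZ0, ← Real.rpow_add hZ0]; congr 1; ring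
  have hMK : M / Z * K = Z := by rw [hK]; field_simp
  refine (kfin c M f e Z (C * D ^ 2) T _ _ _ _ _ _ _ hc hM0 hf0 he0 hZ0 (by positivity) hT
    (by positivity) (by positivity) (by positivity) (by positivity) A1 A2 A5).trans (le_of_eq ?_)
  rw [hZ29]
  generalize Z ^ (12 * ε) = z1, Z ^ (15 * ε) = z2, Z ^ (2 * ε) = z3, rs ^ (2 * ε) = z4,
    w ^ (1 + ε) = z5, K ^ g = z6, Z ^ (-2 * θ) = z7, w ^ g = z8, e ^ (2 * θ) = z9, τ⁻¹ = x,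
    c / f = y at *
  generalize M / Z = q at *
  rw [← hMK]
  ring

end PSM
end Vale.Agent.P026
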