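import Vale.Agent.P026.M.PSa

/-! P026 row PS, part b: basic bounds. -/

noncomputable section
open Complex MeasureTheory Filter Topology
open scoped Classical ComplexConjugate

namespace Vale.Agent.P026
namespace PSM

lemma norm_ang (J : ℤ) (z : ℂ) : ‖ang J z‖ ≤ 1 := by
  unfold ang
  rw [norm_zpow]
  by_cases hz : z = 0
  · subst hz
    simp only [zero_div, norm_zero]
    by_cases hJ : J = 0
    · simp [hJ]
    · rw [zero_zpow J hJ]; norm_num
  · have : ‖z / (‖z‖ : ℂ)‖ = 1 := by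
      rw [norm_div, Complex.norm_real, norm_norm, div_self (norm_ne_zero_iff.2 hz)]
    rw [this, one_zpow]

lemma tsum_le {α : Type} (c : α → Prop) [DecidablePred c] (G : α → ℝ) (A : ℝ) (hG : ∀ x, c x → 0 ≤ G x)
    (h : ∀ T : Finset α, (∀ x ∈ T, c x) → ∑ x ∈ T, G x ≤ A) :
    ∑' x, (if c x then ENNReal.ofReal (G x) else 0) ≤ ENNReal.ofReal A := by
  rw [ENNReal.tsum_eq_iSup_sum]
  refine iSup_le fun T => ?_
  rw [← Finset.sum_filter, ← ENNReal.ofReal_sum_of_nonneg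
    (fun x hx => hG x (Finset.mem_filter.1 hx).2)]
  exact ENNReal.ofReal_le_ofReal (h _ fun x hx => (Finset.mem_filter.1 hx).2)

lemma N0 (a : O) : 0 ≤ N a := Nat.cast_nonneg _

lemma cE0 (κ : ℕ) (E : O) : 0 ≤ cE κ E := by
  refine Finset.prod_nonneg fun p _ => ?_
  unfold cl
  have := N0 p
  split_ifs <;> positivity

lemma N1 (hB : Bas) : N 1 = 1 := by simpa using hB.b1.N_pow 1 0

lemma op1 (hB : Bas) : OP 1 := ⟨hB.b2.one, isCoprime_one_left⟩

lemma op_pow (hB : Bas) (h8 : B8) {a : O} (ha : OP a) (k : ℕ) : OP (a ^ k) := by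
  induction k with
  | zero => simpa using op1 hB
  | succ k ih => rw [pow_succ]; exact h8.op_mul _ _ ih ha

lemma op_ne (hB : Bas) {a : O} (ha : OP a) : a ≠ 0 := hB.b2.ne a ha.1

lemma op_N (hB : Bas) {a : O} (ha : OP a) : 1 ≤ N a := hB.b1.N_one_le a (op_ne hB ha)

lemma fl_dvd (h8 : B8) {E : O} (hE : OP E) : fl E ∣ E := ⟨rad E, (h8.fl_rad E hE.1).symm⟩
lemma rad_dvd (h8 : B8) {E : O} (hE : OP E) : rad E ∣ E :=
  ⟨fl E, by rw [mul_comm]; exact (h8.fl_rad E hE.1).symm⟩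
lemma op_fl (h8 : B8) {E : O} (hE : OP E) : OP (fl E) := h8.op_dvd _ _ hE (h8.fl_prim E) (fl_dvd h8 hE)
lemma op_rad (h8 : B8) {E : O} (hE : OP E) : OP (rad E) :=
  h8.op_dvd _ _ hE (h8.rad_prim E) (rad_dvd h8 hE)

lemma N_fl (hB : Bas) (h8 : B8) {E : O} (hE : OP E) : N (fl E) ≤ N E ∧ N (rad E) ≤ N E := by
  have h := hB.b1.N_mul (fl E) (rad E)
  rw [h8.fl_rad E hE.1] at h
  have h1 := op_N hB (op_fl h8 hE)
  have h2 := op_N hB (op_rad h8 hE)
  constructor <;> nlinarith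

lemma op_ite (hB : Bas) (h8 : B8) (κ : ℕ) {E : O} (hE : OP E) : OP (if κ = 1 then 1 else E ^ 2) := by
  split_ifs
  exacts [op1 hB, op_pow hB h8 hE 2]

lemma op_sE (hB : Bas) (h8 : B8) (κ : ℕ) {s E h : O} (hs : OP s) (hE : OP E) (hh : OP h) :
    OP (sE κ s E h) :=
  h8.op_mul _ _ (h8.op_mul _ _ (h8.op_mul _ _ (h8.op_mul _ _ hs (op_pow hB h8 (op_fl h8 hE) _))
    (op_pow hB h8 (op_rad h8 hE) _)) (op_ite hB h8 κ hE)) (op_pow hB h8 hh _)

lemma rd_sE (hB : Bas) (h8 : B8) (κ : ℕ) {s E h : O} (hs : OP s) (hE : OP E) (hh : OP h) :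
    rd (sE κ s E h) ≤ rd s * (N E * N h) ^ 3 := by
  have o1 := op_pow hB h8 (op_fl h8 hE) κ
  have o2 := op_pow hB h8 (op_rad h8 hE) 6
  have o3 := op_ite hB h8 κ hE
  have o4 := op_pow hB h8 hh (kd κ)
  have p1 := h8.op_mul _ _ hs o1
  have p2 := h8.op_mul _ _ p1 o2
  have p3 := h8.op_mul _ _ p2 o3
  have r1 : rd (fl E ^ κ) ≤ N E := (h8.rd_pow _ _ (op_ne hB (op_fl h8 hE))).trans
    ((h8.rd_le _ (op_ne hB (op_fl h8 hE))).trans (N_fl hB h8 hE).1)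
  have r2 : rd (rad E ^ 6) ≤ N E := (h8.rd_pow _ _ (op_ne hB (op_rad h8 hE))).trans
    ((h8.rd_le _ (op_ne hB (op_rad h8 hE))).trans (N_fl hB h8 hE).2)
  have r3 : rd (if κ = 1 then 1 else E ^ 2) ≤ N E := by
    split_ifs
    · exact (h8.rd_le _ one_ne_zero).trans (by rw [N1 hB]; exact op_N hB hE)
    · exact (h8.rd_pow _ _ (op_ne hB hE)).trans (h8.rd_le _ (op_ne hB hE))
  have r4 : rd (h ^ kd κ) ≤ N h ^ 3 := (h8.rd_pow _ _ (op_ne hB hh)).trans
    ((h8.rd_le _ (op_ne hB hh)).trans (le_self_pow₀ (op_N hB hh) (by norm_num)))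
  have z : ∀ a, 0 ≤ rd a := fun a => zero_le_one.trans (h8.rd_ge a)
  have zE := N0 E
  have zs := z s
  calc rd (sE κ s E h) ≤ rd (s * fl E ^ κ * rad E ^ 6 * (if κ = 1 then 1 else E ^ 2)) * rd (h ^ kd κ) :=
        h8.rd_mul _ _ (op_ne hB p3) (op_ne hB o4)
    _ ≤ (rd (s * fl E ^ κ * rad E ^ 6) * rd (if κ = 1 then 1 else E ^ 2)) * rd (h ^ kd κ) := by
        gcongr
        exacts [z _, h8.rd_mul _ _ (op_ne hB p2) (op_ne hB o3)]
    _ ≤ ((rd (s * fl E ^ κ) * rd (rad E ^ 6)) * rd (if κ = 1 then 1 else E ^ 2)) * rd (h ^ kd κ) := by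
        gcongr
        exacts [z _, z _, h8.rd_mul _ _ (op_ne hB p1) (op_ne hB o2)]
    _ ≤ (((rd s * rd (fl E ^ κ)) * rd (rad E ^ 6)) * rd (if κ = 1 then 1 else E ^ 2)) *
          rd (h ^ kd κ) := by
        gcongr
        exacts [z _, z _, z _, h8.rd_mul _ _ (op_ne hB hs) (op_ne hB o1)]
    _ ≤ (((rd s * N E) * N E) * N E) * N h ^ 3 := by
        gcongr
        exacts [z _, z _, z _]
    _ = _ := by ring

lemma fm_sE (h8 : B8) (κ : ℕ) {s E h h0 : O} (hE : OP E) (H : Fm (s * E * h) h0) :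
    Fm (sE κ s E h) h0 := by
  obtain ⟨a, b, c⟩ := H
  refine ⟨a, b, ?_⟩
  have c1 : IsCoprime h0 s := c.of_mul_right_left.of_mul_right_left
  have c2 : IsCoprime h0 E := c.of_mul_right_left.of_mul_right_right
  have c3 : IsCoprime h0 h := c.of_mul_right_right
  have c4 : IsCoprime h0 (fl E) := c2.of_isCoprime_of_dvd_right (fl_dvd h8 hE)
  have c5 : IsCoprime h0 (rad E) := c2.of_isCoprime_of_dvd_right (rad_dvd h8 hE)
  refine (((c1.mul_right c4.pow_right).mul_right c5.pow_right).mul_right ?_).mul_right c3.pow_right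
  split_ifs
  exacts [isCoprime_one_right, c2.pow_right]

lemma VV0 (Y x : ℝ) : 0 ≤ VV Y x := (Real.exp_pos _).le

lemma xx_le (hB : Bas) (hX : SX) (κ : ℕ) (J : ℤ) (r ρ s : O) (φ : O → ℂ) (Z t : ℝ) (hφ : P8 φ) (k : O) :
    ‖xx κ J r ρ s φ Z t k‖ ≤ if k = 0 then 0 else N k ^ (-1 / 2 : ℝ) * VV Z (N k) := by
  unfold xx
  by_cases h : (27 : O) ∣ k - r ∧ (4 : O) ∣ k - ρ ∧ OP k
  · have hk := op_ne hB h.2.2
    have hN : 0 < N k := zero_lt_one.trans_le (op_N hB h.2.2)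
    rw [if_pos h, if_neg hk]
    have a1 : ‖(if κ = 1 then 1 else bb k / (‖bb k‖ : ℂ))‖ ≤ 1 := by
      split_ifs
      · simp
      · rw [norm_div, Complex.norm_real, norm_norm]; exact div_self_le_one _
    have a2 := norm_ang J (toC k)
    have a3 := hX.norm_le k s
    have a4 := hφ.2 k
    have a5 : ‖(N k : ℂ) ^ (-(1 / 2 + t * I))‖ = N k ^ (-1 / 2 : ℝ) := by
      rw [Complex.norm_cpow_eq_rpow_re_of_pos hN]; congr 1; simp; norm_num
    have a6 : ‖(VV Z (N k) : ℂ)‖ = VV Z (N k) := by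
      rw [Complex.norm_real, Real.norm_of_nonneg (VV0 _ _)]
    simp only [norm_mul, a5, a6]
    have := VV0 Z (N k)
    calc _ ≤ 1 * 1 * 1 * 1 * N k ^ (-1 / 2 : ℝ) * VV Z (N k) := by gcongr
      _ = _ := by ring
  · rw [if_neg h, norm_zero]
    split_ifs
    · exact le_rfl
    · exact mul_nonneg (Real.rpow_nonneg (N0 _) _) (VV0 _ _)

lemma xx_summ (hB : Bas) (hX : SX) (hL : LN) (κ : ℕ) (J : ℤ) (r ρ s : O) (φ : O → ℂ) (Z t : ℝ)
    (hφ : P8 φ) (hZ : 0 < Z) : Summable fun k => ‖xx κ J r ρ s φ Z t k‖ * N k ^ 7 := by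
  obtain ⟨C, hC⟩ := hL.sum (13 / 2)
  refine Summable.of_nonneg_of_le (fun k => mul_nonneg (norm_nonneg _) (pow_nonneg (N0 _) _))
    (fun k => ?_) (hC Z hZ).1
  have := xx_le hB hX κ J r ρ s φ Z t hφ k
  by_cases hk : k = 0
  · rw [if_pos hk] at this ⊢
    rw [le_antisymm this (norm_nonneg _), zero_mul]
  · rw [if_neg hk] at this ⊢
    have hN : 0 < N k := zero_lt_one.trans_le (hB.b1.N_one_le k hk)
    calc _ ≤ N k ^ (-1 / 2 : ℝ) * VV Z (N k) * N k ^ 7 := by gcongr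
      _ = N k ^ (-1 / 2 : ℝ) * N k ^ ((7 : ℕ) : ℝ) * VV Z (N k) := by rw [Real.rpow_natCast]; ring
      _ = _ := by rw [← Real.rpow_add hN]; norm_num

lemma N_dec (hB : Bas) {e : O} (he : IsUnit e) (a b : ℕ) (h h0 : O) :
    N (e * lam ^ a * 2 ^ b * h * h0) = (3 ^ a * 4 ^ b * N h) * N h0 := by
  have h1 : N e = 1 := by unfold N; rw [(hB.b1.unit_iff e).1 he]; norm_num
  have h2 : N lam = 3 := by unfold N; rw [hB.b1.N_lam]; norm_num
  have h3 : N 2 = 4 := by have := hB.b1.N_int 2; push_cast at this; rw [this]; norm_num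
  simp only [hB.b1.N_mul, hB.b1.N_pow, h1, h2, h3]; ring

/-- choice of the lines -/
def sg0 (ε Z M : ℝ) (E h : O) : ℝ := if N h ≤ (Z / N E) ^ 2 / (M / N (fl E)) then ε else 4

end PSM
end Vale.Agent.P026
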