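import Vale.Agent.P026.Stm1

/-! Residue fields of primes, characters on them. -/

noncomputable section
open Complex
open scoped Classical ComplexConjugate

namespace Vale.Agent.P026.RF

open MulChar AddChar

abbrev K (p : O) := O ⧸ Ideal.span {p}

abbrev mk (p : O) : O →+* K p := Ideal.Quotient.mk _

instance (p : O) [h : Fact (Prime p)] : (Ideal.span {p}).IsMaximal :=
  PrincipalIdealRing.isMaximal_of_irreducible h.out.irreducible

instance (p : O) [Fact (Prime p)] : Field (K p) := Ideal.Quotient.field _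

instance (p : O) [h : Fact (Prime p)] : Fintype (K p) :=
  have := Ideal.finiteQuotientOfFreeOfNeBot (Ideal.span {p}) (by simpa using h.out.ne_zero)
  Fintype.ofFinite _

theorem mk_eq_zero {p a : O} : mk p a = 0 ↔ p ∣ a := by
  rw [Ideal.Quotient.eq_zero_iff_mem, Ideal.mem_span_singleton]

theorem mk_eq {p a b : O} : mk p a = mk p b ↔ p ∣ a - b := by
  rw [← sub_eq_zero, ← map_sub, mk_eq_zero]

theorem mk_surj {p : O} (x : K p) : ∃ a, mk p a = x := Ideal.Quotient.mk_surjective x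

variable (hB : Bas) (p : O) [hp : Fact (Prime p)]
include hB

theorem card_eq : Fintype.card (K p) = Nn p := by
  rw [← hB.b5.card p hp.out, Nat.card_eq_fintype_card]

theorem sum_eq (G : K p → ℂ) : ∑ r ∈ Rs p, G (mk p r) = ∑ x, G x :=
  hB.b5.sum_q p G hp.out.ne_zero

omit hp in
theorem exists_fun {f : O → ℂ} (h : Pe p f) : ∃ g : K p → ℂ, ∀ a, g (mk p a) = f a :=
  ⟨fun x => f (mk_surj x).choose, fun a =>
    hB.b4.pe_congr p f _ _ h (mk_eq.1 (mk_surj (mk p a)).choose_spec)⟩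

theorem exists_char {f : O → ℂ} (h : Pe p f) (hm : ∀ a b, f (a * b) = f a * f b) (h1 : f 1 = 1)
    (h0 : f 0 = 0) : ∃ χ : MulChar (K p) ℂ, ∀ a, χ (mk p a) = f a := by
  obtain ⟨g, hg⟩ := exists_fun hB p h
  refine ⟨⟨⟨⟨g, by rw [← h1, ← hg, map_one]⟩, fun x y => ?_⟩, fun x hx => ?_⟩, hg⟩
  · obtain ⟨a, rfl⟩ := mk_surj x
    obtain ⟨b, rfl⟩ := mk_surj y
    show g _ = g _ * g _
    rw [← map_mul, hg, hg, hg, hm]
  · obtain rfl : x = 0 := by simpa using hx
    show g _ = 0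
    rw [← map_zero (mk p), hg, h0]

theorem exists_add : ∃ ψ : AddChar (K p) ℂ, (∀ a, ψ (mk p a) = eQ a p) ∧ ψ.IsPrimitive := by
  obtain ⟨g, hg⟩ := exists_fun hB p (f := fun a => eQ a p) fun a m => by
    show eQ _ p = eQ _ p
    rw [hB.b1.eQ_add, hB.b1.eQ_dvd _ _ (dvd_mul_right p m), mul_one]
  let ψ : AddChar (K p) ℂ := ⟨g, by
      rw [← map_zero (mk p), hg]
      exact hB.b1.eQ_dvd _ _ (dvd_zero p), fun x y => by
      obtain ⟨a, rfl⟩ := mk_surj x
      obtain ⟨b, rfl⟩ := mk_surj y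
      rw [← map_add, hg, hg, hg, hB.b1.eQ_add]⟩
  have h : ∀ a, ψ (mk p a) = eQ a p := hg
  refine ⟨ψ, h, IsPrimitive.of_ne_one fun h1 => hp.out.not_dvd_one ?_⟩
  refine hB.b1.eQ_triv 1 p hp.out.ne_zero fun m => ?_
  rw [← h, h1, AddChar.one_apply]

theorem gauss_eq {χ : MulChar (K p) ℂ} {ψ : AddChar (K p) ℂ} {f e : O → ℂ}
    (hχ : ∀ a, χ (mk p a) = f a) (hψ : ∀ a, ψ (mk p a) = e a) :
    ∑ r ∈ Rs p, f r * e r = gaussSum χ ψ := by
  rw [gaussSum, ← sum_eq hB p]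
  simp only [hχ, hψ]

omit hB in
theorem gauss_norm {χ : MulChar (K p) ℂ} {ψ : AddChar (K p) ℂ} (hχ : χ ≠ 1)
    (hψ : ψ.IsPrimitive) : gaussSum χ ψ * conj (gaussSum χ ψ) = Fintype.card (K p) := by
  rw [← gaussSum_mul_gaussSum_eq_card hχ hψ, ← star_gaussSum_eq, RCLike.star_def]

theorem three_dvd (h : Prim p) : 3 ∣ Fintype.card (K p) - 1 := by
  have := hB.b2.N_mod p h
  rw [card_eq hB]
  omega

/-- the cubic character with values in `O` -/
theorem exists_cub (h : IsCoprime p 3) : ∃ χ : MulChar (K p) O,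
    (∀ a, toC (χ (mk p a)) = cub a p) ∧
    (∀ x, mk p (χ x) = x ^ ((Fintype.card (K p) - 1) / 3)) ∧ χ ^ 3 = 1 := by
  choose z hz hz' _ using fun a => hB.b6.spec a p hp.out h
  obtain ⟨χ, hχ⟩ := exists_char hB p (hB.b6.pe p) (fun a b => hB.b6.mul_l a b p h)
    (hB.b6.one_l p) (hB.b6.zero 0 p hp.out.ne_zero fun h =>
      hp.out.not_isUnit (isCoprime_zero_left.1 h))
  have hg : ∀ x, toC (z (mk_surj x).choose) = χ x := fun x => by
    rw [hz, ← hχ, (mk_surj x).choose_spec]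
  let χ' : MulChar (K p) O := ⟨⟨⟨fun x => z (mk_surj x).choose, hB.b1.inj (by
    rw [hg, map_one, map_one])⟩, fun x y => hB.b1.inj (by
    simp only [map_mul, hg])⟩, fun x hx => hB.b1.inj (by
    show toC (z _) = _
    rw [hg, map_nonunit χ hx, map_zero])⟩
  have h1 : ∀ x, toC (χ' x) = χ x := hg
  refine ⟨χ', fun a => by rw [h1, hχ], fun x => ?_, ?_⟩
  · have := mk_eq.2 (hz' (mk_surj x).choose)
    rw [map_pow, (mk_surj x).choose_spec, ← card_eq hB] at this
    exact this.symm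
  · ext1 x
    obtain ⟨a, ha⟩ := mk_surj (x : K p)
    rw [pow_apply_coe, one_apply_coe]
    apply hB.b1.inj
    rw [map_pow, h1, ← ha, hχ, map_one]
    refine hB.b6.cube a p ((hp.out.coprime_iff_not_dvd.2 fun h => ?_).symm)
    exact x.ne_zero (ha ▸ mk_eq_zero.2 h)

end Vale.Agent.P026.RF
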