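import Vale.Agent.P026.M.SE2

/-! P026: scaling operators, their Fourier transforms, and the kernel at prime powers. -/

noncomputable section
open Complex
open scoped Classical ComplexConjugate

namespace Vale.Agent.P026

namespace SDgM
open SE2M

/-- `F (d / a) (x / b)` on the multiples of `a` and `b`, else zero -/
def Sc (a b : O) (F : O → O → ℂ) (d x : O) : ℂ := if a ∣ d ∧ b ∣ x then F (d / a) (x / b) else 0

theorem Sc_mul {a b : O} (ha : a ≠ 0) (hb : b ≠ 0) (F : O → O → ℂ) (d x : O) :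
    Sc a b F (a * d) (b * x) = F d x := by
  rw [Sc, if_pos ⟨dvd_mul_right _ _, dvd_mul_right _ _⟩, mul_div_cancel_left₀ _ ha,
    mul_div_cancel_left₀ _ hb]

theorem Sc_l {a d : O} (h : ¬ a ∣ d) (b : O) (F : O → O → ℂ) (x : O) : Sc a b F d x = 0 :=
  if_neg fun e => h e.1

theorem Sc_r {b x : O} (h : ¬ b ∣ x) (a : O) (F : O → O → ℂ) (d : O) : Sc a b F d x = 0 :=
  if_neg fun e => h e.2

theorem ft1 (hB : Bas) {a c a' : O} (ha : a ≠ 0) (hc : c ≠ 0) (ha' : a' ≠ 0) {f : O → ℂ}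
    (hf : Pe c f) (y : O) :
    ∑ r ∈ Rs (a * (c * a')), (if a ∣ r then f (r / a) * eQ (r * y) (a * (c * a')) else 0) =
      if a' ∣ y then N a' * ∑ r ∈ Rs c, f r * eQ (r * (y / a')) c else 0 := by
  have h1 := mul_ne_zero hc ha'
  have h2 := sum_dvd hB ha h1
    (F := fun r => if a ∣ r then f (r / a) * eQ (r * y) (a * (c * a')) else 0) fun r m => by
      by_cases h : a ∣ r
      · obtain ⟨s, rfl⟩ := h
        simp only [mul_assoc a, ← mul_add a, dvd_mul_right, if_true, mul_div_cancel_left₀ _ ha,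
          hB.b1.eQ_mul a _ _ ha]
        rw [mul_assoc c, hf, eQ_congr hB (b := s * y) ⟨m * y, by ring⟩]
      · simp only [mul_assoc a, dvd_add_left (dvd_mul_right a _), h, if_false]
  simp only [← ite_and, and_self, dvd_mul_right, if_true, mul_div_cancel_left₀ _ ha, mul_assoc a,
    hB.b1.eQ_mul a _ _ ha] at h2
  rw [h2, hB.b4.lift c a' _ hc ha' fun r m => by
    rw [mul_assoc c, hf, eQ_congr hB (b := r * y) ⟨m * y, by ring⟩]]
  simp only [hf _ _, add_mul, hB.b1.eQ_add, mul_assoc c, hB.b1.eQ_mul c _ _ hc, ← Finset.mul_sum]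
  simp only [mul_comm _ y, hB.b4.orth _ _ ha']
  split_ifs with h
  · obtain ⟨s, rfl⟩ := h
    simp only [mul_div_cancel_left₀ _ ha', mul_comm c, mul_assoc a', hB.b1.eQ_mul a' _ _ ha',
      Finset.mul_sum, mul_comm s]
    exact Finset.sum_congr rfl fun _ _ => by ring
  · simp

/-- periodic in both variables -/
def Pe2 (c : O) (F : O → O → ℂ) : Prop := (∀ x, Pe c fun d => F d x) ∧ ∀ d, Pe c (F d)

theorem ft2 (hB : Bas) {a b c a' b' M : O} (hM : M ≠ 0) (e1 : M = a * (c * a'))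
    (e2 : M = b * (c * b')) {F : O → O → ℂ} (hF : Pe2 c F) (d' x' : O) :
    FT2 M (Sc a b F) d' x' = N a' * N b' * Sc a' b' (FT2 c F) d' x' := by
  have n1 := e1 ▸ hM
  have n2 := e2 ▸ hM
  simp only [mul_ne_zero_iff] at n1 n2
  have h1 : ∀ d, ∑ x ∈ Rs M, Sc a b F d x * eQ (d * d' + x * x') M = if a ∣ d then
      (if b' ∣ x' then N b' * ∑ r ∈ Rs c, F (d / a) r * eQ (r * (x' / b')) c else 0) *
        eQ (d * d') M else 0 := fun d => by
    rw [← ft1 hB n2.1 n2.2.1 n2.2.2 (hF.2 _), ← e2]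
    simp only [Sc, ite_and, hB.b1.eQ_add, Finset.sum_mul, Finset.ite_sum_zero]
    refine Finset.sum_congr rfl fun x _ => ?_
    split_ifs <;> ring
  rw [FT2]
  simp only [h1]
  rw [e1, ft1 hB n1.1 n1.2.1 n1.2.2 (f := fun d =>
    if b' ∣ x' then N b' * ∑ r ∈ Rs c, F d r * eQ (r * (x' / b')) c else 0)
    (fun d m => by simp only [fun r => hF.1 r d m]), Sc, ite_and]
  split_ifs
  · simp only [FT2, hB.b1.eQ_add, Finset.mul_sum, Finset.sum_mul]
    exact Finset.sum_congr rfl fun _ _ => Finset.sum_congr rfl fun _ _ => by ring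
  · simp
  · simp

/-- a self-dual function stays self-dual up to swapping the scalings -/
theorem ft3 (hB : Bas) {a b c a' b' M : O} (hM : M ≠ 0) (e1 : M = a * (c * a'))
    (e2 : M = b * (c * b')) (h27 : IsCoprime a' 27) {F : O → O → ℂ} (hF : Pe2 c F) {z : ℂ}
    (hS : ∀ d' x', FT2 c F d' x' = z * F (27 * d') x') (d' x' : O) :
    FT2 M (Sc a b F) d' x' = N a' * N b' * z * Sc a' b' F (27 * d') x' := by
  have n1 := e1 ▸ hM
  simp only [mul_ne_zero_iff] at n1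
  rw [ft2 hB hM e1 e2 hF, Sc, Sc, hS]
  simp only [cdvd h27]
  split_ifs with h
  · obtain ⟨s, rfl⟩ := h.1
    rw [mul_left_comm 27, mul_div_cancel_left₀ _ n1.2.2, mul_div_cancel_left₀ _ n1.2.2]
    ring
  · simp

theorem inv {c d : O} (h : IsCoprime c d) : ∃ e, c ∣ d * e - 1 := by
  obtain ⟨a, b, e⟩ := h
  exact ⟨b, -a, by linear_combination e⟩

theorem cp {p d : O} (hp : Prime p) (h : ¬ p ∣ d) (n : ℕ) : IsCoprime (p ^ n) d :=
  (hp.irreducible.coprime_iff_not_dvd.2 h).pow_left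

theorem c27 (hB : Bas) {p : O} (h3 : Prim p) (n : ℕ) : IsCoprime (p ^ n) 27 := by
  rw [show (27 : O) = 3 ^ 3 by norm_num]
  exact (hB.b2.cop p h3).pow

theorem EE_eq (hB : Bas) {p d x e : O} (i : ℕ) {m : ℕ} (hx : ¬ p ∣ x) (he : p ^ m ∣ d * e - 1) :
    EE p i m d x = cub d p ^ i * eQ (x ^ 3 * e) (p ^ m) := by
  have h : ¬ p ∣ x ∧ ∃ e, p ^ m ∣ d * e - 1 := ⟨hx, e, he⟩
  rw [EE, dif_pos h]
  obtain ⟨s, hs⟩ := h.2.choose_spec
  obtain ⟨t, ht⟩ := he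
  rw [eQ_congr hB (b := x ^ 3 * e) ⟨x ^ 3 * (e * s - h.2.choose * t), by
    linear_combination x ^ 3 * e * hs - x ^ 3 * h.2.choose * ht⟩]

theorem EE_x {p x : O} (hx : p ∣ x) (i m : ℕ) (d : O) : EE p i m d x = 0 :=
  dif_neg fun h => h.1 hx

theorem EE_d {p d : O} (hp : Prime p) (hd : p ∣ d) (i : ℕ) {m : ℕ} (hm : m ≠ 0) (x : O) :
    EE p i m d x = 0 := dif_neg fun ⟨_, e, he⟩ => hp.not_dvd_one (by
  simpa using dvd_sub (hd.mul_right e) ((dvd_pow_self p hm).trans he))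

theorem EE_pe (hB : Bas) {p : O} (hp : Prime p) (i : ℕ) {m : ℕ} (hm : m ≠ 0) :
    Pe2 (p ^ m) (EE p i m) := by
  have H : ∀ d x a b, EE p i m (d + p ^ m * a) (x + p ^ m * b) = EE p i m d x := by
    intro d x a b
    have h1 := fun a => ((dvd_pow_self p hm).mul_right a)
    by_cases hx : p ∣ x
    · rw [EE_x hx, EE_x (dvd_add hx (h1 b))]
    by_cases hd : p ∣ d
    · rw [EE_d hp hd i hm, EE_d hp (dvd_add hd (h1 a)) i hm]
    obtain ⟨e, he⟩ := inv (cp hp hd m)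
    rw [EE_eq hB i hx he, EE_eq hB i (e := e) (by rwa [dvd_add_left (h1 b)]) (by
      rw [add_mul, add_sub_right_comm, mul_assoc]; exact dvd_add he (dvd_mul_right _ _)),
      hB.b4.pe_congr p _ _ d (hB.b6.pe p) (by simpa using h1 a), eQ_congr hB (b := x ^ 3 * e)
      ⟨e * b * (3 * x ^ 2 + 3 * x * p ^ m * b + (p ^ m * b) ^ 2), by ring⟩]
  exact ⟨fun x d a => by simpa using H d x a 0, fun d x a => by simpa using H d x 0 a⟩

section phi
variable (hB : Bas) (hb : BB) (hP : PH) {p : O} (hp : Prime p) (h3 : Prim p)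
include hB hP h3

theorem Phi_pe (n : ℕ) : Pe2 (p ^ n) (Phi (p ^ n)) :=
  ⟨fun x => hP.pe_d _ x (hB.b2.pow p n h3), fun d => hP.pe_x _ d (hB.b2.pow p n h3)⟩

include hb hp

theorem Phi_T (n : ℕ) (d x : O) :
    Phi (p ^ (n + 3)) (p ^ 3 * d) x = N p ^ 2 * Sc (p ^ 3) (p ^ 2) (Phi (p ^ n)) (p ^ 3 * d) x := by
  obtain ⟨g, c1, d1, pg, -, hc, hd, hcd⟩ := hB.b2.gcd (p ^ n) d (hB.b2.pow p n h3)
  obtain ⟨e, he⟩ := inv hcd
  have pg' := hB.b2.mul _ _ pg (hB.b2.pow p 3 h3)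
  have hc' : p ^ (n + 3) = g * p ^ 3 * c1 := by rw [pow_add, hc]; ring
  have hd' : p ^ 3 * d = g * p ^ 3 * d1 := by rw [hd]; ring
  have n0 := fun k : ℕ => pow_ne_zero k hp.ne_zero
  by_cases hx : p ^ 2 ∣ x
  · obtain ⟨x, rfl⟩ := hx
    rw [Sc_mul (n0 3) (n0 2)]
    by_cases hy : g ^ 2 ∣ x ^ 3
    · obtain ⟨y, hy⟩ := hy
      rw [hP.eq _ _ _ g c1 d1 e y (hB.b2.pow p n h3) ⟨pg, hc, hd, he, hy⟩,
        hP.eq _ _ _ _ c1 d1 e y (hB.b2.pow p _ h3) ⟨pg', hc', hd', he, by rw [mul_pow, hy]; ring⟩,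
        hb.cube g p pg h3]
      ring
    · rw [hP.zero _ _ _ g c1 d1 pg hc hd hcd (hB.b2.pow p n h3) hy, mul_zero,
        hP.zero _ _ _ _ c1 d1 pg' hc' hd' hcd (hB.b2.pow p _ h3) fun h => hy ?_]
      rwa [show (g * p ^ 3) ^ 2 = p ^ 6 * g ^ 2 by ring, mul_pow, ← pow_mul,
        mul_dvd_mul_iff_left (n0 _)] at h
  · rw [Sc_r hx, mul_zero, hP.zero _ _ _ _ c1 d1 pg' hc' hd' hcd (hB.b2.pow p _ h3) fun h => hx ?_]
    rw [← IsIntegrallyClosed.pow_dvd_pow_iff three_ne_zero]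
    exact Dvd.dvd.trans ⟨g ^ 2, by ring⟩ h

theorem Phi_0 (n : ℕ) {d e : O} (he : p ^ n ∣ d * e - 1) (x : O) :
    Phi (p ^ n) d x = cub d p ^ n * eQ (x ^ 3 * e) (p ^ n) := by
  rw [hP.eq _ _ _ 1 (p ^ n) d e (x ^ 3) (hB.b2.pow p n h3) ⟨hB.b2.one, by simp, by simp, he, by simp⟩,
    hb.one, one_mul, hB.b6.pow_r _ _ _ hp.ne_zero]

theorem Phi_1 (n : ℕ) {d e : O} (he : p ^ n ∣ d * e - 1) (x : O) :
    Phi (p ^ (n + 1)) (p * d) (p * x) = gs p * cub d p ^ n * eQ (p * x ^ 3 * e) (p ^ n) := by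
  have := hb.pp1 p 0 hp h3
  simp only [mul_zero, zero_add, pow_one, pow_zero, mul_one] at this
  rw [hP.eq _ _ _ p (p ^ n) d e (p * x ^ 3) (hB.b2.pow p _ h3) ⟨h3, by ring, rfl, he, by ring⟩,
    this, hB.b6.pow_r _ _ _ hp.ne_zero]

omit hb in
theorem Phi_1' (n : ℕ) {d x : O} (hd : IsCoprime (p ^ n) d) (hx : ¬ p ∣ x) :
    Phi (p ^ (n + 1)) (p * d) x = 0 :=
  hP.zero _ _ _ p (p ^ n) d h3 (by ring) rfl hd (hB.b2.pow p _ h3) fun h =>
    hx (hp.dvd_of_dvd_pow ((dvd_pow_self p two_ne_zero).trans h))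

theorem Phi_2 (n : ℕ) {d : O} (hd : IsCoprime (p ^ n) d) (x : O) :
    Phi (p ^ (n + 2)) (p ^ 2 * d) x = 0 := by
  have := hb.pp2 p 0 hp h3
  simp only [mul_zero, zero_add] at this
  obtain ⟨e, he⟩ := inv hd
  by_cases hy : (p ^ 2) ^ 2 ∣ x ^ 3
  · obtain ⟨y, hy⟩ := hy
    rw [hP.eq _ _ _ (p ^ 2) (p ^ n) d e y (hB.b2.pow p _ h3)
      ⟨hB.b2.pow p _ h3, by ring, rfl, he, hy⟩, this, zero_mul, zero_mul]
  · exact hP.zero _ _ _ (p ^ 2) (p ^ n) d (hB.b2.pow p _ h3) (by ring) rfl hd (hB.b2.pow p _ h3) hy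

end phi

end SDgM

end Vale.Agent.P026
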