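import Vale.Agent.P026.Stm1

noncomputable section
open Complex
open scoped Classical ComplexConjugate

namespace Vale.Agent.P026

namespace SDg

open Finset

def sc (g : O) (f : O → ℂ) (x : O) : ℂ := if g ∣ x then f (x / g) else 0

def sc2 (g h : O) (F : O → O → ℂ) (d x : O) : ℂ := sc g (fun d1 => sc h (F d1) x) d

lemma sc_mul {g : O} (hg : g ≠ 0) (f : O → ℂ) (x : O) : sc g f (g * x) = f x := by
  rw [sc, if_pos (dvd_mul_right _ _), mul_div_cancel_left₀ _ hg]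

lemma sc_not {g x : O} (h : ¬g ∣ x) (f : O → ℂ) : sc g f x = 0 := if_neg h

lemma sc_one (f : O → ℂ) (x : O) : sc 1 f x = f x := by
  simpa using sc_mul one_ne_zero f x

lemma sc2_mul {g h : O} (hg : g ≠ 0) (hh : h ≠ 0) (F : O → O → ℂ) (d x : O) :
    sc2 g h F (g * d) (h * x) = F d x := by
  rw [sc2, sc_mul hg, sc_mul hh]

lemma sc2_d {g d : O} (hd : ¬g ∣ d) (h : O) (F : O → O → ℂ) (x : O) : sc2 g h F d x = 0 :=
  sc_not hd _

lemma sc2_x {h x : O} (hx : ¬h ∣ x) (g : O) (F : O → O → ℂ) (d : O) : sc2 g h F d x = 0 := by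
  simp [sc2, sc, hx]

lemma eQ_cong (h1 : B1) {a b c : O} (h : c ∣ a - b) : eQ a c = eQ b c := by
  have := h1.eQ_add (a - b) b c
  rwa [sub_add_cancel, h1.eQ_dvd _ _ h, one_mul] at this

lemma pe_sc {g c : O} (hg : g ≠ 0) {f : O → ℂ} (hf : Pe c f) : Pe (g * c) (sc g f) := by
  intro a m
  by_cases h : g ∣ a
  · obtain ⟨a, rfl⟩ := h
    rw [mul_assoc, ← mul_add, sc_mul hg, sc_mul hg, hf]
  · rw [sc_not h, sc_not]
    rwa [mul_assoc, dvd_add_left (dvd_mul_right _ _)]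

lemma sum_mult (hB : Bas) {g c : O} (hg : g ≠ 0) (hc : c ≠ 0) (F : O → ℂ) (hF : Pe (g * c) F)
    (h0 : ∀ x, ¬g ∣ x → F x = 0) : ∑ x ∈ Rs (g * c), F x = ∑ x ∈ Rs c, F (g * x) := by
  rw [hB.b4.lift g c F hg hc hF]
  obtain ⟨r0, hr0, h1⟩ := hB.b4.ex g 0 hg
  rw [zero_sub, dvd_neg] at h1
  rw [sum_eq_single_of_mem r0 hr0]
  · obtain ⟨t, rfl⟩ := h1
    rw [← hB.b4.affine c (fun x => F (g * x)) 1 t hc
      (fun a m => by simp only [mul_add, ← mul_assoc]; exact hF _ _) isCoprime_one_left]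
    exact sum_congr rfl fun r _ => congrArg F (by ring)
  · intro r hr hne
    refine sum_eq_zero fun s _ => h0 _ fun h => hne (hB.b4.uniq g r r0 hg hr hr0 ?_)
    exact dvd_sub ((dvd_add_left (dvd_mul_right _ _)).1 h) h1

lemma ft1 (hB : Bas) {g c h : O} (hg : g ≠ 0) (hc : c ≠ 0) (hh : h ≠ 0) {f : O → ℂ}
    (hf : Pe c f) (y : O) :
    ∑ x ∈ Rs (g * (c * h)), sc g f x * eQ (x * y) (g * (c * h)) =
      (N h : ℂ) * sc h (fun y' => ∑ r ∈ Rs c, f r * eQ (r * y') c) y := by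
  have hf' : Pe (c * h) f := fun a m => by rw [mul_assoc, hf]
  rw [sum_mult hB hg (mul_ne_zero hc hh) _ (fun a m => by
    rw [pe_sc hg hf', eQ_cong hB.b1 (b := a * y) ⟨m * y, by ring⟩])
    (fun x hx => by rw [sc_not hx, zero_mul])]
  simp only [sc_mul hg, mul_assoc g, hB.b1.eQ_mul g _ _ hg]
  rw [hB.b4.lift c h _ hc hh (fun a m => by
    rw [hf', eQ_cong hB.b1 (b := a * y) ⟨m * y, by ring⟩])]
  have h1 : ∀ r s, f (r + c * s) * eQ ((r + c * s) * y) (c * h) =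
      f r * eQ (r * y) (c * h) * eQ (y * s) h := by
    intro r s
    rw [hf, add_mul, hB.b1.eQ_add, mul_assoc c s y, hB.b1.eQ_mul c _ _ hc, mul_comm s y, mul_assoc]
  simp only [h1, ← mul_sum, hB.b4.orth h y hh]
  by_cases hy : h ∣ y
  · obtain ⟨y, rfl⟩ := hy
    rw [sc_mul hh, if_pos (dvd_mul_right _ _), ← sum_mul, mul_comm]
    congr 1
    refine sum_congr rfl fun r _ => ?_
    rw [mul_left_comm r h y, mul_comm c h, hB.b1.eQ_mul h _ _ hh]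
  · simp [sc_not hy, hy]

lemma sc_smul (g : O) (f : O → ℂ) (a : ℂ) (x : O) :
    sc g (fun y => a * f y) x = a * sc g f x := by
  unfold sc
  split_ifs <;> simp

lemma ft2 (hB : Bas) {M g1 g2 c h1 h2 : O} (hM : M ≠ 0) (e1 : M = g1 * (c * h1))
    (e2 : M = g2 * (c * h2)) {F : O → O → ℂ} (hd : ∀ x, Pe c fun d => F d x)
    (hx : ∀ d, Pe c (F d)) (d' x' : O) :
    FT2 M (sc2 g1 g2 F) d' x' = (N h1 : ℂ) * (N h2 : ℂ) * sc2 h1 h2 (FT2 c F) d' x' := by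
  have n1 := e1 ▸ hM
  have n2 := e2 ▸ hM
  have hg1 := left_ne_zero_of_mul n1
  have hg2 := left_ne_zero_of_mul n2
  have hc := left_ne_zero_of_mul (right_ne_zero_of_mul n1)
  have hh1 := right_ne_zero_of_mul (right_ne_zero_of_mul n1)
  have hh2 := right_ne_zero_of_mul (right_ne_zero_of_mul n2)
  set G : O → ℂ := fun d => (N h2 : ℂ) * sc h2 (fun y' => ∑ r ∈ Rs c, F d r * eQ (r * y') c) x'
    with hG
  have k1 : ∀ d, ∑ x ∈ Rs M, sc2 g1 g2 F d x * eQ (d * d' + x * x') M =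
      sc g1 G d * eQ (d * d') M := by
    intro d
    by_cases h : g1 ∣ d
    · obtain ⟨d, rfl⟩ := h
      simp only [sc2, sc_mul hg1, hB.b1.eQ_add, hG]
      rw [← ft1 hB hg2 hc hh2 (hx d) x', ← e2, sum_mul]
      exact sum_congr rfl fun x _ => by ring
    · simp [sc2_d h, sc_not h]
  have hGp : Pe c G := fun a m => by
    simp only [hG]
    congr 2
    funext y'
    exact sum_congr rfl fun r _ => congrArg (· * _) (hd r a m)
  unfold FT2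
  simp only [k1]
  rw [e1, ft1 hB hg1 hc hh1 hGp d', mul_assoc, sc2, ← sc_smul h1 _ (N h2 : ℂ)]
  congr 2
  funext d1
  by_cases h : h2 ∣ x'
  · obtain ⟨x', rfl⟩ := h
    simp only [hG, sc_mul hh2, hB.b1.eQ_add, mul_sum, sum_mul]
    exact sum_congr rfl fun r _ => sum_congr rfl fun s _ => by ring
  · simp [hG, sc_not h]

lemma sc2_27 {h1 h2 : O} (hh1 : h1 ≠ 0) (hc : IsCoprime h1 3) {F G : O → O → ℂ} {a : ℂ}
    (h : ∀ d x, G d x = a * F (27 * d) x) (d x : O) :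
    sc2 h1 h2 G d x = a * sc2 h1 h2 F (27 * d) x := by
  by_cases hd : h1 ∣ d
  · obtain ⟨d, rfl⟩ := hd
    rw [mul_left_comm 27 h1 d, sc2, sc2, sc_mul hh1, sc_mul hh1, ← sc_smul]
    congr 1
    funext y
    exact h d y
  · rw [sc2_d hd, sc2_d, mul_zero]
    intro h'
    have h27 : IsCoprime h1 27 := by
      have := hc.pow_right (n := 3)
      rwa [show (3 : O) ^ 3 = 27 by norm_num] at this
    exact hd (h27.dvd_of_dvd_mul_left h')

/-- the Fourier transform of a rescaled self-dual function -/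
lemma ft_sd (hB : Bas) {p : O} (hp : Prim p) {k m a1 a2 b1 b2 : ℕ} (e1 : k = a1 + (m + b1))
    (e2 : k = a2 + (m + b2)) {F : O → O → ℂ} (hd : ∀ x, Pe (p ^ m) fun d => F d x)
    (hx : ∀ d, Pe (p ^ m) (F d))
    (hF : ∀ d x, FT2 (p ^ m) F d x = (N p : ℂ) ^ m * F (27 * d) x) (d' x' : O) :
    FT2 (p ^ k) (sc2 (p ^ a1) (p ^ a2) F) d' x' =
      (N p : ℂ) ^ (b1 + b2 + m) * sc2 (p ^ b1) (p ^ b2) F (27 * d') x' := by
  have hp0 := hB.b2.ne p hp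
  rw [ft2 hB (c := p ^ m) (h1 := p ^ b1) (h2 := p ^ b2) (pow_ne_zero k hp0)
    (by rw [e1, pow_add, pow_add]) (by rw [e2, pow_add, pow_add]) hd hx,
    sc2_27 (pow_ne_zero _ hp0) (hB.b2.cop p hp).pow_left hF, hB.b1.N_pow, hB.b1.N_pow]
  push_cast
  ring

lemma ex_inv {p d : O} (hp : Prime p) (hd : ¬p ∣ d) (m : ℕ) : ∃ e, p ^ m ∣ d * e - 1 := by
  obtain ⟨a, b, h⟩ := ((hp.irreducible.coprime_iff_not_dvd.2 hd).pow_left (m := m))
  exact ⟨b, -a, by linear_combination h⟩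

lemma EE_eq (h1 : B1) {p d x e : O} (i m : ℕ) (hx : ¬p ∣ x) (he : p ^ m ∣ d * e - 1) :
    EE p i m d x = cub d p ^ i * eQ (x ^ 3 * e) (p ^ m) := by
  have h : ¬p ∣ x ∧ ∃ e, p ^ m ∣ d * e - 1 := ⟨hx, e, he⟩
  rw [EE, dif_pos h]
  congr 1
  apply eQ_cong h1
  have h2 := h.2.choose_spec
  generalize h.2.choose = e' at h2
  have : x ^ 3 * e' - x ^ 3 * e = x ^ 3 * e * (d * e' - 1) - x ^ 3 * e' * (d * e - 1) := by ring
  rw [this]
  exact dvd_sub (h2.mul_left _) (he.mul_left _)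

lemma EE_x {p x : O} (i m : ℕ) (d : O) (hx : p ∣ x) : EE p i m d x = 0 :=
  dif_neg fun h => h.1 hx

lemma EE_d {p d : O} (hp : Prime p) (i m : ℕ) (x : O) (hd : p ∣ d) : EE p i (m + 1) d x = 0 := by
  refine dif_neg ?_
  rintro ⟨-, e, he⟩
  have h1 : p ∣ d * e - 1 := (dvd_pow_self p m.succ_ne_zero).trans he
  exact hp.not_dvd_one ((dvd_sub_right (hd.mul_right e)).1 h1)

lemma EE_cong (hB : Bas) {p d d' x x' : O} (hp : Prime p) (i m : ℕ) (hd : p ^ (m + 1) ∣ d' - d)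
    (hx : p ^ (m + 1) ∣ x' - x) : EE p i (m + 1) d' x' = EE p i (m + 1) d x := by
  have hp1 : p ∣ p ^ (m + 1) := dvd_pow_self p m.succ_ne_zero
  by_cases h1 : p ∣ x
  · rw [EE_x _ _ _ h1, EE_x _ _ _ ((dvd_sub_left h1).1 (hp1.trans hx))]
  have h1' : ¬p ∣ x' := fun h => h1 ((dvd_sub_right h).1 (hp1.trans hx))
  by_cases h2 : p ∣ d
  · rw [EE_d hp _ _ _ h2, EE_d hp _ _ _ ((dvd_sub_left h2).1 (hp1.trans hd))]
  obtain ⟨e, he⟩ := ex_inv hp h2 (m + 1)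
  have he' : p ^ (m + 1) ∣ d' * e - 1 := by
    have : d' * e - 1 = (d' - d) * e + (d * e - 1) := by ring
    rw [this]
    exact dvd_add (hd.mul_right e) he
  rw [EE_eq hB.b1 i _ h1 he, EE_eq hB.b1 i _ h1' he',
    hB.b4.pe_congr p _ d' d (hB.b6.pe p) (hp1.trans hd)]
  congr 1
  apply eQ_cong hB.b1
  rw [← sub_mul]
  exact (hx.trans (sub_dvd_pow_sub_pow x' x 3)).mul_right e

variable (hB : Bas) (hb : BB) (hP : PH) {p : O} (hp : Prime p) (hq : Prim p)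
include hB hb hP hp hq

lemma phi0 (k : ℕ) {d e : O} (x : O) (he : p ^ k ∣ d * e - 1) :
    Phi (p ^ k) d x = cub d p ^ k * eQ (x ^ 3 * e) (p ^ k) := by
  rw [hP.eq (p ^ k) d x 1 (p ^ k) d e (x ^ 3) (hB.b2.pow p k hq)
    ⟨hB.b2.one, by ring, by ring, he, by ring⟩, hb.one, one_mul, hB.b6.pow_r _ _ _ hp.ne_zero]

lemma phi1 (k : ℕ) {d e : O} (x : O) (he : p ^ k ∣ d * e - 1) :
    Phi (p ^ (k + 1)) (p * d) (p * x) = gs p * (cub d p ^ k * eQ (p * x ^ 3 * e) (p ^ k)) := by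
  have h1 : bb p = gs p := by simpa using hb.pp1 p 0 hp hq
  rw [hP.eq (p ^ (k + 1)) (p * d) (p * x) p (p ^ k) d e (p * x ^ 3) (hB.b2.pow p _ hq)
    ⟨hq, by ring, rfl, he, by ring⟩, h1, hB.b6.pow_r _ _ _ hp.ne_zero, mul_assoc]

omit hb in
lemma phi1z (k : ℕ) {d e x : O} (he : p ^ k ∣ d * e - 1) (hx : ¬p ∣ x) :
    Phi (p ^ (k + 1)) (p * d) x = 0 := by
  obtain ⟨t, ht⟩ := he
  refine hP.zero _ _ x p (p ^ k) d hq (by ring) rfl ⟨-t, e, by linear_combination ht⟩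
    (hB.b2.pow p _ hq) fun h => hx (hp.dvd_of_dvd_pow ((dvd_pow_self p two_ne_zero).trans h))

lemma phi2 (k : ℕ) {d e : O} (x : O) (he : p ^ k ∣ d * e - 1) :
    Phi (p ^ (k + 2)) (p ^ 2 * d) x = 0 := by
  by_cases h : (p ^ 2) ^ 2 ∣ x ^ 3
  · obtain ⟨y, hy⟩ := h
    have h1 : bb (p ^ 2) = 0 := by simpa using hb.pp2 p 0 hp hq
    rw [hP.eq (p ^ (k + 2)) (p ^ 2 * d) x (p ^ 2) (p ^ k) d e y (hB.b2.pow p _ hq)
      ⟨hB.b2.pow p _ hq, by ring, rfl, he, hy⟩, h1, zero_mul, zero_mul]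
  · obtain ⟨t, ht⟩ := he
    exact hP.zero _ _ x (p ^ 2) (p ^ k) d (hB.b2.pow p _ hq) (by ring) rfl
      ⟨-t, e, by linear_combination ht⟩ (hB.b2.pow p _ hq) h

lemma phi3 (k : ℕ) (d x : O) :
    Phi (p ^ (k + 3)) (p ^ 3 * d) x = (N p : ℂ) ^ 2 * sc (p ^ 2) (Phi (p ^ k) d) x := by
  obtain ⟨g, c1, d1, hg, -, e1, e2, hco⟩ := hB.b2.gcd (p ^ k) d (hB.b2.pow p k hq)
  have hg' : Prim (g * p ^ 3) := hB.b2.mul _ _ hg (hB.b2.pow p 3 hq)
  have e1' : p ^ (k + 3) = g * p ^ 3 * c1 := by rw [pow_add, e1]; ring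
  have e2' : p ^ 3 * d = g * p ^ 3 * d1 := by rw [e2]; ring
  have hk3 := hB.b2.pow p (k + 3) hq
  by_cases hx : p ^ 2 ∣ x
  · obtain ⟨x, rfl⟩ := hx
    rw [sc_mul (pow_ne_zero 2 hp.ne_zero)]
    by_cases h : g ^ 2 ∣ x ^ 3
    · obtain ⟨y, hy⟩ := h
      obtain ⟨t, e, ht⟩ := hco
      have he : c1 ∣ d1 * e - 1 := ⟨-t, by linear_combination ht⟩
      rw [hP.eq _ _ _ (g * p ^ 3) c1 d1 e y hk3
          ⟨hg', e1', e2', he, by linear_combination p ^ 6 * hy⟩,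
        hP.eq _ d x g c1 d1 e y (hB.b2.pow p k hq) ⟨hg, e1, e2, he, hy⟩, hb.cube g p hg hq]
      ring
    · rw [hP.zero _ d x g c1 d1 hg e1 e2 hco (hB.b2.pow p k hq) h, mul_zero]
      refine hP.zero _ _ _ (g * p ^ 3) c1 d1 hg' e1' e2' hco hk3 fun h' => h ?_
      have h6 : (p ^ 6 : O) ≠ 0 := pow_ne_zero 6 hp.ne_zero
      rw [← mul_dvd_mul_iff_left h6]
      convert h' using 1 <;> ring
  · rw [sc_not hx, mul_zero]
    refine hP.zero _ _ _ (g * p ^ 3) c1 d1 hg' e1' e2' hco hk3 fun h' => hx ?_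
    rw [← UniqueFactorizationMonoid.pow_dvd_pow_iff_dvd (n := 3) three_ne_zero]
    exact (Dvd.intro (g ^ 2) (by ring)).trans h'

/-- pointwise decomposition -/
lemma dec (n : ℕ) (d x : O) :
    Phi (p ^ (n + 4)) d x = EE p (n + 4) (n + 4) d x +
      gs p * sc2 (p ^ 1) (p ^ 1) (EE p (n + 3) (n + 2)) d x +
      (N p : ℂ) ^ 2 * sc2 (p ^ 3) (p ^ 2) (Phi (p ^ (n + 1))) d x +
      if p ^ 2 ∣ d then 0 else sc2 (p ^ 0) (p ^ 1) (Phi (p ^ (n + 1))) d x := by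
  have hp0 := hp.ne_zero
  have cop : ∀ z, ¬p ∣ z → cub z p ^ 3 = 1 := fun z hz =>
    hB.b6.cube z p (hp.irreducible.coprime_iff_not_dvd.2 hz).symm
  have hU : ∀ d x, sc2 (p ^ 0) (p ^ 1) (Phi (p ^ (n + 1))) d x = sc p (Phi (p ^ (n + 1)) d) x :=
    fun d x => by rw [pow_zero, pow_one, sc2, sc_one]
  rw [hU, pow_one]
  by_cases h1 : p ∣ d
  swap
  · have h2 : ¬p ^ 2 ∣ d := fun h => h1 ((dvd_pow_self p two_ne_zero).trans h)
    have h3 : ¬p ^ 3 ∣ d := fun h => h1 ((dvd_pow_self p three_ne_zero).trans h)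
    obtain ⟨e, he⟩ := ex_inv hp h1 (n + 4)
    rw [sc2_d h1, sc2_d h3, if_neg h2, phi0 hB hb hP hp hq _ x he]
    by_cases hx : p ∣ x
    · obtain ⟨x, rfl⟩ := hx
      rw [EE_x _ _ _ (dvd_mul_right _ _), sc_mul hp0,
        phi0 hB hb hP hp hq _ x ((pow_dvd_pow p (by omega)).trans he),
        ← hB.b1.eQ_mul (p ^ 3) (x ^ 3 * e) _ (pow_ne_zero 3 hp0),
        show p ^ 3 * (x ^ 3 * e) = (p * x) ^ 3 * e by ring,
        show p ^ 3 * p ^ (n + 1) = p ^ (n + 4) by ring]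
      linear_combination cub d p ^ (n + 1) * eQ ((p * x) ^ 3 * e) (p ^ (n + 4)) * cop d h1
    · rw [EE_eq hB.b1 _ _ hx he, sc_not hx]
      ring
  rw [EE_d hp _ _ _ h1]
  obtain ⟨d, rfl⟩ := h1
  by_cases h1 : p ∣ d
  swap
  · have h2 : ¬p ^ 2 ∣ p * d := fun h => h1 (by rwa [sq, mul_dvd_mul_iff_left hp0] at h)
    have h3 : ¬p ^ 3 ∣ p * d := fun h => h2 ((pow_dvd_pow p (by omega)).trans h)
    obtain ⟨e, he⟩ := ex_inv hp h1 (n + 3)
    have he' : p ^ n ∣ d * e - 1 := (pow_dvd_pow p (by omega)).trans he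
    rw [sc2_d h3, if_neg h2]
    by_cases hx : p ∣ x
    · obtain ⟨x, rfl⟩ := hx
      rw [sc2_mul hp0 hp0, sc_mul hp0, phi1 hB hb hP hp hq (n + 3) x he]
      by_cases hx : p ∣ x
      · obtain ⟨x, rfl⟩ := hx
        rw [EE_x _ _ _ (dvd_mul_right _ _), phi1 hB hb hP hp hq n x he',
          ← hB.b1.eQ_mul (p ^ 3) (p * x ^ 3 * e) _ (pow_ne_zero 3 hp0),
          show p ^ 3 * (p * x ^ 3 * e) = p * (p * x) ^ 3 * e by ring,
          show p ^ 3 * p ^ n = p ^ (n + 3) by ring]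
        linear_combination
          gs p * cub d p ^ n * eQ (p * (p * x) ^ 3 * e) (p ^ (n + 3)) * cop d h1
      · rw [EE_eq hB.b1 _ _ hx ((pow_dvd_pow p (by omega)).trans he), phi1z hB hP hp hq n he' hx,
          ← hB.b1.eQ_mul p (x ^ 3 * e) _ hp0, show p * p ^ (n + 2) = p ^ (n + 3) by ring,
          mul_assoc p]
        ring
    · rw [sc2_x hx, sc_not hx, phi1z hB hP hp hq (n + 3) he hx]
      ring
  obtain ⟨d, rfl⟩ := h1
  have h4 : sc2 p p (EE p (n + 3) (n + 2)) (p * (p * d)) x = 0 := by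
    by_cases hx : p ∣ x
    · obtain ⟨x, rfl⟩ := hx
      rw [sc2_mul hp0 hp0, EE_d hp _ _ _ (dvd_mul_right _ _)]
    · exact sc2_x hx _ _ _
  rw [h4, ← mul_assoc, ← sq, if_pos (dvd_mul_right _ _)]
  by_cases h1 : p ∣ d
  · obtain ⟨d, rfl⟩ := h1
    rw [← mul_assoc, ← pow_succ, phi3 hB hb hP hp hq (n + 1), sc2, sc_mul (pow_ne_zero _ hp0)]
    ring
  · obtain ⟨e, he⟩ := ex_inv hp h1 (n + 2)
    rw [phi2 hB hb hP hp hq (n + 2) x he, sc2_d]
    · ring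
    · intro h
      rw [pow_succ, mul_dvd_mul_iff_left (pow_ne_zero _ hp0)] at h
      exact h1 h

omit hb hP hp hq in
lemma FT2_comb (c : O) (F1 F2 F3 F4 F5 : O → O → ℂ) (a2 a3 a5 : ℂ) (d' x' : O) :
    FT2 c (fun d x => F1 d x + a2 * F2 d x + a3 * F3 d x + F4 d x - a5 * F5 d x) d' x' =
      FT2 c F1 d' x' + a2 * FT2 c F2 d' x' + a3 * FT2 c F3 d' x' + FT2 c F4 d' x' -
        a5 * FT2 c F5 d' x' := by
  simp only [FT2, mul_sum, ← sum_add_distrib, ← sum_sub_distrib]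
  exact sum_congr rfl fun _ _ => sum_congr rfl fun _ _ => by ring

/-- self-duality at level `n + 4` from level `n + 1` and a self-dual correction -/
lemma step (hE : SEStmt) (n : ℕ) (h1 : SDat (p ^ (n + 1))) (C : O → O → ℂ) (a : ℂ)
    (hC : ∀ d x, (if p ^ 2 ∣ d then sc p (Phi (p ^ (n + 1)) d) x else 0) = a * C d x)
    (hCF : ∀ d x, FT2 (p ^ (n + 4)) C d x = (N p : ℂ) ^ (n + 4) * C (27 * d) x) :
    SDat (p ^ (n + 4)) := by
  have hdec : Phi (p ^ (n + 4)) = fun d x => EE p (n + 4) (n + 4) d x +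
      gs p * sc2 (p ^ 1) (p ^ 1) (EE p (n + 3) (n + 2)) d x +
      (N p : ℂ) ^ 2 * sc2 (p ^ 3) (p ^ 2) (Phi (p ^ (n + 1))) d x +
      sc2 (p ^ 0) (p ^ 1) (Phi (p ^ (n + 1))) d x - a * C d x := by
    funext d x
    rw [dec hB hb hP hp hq, ← hC, pow_zero, pow_one, sc2, sc2, sc2, sc_one]
    split_ifs <;> ring
  have hq1 := hB.b2.pow p (n + 1) hq
  have h1' : ∀ d x, FT2 (p ^ (n + 1)) (Phi (p ^ (n + 1))) d x =
      (N p : ℂ) ^ (n + 1) * Phi (p ^ (n + 1)) (27 * d) x := fun d x => by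
    rw [h1 d x, hB.b1.N_pow, ofReal_pow]
  intro d' x'
  rw [hdec, FT2_comb hB, hE p _ _ hp hq (by omega), hCF,
    ft_sd hB hq (m := n + 2) (b1 := 1) (b2 := 1) (by omega) (by omega)
      (fun x a m => EE_cong hB hp _ _ (by simp) (by simp))
      (fun d a m => EE_cong hB hp _ _ (by simp) (by simp)) (hE p _ _ hp hq (by omega)),
    ft_sd hB hq (m := n + 1) (b1 := 0) (b2 := 1) (by omega) (by omega)
      (fun x => hP.pe_d _ x hq1) (fun d => hP.pe_x _ d hq1) h1',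
    ft_sd hB hq (m := n + 1) (b1 := 3) (b2 := 2) (by omega) (by omega)
      (fun x => hP.pe_d _ x hq1) (fun d => hP.pe_x _ d hq1) h1', hB.b1.N_pow, ofReal_pow]
  ring

end SDg

end Vale.Agent.P026
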