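import Vale.Agent.P026.M.SOFT2

/-! P026 module SOFT1: Fourier transforms of slices of a Schwartz function. -/

noncomputable section
open Complex MeasureTheory Filter Topology
open scoped Classical ComplexConjugate ContDiff

namespace Vale.Agent.P026

namespace SOFT1M

def Lb : ℂ × ℂ →L[ℝ] ℂ × ℂ →L[ℝ] ℝ :=
  (2 / Real.sqrt 3 : ℝ) • (ContinuousLinearMap.compL ℝ (ℂ × ℂ) ℂ ℝ Complex.imCLM).comp
    ((ContinuousLinearMap.mul ℝ ℂ).bilinearComp (ContinuousLinearMap.fst ℝ ℂ ℂ)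
      (ContinuousLinearMap.fst ℝ ℂ ℂ) +
    (ContinuousLinearMap.mul ℝ ℂ).bilinearComp (ContinuousLinearMap.snd ℝ ℂ ℂ)
      (ContinuousLinearMap.snd ℝ ℂ ℂ))

lemma Lb_apply (p w : ℂ × ℂ) : Lb p w = 2 / Real.sqrt 3 * (p.1 * w.1 + p.2 * w.2).im := by
  simp [Lb]
  ring

lemma F2_eq (f : ℂ × ℂ → ℂ) (w : ℂ × ℂ) : F2 f w.1 w.2 =
    VectorFourier.fourierIntegral Real.fourierChar volume Lb.toLinearMap₁₂ f w := by
  rw [F2, VectorFourier.fourierIntegral]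
  refine integral_congr_ae (.of_forall fun p => ?_)
  have e : Lb.toLinearMap₁₂ p w = Lb p w := rfl
  simp only [Circle.smul_def, Real.fourierChar_apply, smul_eq_mul, psi, e, Lb_apply, neg_im]
  rw [mul_comm]
  congr 2
  push_cast
  ring

lemma haar : (volume : Measure (ℂ × ℂ)).IsAddHaarMeasure := Measure.prod.instIsAddHaarMeasure _ _

lemma integ5 : Integrable fun p : ℂ × ℂ => (1 + ‖p‖) ^ (-5 : ℝ) := by
  have := haar
  exact integrable_one_add_norm (by simp; norm_num)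

def I5 : ℝ := ∫ p : ℂ × ℂ, (1 + ‖p‖) ^ (-5 : ℝ)

lemma I5_nonneg : 0 ≤ I5 := integral_nonneg fun p => by positivity

lemma pow_bound {f : ℂ × ℂ → ℂ} (hf : ContDiff ℝ ∞ f) {M : ℝ} (hM : 0 ≤ M)
    (h : ∀ n ≤ 14, ∀ p, ‖iteratedFDeriv ℝ n f p‖ ≤ M * (1 + ‖p‖) ^ (-5 : ℝ)) (w : ℂ × ℂ)
    {n : ℕ} (hn : n ≤ 14) : ‖w‖ ^ n * ‖F2 f w.1 w.2‖ ≤ 2 ^ n * (n + 1) * (M * I5) := by
  have hI := I5_nonneg
  have := haar
  have ig : ∀ j ≤ 14, Integrable fun v : ℂ × ℂ => ‖iteratedFDeriv ℝ j f v‖ := fun j hj =>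
    (integ5.const_mul M).mono'
      (hf.continuous_iteratedFDeriv (mod_cast le_top)).norm.aestronglyMeasurable
      (.of_forall fun p => by rw [norm_norm]; exact h j hj p)
  have key := VectorFourier.pow_mul_norm_iteratedFDeriv_fourierIntegral_le Lb (μ := volume)
    (K := 0) (N := 14) (hf.of_le (mod_cast le_top)) (fun k j hk hj => by
      obtain rfl : k = 0 := by simpa using hk
      simpa using ig j (by exact_mod_cast hj)) (k := 0) (n := n) le_rfl (by exact_mod_cast hn)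
    (I * conj w.1, I * conj w.2) w
  rw [norm_iteratedFDeriv_zero, ← F2_eq] at key
  have s : ∑ p ∈ Finset.range (0 + 1) ×ˢ Finset.range (n + 1),
      ∫ v : ℂ × ℂ, ‖v‖ ^ p.1 * ‖iteratedFDeriv ℝ p.2 f v‖ ≤ (n + 1) * (M * I5) := by
    refine (Finset.sum_le_card_nsmul _ _ (M * I5) fun p hp => ?_).trans (by simp)
    have hp' := Finset.mem_product.1 hp
    have e0 : p.1 = 0 := by simpa using hp'.1
    have e1 : p.2 ≤ 14 := by have := Finset.mem_range.1 hp'.2; omega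
    rw [e0, I5, ← integral_const_mul]
    simp only [pow_zero, one_mul]
    exact integral_mono (ig _ e1) (integ5.const_mul M) (h _ e1)
  have nv : ‖((I * conj w.1, I * conj w.2) : ℂ × ℂ)‖ = ‖w‖ := by simp [Prod.norm_def]
  have lv : ‖w‖ ^ 2 ≤ |Lb (I * conj w.1, I * conj w.2) w| := by
    refine le_trans ?_ (le_abs_self _)
    have e : (I * conj w.1 * w.1 + I * conj w.2 * w.2).im = ‖w.1‖ ^ 2 + ‖w.2‖ ^ 2 := by
      rw [Complex.sq_norm, Complex.sq_norm, normSq_apply, normSq_apply]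
      simp
      ring
    have a3 : ‖w‖ ^ 2 ≤ ‖w.1‖ ^ 2 + ‖w.2‖ ^ 2 := by
      rw [Prod.norm_def]
      rcases le_total ‖w.1‖ ‖w.2‖ with c | c
      · rw [max_eq_right c]; exact le_add_of_nonneg_left (by positivity)
      · rw [max_eq_left c]; exact le_add_of_nonneg_right (by positivity)
    have a4 : 1 ≤ 2 / Real.sqrt 3 := by
      rw [le_div_iff₀ (Real.sqrt_pos.2 (by norm_num)), one_mul]
      exact Real.sqrt_le_iff.2 ⟨by norm_num, by norm_num⟩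
    rw [Lb_apply, e]
    nlinarith [sq_nonneg ‖w‖]
  rw [nv] at key
  simp only [pow_zero, mul_one, Nat.cast_zero, mul_zero, zero_add] at key
  have k2 : ‖w‖ ^ n * (‖w‖ ^ n * ‖F2 f w.1 w.2‖) ≤ ‖w‖ ^ n * (2 ^ n * (n + 1) * (M * I5)) := by
    calc _ = (‖w‖ ^ 2) ^ n * ‖F2 f w.1 w.2‖ := by ring
      _ ≤ _ := mul_le_mul_of_nonneg_right (pow_le_pow_left₀ (by positivity) lv n) (norm_nonneg _)
      _ ≤ _ := key
      _ ≤ ‖w‖ ^ n * 2 ^ n * ((n + 1) * (M * I5)) := mul_le_mul_of_nonneg_left s (by positivity)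
      _ = _ := by ring
  rcases (show 0 ≤ ‖w‖ ^ n by positivity).eq_or_lt with c | c
  · rw [← c, zero_mul]; positivity
  · exact le_of_mul_le_mul_left k2 c

lemma core {f : ℂ × ℂ → ℂ} (hf : ContDiff ℝ ∞ f) {M : ℝ} (hM : 0 ≤ M)
    (h : ∀ n ≤ 14, ∀ p, ‖iteratedFDeriv ℝ n f p‖ ≤ M * (1 + ‖p‖) ^ (-5 : ℝ)) (ξ η : ℂ) :
    ‖F2 f ξ η‖ ≤ 2 ^ 33 * I5 * M * (1 + ‖ξ‖) ^ (-6 : ℝ) * (1 + ‖η‖) ^ (-8 : ℝ) := by
  have hI := I5_nonneg
  have a0 := pow_bound hf hM h (ξ, η) (n := 0) (by norm_num)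
  have a1 := pow_bound hf hM h (ξ, η) (n := 14) le_rfl
  have b1 : ‖ξ‖ ≤ ‖(ξ, η)‖ := norm_fst_le (ξ, η)
  have b2 : ‖η‖ ≤ ‖(ξ, η)‖ := norm_snd_le (ξ, η)
  generalize ‖(ξ, η)‖ = m at *
  have hm : 0 ≤ m := (norm_nonneg _).trans b1
  have b3 : (1 + ‖ξ‖) ^ 6 * (1 + ‖η‖) ^ 8 ≤ 2 ^ 13 * (1 + m ^ 14) := by
    calc _ ≤ (1 + m) ^ 6 * (1 + m) ^ 8 := by gcongr
      _ = (1 + m) ^ 14 := by ring
      _ ≤ _ := by simpa using add_pow_le zero_le_one hm 14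
  have e6 : (1 + ‖ξ‖) ^ (-6 : ℝ) = ((1 + ‖ξ‖) ^ 6)⁻¹ := by
    rw [Real.rpow_neg (by positivity)]; norm_cast
  have e8 : (1 + ‖η‖) ^ (-8 : ℝ) = ((1 + ‖η‖) ^ 8)⁻¹ := by
    rw [Real.rpow_neg (by positivity)]; norm_cast
  rw [e6, e8, mul_assoc, ← mul_inv, ← div_eq_mul_inv, le_div_iff₀ (by positivity)]
  have := mul_le_mul_of_nonneg_left b3 (norm_nonneg (F2 f ξ η))
  have hMI := mul_nonneg hM hI
  norm_num at a0 a1 this ⊢
  nlinarith

def Jm : ℂ × ℂ →L[ℝ] ℝ × ℂ × ℂ × ℂ :=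
  (ContinuousLinearMap.inr ℝ ℝ _).comp (ContinuousLinearMap.inr ℝ ℂ _)

lemma Jm_apply (p : ℂ × ℂ) : Jm p = (0, 0, p) := rfl

lemma Jm_norm : ‖Jm‖ ≤ 1 :=
  ContinuousLinearMap.opNorm_le_bound _ zero_le_one fun p => by simp [Jm_apply, Prod.norm_def]

lemma hbound (H : SchwartzMap (ℝ × ℂ × ℂ × ℂ) ℂ) : ∃ S : ℝ, 0 ≤ S ∧ ∀ n ≤ 15, ∀ q : ℝ × ℂ × ℂ × ℂ,
    ‖iteratedFDeriv ℝ n H q‖ ≤ S * (1 + ‖q.2.2‖) ^ (-5 : ℝ) := by
  obtain ⟨S, hS⟩ : ∃ S : ℝ, ∀ n ≤ 15, ∀ q, (1 + ‖q‖) ^ 5 * ‖iteratedFDeriv ℝ n H q‖ ≤ S :=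
    ⟨_, fun n hn q => SchwartzMap.one_add_le_sup_seminorm_apply (𝕜 := ℝ) (m := (5, 15)) (k := 5)
      le_rfl hn H q⟩
  refine ⟨S, le_trans (by positivity) (hS 0 (by norm_num) 0), fun n hn q => ?_⟩
  have e : (1 + ‖q.2.2‖) ^ (-5 : ℝ) = ((1 + ‖q.2.2‖) ^ 5)⁻¹ := by
    rw [Real.rpow_neg (by positivity)]; norm_cast
  have b : ‖q.2.2‖ ≤ ‖q‖ := (norm_snd_le q.2).trans (norm_snd_le q)
  rw [e, ← div_eq_mul_inv, le_div_iff₀ (by positivity), mul_comm]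
  exact le_trans (by gcongr) (hS n hn q)

end SOFT1M

open SOFT1M in
theorem soft1S (hB : Bas) : SOFT1Stmt := by
  intro H
  obtain ⟨S, hS, hb⟩ := hbound H
  have cp := hB.b1.cont_psi
  have cH := H.continuous
  have b0 : ∀ (s : ℝ) (C : ℂ) (p : ℂ × ℂ) (z : ℂ),
      ‖H (s, C, p) * psi z‖ ≤ S * (1 + ‖p‖) ^ (-5 : ℝ) := fun s C p z => by
    rw [norm_mul, hB.b1.norm_psi, mul_one]
    simpa using hb 0 (by norm_num) (s, C, p)
  have ms : ∀ (s : ℝ) (C ξ η : ℂ), Continuous fun p : ℂ × ℂ =>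
      H (s, C, p) * psi (-(p.1 * ξ + p.2 * η)) := fun s C ξ η => by fun_prop
  have ig : ∀ (s : ℝ) (C ξ η : ℂ), Integrable fun p : ℂ × ℂ =>
      H (s, C, p) * psi (-(p.1 * ξ + p.2 * η)) := fun s C ξ η =>
    (integ5.const_mul S).mono' (ms s C ξ η).aestronglyMeasurable (.of_forall fun p => b0 _ _ _ _)
  have sm : ∀ a : ℝ × ℂ × ℂ × ℂ, ContDiff ℝ ∞ fun q => H (a + q) := fun a =>
    (H.smooth ⊤).comp (contDiff_const.add contDiff_id)
  have ea : ∀ (s : ℝ) (C : ℂ) (p : ℂ × ℂ), (s, C, (0 : ℂ × ℂ)) + Jm p = (s, C, p) := fun s C p => by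
    simp [Jm_apply]
  refine ⟨continuous_of_dominated (fun q => (ms _ _ _ _).aestronglyMeasurable)
    (fun q => .of_forall fun p => b0 _ _ _ _) (integ5.const_mul S)
    (.of_forall fun p => by fun_prop), 2 ^ 33 * I5 * S, fun s C ξ η => ⟨?_, ?_⟩⟩
  · have := core (f := fun p => H ((s, C, 0) + Jm p)) ((sm _).comp Jm.contDiff) hS (fun n hn p => by
      refine (SOFT2M.comp_le (sm (s, C, 0)) Jm Jm_norm n p).trans ?_
      rw [iteratedFDeriv_comp_add_left, ea]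
      exact hb n (by omega) _) ξ η
    simpa only [ea] using this
  · have := core (f := fun p => H ((s, C, 0) + Jm p) - H ((0, C, 0) + Jm p))
      (((sm _).sub (sm _)).comp Jm.contDiff) (M := S * |s|) (by positivity) (fun n hn p => by
      refine (SOFT2M.comp_le ((sm (s, C, 0)).sub (sm (0, C, 0))) Jm Jm_norm n p).trans ?_
      rw [fun_iteratedFDeriv_sub_apply ((sm _).of_le (mod_cast le_top)).contDiffAt
        ((sm _).of_le (mod_cast le_top)).contDiffAt, iteratedFDeriv_comp_add_left,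
        iteratedFDeriv_comp_add_left, ea, ea]
      have cv : Convex ℝ {q : ℝ × ℂ × ℂ × ℂ | q.2.2 = p} :=
        (convex_singleton p).linear_preimage
          ((LinearMap.snd ℝ ℂ (ℂ × ℂ)).comp (LinearMap.snd ℝ ℝ (ℂ × ℂ × ℂ)))
      have := cv.norm_image_sub_le_of_norm_fderiv_le (𝕜 := ℝ) (f := iteratedFDeriv ℝ n H)
        (C := S * (1 + ‖p‖) ^ (-5 : ℝ))
        (fun q _ => (H.smooth ⊤).differentiable_iteratedFDeriv (m := n)
          (mod_cast ENat.natCast_lt_top n) q)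
        (fun q hq => by
          rw [norm_fderiv_iteratedFDeriv, ← show q.2.2 = p from hq]
          exact hb _ (by omega) q) (x := (0, C, p)) (y := (s, C, p)) rfl rfl
      refine this.trans (le_of_eq ?_)
      simp [Prod.norm_def]
      ring) ξ η
    simp only [ea] at this
    rw [F2, F2, ← integral_sub (ig _ _ _ _) (ig _ _ _ _)]
    simp only [← sub_mul]
    refine le_trans this (le_of_eq ?_)
    ring

end Vale.Agent.P026
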